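import Vale.Agent.P361.Bdl.B7
import Vale.Agent.P361.Bdl.B1
import Vale.Agent.P361.Bdl.B5
import Vale.Agent.P361.Bdl.B13
import Vale.Agent.P361.Bdl.B2
import Vale.Agent.P361.Model
import Vale.Agent.P361.Bdl.B10
import Vale.Agent.P361.Bdl.B12
import Vale.Agent.P361.Bdl.B9
import Vale.Agent.P361.Bdl.B4

set_option linter.all false

section

/-!
P361 LRO, all spins `S = s / 2` (route M): vertex set `Tor n × Fin s`, inter-site edges between all
copies, intra-site edges repeated `M` times; everything is uniform in `M`, and `M → ∞` at the end.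
-/

namespace Vale.Agent.P361.LRO.GenS

open Finset Matrix Filter Topology

noncomputable section

/-- All edges between copies of neighbouring sites. -/
def interE (n s : ℕ) [NeZero n] : List ((Tor n × Fin s) × (Tor n × Fin s)) :=
  (edges n).flatMap fun e => (List.finRange s).flatMap fun i => (List.finRange s).map fun j =>
    ((e.1, i), (e.2, j))

/-- All edges between two copies at the same site. -/
def intraE (n s : ℕ) [NeZero n] : List ((Tor n × Fin s) × (Tor n × Fin s)) :=
  ((univ : Finset (Tor n × Fin s × Fin s)).filter fun z => z.2.1 < z.2.2).toList.map fun z =>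
    ((z.1, z.2.1), (z.1, z.2.2))

/-- The edges of the model with `M`-fold coupling inside the sites. -/
def edgesS (n s M : ℕ) [NeZero n] : List ((Tor n × Fin s) × (Tor n × Fin s)) :=
  interE n s ++ (List.replicate M (intraE n s)).flatten

/-- A profile on the sites as a profile on the copies. -/
def hS {n s : ℕ} (h : Tor n → ℝ) : Tor n × Fin s → ℝ := fun z => h z.1

/-- All copies of the sites of a cube. -/
def cubeS (n s : ℕ) (x : Tor n) (w : ℕ) : Finset (Tor n × Fin s) := cube n x w ×ˢ univ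

/-- Bootstrap hypothesis. -/
def BHS (n s M : ℕ) [NeZero n] (β lam η h0 : ℝ) : Prop :=
  ∀ h : Tor n → ℝ, Fam n h0 lam h → ∀ z, rho (edgesS n s M) β (hS h) z ≤ η

/-- (M2) stiffness of the blocks. -/
def KappaStmtS (s : ℕ) : Prop :=
  ∃ c3 : ℝ, 0 < c3 ∧ ∀ A : ℝ, 0 < A → ∃ β0 : ℝ, ∀ β : ℝ, β0 ≤ β → ∃ n0 : ℕ, ∀ (n : ℕ) [NeZero n],
    n0 ≤ n → Odd n → ∀ M : ℕ, ∀ (a : ℕ), β ^ (7 / 20 : ℝ) ≤ (3 : ℝ) ^ a →
    (3 : ℝ) ^ a ≤ 3 * β ^ (7 / 20 : ℝ) →
    ∀ h0 : ℝ, (n : ℝ) ^ (-(1 / 4) : ℝ) ≤ h0 → h0 ≤ 1 →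
    BHS n s M β (β ^ (-(9 / 10) : ℝ)) (β ^ (-(1 / 100) : ℝ)) h0 →
    ∀ h : Tor n → ℝ, Fam n h0 (β ^ (-(9 / 10) : ℝ)) h → ∀ x : Tor n,
      ∃ᶠ N : ℕ in atTop, c3 * (A * β ^ (1 / 100 : ℝ)) ≤
        kap (edgesS n s M) β N (hS h) (A * β ^ (1 / 100 : ℝ)) (cubeS n s x (3 ^ a))

/-- (M3) energy. -/
def EnergyStmtS (s : ℕ) : Prop :=
  ∃ C : ℝ, ∀ (n : ℕ) [NeZero n] (M : ℕ) (β : ℝ) (h : Tor n → ℝ) (x : Tor n) (w m : ℕ), 0 < β →
    (∀ x, 0 < h x) → 1 ≤ w → 1 ≤ m → 3 * (w * m) ≤ n →
    (∑ y : Fin 3 → Fin m, Db (edgesS n s M) β (hS h)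
        (cubeS n s (x + fun i => ((w * (y i : ℕ) : ℕ) : ZMod n)) w)) / (m : ℝ) ^ 3 ≤
      C * (w : ℝ) ^ 2 * (1 / β + 1 / ((w : ℝ) * m))

/-- (M5) start. -/
def StartStmtS (s : ℕ) : Prop :=
  ∃ C : ℝ, ∀ (n : ℕ) [NeZero n] (M : ℕ) (β : ℝ) (z : Tor n × Fin s), 0 < β →
    rho (edgesS n s M) β (hS fun _ => 1) z ≤ C / β

/-- (M5) translations (and permutations of the copies at a site). -/
def TransStmtS (s : ℕ) : Prop :=
  ∀ (n : ℕ) [NeZero n] (M : ℕ) (β : ℝ) (h : Tor n → ℝ) (x a : Tor n) (i j : Fin s),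
    rho (edgesS n s M) β (hS fun y => h (y + a)) (x, i) = rho (edgesS n s M) β (hS h) (x + a, j)

/-- (M5) output of the bootstrap. -/
def BootStmtS (s : ℕ) : Prop :=
  ∃ β0 : ℝ, ∀ β : ℝ, β0 ≤ β → ∃ n0 : ℕ, ∀ (n : ℕ) [NeZero n], n0 ≤ n → Odd n → ∀ M : ℕ,
    ∀ h : ℝ, (n : ℝ) ^ (-(1 / 4) : ℝ) ≤ h → h ≤ 1 →
      ∀ z : Tor n × Fin s, rho (edgesS n s M) β (hS fun _ => h) z ≤ β ^ (-(1 / 100) : ℝ)

end

end Vale.Agent.P361.LRO.GenS
end

section

/-!
P361, STAGE 3 for all spins `S = s / 2` (Bloch's law with the constant), route M: the graph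
`edgesS n s M` on `Tor n × Fin s`, `M → ∞` at fixed `n`.  Exact outputs of the blocks.
Fields are `h = g / (s β)`, `g ∈ Fam n g0 (β ^ (-9/2))`.
`DirStmt3` and `DirSharpStmt3` of `S3/Iface.lean` are used verbatim (any graph).
-/

namespace Vale.Agent.P361.LRO.S3S

open Finset Matrix Filter Topology Vale.Agent.P361.LRO.GenS Vale.Agent.P361.LRO.S3

noncomputable section

/-- Bloch's constant for spin `s / 2`. -/
def BCS (s : ℕ) : ℝ :=
  (riemannZeta (3 / 2)).re / (8 * Real.pi ^ (3 / 2 : ℝ) * ((s : ℝ) / 2) ^ (3 / 2 : ℝ))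

/-- Bootstrap hypothesis on the capped family. -/
def BH3S (n s M : ℕ) [NeZero n] (β η g0 : ℝ) : Prop :=
  ∀ g : Tor n → ℝ, Fam n g0 (β ^ (-(9 / 2) : ℝ)) g →
    ∀ z, rho (edgesS n s M) β (hS fun y => g y / (s * β)) z ≤ η

/-- (K) network block. -/
def KappaStmt3S (s : ℕ) : Prop :=
  ∃ c2 c3 : ℝ, 0 < c2 ∧ 0 < c3 ∧ ∀ C7 Lam : ℝ, 0 < C7 → 0 < Lam → ∃ β0 : ℝ, ∀ β : ℝ, β0 ≤ β →
    ∃ n0 : ℕ, ∀ (n : ℕ) [NeZero n], n0 ≤ n → Odd n → ∀ M : ℕ, ∀ a : ℕ,
    Real.sqrt β ≤ (3 : ℝ) ^ a → (3 : ℝ) ^ a ≤ β ^ (3 / 4 : ℝ) →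
    ∀ K : ℝ, 1 ≤ K → K ≤ Lam * β ^ (3 / 2 : ℝ) → K ≤ c2 * β * 3 ^ a →
    ∀ g0 : ℝ, (n : ℝ) ^ (-(1 / 4) : ℝ) ≤ g0 → g0 ≤ 1 → BH3S n s M β (C7 * β ^ (-(3 / 2) : ℝ)) g0 →
    ∀ g : Tor n → ℝ, Fam n g0 (β ^ (-(9 / 2) : ℝ)) g → ∀ x : Tor n,
      ∃ᶠ N : ℕ in atTop,
        c3 * K ≤ kap (edgesS n s M) β N (hS fun y => g y / (s * β)) K (cubeS n s x (3 ^ a))

/-- (E) crude energy for all profiles. -/
def EnergyStmt3S (s : ℕ) : Prop :=
  ∃ C β0 : ℝ, ∀ β : ℝ, β0 ≤ β → ∃ n0 : ℕ, ∀ (n : ℕ) [NeZero n], n0 ≤ n →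
    ∃ M0 : ℕ, ∀ M : ℕ, M0 ≤ M → ∀ g : Tor n → ℝ,
    (∀ x, 0 < g x ∧ g x ≤ 1) → ∀ (x : Tor n) (w m : ℕ), 1 ≤ w → (w : ℝ) ≤ 3 * Real.sqrt β →
    β ^ (3 : ℝ) ≤ w * m → (w : ℝ) * m ≤ 2 * β ^ (3 : ℝ) →
    (∑ y : Fin 3 → Fin m, yb (edgesS n s M) β (hS fun z => g z / (s * β))
      (cubeS n s (x + fun i => ((w * (y i : ℕ) : ℕ) : ZMod n)) w)) / (m : ℝ) ^ 3 ≤
      C * β ^ (-(3 / 2) : ℝ)

/-- (B0) start of the bootstrap: the uniform field `1/(sβ)`. -/
def StartStmt3S (s : ℕ) : Prop :=
  ∃ C β0 : ℝ, ∀ β : ℝ, β0 ≤ β → ∃ n0 : ℕ, ∀ (n : ℕ) [NeZero n], n0 ≤ n → Odd n →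
    ∃ M0 : ℕ, ∀ M : ℕ, M0 ≤ M → ∀ z : Tor n × Fin s,
      rho (edgesS n s M) β (hS fun _ => 1 / (s * β)) z ≤ C * β ^ (-(3 / 2) : ℝ)

/-- (B) output of the bootstrap: Bloch's order for all profiles. -/
def BootStmt3S (s : ℕ) : Prop :=
  ∃ C7 β0 : ℝ, 0 < C7 ∧ ∀ β : ℝ, β0 ≤ β → ∃ n0 : ℕ, ∀ (n : ℕ) [NeZero n], n0 ≤ n → Odd n →
    ∃ M0 : ℕ, ∀ M : ℕ, M0 ≤ M → ∀ g0 : ℝ, (n : ℝ) ^ (-(1 / 4) : ℝ) ≤ g0 → g0 ≤ 1 →
      BH3S n s M β (C7 * β ^ (-(3 / 2) : ℝ)) g0

/-- (M) sharp mean of `N_b` (`|b| = s w^3`), uniform small field. -/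
def MeanStmt3S (s : ℕ) : Prop :=
  ∃ d : ℝ, 0 < d ∧ d ≤ 1 / 100 ∧ ∀ δ : ℝ, 0 < δ → ∃ β0 : ℝ, ∀ β : ℝ, β0 ≤ β → ∀ a : ℕ,
    β ^ (1 / 2 + d) ≤ (3 : ℝ) ^ a → (3 : ℝ) ^ a ≤ 3 * β ^ (1 / 2 + d) →
    ∀ h : ℝ, 0 < h → h ≤ β ^ (-(10 : ℝ)) → ∃ n0 : ℕ, ∀ (n : ℕ) [NeZero n], n0 ≤ n → Odd n →
    ∃ M0 : ℕ, ∀ M : ℕ, M0 ≤ M → ∀ x : Tor n,
      yb (edgesS n s M) β (hS fun _ => h) (cubeS n s x (3 ^ a)) ≤
        (1 + δ) * (BCS s / s) * β ^ (-(3 / 2) : ℝ)

/-- (T) lower tail of `N_b`. -/
def TailStmt3S (s : ℕ) : Prop :=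
  ∀ d : ℝ, 0 < d → d ≤ 1 / 100 → ∀ δ : ℝ, 0 < δ → ∃ β0 : ℝ, ∀ β : ℝ, β0 ≤ β → ∀ a : ℕ,
    β ^ (1 / 2 + d) ≤ (3 : ℝ) ^ a → (3 : ℝ) ^ a ≤ 3 * β ^ (1 / 2 + d) →
    ∀ h : ℝ, 0 < h → h ≤ β ^ (-(10 : ℝ)) → ∃ n0 : ℕ, ∀ (n : ℕ) [NeZero n], n0 ≤ n → Odd n →
    ∀ (x : Tor n) (P : Polynomial ℝ),
      (∀ r : ℕ, 2 * r ≤ (cubeS n s x (3 ^ a)).card →
        P.eval ((r : ℝ) * (((cubeS n s x (3 ^ a)).card : ℝ) - r + 1)) ≤
          if (r : ℝ) < (1 - δ) * (BCS s / s) * β ^ (-(3 / 2) : ℝ) * (cubeS n s x (3 ^ a)).card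
          then 1 else 0) →
      ∃ M0 : ℕ, ∀ M : ℕ, M0 ≤ M →
        gib (edgesS n s M) β (hS fun _ => h) (Polynomial.aeval (CM (cubeS n s x (3 ^ a))) P) ≤ δ

/-- (F) output for the torus: `s ρ = S - m` per site. -/
def FinalStmt3S (s : ℕ) : Prop :=
  ∀ ε : ℝ, 0 < ε → ∃ β0 : ℝ, ∀ β : ℝ, β0 ≤ β → ∀ h : ℝ, 0 < h → h ≤ β ^ (-(10 : ℝ)) →
    ∃ n0 : ℕ, ∀ (n : ℕ) [NeZero n], n0 ≤ n → Odd n → ∃ M0 : ℕ, ∀ M : ℕ, M0 ≤ M →
      ∀ z : Tor n × Fin s,
        s * rho (edgesS n s M) β (hS fun _ => h) z ≤ (1 + ε) * BCS s * β ^ (-(3 / 2) : ℝ)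

end

end Vale.Agent.P361.LRO.S3S
end

section

/-!
P361 LRO, all spins: merging nodes of a network.
-/

namespace Vale.Agent.P361.LRO.GenS

open Finset _root_.P361.LRO Vale.Agent.P361.LRO

set_option linter.unusedSectionVars false

variable {X X' : Type} [Fintype X] [DecidableEq X] [Fintype X'] [DecidableEq X']

/-- Merge the nodes with the same image. -/
noncomputable def mgC (f : X → X') (c : X → X → ℝ) (u v : X') : ℝ :=
  if u = v then 0 else ∑ x, ∑ y, if f x = u ∧ f y = v then c x y else 0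

theorem netK_mgC (f : X → X') (c : X → X → ℝ) (a : X' → ℝ) :
    netK (mgC f c) a = netK c (fun x => a (f x)) := by
  unfold netK mgC
  congr 1
  have h1 : ∀ u v : X', (if u = v then (0 : ℝ) else
      ∑ x, ∑ y, if f x = u ∧ f y = v then c x y else 0) * (a u - a v) ^ 2 =
      ∑ x, ∑ y, if f x = u ∧ f y = v then c x y * (a (f x) - a (f y)) ^ 2 else 0 := by
    intro u v
    by_cases huv : u = v
    · subst huv
      rw [if_pos rfl, zero_mul]
      symm
      refine Finset.sum_eq_zero fun x _ => Finset.sum_eq_zero fun y _ => ?_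
      split_ifs with h
      · rw [h.1, h.2, sub_self]; ring
      · rfl
    · rw [if_neg huv, Finset.sum_mul]
      refine Finset.sum_congr rfl fun x _ => ?_
      rw [Finset.sum_mul]
      refine Finset.sum_congr rfl fun y _ => ?_
      split_ifs with h
      · rw [h.1, h.2]
      · rw [zero_mul]
  simp only [h1]
  have h2 : ∀ u : X', ∑ v : X', ∑ x, ∑ y,
      (if f x = u ∧ f y = v then c x y * (a (f x) - a (f y)) ^ 2 else 0) =
      ∑ x, if f x = u then ∑ y, c x y * (a (f x) - a (f y)) ^ 2 else 0 := by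
    intro u
    rw [Finset.sum_comm]
    refine Finset.sum_congr rfl fun x _ => ?_
    rw [Finset.sum_comm]
    by_cases hx : f x = u
    · simp [hx]
    · simp [hx]
  simp only [h2]
  rw [Finset.sum_comm]
  refine Finset.sum_congr rfl fun x _ => ?_
  simp

theorem mgC_symm {f : X → X'} {c : X → X → ℝ} (hc : ∀ x y, c x y = c y x) (u v : X') :
    mgC f c u v = mgC f c v u := by
  unfold mgC
  by_cases h : u = v
  · subst h; rfl
  · rw [if_neg h, if_neg (Ne.symm h), Finset.sum_comm]
    refine Finset.sum_congr rfl fun x _ => Finset.sum_congr rfl fun y _ => ?_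
    rw [hc x y]
    simp only [and_comm]

theorem mgC_nonneg {f : X → X'} {c : X → X → ℝ} (hc : ∀ x y, 0 ≤ c x y) (u v : X') :
    0 ≤ mgC f c u v := by
  unfold mgC
  split_ifs
  · exact le_rfl
  · refine Finset.sum_nonneg fun x _ => Finset.sum_nonneg fun y _ => ?_
    split_ifs
    · exact hc x y
    · exact le_rfl

/-- Single pairs. -/
theorem le_mgC {f : X → X'} {c : X → X → ℝ} (hc : ∀ x y, 0 ≤ c x y) {x y : X}
    (h : f x ≠ f y) : c x y ≤ mgC f c (f x) (f y) := by
  unfold mgC
  rw [if_neg h]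
  have h1 : ∀ x' ∈ (univ : Finset X), 0 ≤ ∑ y', if f x' = f x ∧ f y' = f y then c x' y' else 0 := by
    intro x' _
    refine Finset.sum_nonneg fun y' _ => ?_
    split_ifs
    · exact hc _ _
    · exact le_rfl
  refine le_trans ?_ (Finset.single_le_sum h1 (Finset.mem_univ x))
  have h2 : ∀ y' ∈ (univ : Finset X), 0 ≤ if f x = f x ∧ f y' = f y then c x y' else 0 := by
    intro y' _
    split_ifs
    · exact hc _ _
    · exact le_rfl
  refine le_trans ?_ (Finset.single_le_sum h2 (Finset.mem_univ y))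
  simp

/-- Sums over a fibre. -/
theorem sum_le_mgC {f : X → X'} {c : X → X → ℝ} (hc : ∀ x y, 0 ≤ c x y) {u : X'} {y : X}
    (h : u ≠ f y) : ∑ x, (if f x = u then c x y else 0) ≤ mgC f c u (f y) := by
  unfold mgC
  rw [if_neg h]
  refine Finset.sum_le_sum fun x _ => ?_
  by_cases hx : f x = u
  · simp only [hx, if_true, true_and]
    have h2 : ∀ y' ∈ (univ : Finset X), 0 ≤ if f y' = f y then c x y' else 0 := by
      intro y' _
      split_ifs
      · exact hc _ _
      · exact le_rfl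
    refine le_trans ?_ (Finset.single_le_sum h2 (Finset.mem_univ y))
    simp
  · simp [hx]

/-- Total conductance at a node with a one-point fibre. -/
theorem sum_mgC_le {f : X → X'} {c : X → X → ℝ} (hc : ∀ x y, 0 ≤ c x y) {x : X}
    (h : ∀ y, f y = f x → y = x) : ∑ v, mgC f c (f x) v ≤ ∑ y, c x y := by
  have h1 : ∀ v, mgC f c (f x) v ≤ ∑ y, if f y = v then c x y else 0 := by
    intro v
    unfold mgC
    split_ifs with hv
    · refine Finset.sum_nonneg fun y _ => ?_
      split_ifs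
      · exact hc _ _
      · exact le_rfl
    · rw [Finset.sum_eq_single x]
      · simp
      · intro y _ hy
        refine Finset.sum_eq_zero fun z _ => ?_
        rw [if_neg]
        rintro ⟨h1, _⟩
        exact hy (h y h1)
      · intro hx
        exact absurd (Finset.mem_univ x) hx
  refine (Finset.sum_le_sum fun v _ => h1 v).trans ?_
  rw [Finset.sum_comm]
  refine Finset.sum_le_sum fun y _ => ?_
  simp

/-- Potentials may be changed at nodes without conductances. -/
theorem netK_congr_zero {c : X → X → ℝ} (hs : ∀ x y, c x y = c y x) {a a' : X → ℝ}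
    (h : ∀ x, a x = a' x ∨ ∀ y, c x y = 0) : netK c a = netK c a' := by
  unfold netK
  congr 1
  refine Finset.sum_congr rfl fun x _ => Finset.sum_congr rfl fun y _ => ?_
  rcases h x with hx | hx
  · rcases h y with hy | hy
    · rw [hx, hy]
    · rw [hs x y, hy x]; ring
  · rw [hx y]; ring

theorem netK_const_mul (t : ℝ) (c : X → X → ℝ) (a : X → ℝ) :
    netK (fun x y => t * c x y) a = t * netK c a := by
  unfold netK
  simp only [mul_assoc, ← Finset.mul_sum]
  ring

end Vale.Agent.P361.LRO.GenS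
end

section

/-!
P361 LRO, block (6), energy form of the local input: used for all spins.  The copies of a layer are
slots of the layer, and the same-site conductances are not needed.
-/

namespace Vale.Agent.P361.LRO.Ind

open Finset Vale.Agent.P361.LRO _root_.P361.LRO

noncomputable section

/-- Local information on the network, energy form (the conclusions of `E4_le`, `dev_le`,
`contact_le`). -/
structure LocalE (n N W m : ℕ) [NeZero n] (β K c1 : ℝ) (b : Finset (Tor n)) (h : Tor n → ℝ)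
    (c : Nd n N → Nd n N → ℝ) : Prop where
  symm : ∀ u v, c u v = c v u
  nonneg : ∀ u v, 0 ≤ c u v
  tot : ∀ (k : Fin (N + 1)) (x : Tor n), k ≠ 0 → ∑ v, c (k, x) v ≤ β * h x / (2 * N)
  e4 : ∀ (o : Tor n) (S : ℕ), 2 ≤ S → S < n → (∀ x ∈ cube n o S, h x = 1) → ∀ a : Nd n N → ℝ,
    c1 * (β / m) ^ 2 * E4 S m (UU n N W o a) ≤ 100 * netK c a
  dev : ∀ (o : Tor n) (S : ℕ), 2 ≤ S → S < n → (∀ x ∈ cube n o S, h x = 1) → ∀ a : Nd n N → ℝ,
    c1 * (β / m) * (β / N) * (∑ x ∈ range S, ∑ y ∈ range S, ∑ z ∈ range S, ∑ w ∈ range m,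
      ∑ j ∈ range W, (a (lay N W w j, pt n o x y z) - UU n N W o a x y z w) ^ 2) ≤ netK c a
  contact : b.Nonempty → (∀ x ∈ b, h x = 1) → ∀ a : Nd n N → ℝ, (∀ x ∈ b, a (0, x) = 1) →
    c1 * K * (β / N) * (1 / b.card) * (∑ x ∈ b, ∑ j ∈ range W, (1 - a (lay N W 0 j, x)) ^ 2)
      ≤ netK c a

/-- Local information without same-site conductances. -/
structure LocalN (n N W : ℕ) [NeZero n] (β K c1 : ℝ) (b : Finset (Tor n)) (h : Tor n → ℝ)
    (c : Nd n N → Nd n N → ℝ) : Prop where
  symm : ∀ u v, c u v = c v u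
  nonneg : ∀ u v, 0 ≤ c u v
  tot : ∀ (k : Fin (N + 1)) (x : Tor n), k ≠ 0 → ∑ v, c (k, x) v ≤ β * h x / (2 * N)
  nbr : ∀ (k l : Fin (N + 1)) (x : Tor n) (i : Fin 3), k ≠ 0 → l ≠ 0 →
    ((k : ℕ) + W ≤ l ∨ (l : ℕ) + W ≤ k) → (l : ℕ) ≤ k + 3 * W → (k : ℕ) ≤ l + 3 * W →
    h x = 1 → h (x + Pi.single i 1) = 1 →
    c1 * (β / N) ^ 2 ≤ c (k, x) (l, x + Pi.single i 1)
  contact : ∀ (k : Fin (N + 1)) (x : Tor n), k ≠ 0 → (k : ℕ) ≤ W → x ∈ b → h x = 1 →
    c1 * (K / b.card) * (β / N) ≤ c (0, x) (k, x)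

end

end Vale.Agent.P361.LRO.Ind
end

section

/-!
P361 LRO, all spins: the copies of a layer as slots of the layer.
-/

namespace Vale.Agent.P361.LRO.GenS

open Finset _root_.P361.LRO Vale.Agent.P361.LRO

noncomputable section

theorem slot_lt {s N : ℕ} {k : Fin (N + 1)} (hk : k ≠ 0) (i : Fin s) :
    1 + ((k : ℕ) - 1) * s + i < N * s + 1 := by
  have h1 : 1 ≤ (k : ℕ) := Nat.one_le_iff_ne_zero.2 fun h => hk (Fin.ext h)
  have h2 : (k : ℕ) ≤ N := Nat.lt_succ_iff.1 k.2
  have h3 : ((k : ℕ) - 1) * s + s = k * s := by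
    rw [← Nat.succ_mul]; congr 1; omega
  have h4 : (k : ℕ) * s ≤ N * s := Nat.mul_le_mul_right s h2
  have h5 := i.2
  omega

/-- Layer of the copy `i` of the layer `k`. -/
def slotL (s N : ℕ) (k : Fin (N + 1)) (i : Fin s) : Fin (N * s + 1) :=
  if hk : k = 0 then 0 else ⟨1 + ((k : ℕ) - 1) * s + i, slot_lt hk i⟩

/-- The copies of a physical layer become slots; the copies of the extra slice are merged. -/
def slotF (n s N : ℕ) (z : Fin (N + 1) × (Tor n × Fin s)) : Ind.Nd n (N * s) :=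
  (slotL s N z.1 z.2.2, z.2.1)

/-- The slots network. -/
def cslot (n s M : ℕ) [NeZero n] (β : ℝ) (N : ℕ) (K : ℝ) (b : Finset (Tor n)) (h : Tor n → ℝ)
    (u v : Ind.Nd n (N * s)) : ℝ :=
  (1 / (s : ℝ)) * mgC (slotF n s N)
    (Net.c0 (phys (edgesS n s M) β N) (th β N (hS h) (blk K (b ×ˢ univ)))) u v

theorem slotL_zero {s N : ℕ} (i : Fin s) : slotL s N 0 i = 0 := by
  unfold slotL; rw [dif_pos rfl]

theorem slotL_val {s N : ℕ} {k : Fin (N + 1)} (hk : k ≠ 0) (i : Fin s) :
    (slotL s N k i : ℕ) = 1 + ((k : ℕ) - 1) * s + i := by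
  unfold slotL; rw [dif_neg hk]

theorem slotL_ne {s N : ℕ} {k : Fin (N + 1)} (hk : k ≠ 0) (i : Fin s) : slotL s N k i ≠ 0 := by
  intro h
  have h1 := slotL_val hk i
  rw [h, Fin.val_zero] at h1
  omega

/-- Every physical layer of the slots network is a slot. -/
theorem exists_slot {s N : ℕ} (hs : 0 < s) {l : Fin (N * s + 1)} (hl : l ≠ 0) :
    ∃ (k : Fin (N + 1)) (i : Fin s), k ≠ 0 ∧ slotL s N k i = l := by
  have h1 : 1 ≤ (l : ℕ) := Nat.one_le_iff_ne_zero.2 fun h => hl (Fin.ext h)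
  have h2 : (l : ℕ) ≤ N * s := Nat.lt_succ_iff.1 l.2
  have h3 : ((l : ℕ) - 1) / s < N := by
    rw [Nat.div_lt_iff_lt_mul hs]; omega
  have hk : (⟨((l : ℕ) - 1) / s + 1, by omega⟩ : Fin (N + 1)) ≠ 0 := by
    intro h
    have := congrArg Fin.val h
    simp at this
  refine ⟨⟨((l : ℕ) - 1) / s + 1, by omega⟩, ⟨((l : ℕ) - 1) % s, Nat.mod_lt _ hs⟩, hk, ?_⟩
  apply Fin.ext
  rw [slotL_val hk]
  show 1 + (((l : ℕ) - 1) / s + 1 - 1) * s + ((l : ℕ) - 1) % s = l
  rw [Nat.add_sub_cancel]
  have h4 := Nat.div_add_mod' ((l : ℕ) - 1) s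
  omega

theorem slotL_inj {s N : ℕ} {k k' : Fin (N + 1)} {i i' : Fin s} (hk : k ≠ 0) (hk' : k' ≠ 0)
    (h : slotL s N k i = slotL s N k' i') : k = k' ∧ i = i' := by
  have h1 := congrArg Fin.val h
  rw [slotL_val hk, slotL_val hk'] at h1
  have hs : 0 < s := Nat.lt_of_le_of_lt (Nat.zero_le _) i.2
  have e1 : (k : ℕ) - 1 = (k' : ℕ) - 1 := by
    have h2 : (((k : ℕ) - 1) * s + i) / s = (((k' : ℕ) - 1) * s + i') / s := by
      congr 1; omega
    rw [Nat.add_comm, Nat.add_mul_div_right _ _ hs, Nat.div_eq_of_lt i.2, Nat.add_comm _ (i' : ℕ),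
      Nat.add_mul_div_right _ _ hs, Nat.div_eq_of_lt i'.2] at h2
    omega
  have h1k : 1 ≤ (k : ℕ) := Nat.one_le_iff_ne_zero.2 fun h => hk (Fin.ext h)
  have h1k' : 1 ≤ (k' : ℕ) := Nat.one_le_iff_ne_zero.2 fun h => hk' (Fin.ext h)
  rw [e1] at h1
  exact ⟨Fin.ext (by omega), Fin.ext (by omega)⟩

/-- Physical nodes have one-point fibres. -/
theorem slotF_inj {n s N : ℕ} {x y : Fin (N + 1) × (Tor n × Fin s)} (hx : x.1 ≠ 0)
    (h : slotF n s N y = slotF n s N x) : y = x := by
  obtain ⟨k, x, i⟩ := x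
  obtain ⟨l, y, j⟩ := y
  simp only [slotF, Prod.mk.injEq] at h
  have hl : l ≠ 0 := by
    intro hl
    rw [hl, slotL_zero] at h
    exact slotL_ne hx i h.1.symm
  obtain ⟨h1, h2⟩ := slotL_inj hl hx h.1
  rw [h1, h2, h.2]

end

end Vale.Agent.P361.LRO.GenS
end

section

/-!
# P361 LRO, all spins: block (6), definitions of the coarse step (helper494)

Nodes `(k, (x, i))`, `i : Fin s` the copy.  Only neighbour conductances are used.
-/

namespace Vale.Agent.P361.LRO.GenS

open Finset Vale.Agent.P361.LRO _root_.P361.LRO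

noncomputable section

/-- Space-time nodes with copies. -/
abbrev NdS (n s N : ℕ) : Type := Fin (N + 1) × (Tor n × Fin s)

/-- Local information on the network `c` in the field `h` (output of block (4), all spins). -/
structure LocalS (n s N W : ℕ) [NeZero n] (β K c1 : ℝ) (b : Finset (Tor n)) (h : Tor n → ℝ)
    (c : NdS n s N → NdS n s N → ℝ) : Prop where
  symm : ∀ u v, c u v = c v u
  nonneg : ∀ u v, 0 ≤ c u v
  tot : ∀ (k : Fin (N + 1)) (x : Tor n) (i : Fin s), k ≠ 0 →
    ∑ v, c (k, (x, i)) v ≤ β * h x / (2 * N)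
  nbr : ∀ (k l : Fin (N + 1)) (x : Tor n) (e : Fin 3) (i j : Fin s), k ≠ 0 → l ≠ 0 →
    ((k : ℕ) + W ≤ l ∨ (l : ℕ) + W ≤ k) → (l : ℕ) ≤ k + 12 * W → (k : ℕ) ≤ l + 12 * W →
    h x = 1 → h (x + Pi.single e 1) = 1 →
    c1 * (β / N) ^ 2 ≤ c (k, (x, i)) (l, (x + Pi.single e 1, j))
  contact : ∀ (k : Fin (N + 1)) (x : Tor n) (j : Fin s), k ≠ 0 → (k : ℕ) ≤ W → x ∈ b → h x = 1 →
    c1 * (K / b.card) * (β / N) ≤ ∑ i, c (0, (x, i)) (k, (x, j))

/-- Window parameters: `m` windows of length `β / m`. -/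
structure WinS (β : ℝ) (m : ℕ) : Prop where
  pos : 0 < m
  lo : 1 / 16 ≤ β / m
  hi : β / m ≤ 1 / 12

/-- Average of `a` over the window `w` and all copies at the site `o + (x, y, z)`. -/
def UUS (n s N W : ℕ) (o : Tor n) (a : NdS n s N → ℝ) (x y z w : ℕ) : ℝ :=
  (1 / ((W : ℝ) * s)) * ∑ j ∈ range W, ∑ i : Fin s, a (Ind.lay N W w j, (Ind.pt n o x y z, i))

/-- The deviation from the averages over `[0, S)³`. -/
def devS (n s N W m : ℕ) (o : Tor n) (S : ℕ) (a : NdS n s N → ℝ) : ℝ :=
  ∑ x ∈ range S, ∑ y ∈ range S, ∑ z ∈ range S, ∑ w ∈ range m,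
    ∑ j ∈ range W, ∑ i : Fin s,
      (a (Ind.lay N W w j, (Ind.pt n o x y z, i)) - UUS n s N W o a x y z w) ^ 2

/-- The nodes of the extra slice on the copies of `b`. -/
def hatS (n s N : ℕ) (b : Finset (Tor n)) : Finset (NdS n s N) := {0} ×ˢ (b ×ˢ univ)

/-- Electrode: all copies of the extra slice on `b` and of the physical nodes over a cube. -/
def EES (n s N : ℕ) [NeZero n] (o : Tor n) (b : Finset (Tor n)) (r : ℕ) : Finset (NdS n s N) :=
  hatS n s N b ∪ ((univ.filter fun k => k ≠ 0) ×ˢ (cube n o r ×ˢ univ))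

/-- Ground: all copies of the physical nodes over the cube of side `r` at `o + (4 r, 0, 0)`. -/
def GGS (n s N : ℕ) [NeZero n] (o : Tor n) (r : ℕ) : Finset (NdS n s N) :=
  (univ.filter fun k => k ≠ 0) ×ˢ (cube n (Ind.pt n o (4 * r) 0 0) r ×ˢ univ)

/-- Lowering the field (output of block (3)), all spins. -/
structure LowS (n s N : ℕ) [NeZero n] (β h0 lam ε : ℝ)
    (c : (Tor n → ℝ) → NdS n s N → NdS n s N → ℝ) : Prop where
  prim : ∀ h h' : Tor n → ℝ, Fam n h0 lam h → Fam n h0 lam h' → (∀ x, h' x ≤ h x) →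
    ∀ E G : Finset (NdS n s N), Disjoint E G →
    (∀ z ∈ E ∪ G, z.1 ≠ 0 → h' z.2.1 = h z.2.1) →
    ∀ S : ℝ, 1 ≤ β * S → ∑ x, (if h' x = h x then 0 else h x) ≤ S →
    ∀ A : ℝ, 0 ≤ A → Ind.LBn (c h) E G A →
      Ind.LBn (c h') E G ((β * S) ^ (-(4 * ε)) * A - 2 * s * ε)
  dual : 0 < h0 → h0 ≤ 1 → ∀ h' : Tor n → ℝ, Fam n h0 lam h' →
    ∀ (E : Finset (NdS n s N)) (q : NdS n s N → ℝ),
    (∀ z ∈ E, z.1 ≠ 0 → h' z.2.1 = 1) → (∀ z ∈ E, q z = 0) → (∀ x, q (0, x) = 0) →
    (∀ z, 0 ≤ q z) → ∑ z, q z = 1 →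
    ∀ R : ℝ, 0 ≤ R → Ind.RBn (c fun _ => 1) E q R →
      Ind.RBn (c h') E q (h0 ^ (-(4 * ε)) * (R + 8 * N / (β * h0) * ∑ z, (q z) ^ 2))

end

end Vale.Agent.P361.LRO.GenS
end

section

/-!
P361 LRO, block (6), master file, part 1: the physical conductances satisfy `Ind.Low`.
-/

namespace Vale.Agent.P361.LRO.Net

open Finset Filter Vale.Agent.P361.LRO

noncomputable section

/-- The physical conductances (off-diagonal) of the profile `h`. -/
def cF (n : ℕ) [NeZero n] (β : ℝ) (N : ℕ) (T : Tor n → ℝ) (h : Tor n → ℝ) :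
    Ind.Nd n N → Ind.Nd n N → ℝ :=
  c0 (phys (edges n) β N) (th β N h T)

theorem LBn_cF {n : ℕ} [NeZero n] {β : ℝ} {N : ℕ} {T h : Tor n → ℝ}
    {E G : Finset (Ind.Nd n N)} {A : ℝ} :
    Ind.LBn (cF n β N T h) E G A ↔ LB (phys (edges n) β N) (th β N h T) E G A := by
  unfold Ind.LBn LB cF
  simp only [netK_c0]

theorem RBn_cF {n : ℕ} [NeZero n] {β : ℝ} {N : ℕ} {T h : Tor n → ℝ}
    {E : Finset (Ind.Nd n N)} {q : Ind.Nd n N → ℝ} {R : ℝ} :
    Ind.RBn (cF n β N T h) E q R ↔ RB (phys (edges n) β N) (th β N h T) E q R := by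
  unfold Ind.RBn RB cF
  simp only [netK_c0]

section

variable {V : Type} {β : ℝ} {N : ℕ} {T : V → ℝ}

theorem th_zero (h : V → ℝ) (x : V) : th β N h T (0, x) = T x := by
  unfold th; rw [if_pos rfl]

theorem th_ne (h : V → ℝ) {z : Fin (N + 1) × V} (hz : z.1 ≠ 0) :
    th β N h T z = β * h z.2 / (2 * N) := by
  unfold th; rw [if_neg hz]

theorem th_nonneg (hβ : 0 ≤ β) {h : V → ℝ} (hh : ∀ x, 0 ≤ h x) (hT : ∀ x, 0 ≤ T x)
    (z : Fin (N + 1) × V) : 0 ≤ th β N h T z := by
  unfold th
  split_ifs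
  · exact hT _
  · exact div_nonneg (mul_nonneg hβ (hh _)) (by positivity)

theorem th_le_one (hβ : 0 ≤ β) (hN : β ≤ N) {h : V → ℝ} (hh : ∀ x, h x ≤ 1)
    (hT : ∀ x, T x ≤ 1) (z : Fin (N + 1) × V) : th β N h T z ≤ 1 := by
  unfold th
  split_ifs
  · exact hT _
  · rcases eq_or_lt_of_le hβ with h0 | h0
    · rw [← h0]; simp
    · have hNp : (0 : ℝ) < N := h0.trans_le hN
      rw [div_le_one (by positivity)]
      have := mul_le_mul_of_nonneg_left (hh z.2) hβ
      linarith

theorem th_mono (hβ : 0 ≤ β) {h h' : V → ℝ} (hh : ∀ x, h' x ≤ h x)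
    (z : Fin (N + 1) × V) : th β N h' T z ≤ th β N h T z := by
  unfold th
  split_ifs
  · exact le_rfl
  · exact div_le_div_of_nonneg_right (mul_le_mul_of_nonneg_left (hh _) hβ) (by positivity)

/-- The path of slice parameters is the path of profiles. -/
theorem path_thM (hβ : 0 ≤ β) (hT : ∀ x, 0 ≤ T x) (h h' : V → ℝ) {s : ℝ} (hs : 0 ≤ s) :
    path (th β N h T) (th β N h' T) s =
      th β N (fun x => max (h' x) (Real.exp (-s) * h x)) T := by
  funext z
  unfold path
  by_cases hz : z.1 = 0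
  · unfold th
    have h1 : Real.exp (-s) ≤ 1 := Real.exp_le_one_iff.mpr (by linarith)
    have h2 : Real.exp (-s) * T z.2 ≤ T z.2 := mul_le_of_le_one_left (hT _) h1
    rw [if_pos hz, if_pos hz, if_pos hz]
    exact max_eq_left h2
  · rw [th_ne h hz, th_ne h' hz, th_ne _ hz]
    have hc : 0 ≤ β / (2 * (N : ℝ)) := by positivity
    have e : ∀ y : ℝ, β * y / (2 * (N : ℝ)) = β / (2 * N) * y := fun y => by ring
    rw [e, e, e, mul_max_of_nonneg _ _ hc]
    congr 1
    ring

end

theorem sum_layers {n N : ℕ} [NeZero n] (f : Fin (N + 1) × Tor n → ℝ) (g : Tor n → ℝ)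
    (h0 : ∀ x, f (0, x) = 0) (h1 : ∀ k x, k ≠ 0 → f (k, x) = g x) :
    ∑ z, f z = N * ∑ x, g x := by
  rw [Fintype.sum_prod_type, Fin.sum_univ_succ]
  have e1 : ∑ x, f (0, x) = 0 := Finset.sum_eq_zero fun x _ => h0 x
  have e2 : ∀ i : Fin N, ∑ x, f (i.succ, x) = ∑ x, g x := fun i =>
    Finset.sum_congr rfl fun x _ => h1 _ _ (Fin.succ_ne_zero i)
  rw [e1, zero_add, Finset.sum_congr rfl fun i _ => e2 i, Finset.sum_const, Finset.card_univ,
    Fintype.card_fin, nsmul_eq_mul]

/-- Hypothesis from the blocks (2), (5): magnetizations close to one on the whole family. -/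
def MagHyp (n : ℕ) [NeZero n] (β : ℝ) (N : ℕ) (T : Tor n → ℝ) (h0 lam ε : ℝ) : Prop :=
  ∀ h, Fam n h0 lam h → ∀ z : Fin (N + 1) × Tor n, z.1 ≠ 0 →
    1 - ε ^ 2 ≤ mag (phys (edges n) β N) (th β N h T) z

theorem fam_path {n : ℕ} [NeZero n] {h0 lam : ℝ} {h h' : Tor n → ℝ} (hp : 0 ≤ h0)
    (hh : Fam n h0 lam h) (hh' : Fam n h0 lam h') {s : ℝ} (hs : 0 ≤ s) :
    Fam n h0 lam fun x => max (h' x) (Real.exp (-s) * h x) :=
  hh'.max_smul hh.lip hh.le_one (fun x => hp.trans (hh.ge x)) (Real.exp_pos _).le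
    (Real.exp_le_one_iff.mpr (by linarith))

theorem low_cF {n N : ℕ} [NeZero n] {β h0 lam ε : ℝ} {T : Tor n → ℝ} (hβ : 0 < β) (hN : β ≤ N)
    (hG : Good (phys (edges n) β N)) (hT0 : ∀ x, 0 ≤ T x) (hT1 : ∀ x, T x ≤ 1)
    (hh0 : 0 < h0) (hlam : 0 ≤ lam) (hε : 0 ≤ ε) (hε1 : ε ^ 2 ≤ 1 / 2)
    (hM : MagHyp n β N T h0 lam ε) : Ind.Low n N β h0 lam ε (cF n β N T) where
  prim := by
    intro h h' hh hh' hle E G hEG hEq S hS hSum A hA hLB
    rw [LBn_cF] at hLB ⊢
    have hp : ∀ g, Fam n h0 lam g → ∀ x, 0 ≤ g x := fun g hg x => hh0.le.trans (hg.ge x)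
    have hbS : (0 : ℝ) < β * S := by linarith
    have hEq' : ∀ z ∈ E ∪ G, th β N h' T z = th β N h T z := by
      intro z hz
      by_cases hz0 : z.1 = 0
      · unfold th; rw [if_pos hz0, if_pos hz0]
      · rw [th_ne _ hz0, th_ne _ hz0, hEq z hz hz0]
    have key := LB_lower hG (θ := th β N h T) (θ' := th β N h' T) (E := E) (G := G) (ε := ε)
      (S := Real.log (β * S)) (B := β * S / 2) (C := A) hε
      (th_nonneg hβ.le (hp _ hh') hT0) (th_mono hβ.le hle) (th_le_one hβ.le hN hh.le_one hT1)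
      (fun z hz => hEq' z (Finset.mem_union_left _ hz))
      (fun z hz => hEq' z (Finset.mem_union_right _ hz)) hEG
      (by
        intro z hz
        by_cases hz0 : z.1 = 0
        · unfold th at hz; rw [if_pos hz0, if_pos hz0] at hz; exact absurd hz (lt_irrefl _)
        · rw [th_ne _ hz0]
          have h1 : 0 < h' z.2 := hh0.trans_le (hh'.ge _)
          have h2 : (0 : ℝ) < N := hβ.trans_le hN
          positivity)
      (by
        intro s hs z hz
        by_cases hz0 : z.1 = 0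
        · unfold th at hz; rw [if_pos hz0, if_pos hz0] at hz; exact absurd hz (lt_irrefl _)
        · rw [path_thM hβ.le hT0 h h' hs]
          exact hM _ (fam_path hh0.le hh hh' hs) z hz0)
      (Real.log_nonneg hS)
      (by
        have h2 : (0 : ℝ) < N := hβ.trans_le hN
        have e := sum_layers (n := n) (N := N)
          (fun z => if th β N h' T z < th β N h T z then th β N h T z else 0)
          (fun x => if h' x < h x then β * h x / (2 * N) else 0)
          (by intro x; simp [th_zero])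
          (by
            intro k x hk
            simp only [th_ne (z := (k, x)) _ hk]
            have : β * h' x / (2 * (N : ℝ)) < β * h x / (2 * N) ↔ h' x < h x := by
              rw [div_lt_div_iff_of_pos_right (by positivity), mul_lt_mul_iff_right₀ hβ]
            simp only [this])
        rw [e]
        have e2 : ∀ x, (if h' x < h x then β * h x / (2 * N) else 0)
            = β / (2 * N) * (if h' x = h x then 0 else h x) := by
          intro x
          rcases lt_or_eq_of_le (hle x) with h3 | h3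
          · rw [if_pos h3, if_neg h3.ne]; ring
          · rw [if_neg (by rw [h3]; exact lt_irrefl _), if_pos h3]; ring
        rw [Finset.sum_congr rfl fun x _ => e2 x, ← Finset.mul_sum]
        have e3 : (N : ℝ) * (β / (2 * N) * ∑ x, (if h' x = h x then 0 else h x))
            = β / 2 * ∑ x, (if h' x = h x then 0 else h x) := by
          field_simp
        rw [e3]
        have := mul_le_mul_of_nonneg_left hSum (by positivity : (0 : ℝ) ≤ β / 2)
        linarith)
      hLB
    intro a haE haG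
    refine le_trans ?_ (key a haE haG)
    have e1 : Real.exp (-(4 * ε * Real.log (β * S))) = (β * S) ^ (-(4 * ε)) := by
      rw [Real.rpow_def_of_pos hbS]; congr 1; ring
    have e2 : Real.exp (-Real.log (β * S)) = (β * S)⁻¹ := by
      rw [Real.exp_neg, Real.exp_log hbS]
    rw [e1, e2]
    have e3 : 2 * ε * (β * S / 2) * (β * S)⁻¹ = ε := by
      rw [show 2 * ε * (β * S / 2) * (β * S)⁻¹ = ε * ((β * S) * (β * S)⁻¹) by ring,
        mul_inv_cancel₀ hbS.ne', mul_one]
    rw [e3]
    linarith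
  dual := by
    intro hh1 hh2 h' hh' E q hE hqE hq0 hq hq1 R hR hRB
    rw [RBn_cF] at hRB ⊢
    have hfam1 : Fam n h0 lam fun _ => 1 := fam_const hh2 le_rfl zero_le_one hlam
    have h2 : (0 : ℝ) < N := hβ.trans_le hN
    have hp' : ∀ x, 0 ≤ h' x := fun x => hh0.le.trans (hh'.ge x)
    have hmon := th_mono (N := N) (T := T) hβ.le (h := fun _ => 1) (h' := h') hh'.le_one
    have hS : 0 ≤ Real.log (h0⁻¹) := Real.log_nonneg ((one_le_inv₀ hh0).2 hh2)
    have hexp : Real.exp (Real.log (h0⁻¹)) = h0⁻¹ := Real.exp_log (inv_pos.2 hh0)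
    have key := ode_RB hG (θ0 := th β N h' T) (θ1 := th β N (fun _ => 1) T)
      (th_nonneg hβ.le hp' hT0) hmon (th_le_one hβ.le hN (fun _ => le_rfl) hT1) (E := E)
      (by
        intro z hz
        by_cases hz0 : z.1 = 0
        · unfold th; rw [if_pos hz0, if_pos hz0]
        · rw [th_ne _ hz0, th_ne _ hz0, hE z hz hz0])
      hq1 (τ := 2 * ε) (by positivity)
      (by
        intro s hs z hz
        by_cases hz0 : z.1 = 0
        · unfold th at hz; rw [if_pos hz0, if_pos hz0] at hz; exact absurd hz (lt_irrefl _)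
        · have h3 := hM _ (fam_path hh0.le hfam1 hh' hs) z hz0
          rw [← path_thM hβ.le hT0 (fun _ => 1) h' hs] at h3
          have h4 : (path (th β N (fun _ => 1) T) (th β N h' T) s) =
              fun x => max (th β N h' T x) (Real.exp (-s) * th β N (fun _ => 1) T x) := rfl
          rw [h4] at h3
          exact ⟨sqrt_mag_le hε h3, by linarith⟩)
      hR hRB hS
      (by
        intro z
        rw [hexp]
        by_cases hz0 : z.1 = 0
        · unfold th; rw [if_pos hz0, if_pos hz0]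
          exact le_mul_of_one_le_left (hT0 _) ((one_le_inv₀ hh0).2 hh2)
        · rw [th_ne _ hz0, th_ne _ hz0]
          have h3 : (1 : ℝ) ≤ h0⁻¹ * h' z.2 := by
            rw [← div_eq_inv_mul, le_div_iff₀ hh0]; simpa using hh'.ge z.2
          calc β * 1 / (2 * (N : ℝ)) ≤ β * (h0⁻¹ * h' z.2) / (2 * N) := by gcongr
            _ = h0⁻¹ * (β * h' z.2 / (2 * N)) := by ring)
    intro a ha
    refine (key a ha).trans ?_
    have hK : 0 ≤ KK (phys (edges n) β N) (th β N h' T) a := by
      unfold KK EE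
      refine div_nonneg (Finset.sum_nonneg fun π _ => Finset.sum_nonneg fun s _ => ?_) ?_
      · exact mul_nonneg (mul_nonneg (hG.nn π) (wt_nonneg (th_nonneg hβ.le hp' hT0) π s))
          (sq_nonneg _)
      · exact (ZZ_pos hG.nn hG.pos (th_nonneg hβ.le hp' hT0)).le
    refine mul_le_mul_of_nonneg_right ?_ hK
    rw [hexp]
    have e1 : Real.exp (2 * (2 * ε) * Real.log (h0⁻¹)) = h0 ^ (-(4 * ε)) := by
      rw [Real.rpow_def_of_pos hh0, Real.log_inv]; congr 1; ring
    rw [e1]
    refine mul_le_mul_of_nonneg_left ?_ (Real.rpow_nonneg hh0.le _)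
    have hsum : ∑ z ∈ univ.filter (fun z => th β N h' T z < th β N (fun _ => 1) T z),
        q z ^ 2 / th β N (fun _ => 1) T z ≤ (2 * N / β) * ∑ z, q z ^ 2 := by
      rw [Finset.mul_sum]
      refine le_trans (Finset.sum_le_sum_of_subset_of_nonneg (Finset.filter_subset _ _) ?_)
        (Finset.sum_le_sum fun z _ => ?_)
      · intro z _ _
        exact div_nonneg (sq_nonneg _) (th_nonneg hβ.le (fun _ => zero_le_one) hT0 z)
      · by_cases hz0 : z.1 = 0
        · have : z = (0, z.2) := Prod.ext hz0 rfl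
          rw [this, hq0]; simp
        · rw [th_ne _ hz0]
          apply le_of_eq
          field_simp
    have h5 : 0 ≤ ∑ z ∈ univ.filter (fun z => th β N h' T z < th β N (fun _ => 1) T z),
        q z ^ 2 / th β N (fun _ => 1) T z :=
      Finset.sum_nonneg fun z _ =>
        div_nonneg (sq_nonneg _) (th_nonneg hβ.le (fun _ => zero_le_one) hT0 z)
    have h6 : 4 * (h0⁻¹ - 1) * ∑ z ∈ univ.filter
        (fun z => th β N h' T z < th β N (fun _ => 1) T z), q z ^ 2 / th β N (fun _ => 1) T z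
        ≤ 4 * h0⁻¹ * ((2 * N / β) * ∑ z, q z ^ 2) := by
      have h7 : 0 < h0⁻¹ := inv_pos.2 hh0
      refine le_trans (mul_le_mul_of_nonneg_right (by linarith : 4 * (h0⁻¹ - 1) ≤ 4 * h0⁻¹) h5) ?_
      exact mul_le_mul_of_nonneg_left hsum (by positivity)
    have e4 : 4 * h0⁻¹ * ((2 * N / β) * ∑ z, q z ^ 2) = 8 * N / (β * h0) * ∑ z, q z ^ 2 := by
      field_simp
      ring
    linarith

end

end Vale.Agent.P361.LRO.Net
end

section

/-!
P361, Bloch's law for all spins: long windows with copies, abstract part (one strand through a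
block of gates).
-/

namespace Vale.Agent.P361.LRO.Bloch.H1

open Finset Matrix

set_option linter.unusedSectionVars false

noncomputable section

variable {V : Type} [Fintype V] [DecidableEq V]

/-- the matrix of one gate -/
def gm (p : ℝ) (e : V × V) : MM V := (1 - p) • (1 : MM V) + p • swapM e.1 e.2

/-- the matrix of a block of gates -/
def GM (p : ℝ) (E : List (V × V)) : MM V := wd (E.map fun e => Lt.gate e.1 e.2 p)

theorem GM_nil (p : ℝ) : GM p ([] : List (V × V)) = 1 := by
  unfold GM wd; simp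

theorem GM_cons (p : ℝ) (e : V × V) (E : List (V × V)) : GM p (e :: E) = gm p e * GM p E := by
  unfold GM wd
  simp only [List.map_cons, List.prod_cons]
  rfl

variable {p : ℝ}

theorem gm_nonneg (h0 : 0 ≤ p) (h1 : p ≤ 1) (e : V × V) : Le 0 (gm p e) :=
  gate_nonneg _ _ h0 h1

theorem GM_nonneg (h0 : 0 ≤ p) (h1 : p ≤ 1) (E : List (V × V)) : Le 0 (GM p E) := by
  induction E with
  | nil => rw [GM_nil]; exact one_nonneg
  | cons e E ih => rw [GM_cons]; exact (gm_nonneg h0 h1 e).zero_mul ih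

/-- the strand stays at `y` -/
def St (p : ℝ) (y : V) : List (V × V) → MM V
  | [] => 1
  | e :: E => (if y = e.1 ∨ y = e.2 then (1 - p) • (1 : MM V) else gm p e) * St p y E

/-- errors for the strand which stays at `y` -/
def Er (p : ℝ) (y : V) : List (V × V) → MM V → MM V
  | [], _ => 0
  | e :: E, W => (if y = e.1 ∨ y = e.2 then (p • (W * exM e.1 e.2)) * GM p E else 0) +
      Er p y E (W * gm p e)

/-- the strand moves once, from `y` to `v` -/
def Mv (p : ℝ) (y v : V) : List (V × V) → MM V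
  | [] => 0
  | e :: E => if y = e.1 ∨ y = e.2 then
      (if v = Equiv.swap e.1 e.2 y then p • (swapM e.1 e.2 * St p v E) else 0) +
        (1 - p) • Mv p y v E else gm p e * Mv p y v E

/-- number of gates between `y` and `v` -/
def cE (y v : V) : List (V × V) → ℕ
  | [] => 0
  | e :: E => (if (y = e.1 ∨ y = e.2) ∧ v = Equiv.swap e.1 e.2 y then 1 else 0) + cE y v E

/-- number of gates touching `y` -/
def nE (y : V) : List (V × V) → ℕ
  | [] => 0
  | e :: E => (if y = e.1 ∨ y = e.2 then 1 else 0) + nE y E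

/-- errors for the strand which moves from `y` to `v` -/
def ErM (p : ℝ) (y v : V) : List (V × V) → MM V → MM V
  | [], _ => 0
  | e :: E, W => (if y = e.1 ∨ y = e.2 then
      (if v = Equiv.swap e.1 e.2 y then ((1 - p) • (W * neM e.1 e.2)) * GM p E +
        Er p v E (W * gm p e) else 0) + (cE y v E : ℝ) • ((p • (W * exM e.1 e.2)) * GM p E)
      else 0) + ErM p y v E (W * gm p e)

theorem Le.ofEq {A B : MM V} (h : A = B) : Le A B := fun i j => le_of_eq (by rw [h])

theorem St_nonneg (h0 : 0 ≤ p) (h1 : p ≤ 1) (y : V) (E : List (V × V)) : Le 0 (St p y E) := by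
  induction E with
  | nil => exact one_nonneg
  | cons e E ih =>
    simp only [St]
    refine Le.zero_mul ?_ ih
    split_ifs
    · exact one_nonneg.zero_smul (by linarith)
    · exact gm_nonneg h0 h1 e

theorem Mv_nonneg (h0 : 0 ≤ p) (h1 : p ≤ 1) (y v : V) (E : List (V × V)) : Le 0 (Mv p y v E) := by
  induction E with
  | nil => exact Le.refl 0
  | cons e E ih =>
    simp only [Mv]
    split_ifs
    · exact (((swapM_nonneg _ _).zero_mul (St_nonneg h0 h1 v E)).zero_smul h0).zero_add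
        (ih.zero_smul (by linarith))
    · exact (Le.refl 0).zero_add (ih.zero_smul (by linarith))
    · exact (gm_nonneg h0 h1 e).zero_mul ih

theorem Er_nonneg (h0 : 0 ≤ p) (h1 : p ≤ 1) (y : V) (E : List (V × V)) :
    ∀ {W : MM V}, Le 0 W → Le 0 (Er p y E W) := by
  induction E with
  | nil => intro W _; exact Le.refl 0
  | cons e E ih =>
    intro W hW
    simp only [Er]
    refine Le.zero_add ?_ (ih (hW.zero_mul (gm_nonneg h0 h1 e)))
    split_ifs
    · exact ((hW.zero_mul (exM_nonneg _ _)).zero_smul h0).zero_mul (GM_nonneg h0 h1 E)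
    · exact Le.refl 0

theorem ErM_nonneg (h0 : 0 ≤ p) (h1 : p ≤ 1) (y v : V) (E : List (V × V)) :
    ∀ {W : MM V}, Le 0 W → Le 0 (ErM p y v E W) := by
  induction E with
  | nil => intro W _; exact Le.refl 0
  | cons e E ih =>
    intro W hW
    simp only [ErM]
    refine Le.zero_add ?_ (ih (hW.zero_mul (gm_nonneg h0 h1 e)))
    have h2 : Le 0 ((cE y v E : ℝ) • ((p • (W * exM e.1 e.2)) * GM p E)) :=
      (((hW.zero_mul (exM_nonneg _ _)).zero_smul h0).zero_mul (GM_nonneg h0 h1 E)).zero_smul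
        (Nat.cast_nonneg _)
    split_ifs
    · refine Le.zero_add ?_ h2
      exact (((hW.zero_mul (neM_nonneg _ _)).zero_smul (by linarith)).zero_mul
        (GM_nonneg h0 h1 E)).zero_add (Er_nonneg h0 h1 v E (hW.zero_mul (gm_nonneg h0 h1 e)))
    · exact (Le.refl 0).zero_add h2
    · exact Le.refl 0

/-- stay step -/
theorem stay_step (h0 : 0 ≤ p) (h1 : p ≤ 1) (e : V × V) {Y W R : MM V} (hY : Le 0 Y)
    (hR : Le 0 R) (h : Le (W - R) Y) :
    Le (W * gm p e - (R * gm p e + p • (W * exM e.1 e.2))) Y := by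
  have hp1 : 0 ≤ 1 - p := by linarith
  have e1 : gm p e - p • exM e.1 e.2 = (1 - p) • (1 : MM V) + p • eqM e.1 e.2 := by
    rw [gm, exM, smul_sub]; abel
  have hg0 : Le 0 (gm p e - p • exM e.1 e.2) := by
    rw [e1]
    exact (one_nonneg.zero_smul hp1).zero_add ((eqM_nonneg _ _).zero_smul h0)
  have hg1 : Le (gm p e - p • exM e.1 e.2) 1 := by
    rw [e1]
    have : Le ((1 - p) • (1 : MM V) + p • eqM e.1 e.2) ((1 - p) • (1 : MM V) + p • 1) :=
      (Le.refl _).add ((eqM_le_one _ _).smul h0)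
    rwa [← add_smul, sub_add_cancel, one_smul] at this
  have h2 := hg1.mul_left hY
  rw [Matrix.mul_one] at h2
  have h3 := h.mul_right hg0
  refine Le.trans ?_ (h3.trans h2)
  intro i k
  have h4 : 0 ≤ (R * exM e.1 e.2) i k := (hR.zero_mul (exM_nonneg _ _)) i k
  have e2 : ((W - R) * (gm p e - p • exM e.1 e.2)) i k =
      (W * gm p e) i k - p * (W * exM e.1 e.2) i k - (R * gm p e) i k +
        p * (R * exM e.1 e.2) i k := by
    rw [Matrix.sub_mul, Matrix.mul_sub, Matrix.mul_sub, Matrix.mul_smul, Matrix.mul_smul]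
    simp only [Matrix.sub_apply, Matrix.smul_apply, smul_eq_mul]
    ring
  rw [e2]
  simp only [Matrix.sub_apply, Matrix.add_apply, Matrix.smul_apply, smul_eq_mul]
  nlinarith [mul_nonneg h0 h4]

/-- move step -/
theorem move_step (h0 : 0 ≤ p) (h1 : p ≤ 1) (e : V × V) {Y W R : MM V} (hY : Le 0 Y)
    (hR : Le 0 R) (h : Le (W - R) Y) :
    Le (W * gm p e - (R * gm p e + (1 - p) • (W * neM e.1 e.2))) (Y * swapM e.1 e.2) := by
  have hp1 : 0 ≤ 1 - p := by linarith
  have e1 : gm p e - (1 - p) • neM e.1 e.2 = p • swapM e.1 e.2 + (1 - p) • eqM e.1 e.2 := by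
    rw [gm, neM, smul_sub]; abel
  have hg0 : Le 0 (gm p e - (1 - p) • neM e.1 e.2) := by
    rw [e1]
    exact ((swapM_nonneg _ _).zero_smul h0).zero_add ((eqM_nonneg _ _).zero_smul hp1)
  have hg1 : Le (gm p e - (1 - p) • neM e.1 e.2) (swapM e.1 e.2) := by
    rw [e1]
    have : Le (p • swapM e.1 e.2 + (1 - p) • eqM e.1 e.2)
        (p • swapM e.1 e.2 + (1 - p) • swapM e.1 e.2) :=
      (Le.refl _).add ((eqM_le_swapM _ _).smul hp1)
    rwa [← add_smul, add_sub_cancel, one_smul] at this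
  have h2 := hg1.mul_left hY
  have h3 := h.mul_right hg0
  refine Le.trans ?_ (h3.trans h2)
  intro i k
  have h4 : 0 ≤ (R * neM e.1 e.2) i k := (hR.zero_mul (neM_nonneg _ _)) i k
  have e2 : ((W - R) * (gm p e - (1 - p) • neM e.1 e.2)) i k =
      (W * gm p e) i k - (1 - p) * (W * neM e.1 e.2) i k - (R * gm p e) i k +
        (1 - p) * (R * neM e.1 e.2) i k := by
    rw [Matrix.sub_mul, Matrix.mul_sub, Matrix.mul_sub, Matrix.mul_smul, Matrix.mul_smul]
    simp only [Matrix.sub_apply, Matrix.smul_apply, smul_eq_mul]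
    ring
  rw [e2]
  simp only [Matrix.sub_apply, Matrix.add_apply, Matrix.smul_apply, smul_eq_mul]
  nlinarith [mul_nonneg hp1 h4]

/-- (B1) the strand which stays. -/
theorem stay_bound (h0 : 0 ≤ p) (h1 : p ≤ 1) (y : V) (E : List (V × V)) :
    ∀ {Y W R : MM V}, Le 0 Y → Le 0 W → Le 0 R → Le (W - R) Y →
      Le ((1 - p) ^ nE y E • (W * GM p E - (R * GM p E + Er p y E W))) (Y * St p y E) := by
  have hp1 : 0 ≤ 1 - p := by linarith
  induction E with
  | nil =>
    intro Y W R _ _ _ h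
    simp only [nE, pow_zero, one_smul, GM_nil, Er, St, Matrix.mul_one, add_zero]
    exact h
  | cons e E ih =>
    intro Y W R hY hW hR h
    have hg := gm_nonneg h0 h1 e
    by_cases hy : y = e.1 ∨ y = e.2
    · have h2 := stay_step h0 h1 e hY hR h
      have h3 := ih hY (hW.zero_mul hg) (((hR.zero_mul hg)).zero_add
        ((hW.zero_mul (exM_nonneg e.1 e.2)).zero_smul h0)) h2
      have h4 := h3.smul hp1
      simp only [nE, Er, St, if_pos hy, GM_cons]
      have e1 : Y * ((1 - p) • (1 : MM V) * St p y E) = (1 - p) • (Y * St p y E) := by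
        rw [Matrix.smul_mul, Matrix.one_mul, Matrix.mul_smul]
      rw [e1]
      refine Le.trans (Le.ofEq ?_) h4
      rw [smul_smul, add_comm 1, pow_succ', Matrix.add_mul]
      simp only [Matrix.mul_assoc]
      congr 1
      abel
    · have h2 : Le (W * gm p e - R * gm p e) (Y * gm p e) := by
        have := h.mul_right hg
        rwa [Matrix.sub_mul] at this
      have h3 := ih (hY.zero_mul hg) (hW.zero_mul hg) (hR.zero_mul hg) h2
      simp only [nE, Er, St, if_neg hy, GM_cons]
      rw [← Matrix.mul_assoc Y (gm p e)]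
      refine Le.trans (Le.ofEq ?_) h3
      rw [zero_add, zero_add]
      simp only [Matrix.mul_assoc]

/-- reduce the exponent -/
theorem reduce {Z X : MM V} (hZ : Le 0 Z) (h0 : 0 ≤ p) (h1 : p ≤ 1) {m K : ℕ} (hm : m ≤ K)
    (h : Le ((1 - p) ^ m • X) Z) : Le ((1 - p) ^ K • X) Z := by
  intro i k
  have h2 := h i k
  have h3 := hZ i k
  simp only [Matrix.smul_apply, smul_eq_mul, Matrix.zero_apply] at *
  rcases le_or_gt 0 (X i k) with h4 | h4
  · have : (1 - p) ^ K ≤ (1 - p) ^ m := pow_le_pow_of_le_one (by linarith) (by linarith) hm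
    exact (mul_le_mul_of_nonneg_right this h4).trans h2
  · have : (1 - p) ^ K * X i k ≤ 0 :=
      mul_nonpos_of_nonneg_of_nonpos (pow_nonneg (by linarith) _) h4.le
    linarith

/-- (B2) the strand which moves once. -/
theorem move_bound (h0 : 0 ≤ p) (h1 : p ≤ 1) (y v : V) (E : List (V × V)) :
    ∀ {K : ℕ} {Y W R : MM V}, nE y E + nE v E ≤ K → Le 0 Y → Le 0 W → Le 0 R → Le (W - R) Y →
      Le ((p * (1 - p) ^ K) • ((cE y v E : ℝ) • (W * GM p E) -
        ((cE y v E : ℝ) • (R * GM p E) + ErM p y v E W))) (Y * Mv p y v E) := by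
  have hp1 : 0 ≤ 1 - p := by linarith
  induction E with
  | nil =>
    intro K Y W R _ _ _ _ _
    simp only [cE, Nat.cast_zero, zero_smul, ErM, Mv, Matrix.mul_zero, add_zero, sub_zero,
      smul_zero]
    exact Le.refl 0
  | cons e E ih =>
    intro K Y W R hK hY hW hR h
    have hg := gm_nonneg h0 h1 e
    by_cases hy : y = e.1 ∨ y = e.2
    · simp only [nE, if_pos hy] at hK
      obtain ⟨K', rfl⟩ : ∃ K', K = K' + 1 := ⟨K - 1, by omega⟩
      have h2 := stay_step h0 h1 e hY hR h
      have h3 := ih (K := K') (by split_ifs at hK <;> omega) hY (hW.zero_mul hg)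
        (((hR.zero_mul hg)).zero_add ((hW.zero_mul (exM_nonneg e.1 e.2)).zero_smul h0)) h2
      have h4 := h3.smul hp1
      by_cases hv : v = Equiv.swap e.1 e.2 y
      · have h5 := move_step h0 h1 e hY hR h
        have h6 := stay_bound h0 h1 v E (hY.zero_mul (swapM_nonneg e.1 e.2)) (hW.zero_mul hg)
          ((hR.zero_mul hg).zero_add ((hW.zero_mul (neM_nonneg e.1 e.2)).zero_smul hp1)) h5
        have h7 := reduce ((hY.zero_mul (swapM_nonneg e.1 e.2)).zero_mul (St_nonneg h0 h1 v E))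
          h0 h1 (m := nE v E) (K := K' + 1) (by split_ifs at hK <;> omega) h6
        have h8 := h7.smul h0
        simp only [cE, Mv, ErM, if_pos hy, if_pos hv, if_pos (And.intro hy hv), GM_cons]
        have e1 : Y * (p • (swapM e.1 e.2 * St p v E) + (1 - p) • Mv p y v E) =
            p • (Y * swapM e.1 e.2 * St p v E) + (1 - p) • (Y * Mv p y v E) := by
          rw [Matrix.mul_add, Matrix.mul_smul, Matrix.mul_smul, Matrix.mul_assoc]
        rw [e1]
        refine Le.trans (fun i k => le_of_eq ?_) (h8.add h4)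
        simp only [Matrix.mul_assoc, Matrix.add_mul, Matrix.smul_mul, Matrix.smul_apply,
          Matrix.sub_apply, Matrix.add_apply, smul_eq_mul]
        push_cast
        ring
      · have hc : ¬ ((y = e.1 ∨ y = e.2) ∧ v = Equiv.swap e.1 e.2 y) := fun hh => hv hh.2
        simp only [cE, Mv, ErM, if_pos hy, if_neg hv, if_neg hc, GM_cons]
        have e1 : Y * (0 + (1 - p) • Mv p y v E) = (1 - p) • (Y * Mv p y v E) := by
          rw [zero_add, Matrix.mul_smul]
        rw [e1]
        refine Le.trans (fun i k => le_of_eq ?_) h4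
        simp only [Matrix.mul_assoc, Matrix.add_mul, Matrix.smul_mul, Matrix.smul_apply,
          Matrix.sub_apply, Matrix.add_apply, smul_eq_mul, Matrix.zero_apply]
        push_cast
        ring
    · have hc : ¬ ((y = e.1 ∨ y = e.2) ∧ v = Equiv.swap e.1 e.2 y) := fun hh => hy hh.1
      simp only [nE, if_neg hy] at hK
      have h2 : Le (W * gm p e - R * gm p e) (Y * gm p e) := by
        have := h.mul_right hg
        rwa [Matrix.sub_mul] at this
      have h3 := ih (K := K) (by split_ifs at hK <;> omega) (hY.zero_mul hg) (hW.zero_mul hg)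
        (hR.zero_mul hg) h2
      simp only [cE, Mv, ErM, if_neg hy, if_neg hc, GM_cons]
      rw [← Matrix.mul_assoc Y (gm p e)]
      refine Le.trans (fun i k => le_of_eq ?_) h3
      simp only [Matrix.mul_assoc, Matrix.smul_apply,
        Matrix.sub_apply, Matrix.add_apply, smul_eq_mul, Matrix.zero_apply]
      push_cast
      ring

/-- (B3) the strand through the block. -/
theorem strand_block (h0 : 0 ≤ p) (h1 : p ≤ 1) (E : List (V × V)) :
    ∀ y : V, Le (St p y E * sxM y + ∑ v, Mv p y v E * sxM v) (sxM y * GM p E) := by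
  have hp1 : 0 ≤ 1 - p := by linarith
  induction E with
  | nil =>
    intro y
    simp only [St, Mv, GM_nil, Matrix.one_mul, Matrix.mul_one, Matrix.zero_mul,
      Finset.sum_const_zero, add_zero]
    exact Le.refl _
  | cons e E ih =>
    intro y
    rw [GM_cons, ← Matrix.mul_assoc]
    by_cases hy : y = e.1 ∨ y = e.2
    · set y' := Equiv.swap e.1 e.2 y with hy'
      have e1 : (sxM y : MM V) * gm p e = (1 - p) • sxM y + p • (swapM e.1 e.2 * sxM y') :=
        sxM_mul_gate y e.1 e.2 p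
      rw [e1, Matrix.add_mul, Matrix.smul_mul, Matrix.smul_mul, Matrix.mul_assoc]
      have h2 := (ih y).smul hp1
      have h3 : Le (St p y' E * sxM y') (sxM y' * GM p E) := by
        refine Le.trans ?_ (ih y')
        intro i k
        have : 0 ≤ (∑ v, Mv p y' v E * sxM v) i k := by
          have := Le.zero_sum (s := univ) (f := fun v => Mv p y' v E * sxM v)
            (fun v _ => (Mv_nonneg h0 h1 y' v E).zero_mul (sxM_nonneg v)) i k
          simpa using this
        simp only [Matrix.add_apply]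
        linarith
      have h4 := (h3.mul_left (swapM_nonneg e.1 e.2)).smul h0
      refine Le.trans (Le.ofEq ?_) (h2.add h4)
      simp only [St, Mv, if_pos hy]
      have e2 : ∑ v, ((if v = y' then p • (swapM e.1 e.2 * St p v E) else 0) +
          (1 - p) • Mv p y v E) * sxM v =
          p • (swapM e.1 e.2 * (St p y' E * sxM y')) + (1 - p) • ∑ v, Mv p y v E * sxM v := by
        simp only [Matrix.add_mul, Finset.sum_add_distrib]
        congr 1
        · rw [Finset.sum_eq_single y']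
          · rw [if_pos rfl, Matrix.smul_mul, Matrix.mul_assoc]
          · intro v _ hv
            rw [if_neg hv, Matrix.zero_mul]
          · intro hh
            exact absurd (Finset.mem_univ _) hh
        · rw [Finset.smul_sum]
          exact Finset.sum_congr rfl fun v _ => Matrix.smul_mul _ _ _
      rw [e2]
      rw [Matrix.smul_mul, Matrix.smul_mul, Matrix.one_mul, smul_add]
      abel
    · have hsw : Equiv.swap e.1 e.2 y = y := by
        push Not at hy
        exact Equiv.swap_apply_of_ne_of_ne hy.1 hy.2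
      have e1 : (sxM y : MM V) * gm p e = gm p e * sxM y := by
        rw [gm, Matrix.mul_add, Matrix.add_mul, Matrix.mul_smul, Matrix.mul_smul,
          Matrix.smul_mul, Matrix.smul_mul, Matrix.mul_one, Matrix.one_mul, sxM_mul_swapM, hsw]
      rw [e1, Matrix.mul_assoc]
      have h2 := (ih y).mul_left (gm_nonneg h0 h1 e)
      refine Le.trans (Le.ofEq ?_) h2
      simp only [St, Mv, if_neg hy]
      rw [Matrix.mul_add, Finset.mul_sum]
      simp only [Matrix.mul_assoc]

/-! ### Traces of the errors -/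

/-- the defects of a block -/
def HB (p : ℝ) (C : MM V) (b : ℝ) : List (V × V) → MM V → Prop
  | [], _ => True
  | e :: E, W => (trace (W * exM e.1 e.2 * GM p E * C) ≤ b ∧
      trace (W * neM e.1 e.2 * GM p E * C) ≤ b) ∧ HB p C b E (W * gm p e)

theorem Er_trace (h0 : 0 ≤ p) (y : V) {C : MM V} {b : ℝ} (hb : 0 ≤ b) (E : List (V × V)) :
    ∀ {W : MM V}, HB p C b E W → trace (Er p y E W * C) ≤ nE y E * p * b := by
  induction E with
  | nil =>
    intro W _
    simp [Er, nE]
  | cons e E ih =>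
    intro W h
    have h2 := ih h.2
    simp only [Er, nE, Matrix.add_mul, Matrix.trace_add]
    split_ifs with hy
    · have h3 := mul_le_mul_of_nonneg_left h.1.1 h0
      have e1 : trace (p • (W * exM e.1 e.2) * GM p E * C) =
          p * trace (W * exM e.1 e.2 * GM p E * C) := by
        rw [Matrix.smul_mul, Matrix.smul_mul, Matrix.trace_smul, smul_eq_mul]
      rw [e1]
      push_cast
      nlinarith
    · rw [Matrix.zero_mul, Matrix.trace_zero]
      push_cast
      linarith

theorem ErM_trace (h0 : 0 ≤ p) (h1 : p ≤ 1) (y v : V) {C : MM V} {b : ℝ} (hb : 0 ≤ b)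
    (E : List (V × V)) : ∀ {W : MM V}, HB p C b E W →
      trace (ErM p y v E W * C) ≤ cE y v E * (1 + p * (nE y E + nE v E)) * b := by
  induction E with
  | nil =>
    intro W _
    simp [ErM, cE]
  | cons e E ih =>
    intro W h
    have h2 := ih h.2
    have hp1 : 0 ≤ 1 - p := by linarith
    have hcn : (0 : ℝ) ≤ cE y v E := Nat.cast_nonneg _
    have hn1 : (0 : ℝ) ≤ nE y E := Nat.cast_nonneg _
    have hn2 : (0 : ℝ) ≤ nE v E := Nat.cast_nonneg _
    have hpb : 0 ≤ p * b := mul_nonneg h0 hb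
    simp only [ErM]
    rw [Matrix.add_mul, Matrix.trace_add]
    by_cases hy : y = e.1 ∨ y = e.2
    · have h3 := mul_le_mul_of_nonneg_left h.1.1 (mul_nonneg hcn h0)
      have e1 : trace ((cE y v E : ℝ) • (p • (W * exM e.1 e.2) * GM p E) * C) =
          cE y v E * p * trace (W * exM e.1 e.2 * GM p E * C) := by
        rw [Matrix.smul_mul, Matrix.smul_mul, Matrix.smul_mul, Matrix.trace_smul,
          Matrix.trace_smul, smul_eq_mul, smul_eq_mul]
        ring
      by_cases hv : v = Equiv.swap e.1 e.2 y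
      · have hv' : v = e.1 ∨ v = e.2 := by
          rcases hy with h | h
          · right; rw [hv, h, Equiv.swap_apply_left]
          · left; rw [hv, h, Equiv.swap_apply_right]
        have h4 := mul_le_mul_of_nonneg_left h.1.2 hp1
        have e2 : trace ((1 - p) • (W * neM e.1 e.2) * GM p E * C) =
            (1 - p) * trace (W * neM e.1 e.2 * GM p E * C) := by
          rw [Matrix.smul_mul, Matrix.smul_mul, Matrix.trace_smul, smul_eq_mul]
        have h5 := Er_trace h0 v hb E h.2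
        simp only [cE, nE, if_pos hy, if_pos hv, if_pos (And.intro hy hv), if_pos hv']
        rw [Matrix.add_mul, Matrix.add_mul, Matrix.trace_add, Matrix.trace_add, e1, e2]
        push_cast
        nlinarith [mul_nonneg hcn hpb, mul_nonneg hn1 hpb, mul_nonneg hn2 hpb,
          mul_nonneg (mul_nonneg hcn hn1) hpb, mul_nonneg (mul_nonneg hcn hn2) hpb]
      · have hc : ¬ ((y = e.1 ∨ y = e.2) ∧ v = Equiv.swap e.1 e.2 y) := fun hh => hv hh.2
        simp only [cE, nE, if_pos hy, if_neg hv, if_neg hc]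
        rw [zero_add, e1]
        have h6 : (cE y v E : ℝ) * (1 + p * (nE y E + nE v E)) * b + cE y v E * p * b ≤
            ((0 + cE y v E : ℕ) : ℝ) * (1 + p * (((1 + nE y E : ℕ) : ℝ) +
              (((if v = e.1 ∨ v = e.2 then 1 else 0) + nE v E : ℕ) : ℝ))) * b := by
          split_ifs
          · push_cast
            nlinarith [mul_nonneg hcn hpb]
          · push_cast
            nlinarith [mul_nonneg hcn hpb]
        linarith
    · have hc : ¬ ((y = e.1 ∨ y = e.2) ∧ v = Equiv.swap e.1 e.2 y) := fun hh => hy hh.1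
      simp only [cE, nE, if_neg hy, if_neg hc]
      rw [Matrix.zero_mul, Matrix.trace_zero, zero_add]
      refine h2.trans ?_
      split_ifs
      · push_cast
        nlinarith [mul_nonneg hcn hpb]
      · push_cast
        nlinarith [mul_nonneg hcn hpb]

end

end Vale.Agent.P361.LRO.Bloch.H1
end

section

/-!
P361 LRO, general spin `s / 2`: vertex set `V × Fin s`, edge list
`Lm L s m` = all inter-site pairs of copies + `m` times every intra-site pair.
Everything is uniform in `m`; the limit `m → ∞` is taken at the end.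
-/

namespace Vale.Agent.P361.LRO.GenS

open Finset Matrix

noncomputable section

variable {V : Type} [Fintype V] [DecidableEq V]

/-- Inter-site edges: all pairs of copies of the two ends of an edge of `L`. -/
def interL (L : List (V × V)) (s : ℕ) : List ((V × Fin s) × (V × Fin s)) :=
  L.flatMap fun e => ((univ : Finset (Fin s × Fin s)).toList).map fun ij =>
    ((e.1, ij.1), (e.2, ij.2))

/-- Intra-site pairs, each unordered pair once. -/
def intraL (V : Type) [Fintype V] [DecidableEq V] (s : ℕ) :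
    List ((V × Fin s) × (V × Fin s)) :=
  (((univ : Finset (V × Fin s × Fin s)).filter fun z => z.2.1 < z.2.2).toList).map fun z =>
    ((z.1, z.2.1), (z.1, z.2.2))

/-- `L_m`. -/
def Lm (L : List (V × V)) (s m : ℕ) : List ((V × Fin s) × (V × Fin s)) :=
  interL L s ++ (List.replicate m (intraL V s)).flatten

/-- Lift of a profile. -/
def lift (s : ℕ) (h : V → ℝ) : V × Fin s → ℝ := fun z => h z.1

/-- Lift of a block. -/
def liftB (s : ℕ) (b : Finset V) : Finset (V × Fin s) := b ×ˢ univ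

theorem mem_interL {L : List (V × V)} {s : ℕ} {e : (V × Fin s) × (V × Fin s)} :
    e ∈ interL L s ↔ (e.1.1, e.2.1) ∈ L := by
  unfold interL
  rw [List.mem_flatMap]
  constructor
  · rintro ⟨f, hf, he⟩
    rw [List.mem_map] at he
    obtain ⟨ij, _, rfl⟩ := he
    exact hf
  · intro he
    refine ⟨_, he, ?_⟩
    rw [List.mem_map]
    exact ⟨(e.1.2, e.2.2), by simp, rfl⟩

theorem mem_intraL {s : ℕ} {e : (V × Fin s) × (V × Fin s)} :
    e ∈ intraL V s ↔ e.1.1 = e.2.1 ∧ e.1.2 < e.2.2 := by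
  unfold intraL
  rw [List.mem_map]
  constructor
  · rintro ⟨z, hz, rfl⟩
    rw [Finset.mem_toList, Finset.mem_filter] at hz
    exact ⟨rfl, hz.2⟩
  · rintro ⟨h1, h2⟩
    refine ⟨(e.1.1, e.1.2, e.2.2), ?_, ?_⟩
    · rw [Finset.mem_toList, Finset.mem_filter]
      exact ⟨Finset.mem_univ _, h2⟩
    · rcases e with ⟨⟨a, b⟩, ⟨c, d⟩⟩
      simp only at h1
      subst h1
      rfl

theorem mem_Lm {L : List (V × V)} {s m : ℕ} {e : (V × Fin s) × (V × Fin s)} :
    e ∈ Lm L s m ↔ e ∈ interL L s ∨ (m ≠ 0 ∧ e ∈ intraL V s) := by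
  unfold Lm
  rw [List.mem_append, List.mem_flatten]
  constructor
  · rintro (h | ⟨l, hl, he⟩)
    · exact Or.inl h
    · rw [List.mem_replicate] at hl
      obtain ⟨hm, rfl⟩ := hl
      exact Or.inr ⟨hm, he⟩
  · rintro (h | ⟨hm, he⟩)
    · exact Or.inl h
    · exact Or.inr ⟨_, List.mem_replicate.2 ⟨hm, rfl⟩, he⟩

/-- `∑ intra h_e`. -/
def intraM (V : Type) [Fintype V] [DecidableEq V] (s : ℕ) :
    Matrix (V × Fin s → Fin 2) (V × Fin s → Fin 2) ℝ :=
  ((intraL V s).map fun e => hM e.1 e.2).sum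

theorem ham_Lm (L : List (V × V)) (s m : ℕ) (h : V × Fin s → ℝ) :
    ham (Lm L s m) h = ham (interL L s) h + (m : ℝ) • intraM V s := by
  unfold ham Lm intraM
  rw [List.map_append, List.sum_append]
  have h1 : ((List.replicate m (intraL V s)).flatten.map fun e => hM e.1 e.2).sum =
      (m : ℝ) • ((intraL V s).map fun e => hM e.1 e.2).sum := by
    induction m with
    | zero => simp
    | succ m ih =>
      rw [List.replicate_succ, List.flatten_cons, List.map_append, List.sum_append, ih]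
      push_cast
      module
  rw [h1]
  abel

end

end Vale.Agent.P361.LRO.GenS
end

section

/-!
P361 LRO, all spins, route M: the energy block (M3) (helper213).
-/

namespace Vale.Agent.P361.LRO.GenS.EnS

open Finset Matrix
open Vale.Agent.P361.LRO.EnR
open Vale.Agent.P361.LRO.Energy (nxt tch bdy energy_list edges_map_sum card_cube_le card_bdy_le)

set_option linter.unusedSectionVars false

noncomputable section

section Gen

variable {V : Type} [Fintype V] [DecidableEq V]

theorem hM_comm (x y : V) : hM x y = hM y x := by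
  unfold hM swapM
  rw [Equiv.swap_comm]

theorem gib_step (L : List (V × V)) (β : ℝ) (h : V → ℝ) (x y z : V) :
    gib L β h (hM x z) ≤ 2 * gib L β h (hM x y) + 8 * gib L β h (hM y z) := by
  have h1 : gib L β h (hM x z) ≤ gib L β h ((2 : ℝ) • hM x y + (8 : ℝ) • hM y z) := by
    apply gib_le_of_form_le
    intro ψ
    rw [Matrix.add_mulVec, dotProduct_add, Matrix.smul_mulVec, Matrix.smul_mulVec, dotProduct_smul,
      dotProduct_smul, form_hM, form_hM, form_hM, smul_eq_mul, smul_eq_mul]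
    have h2 := nrm_swap_step x y z ψ
    have h3 := nrm_nonneg (Equiv.swap x z) ψ
    have h4 := nrm_nonneg (Equiv.swap x y) ψ
    have h5 := nrm_nonneg (Equiv.swap y z) ψ
    nlinarith [sq_nonneg (nrm (Equiv.swap x y) ψ - 2 * nrm (Equiv.swap y z) ψ)]
  rw [gib_add, gib_smul, gib_smul] at h1
  exact h1

theorem list_flatMap_sum {α γ : Type} (l : List α) (f : α → List γ) (F : γ → ℝ) :
    ((l.flatMap f).map F).sum = (l.map fun a => ((f a).map F).sum).sum := by
  induction l with
  | nil => simp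
  | cons a l ih => simp [List.flatMap_cons, ih]

theorem energy_map {β : ℝ} (hβ : 0 ≤ β) (L : List (V × V)) {h : V → ℝ} (Q : Finset V)
    (hh : ∀ x ∈ Q, 0 ≤ h x) :
    β * (L.map fun e => if e.1 ∈ Q ∨ e.2 ∈ Q then gib L β h (hM e.1 e.2) else 0).sum ≤
      Q.card * Real.log 2 + β * (L.map fun e =>
        if (e.1 ∈ Q ∨ e.2 ∈ Q) ∧ ¬ (e.1 ∈ Q ∧ e.2 ∈ Q) then (1 : ℝ) else 0).sum := by
  have h1 := energy_list hβ L Q hh
  have h2 : ∑ i : Fin L.length with ((L.get i).1 ∈ Q ∨ (L.get i).2 ∈ Q),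
      gib L β h (hM (L.get i).1 (L.get i).2) =
      (L.map fun e => if e.1 ∈ Q ∨ e.2 ∈ Q then gib L β h (hM e.1 e.2) else 0).sum := by
    rw [Finset.sum_filter, ← Fin.sum_univ_fun_getElem]
    rfl
  have h3 : ((Finset.univ.filter fun i : Fin L.length =>
        ((L.get i).1 ∈ Q ∨ (L.get i).2 ∈ Q) ∧ ¬ ((L.get i).1 ∈ Q ∧ (L.get i).2 ∈ Q)).card : ℝ) =
      (L.map fun e =>
        if (e.1 ∈ Q ∨ e.2 ∈ Q) ∧ ¬ (e.1 ∈ Q ∧ e.2 ∈ Q) then (1 : ℝ) else 0).sum := by
    rw [Finset.card_filter]
    push_cast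
    rw [← Fin.sum_univ_fun_getElem]
    rfl
  rw [h2, h3] at h1
  exact h1

end Gen

section Tor

variable {n s : ℕ} [NeZero n]

theorem interE_sum (F : (Tor n × Fin s) × (Tor n × Fin s) → ℝ) :
    ((interE n s).map F).sum =
      ∑ z : Tor n × Fin 3, ∑ i : Fin s, ∑ j : Fin s, F ((z.1, i), (nxt z, j)) := by
  unfold interE
  rw [list_flatMap_sum, edges_map_sum]
  refine Finset.sum_congr rfl fun z _ => ?_
  rw [list_flatMap_sum, ← Fin.sum_univ_def]
  refine Finset.sum_congr rfl fun i _ => ?_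
  rw [List.map_map, ← Fin.sum_univ_def]
  rfl

theorem intraE_same {M : ℕ} {e : (Tor n × Fin s) × (Tor n × Fin s)}
    (he : e ∈ (List.replicate M (intraE n s)).flatten) : e.1.1 = e.2.1 := by
  rw [List.mem_flatten] at he
  obtain ⟨l, hl, he⟩ := he
  rw [List.mem_replicate] at hl
  obtain ⟨-, rfl⟩ := hl
  unfold intraE at he
  rw [List.mem_map] at he
  obtain ⟨z, -, rfl⟩ := he
  rfl

/-- energy of the edge `z` between the copies `i`, `j` -/
def ee (n s M : ℕ) [NeZero n] (β : ℝ) (h : Tor n → ℝ) (z : Tor n × Fin 3) (i j : Fin s) : ℝ :=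
  gib (edgesS n s M) β (hS h) (hM (z.1, i) (nxt z, j))

theorem ee_nonneg (M : ℕ) (β : ℝ) (h : Tor n → ℝ) (z : Tor n × Fin 3) (i j : Fin s) :
    0 ≤ ee n s M β h z i j := gib_hM_nonneg _ _ _ _ _

theorem energy_Q (M : ℕ) {β : ℝ} (hβ : 0 ≤ β) {h : Tor n → ℝ} (hh : ∀ x, 0 ≤ h x) (x : Tor n)
    {l : ℕ} (hl : 0 < l) :
    β * ∑ i : Fin s, ∑ j : Fin s, ∑ z ∈ tch (cube n x l), ee n s M β h z i j ≤
      s * (l : ℝ) ^ 3 + 6 * s ^ 2 * β * (l : ℝ) ^ 2 := by
  set Q := cube n x l with hQ
  have h1 := energy_map hβ (edgesS n s M) (h := hS h) (Q ×ˢ (univ : Finset (Fin s)))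
    (fun z _ => hh z.1)
  have hmem : ∀ z : Tor n × Fin s, z ∈ Q ×ˢ (univ : Finset (Fin s)) ↔ z.1 ∈ Q := fun z => by
    simp
  simp only [hmem] at h1
  have e1 : ∑ i : Fin s, ∑ j : Fin s, ∑ z ∈ tch Q, ee n s M β h z i j ≤
      ((edgesS n s M).map fun e => if e.1.1 ∈ Q ∨ e.2.1 ∈ Q then
        gib (edgesS n s M) β (hS h) (hM e.1 e.2) else 0).sum := by
    conv_rhs => rw [edgesS]
    rw [List.map_append, List.sum_append, interE_sum]
    have h2 : 0 ≤ (((List.replicate M (intraE n s)).flatten).map fun e =>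
        if e.1.1 ∈ Q ∨ e.2.1 ∈ Q then
        gib (interE n s ++ (List.replicate M (intraE n s)).flatten) β (hS h) (hM e.1 e.2)
          else 0).sum := by
      apply List.sum_nonneg
      intro a ha
      rw [List.mem_map] at ha
      obtain ⟨e, -, rfl⟩ := ha
      split_ifs
      · exact gib_hM_nonneg _ _ _ _ _
      · exact le_rfl
    refine le_trans (le_of_eq ?_) (le_add_of_nonneg_right h2)
    have h3 : ∀ i j : Fin s, ∑ z ∈ tch Q, ee n s M β h z i j =
        ∑ z : Tor n × Fin 3, if z.1 ∈ Q ∨ nxt z ∈ Q then ee n s M β h z i j else 0 := by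
      intro i j
      rw [tch, Finset.sum_filter]
    simp only [h3]
    rw [Finset.sum_congr rfl fun i _ => Finset.sum_comm, Finset.sum_comm]
    rfl
  have e2 : ((edgesS n s M).map fun e =>
        if (e.1.1 ∈ Q ∨ e.2.1 ∈ Q) ∧ ¬ (e.1.1 ∈ Q ∧ e.2.1 ∈ Q) then (1 : ℝ) else 0).sum =
      (s : ℝ) ^ 2 * ((bdy Q).card : ℝ) := by
    rw [edgesS, List.map_append, List.sum_append, interE_sum]
    have h2 : (((List.replicate M (intraE n s)).flatten).map fun e =>
        if (e.1.1 ∈ Q ∨ e.2.1 ∈ Q) ∧ ¬ (e.1.1 ∈ Q ∧ e.2.1 ∈ Q) then (1 : ℝ) else 0).sum = 0 := by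
      apply List.sum_eq_zero
      intro a ha
      rw [List.mem_map] at ha
      obtain ⟨e, he, rfl⟩ := ha
      have := intraE_same he
      rw [if_neg]
      rw [this]
      tauto
    rw [h2, add_zero, bdy, Finset.card_filter]
    push_cast
    rw [Finset.mul_sum]
    refine Finset.sum_congr rfl fun z _ => ?_
    by_cases hc : (z.1 ∈ Q ∨ nxt z ∈ Q) ∧ ¬ (z.1 ∈ Q ∧ nxt z ∈ Q)
    · simp only [if_pos hc]
      simp only [Finset.sum_const, Finset.card_univ, Fintype.card_fin, nsmul_eq_mul]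
      ring
    · simp only [if_neg hc]
      simp
  have e3 : ((Q ×ˢ (univ : Finset (Fin s))).card : ℝ) ≤ (l : ℝ) ^ 3 * s := by
    rw [Finset.card_product, Finset.card_univ, Fintype.card_fin]
    push_cast
    have : (Q.card : ℝ) ≤ (l : ℝ) ^ 3 := by exact_mod_cast card_cube_le x l
    exact mul_le_mul_of_nonneg_right this (by positivity)
  have e4 : ((bdy Q).card : ℝ) ≤ 6 * (l : ℝ) ^ 2 := by exact_mod_cast card_bdy_le x hl
  have h4 : Real.log 2 ≤ 1 := by
    have := Real.log_two_lt_d9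
    linarith
  have h5 : 0 ≤ Real.log 2 := Real.log_nonneg (by norm_num)
  have h6 : ((Q ×ˢ (univ : Finset (Fin s))).card : ℝ) * Real.log 2 ≤ (l : ℝ) ^ 3 * s * 1 :=
    mul_le_mul e3 h4 h5 (by positivity)
  rw [e2] at h1
  have h7 := mul_le_mul_of_nonneg_left e1 hβ
  have h8 : β * ((s : ℝ) ^ 2 * ((bdy Q).card : ℝ)) ≤ β * ((s : ℝ) ^ 2 * (6 * (l : ℝ) ^ 2)) := by
    gcongr
  nlinarith

theorem sum_dir0 (Q : Finset (Tor n)) (f : Tor n × Fin 3 → ℝ) (hf : ∀ z, 0 ≤ f z) :
    ∑ x ∈ Q, f (x, 0) ≤ ∑ z ∈ tch Q, f z := by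
  have h1 : ∑ x ∈ Q, f (x, 0) = ∑ z ∈ Q.image fun x => ((x, (0 : Fin 3)) : Tor n × Fin 3), f z := by
    rw [Finset.sum_image]
    intro x _ y _ h
    exact (Prod.mk.inj h).1
  rw [h1]
  apply Finset.sum_le_sum_of_subset_of_nonneg
  · intro z hz
    rw [Finset.mem_image] at hz
    obtain ⟨x, hx, rfl⟩ := hz
    rw [tch, Finset.mem_filter]
    exact ⟨Finset.mem_univ _, Or.inl hx⟩
  · intro z _ _; exact hf z

theorem gib_same_site (M : ℕ) (β : ℝ) (h : Tor n → ℝ) (x : Tor n) (i j : Fin s) :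
    gib (edgesS n s M) β (hS h) (hM (x, i) (x, j)) ≤
      2 * ee n s M β h (x, 0) i i + 8 * ee n s M β h (x, 0) j i := by
  have h1 := gib_step (edgesS n s M) β (hS h) (x, i) (nxt (x, 0), i) (x, j)
  rw [hM_comm (nxt (x, 0), i) (x, j)] at h1
  exact h1

/-- tiling of a function of one site -/
theorem tile_one (x0 : Tor n) (w m : ℕ) (hw : w ≤ n) (hwm : w * m ≤ n) (f : Tor n → ℝ) :
    ∑ y : Fin 3 → Fin m, ∑ x ∈ cube n (x0 + fun i => ((w * (y i : ℕ) : ℕ) : ZMod n)) w, f x =
      ∑ x ∈ cube n x0 (w * m), f x := by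
  have h1 : ∀ y : Fin 3 → Fin m,
      ∑ x ∈ cube n (x0 + fun i => ((w * (y i : ℕ) : ℕ) : ZMod n)) w, f x =
      ∑ a ∈ range w, ∑ b ∈ range w, ∑ c ∈ range w,
        f (shp (tp n x0) w (y 0) (y 1) (y 2) a b c) := by
    intro y
    rw [EnR.sum_cube _ hw, ← tp_shift]
    have e : (x0 + fun i => ((w * (y i : ℕ) : ℕ) : ZMod n)) =
        (x0 + fun i => ((w * (![(y 0 : ℕ), (y 1 : ℕ), (y 2 : ℕ)] i) : ℕ) : ZMod n)) := by
      congr 1
      ext i
      fin_cases i <;> rfl
    rw [e]
  rw [Finset.sum_congr rfl fun y _ => h1 y, EnR.sum_cube _ hwm]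
  rw [sum_fin3 m fun u0 u1 u2 => ∑ a ∈ range w, ∑ b ∈ range w, ∑ c ∈ range w,
        f (shp (tp n x0) w u0 u1 u2 a b c)]
  unfold shp
  rw [← sum_tile (fun A => ∑ B ∈ range (w * m), ∑ C ∈ range (w * m), f (tp n x0 A B C))]
  refine Finset.sum_congr rfl fun u0 _ => ?_
  have h2 : ∀ a ∈ range w, ∑ B ∈ range (w * m), ∑ C ∈ range (w * m),
      f (tp n x0 (w * u0 + a) B C) = ∑ u1 ∈ range m, ∑ u2 ∈ range m, ∑ b ∈ range w,
        ∑ c ∈ range w, f (tp n x0 (w * u0 + a) (w * u1 + b) (w * u2 + c)) := by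
    intro a _
    rw [← sum_tile (fun B => ∑ C ∈ range (w * m), f (tp n x0 (w * u0 + a) B C))]
    refine Finset.sum_congr rfl fun u1 _ => ?_
    conv_rhs => rw [Finset.sum_comm]
    refine Finset.sum_congr rfl fun b _ => ?_
    rw [← sum_tile]
  rw [Finset.sum_congr rfl h2]
  conv_rhs => rw [Finset.sum_comm]
  refine Finset.sum_congr rfl fun u1 _ => ?_
  rw [Finset.sum_comm]

theorem part_A (M : ℕ) (β : ℝ) (h : Tor n → ℝ) (x0 : Tor n) (w m : ℕ) (hw : w ≤ n)
    (hwm : w * m ≤ n) (i : Fin s) :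
    ∑ y : Fin 3 → Fin m, ∑ x ∈ cube n (x0 + fun i => ((w * (y i : ℕ) : ℕ) : ZMod n)) w,
      ∑ x' ∈ cube n (x0 + fun i => ((w * (y i : ℕ) : ℕ) : ZMod n)) w,
        gib (edgesS n s M) β (hS h) (hM (x, i) (x', i)) ≤
      12 * (w : ℝ) ^ 5 * ∑ z ∈ tch (cube n x0 (w * m)), ee n s M β h z i i := by
  set G : Tor n → Tor n → ℝ := fun x x' => gib (edgesS n s M) β (hS h) (hM (x, i) (x', i)) with hG
  have h1 : ∀ y : Fin 3 → Fin m,
      ∑ x ∈ cube n (x0 + fun i => ((w * (y i : ℕ) : ℕ) : ZMod n)) w,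
      ∑ x' ∈ cube n (x0 + fun i => ((w * (y i : ℕ) : ℕ) : ZMod n)) w, G x x' =
      pairSum (shp (fun a b c => (tp n x0 a b c, i)) w (y 0) (y 1) (y 2))
        (fun z z' => gib (edgesS n s M) β (hS h) (hM z z')) w := by
    intro y
    rw [pairSum_eq _ hw]
    have e : (x0 + fun i => ((w * (y i : ℕ) : ℕ) : ZMod n)) =
        (x0 + fun i => ((w * (![(y 0 : ℕ), (y 1 : ℕ), (y 2 : ℕ)] i) : ℕ) : ZMod n)) := by
      congr 1
      ext i
      fin_cases i <;> rfl
    rw [e, tp_shift]
    rfl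
  have h2 := tile_pair (edgesS n s M) β (hS h) (fun a b c => ((tp n x0 a b c, i) : Tor n × Fin s)) w m
  have h3 := edgeSum_le x0 hwm G (fun x y => gib_hM_nonneg _ _ _ _ _)
  have h4 : ∑ e : Tor n × Fin 3 with (e.1 ∈ cube n x0 (w * m) ∧ e.1 + Pi.single e.2 1 ∈ cube n x0 (w * m)),
        G e.1 (e.1 + Pi.single e.2 1) ≤ ∑ z ∈ tch (cube n x0 (w * m)), ee n s M β h z i i := by
    apply Finset.sum_le_sum_of_subset_of_nonneg
    · intro z hz
      rw [Finset.mem_filter] at hz
      rw [tch, Finset.mem_filter]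
      exact ⟨Finset.mem_univ _, Or.inl hz.2.1⟩
    · intro z _ _; exact ee_nonneg _ _ _ _ _ _
  calc _ = ∑ y : Fin 3 → Fin m, pairSum (shp (fun a b c => (tp n x0 a b c, i)) w (y 0) (y 1) (y 2))
        (fun z z' => gib (edgesS n s M) β (hS h) (hM z z')) w := Finset.sum_congr rfl fun y _ => h1 y
    _ = ∑ u0 ∈ range m, ∑ u1 ∈ range m, ∑ u2 ∈ range m,
          pairSum (shp (fun a b c => (tp n x0 a b c, i)) w u0 u1 u2)
        (fun z z' => gib (edgesS n s M) β (hS h) (hM z z')) w :=
        sum_fin3 m fun u0 u1 u2 => pairSum (shp (fun a b c => (tp n x0 a b c, i)) w u0 u1 u2)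
        (fun z z' => gib (edgesS n s M) β (hS h) (hM z z')) w
    _ ≤ 12 * (w : ℝ) ^ 5 * edgeSum (tp n x0) G (w * m) := h2
    _ ≤ _ := mul_le_mul_of_nonneg_left (h3.trans h4) (by positivity)

theorem part_B (M : ℕ) (β : ℝ) (h : Tor n → ℝ) (x0 : Tor n) (w m : ℕ) (hw : w ≤ n)
    (hwm : w * m ≤ n) (i j : Fin s) :
    ∑ y : Fin 3 → Fin m, ∑ x ∈ cube n (x0 + fun i => ((w * (y i : ℕ) : ℕ) : ZMod n)) w,
      ∑ x' ∈ cube n (x0 + fun i => ((w * (y i : ℕ) : ℕ) : ZMod n)) w,
        gib (edgesS n s M) β (hS h) (hM (x', i) (x', j)) ≤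
      (w : ℝ) ^ 3 * (2 * ∑ z ∈ tch (cube n x0 (w * m)), ee n s M β h z i i +
        8 * ∑ z ∈ tch (cube n x0 (w * m)), ee n s M β h z j i) := by
  have h1 : ∀ y : Fin 3 → Fin m, ∑ x ∈ cube n (x0 + fun i => ((w * (y i : ℕ) : ℕ) : ZMod n)) w,
      ∑ x' ∈ cube n (x0 + fun i => ((w * (y i : ℕ) : ℕ) : ZMod n)) w,
        gib (edgesS n s M) β (hS h) (hM (x', i) (x', j)) =
      (w : ℝ) ^ 3 * ∑ x' ∈ cube n (x0 + fun i => ((w * (y i : ℕ) : ℕ) : ZMod n)) w,
        gib (edgesS n s M) β (hS h) (hM (x', i) (x', j)) := by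
    intro y
    rw [Finset.sum_const, EnR.card_cube _ hw, nsmul_eq_mul]
    push_cast
    rfl
  rw [Finset.sum_congr rfl fun y _ => h1 y, ← Finset.mul_sum,
    tile_one x0 w m hw hwm fun x' => gib (edgesS n s M) β (hS h) (hM (x', i) (x', j))]
  refine mul_le_mul_of_nonneg_left ?_ (by positivity)
  refine (Finset.sum_le_sum fun x _ => gib_same_site M β h x i j).trans ?_
  rw [Finset.sum_add_distrib, ← Finset.mul_sum, ← Finset.mul_sum]
  have a1 := sum_dir0 (cube n x0 (w * m)) (fun z => ee n s M β h z i i) (fun z => ee_nonneg _ _ _ _ _ _)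
  have a2 := sum_dir0 (cube n x0 (w * m)) (fun z => ee n s M β h z j i) (fun z => ee_nonneg _ _ _ _ _ _)
  linarith

theorem split_sum {ι κ : Type} (S : Finset ι) [Fintype κ] (A : ι → ι → ℝ) (B : κ → ι → ℝ) :
    ∑ x ∈ S, ∑ j : κ, ∑ x' ∈ S, (2 * A x x' + 8 * B j x') =
      2 * (Fintype.card κ : ℝ) * ∑ x ∈ S, ∑ x' ∈ S, A x x' +
        8 * ∑ j : κ, ∑ x ∈ S, ∑ x' ∈ S, B j x' := by
  simp only [Finset.sum_add_distrib]
  have e1 : ∑ x ∈ S, ∑ _j : κ, ∑ x' ∈ S, 2 * A x x' =
      2 * (Fintype.card κ : ℝ) * ∑ x ∈ S, ∑ x' ∈ S, A x x' := by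
    rw [Finset.mul_sum]
    refine Finset.sum_congr rfl fun x _ => ?_
    rw [Finset.sum_const, Finset.card_univ, nsmul_eq_mul, ← Finset.mul_sum]
    ring
  have e2 : ∑ x ∈ S, ∑ j : κ, ∑ x' ∈ S, 8 * B j x' = 8 * ∑ j : κ, ∑ x ∈ S, ∑ x' ∈ S, B j x' := by
    rw [Finset.sum_comm]
    simp only [Finset.mul_sum]
  rw [e1, e2]

/-- sum over a block with copies -/
theorem sum_cubeS (x : Tor n) (w : ℕ) (f : Tor n × Fin s → ℝ) :
    ∑ z ∈ cubeS n s x w, f z = ∑ i : Fin s, ∑ x' ∈ cube n x w, f (x', i) := by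
  rw [cubeS, Finset.sum_product_right]

theorem block_le (M : ℕ) (β : ℝ) (h : Tor n → ℝ) (b : Tor n) (w : ℕ) :
    ∑ z ∈ cubeS n s b w, ∑ z' ∈ cubeS n s b w, gib (edgesS n s M) β (hS h) (hM z z') ≤
      2 * s * ∑ i : Fin s, ∑ x ∈ cube n b w, ∑ x' ∈ cube n b w,
          gib (edgesS n s M) β (hS h) (hM (x, i) (x', i)) +
      8 * ∑ i : Fin s, ∑ j : Fin s, ∑ x ∈ cube n b w, ∑ x' ∈ cube n b w,
          gib (edgesS n s M) β (hS h) (hM (x', i) (x', j)) := by
  rw [sum_cubeS]
  simp only [sum_cubeS]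
  have h1 : ∀ (i : Fin s) (x : Tor n) (j : Fin s) (x' : Tor n),
      gib (edgesS n s M) β (hS h) (hM (x, i) (x', j)) ≤
      2 * gib (edgesS n s M) β (hS h) (hM (x, i) (x', i)) +
        8 * gib (edgesS n s M) β (hS h) (hM (x', i) (x', j)) :=
    fun i x j x' => gib_step _ _ _ _ _ _
  refine (Finset.sum_le_sum fun i _ => Finset.sum_le_sum fun x _ => Finset.sum_le_sum fun j _ =>
    Finset.sum_le_sum fun x' _ => h1 i x j x').trans (le_of_eq ?_)
  have h2 : ∀ i : Fin s, ∑ x ∈ cube n b w, ∑ j : Fin s, ∑ x' ∈ cube n b w,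
      (2 * gib (edgesS n s M) β (hS h) (hM (x, i) (x', i)) +
        8 * gib (edgesS n s M) β (hS h) (hM (x', i) (x', j))) =
      2 * s * ∑ x ∈ cube n b w, ∑ x' ∈ cube n b w,
          gib (edgesS n s M) β (hS h) (hM (x, i) (x', i)) +
      8 * ∑ j : Fin s, ∑ x ∈ cube n b w, ∑ x' ∈ cube n b w,
          gib (edgesS n s M) β (hS h) (hM (x', i) (x', j)) := by
    intro i
    have h3 := split_sum (cube n b w) (κ := Fin s)
      (fun x x' => gib (edgesS n s M) β (hS h) (hM (x, i) (x', i)))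
      (fun j x' => gib (edgesS n s M) β (hS h) (hM (x', i) (x', j)))
    rw [Fintype.card_fin] at h3
    exact h3
  rw [Finset.sum_congr rfl fun i _ => h2 i, Finset.sum_add_distrib, ← Finset.mul_sum,
    ← Finset.mul_sum]

theorem total_le (M : ℕ) (β : ℝ) (h : Tor n → ℝ) (x0 : Tor n) (w m : ℕ) (hw1 : 1 ≤ w) (hw : w ≤ n)
    (hwm : w * m ≤ n) :
    ∑ y : Fin 3 → Fin m,
      ∑ z ∈ cubeS n s (x0 + fun i => ((w * (y i : ℕ) : ℕ) : ZMod n)) w,
      ∑ z' ∈ cubeS n s (x0 + fun i => ((w * (y i : ℕ) : ℕ) : ZMod n)) w,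
        gib (edgesS n s M) β (hS h) (hM z z') ≤
      (40 * s + 64) * (w : ℝ) ^ 5 *
        ∑ i : Fin s, ∑ j : Fin s, ∑ z ∈ tch (cube n x0 (w * m)), ee n s M β h z i j := by
  set T : Fin s → Fin s → ℝ := fun i j => ∑ z ∈ tch (cube n x0 (w * m)), ee n s M β h z i j with hT
  have hT0 : ∀ i j, 0 ≤ T i j := fun i j => Finset.sum_nonneg fun z _ => ee_nonneg _ _ _ _ _ _
  set TT : ℝ := ∑ i, ∑ j, T i j with hTT
  have hd : ∑ i, T i i ≤ TT := by
    rw [hTT]
    exact Finset.sum_le_sum fun i _ =>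
      Finset.single_le_sum (f := fun j => T i j) (fun j _ => hT0 i j) (Finset.mem_univ i)
  have hd0 : 0 ≤ ∑ i, T i i := Finset.sum_nonneg fun i _ => hT0 i i
  have hTT' : ∑ i, ∑ j, T j i = TT := by rw [hTT, Finset.sum_comm]
  have h1 : ∑ y : Fin 3 → Fin m,
      ∑ z ∈ cubeS n s (x0 + fun i => ((w * (y i : ℕ) : ℕ) : ZMod n)) w,
      ∑ z' ∈ cubeS n s (x0 + fun i => ((w * (y i : ℕ) : ℕ) : ZMod n)) w,
        gib (edgesS n s M) β (hS h) (hM z z') ≤
      2 * s * ∑ i : Fin s, ∑ y : Fin 3 → Fin m,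
          ∑ x ∈ cube n (x0 + fun i => ((w * (y i : ℕ) : ℕ) : ZMod n)) w,
          ∑ x' ∈ cube n (x0 + fun i => ((w * (y i : ℕ) : ℕ) : ZMod n)) w,
          gib (edgesS n s M) β (hS h) (hM (x, i) (x', i)) +
      8 * ∑ i : Fin s, ∑ j : Fin s, ∑ y : Fin 3 → Fin m,
          ∑ x ∈ cube n (x0 + fun i => ((w * (y i : ℕ) : ℕ) : ZMod n)) w,
          ∑ x' ∈ cube n (x0 + fun i => ((w * (y i : ℕ) : ℕ) : ZMod n)) w,
          gib (edgesS n s M) β (hS h) (hM (x', i) (x', j)) := by
    refine (Finset.sum_le_sum fun y _ => block_le M β h _ w).trans (le_of_eq ?_)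
    rw [Finset.sum_add_distrib, ← Finset.mul_sum, ← Finset.mul_sum]
    congr 1
    · rw [Finset.sum_comm]
    · rw [Finset.sum_comm]
      congr 1
      refine Finset.sum_congr rfl fun i _ => ?_
      rw [Finset.sum_comm]
  have h2 : ∑ i : Fin s, ∑ y : Fin 3 → Fin m,
          ∑ x ∈ cube n (x0 + fun i => ((w * (y i : ℕ) : ℕ) : ZMod n)) w,
          ∑ x' ∈ cube n (x0 + fun i => ((w * (y i : ℕ) : ℕ) : ZMod n)) w,
          gib (edgesS n s M) β (hS h) (hM (x, i) (x', i)) ≤ 12 * (w : ℝ) ^ 5 * ∑ i, T i i := by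
    rw [Finset.mul_sum]
    exact Finset.sum_le_sum fun i _ => part_A M β h x0 w m hw hwm i
  have h3 : ∑ i : Fin s, ∑ j : Fin s, ∑ y : Fin 3 → Fin m,
          ∑ x ∈ cube n (x0 + fun i => ((w * (y i : ℕ) : ℕ) : ZMod n)) w,
          ∑ x' ∈ cube n (x0 + fun i => ((w * (y i : ℕ) : ℕ) : ZMod n)) w,
          gib (edgesS n s M) β (hS h) (hM (x', i) (x', j)) ≤
      (w : ℝ) ^ 3 * (2 * (s * ∑ i, T i i) + 8 * TT) := by
    refine (Finset.sum_le_sum fun i _ => Finset.sum_le_sum fun j _ =>
      part_B M β h x0 w m hw hwm i j).trans (le_of_eq ?_)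
    rw [← hTT']
    simp only [← Finset.mul_sum, Finset.sum_add_distrib, Finset.sum_const, Finset.card_univ,
      Fintype.card_fin, nsmul_eq_mul]
    rfl
  have hw1' : (1 : ℝ) ≤ w := by exact_mod_cast hw1
  have h4 : (w : ℝ) ^ 3 ≤ (w : ℝ) ^ 5 := pow_le_pow_right₀ hw1' (by norm_num)
  have hs0 : (0 : ℝ) ≤ s := Nat.cast_nonneg s
  have hTT0 : 0 ≤ TT := hd0.trans hd
  have h5 : (s : ℝ) * ∑ i, T i i ≤ s * TT := mul_le_mul_of_nonneg_left hd hs0
  have h6 : 2 * (s : ℝ) * (12 * (w : ℝ) ^ 5 * ∑ i, T i i) ≤ 24 * (w : ℝ) ^ 5 * (s * TT) := by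
    have : 2 * (s : ℝ) * (12 * (w : ℝ) ^ 5 * ∑ i, T i i) =
        24 * (w : ℝ) ^ 5 * (s * ∑ i, T i i) := by ring
    rw [this]
    exact mul_le_mul_of_nonneg_left h5 (by positivity)
  have h7 : (w : ℝ) ^ 3 * (2 * (s * ∑ i, T i i) + 8 * TT) ≤
      (w : ℝ) ^ 5 * (2 * (s * TT) + 8 * TT) := by
    refine mul_le_mul h4 (by linarith) ?_ (by positivity)
    have : 0 ≤ (s : ℝ) * ∑ i, T i i := mul_nonneg hs0 hd0
    linarith
  have h8 : 2 * (s : ℝ) * ∑ i : Fin s, ∑ y : Fin 3 → Fin m,
          ∑ x ∈ cube n (x0 + fun i => ((w * (y i : ℕ) : ℕ) : ZMod n)) w,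
          ∑ x' ∈ cube n (x0 + fun i => ((w * (y i : ℕ) : ℕ) : ZMod n)) w,
          gib (edgesS n s M) β (hS h) (hM (x, i) (x', i)) ≤
      2 * (s : ℝ) * (12 * (w : ℝ) ^ 5 * ∑ i, T i i) :=
    mul_le_mul_of_nonneg_left h2 (by positivity)
  calc _ ≤ _ := h1
    _ ≤ 24 * (w : ℝ) ^ 5 * (s * TT) + 8 * ((w : ℝ) ^ 5 * (2 * (s * TT) + 8 * TT)) := by
        linarith
    _ = (40 * s + 64) * (w : ℝ) ^ 5 * TT := by ring

theorem card_cubeS (x : Tor n) {w : ℕ} (hw : w ≤ n) :
    ((cubeS n s x w).card : ℝ) = (w : ℝ) ^ 3 * s := by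
  rw [cubeS, Finset.card_product, EnR.card_cube _ hw, Finset.card_univ, Fintype.card_fin]
  push_cast
  rfl

/-- **(M3)** -/
theorem energyStmtS (s : ℕ) : EnergyStmtS s := by
  refine ⟨12 * (40 * s + 64), ?_⟩
  intro n _ M β h x w m hβ hh hw hm hwm
  have hw' : (0 : ℝ) < w := by exact_mod_cast hw
  have hm' : (0 : ℝ) < m := by exact_mod_cast hm
  have hwn : w ≤ n := by nlinarith
  have hwmn : w * m ≤ n := by omega
  rcases Nat.eq_zero_or_pos s with rfl | hs
  · have h0 : ∀ b : Tor n, Db (edgesS n 0 M) β (hS h) (cubeS n 0 b w) = 0 := by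
      intro b
      rw [Db, card_cubeS b hwn]
      simp
    simp only [h0, Finset.sum_const_zero, zero_div]
    positivity
  have hs' : (0 : ℝ) < s := by exact_mod_cast hs
  have hs1 : (1 : ℝ) ≤ s := by exact_mod_cast hs
  have h1 := total_le (s := s) M β h x w m hw hwn hwmn
  have h2 := energy_Q (s := s) M hβ.le (fun x => (hh x).le) x (l := w * m) (Nat.mul_pos hw hm)
  set T := ∑ i : Fin s, ∑ j : Fin s, ∑ z ∈ tch (cube n x (w * m)), ee n s M β h z i j with hT
  have h3 : T ≤ (s * ((w * m : ℕ) : ℝ) ^ 3 + 6 * s ^ 2 * β * ((w * m : ℕ) : ℝ) ^ 2) / β := by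
    rw [le_div_iff₀ hβ, mul_comm]
    exact h2
  have h5 : ∀ y : Fin 3 → Fin m, Db (edgesS n s M) β (hS h)
        (cubeS n s (x + fun i => ((w * (y i : ℕ) : ℕ) : ZMod n)) w) =
      2 / ((w : ℝ) ^ 6 * s ^ 2) *
      ∑ z ∈ cubeS n s (x + fun i => ((w * (y i : ℕ) : ℕ) : ZMod n)) w,
      ∑ z' ∈ cubeS n s (x + fun i => ((w * (y i : ℕ) : ℕ) : ZMod n)) w,
        gib (edgesS n s M) β (hS h) (hM z z') := by
    intro y
    rw [Db, card_cubeS _ hwn]
    field_simp
    ring
  simp only [h5]
  rw [← Finset.mul_sum, div_le_iff₀ (by positivity)]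
  have h6 : (40 * (s : ℝ) + 64) * (w : ℝ) ^ 5 * T ≤ (40 * s + 64) * (w : ℝ) ^ 5 *
      ((s * ((w * m : ℕ) : ℝ) ^ 3 + 6 * s ^ 2 * β * ((w * m : ℕ) : ℝ) ^ 2) / β) :=
    mul_le_mul_of_nonneg_left h3 (by positivity)
  calc 2 / ((w : ℝ) ^ 6 * s ^ 2) * _ ≤ 2 / ((w : ℝ) ^ 6 * s ^ 2) * ((40 * s + 64) * (w : ℝ) ^ 5 *
      ((s * ((w * m : ℕ) : ℝ) ^ 3 + 6 * s ^ 2 * β * ((w * m : ℕ) : ℝ) ^ 2) / β)) :=
        mul_le_mul_of_nonneg_left (h1.trans h6) (by positivity)
    _ = 2 * (40 * s + 64) * (((w : ℝ) ^ 2 * m ^ 3 / β) * (1 / s) + 6 * ((w : ℝ) * m ^ 2)) := by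
        push_cast
        field_simp
    _ ≤ 2 * (40 * s + 64) * (((w : ℝ) ^ 2 * m ^ 3 / β) * 6 + 6 * ((w : ℝ) * m ^ 2)) := by
        refine mul_le_mul_of_nonneg_left ?_ (by positivity)
        have h7 : 1 / (s : ℝ) ≤ 6 := by
          rw [div_le_iff₀ hs']
          linarith
        have h8 : 0 ≤ (w : ℝ) ^ 2 * m ^ 3 / β := by positivity
        have := mul_le_mul_of_nonneg_left h7 h8
        linarith
    _ = _ := by
        field_simp
        ring

end Tor

end

end Vale.Agent.P361.LRO.GenS.EnS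
end

section

/-!
General spin, one site: the spin `n / 2` is the symmetric part of `n` spins `1 / 2`.
-/

namespace Vale.Agent.P361.LRO.GenS

open Matrix Finset

set_option linter.unusedSectionVars false

theorem fin2_cases (c : Fin (1 + 1)) : c = 0 ∨ c = 1 := by
  fin_cases c <;> simp

theorem sum2 (f : Fin (1 + 1) → ℂ) : ∑ c, f c = f 0 + f 1 := Fin.sum_univ_two f

/-- Number of down spins. -/
def dn {n : ℕ} (s : Fin n → Fin (1 + 1)) : ℕ := ∑ i, (s i : ℕ)

theorem dn_le {n : ℕ} (s : Fin n → Fin (1 + 1)) : dn s ≤ n := by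
  unfold dn
  calc ∑ i, (s i : ℕ) ≤ ∑ _i : Fin n, 1 := Finset.sum_le_sum fun i _ => by omega
    _ = n := by simp

theorem dn_eq_card {n : ℕ} (s : Fin n → Fin (1 + 1)) :
    dn s = (univ.filter fun i => s i = 1).card := by
  unfold dn
  rw [Finset.card_filter]
  refine Finset.sum_congr rfl fun i _ => ?_
  have : s i = 0 ∨ s i = 1 := fin2_cases _
  rcases this with h | h <;> simp [h]

theorem card_dn {n : ℕ} (k : ℕ) :
    (univ.filter fun s : Fin n → Fin (1 + 1) => dn s = k).card = n.choose k := by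
  have h : (univ.filter fun s : Fin n → Fin (1 + 1) => dn s = k).card =
      ((univ : Finset (Fin n)).powersetCard k).card := by
    refine Finset.card_bij (fun s _ => univ.filter fun i => s i = 1) ?_ ?_ ?_
    · intro s hs
      rw [Finset.mem_filter] at hs
      rw [Finset.mem_powersetCard]
      exact ⟨Finset.filter_subset _ _, by rw [← dn_eq_card]; exact hs.2⟩
    · intro s _ t _ hst
      funext i
      have := congrArg (fun A => i ∈ A) hst
      simp only [Finset.mem_filter, Finset.mem_univ, true_and, eq_iff_iff] at this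
      have h1 : s i = 0 ∨ s i = 1 := fin2_cases _
      have h2 : t i = 0 ∨ t i = 1 := fin2_cases _
      rcases h1 with h1 | h1 <;> rcases h2 with h2 | h2 <;> simp_all
    · intro A hA
      rw [Finset.mem_powersetCard] at hA
      refine ⟨fun i => if i ∈ A then 1 else 0, ?_, ?_⟩
      · rw [Finset.mem_filter]
        refine ⟨Finset.mem_univ _, ?_⟩
        rw [dn_eq_card, ← hA.2]
        congr 1
        ext i
        by_cases h : i ∈ A <;> simp [h]
      · ext i
        by_cases h : i ∈ A <;> simp [h]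
  rw [h, Finset.card_powersetCard, Finset.card_univ, Fintype.card_fin]

/-- The isometry onto the symmetric tensors. -/
noncomputable def W1 (n : ℕ) : Matrix (Fin n → Fin (1 + 1)) (Fin (n + 1)) ℂ :=
  Matrix.of fun s j => if dn s = (j : ℕ) then (((Real.sqrt (n.choose (j : ℕ)))⁻¹ : ℝ) : ℂ) else 0

theorem choose_pos' {n : ℕ} (j : Fin (n + 1)) : (0 : ℝ) < (n.choose (j : ℕ) : ℝ) := by
  have := Nat.choose_pos (Nat.lt_succ_iff.1 j.2)
  exact_mod_cast this

theorem W1_conj_mul (n : ℕ) : (W1 n)ᴴ * W1 n = 1 := by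
  ext i j
  rw [Matrix.mul_apply, Matrix.one_apply]
  simp only [W1, Matrix.conjTranspose_apply, Matrix.of_apply]
  by_cases hij : i = j
  · subst hij
    rw [if_pos rfl]
    have h1 : ∀ s : Fin n → Fin (1 + 1),
        star (if dn s = (i : ℕ) then (((Real.sqrt (n.choose (i : ℕ)))⁻¹ : ℝ) : ℂ) else 0) *
          (if dn s = (i : ℕ) then (((Real.sqrt (n.choose (i : ℕ)))⁻¹ : ℝ) : ℂ) else 0) =
        if dn s = (i : ℕ) then (((n.choose (i : ℕ) : ℝ)⁻¹ : ℝ) : ℂ) else 0 := by
      intro s
      split_ifs with h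
      · have hs : star (((Real.sqrt (n.choose (i : ℕ)))⁻¹ : ℝ) : ℂ) =
            (((Real.sqrt (n.choose (i : ℕ)))⁻¹ : ℝ) : ℂ) := Complex.conj_ofReal _
        rw [hs, ← Complex.ofReal_mul, ← mul_inv, Real.mul_self_sqrt (choose_pos' i).le]
      · simp
    rw [Finset.sum_congr rfl fun s _ => h1 s, ← Finset.sum_filter, Finset.sum_const,
      card_dn, nsmul_eq_mul]
    have h0 : ((n.choose (i : ℕ) : ℕ) : ℂ) ≠ 0 := by
      have := Nat.choose_pos (Nat.lt_succ_iff.1 i.2)
      exact_mod_cast this.ne'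
    push_cast
    field_simp
  · rw [if_neg hij]
    refine Finset.sum_eq_zero fun s _ => ?_
    by_cases h : dn s = (i : ℕ)
    · have : ¬ dn s = (j : ℕ) := fun h2 => hij (Fin.ext (h.symm.trans h2))
      rw [if_neg this, mul_zero]
    · rw [if_neg h, star_zero, zero_mul]

section

variable {V d e : Type*} [Fintype V] [DecidableEq V] [Fintype d] [DecidableEq d]

theorem siteOpV_mul_apply (x : V) (A : Matrix d d ℂ) (M : Matrix (V → d) e ℂ) (σ : V → d) (j : e) :
    (siteOpV x A * M) σ j = ∑ c, A (σ x) c * M (Function.update σ x c) j := by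
  rw [Matrix.mul_apply]
  rw [← Finset.sum_subset (Finset.subset_univ
    ((univ : Finset d).image fun c => Function.update σ x c))]
  · rw [Finset.sum_image]
    · refine Finset.sum_congr rfl fun c _ => ?_
      congr 1
      rw [siteOpV_apply]
      rw [Finset.prod_eq_one, mul_one, Function.update_self]
      intro y hy
      rw [Function.update_of_ne (Finset.ne_of_mem_erase hy), Matrix.one_apply_eq]
    · intro c _ c' _ h
      have := congrFun h x
      simpa using this
  · intro τ _ hτ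
    have : siteOpV x A σ τ = 0 := by
      rw [siteOpV_apply]
      have hne : ∃ y, y ≠ x ∧ σ y ≠ τ y := by
        by_contra hcon
        push Not at hcon
        apply hτ
        rw [Finset.mem_image]
        refine ⟨τ x, Finset.mem_univ _, ?_⟩
        funext y
        by_cases hy : y = x
        · subst hy; simp
        · rw [Function.update_of_ne hy, hcon y hy]
      obtain ⟨y, hy, hne⟩ := hne
      rw [Finset.prod_eq_zero (Finset.mem_erase.2 ⟨hy, Finset.mem_univ _⟩), mul_zero]
      rw [Matrix.one_apply_ne hne]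
    rw [this, zero_mul]

end

theorem dn_update {n : ℕ} (s : Fin n → Fin (1 + 1)) (i : Fin n) (c : Fin (1 + 1)) :
    dn (Function.update s i c) + (s i : ℕ) = dn s + (c : ℕ) := by
  unfold dn
  rw [← Finset.add_sum_erase _ _ (Finset.mem_univ i),
    ← Finset.add_sum_erase univ (fun j => (s j : ℕ)) (Finset.mem_univ i)]
  rw [Function.update_self]
  have : ∑ j ∈ univ.erase i, ((Function.update s i c j : Fin (1 + 1)) : ℕ) =
      ∑ j ∈ univ.erase i, (s j : ℕ) :=
    Finset.sum_congr rfl fun j hj => by rw [Function.update_of_ne (Finset.ne_of_mem_erase hj)]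
  rw [this]
  ring

/-- `S³`. -/
theorem site_Z (n : ℕ) :
    (∑ i : Fin n, siteOpV i (Model.spinZ 1)) * W1 n = W1 n * Model.spinZ n := by
  ext s j
  rw [Matrix.sum_mul, Matrix.sum_apply]
  simp only [siteOpV_mul_apply, sum2]
  have h1 : ∀ i : Fin n, Model.spinZ 1 (s i) 0 * W1 n (Function.update s i 0) j +
      Model.spinZ 1 (s i) 1 * W1 n (Function.update s i 1) j =
      ((1 : ℂ) / 2 - ((s i : ℕ) : ℂ)) * W1 n s j := by
    intro i
    have hu : Function.update s i (s i) = s := Function.update_eq_self i s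
    have : s i = 0 ∨ s i = 1 := fin2_cases _
    rcases this with h | h
    · rw [h] at hu ⊢
      simp [Model.spinZ, hu]
    · rw [h] at hu ⊢
      simp [Model.spinZ, hu]
  rw [Finset.sum_congr rfl fun i _ => h1 i, ← Finset.sum_mul, Finset.sum_sub_distrib]
  simp only [Finset.sum_const, Finset.card_univ, Fintype.card_fin, nsmul_eq_mul]
  rw [Model.spinZ, Matrix.mul_diagonal, mul_comm]
  by_cases h : dn s = (j : ℕ)
  · have : (∑ i, ((s i : ℕ) : ℂ)) = ((j : ℕ) : ℂ) := by
      rw [← h]; unfold dn; push_cast; rfl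
    rw [this]; ring_nf
  · simp [W1, h]

theorem sqrt_lower {n k : ℕ} (hk : k < n) :
    ((k : ℝ) + 1) * (Real.sqrt (n.choose k))⁻¹ =
      (Real.sqrt (n.choose (k + 1)))⁻¹ * Real.sqrt (((k : ℝ) + 1) * (n - k)) := by
  have h1 : (0 : ℝ) < (n.choose k : ℝ) := by exact_mod_cast Nat.choose_pos hk.le
  have h2 : (0 : ℝ) < (n.choose (k + 1) : ℝ) := by exact_mod_cast Nat.choose_pos hk
  have h3 : (n.choose (k + 1) : ℝ) * ((k : ℝ) + 1) = (n.choose k : ℝ) * ((n : ℝ) - k) := by
    have := Nat.choose_succ_right_eq n k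
    have h4 : ((n.choose (k + 1) * (k + 1) : ℕ) : ℝ) = ((n.choose k * (n - k) : ℕ) : ℝ) := by
      rw [this]
    rw [Nat.cast_mul, Nat.cast_mul, Nat.cast_sub hk.le] at h4
    push_cast at h4
    linarith
  have hnk : (0 : ℝ) < (n : ℝ) - k := by
    have : (k : ℝ) < n := by exact_mod_cast hk
    linarith
  have hk1 : (0 : ℝ) < (k : ℝ) + 1 := by positivity
  have hr1 := Real.sqrt_pos.2 h1
  have hr2 := Real.sqrt_pos.2 h2
  rw [← sq_eq_sq₀ (by positivity) (by positivity)]
  rw [mul_pow, mul_pow, inv_pow, inv_pow, Real.sq_sqrt h1.le, Real.sq_sqrt h2.le,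
    Real.sq_sqrt (by positivity)]
  field_simp
  nlinarith [h3]

/-- `S⁻`. -/
theorem site_L (n : ℕ) :
    (∑ i : Fin n, siteOpV i (Model.spinLower 1)) * W1 n = W1 n * Model.spinLower n := by
  ext s j
  rw [Matrix.sum_mul, Matrix.sum_apply]
  simp only [siteOpV_mul_apply, sum2]
  have h1 : ∀ i : Fin n, Model.spinLower 1 (s i) 0 * W1 n (Function.update s i 0) j +
      Model.spinLower 1 (s i) 1 * W1 n (Function.update s i 1) j =
      ((s i : ℕ) : ℂ) * (if dn s = (j : ℕ) + 1 then
        (((Real.sqrt (n.choose (j : ℕ)))⁻¹ : ℝ) : ℂ) else 0) := by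
    intro i
    have hd := dn_update s i 0
    have : s i = 0 ∨ s i = 1 := fin2_cases _
    rcases this with h | h
    · rw [h]
      simp [Model.spinLower]
    · rw [h] at hd ⊢
      have hd' : dn (Function.update s i 0) = (j : ℕ) ↔ dn s = (j : ℕ) + 1 := by
        have : dn (Function.update s i 0) + 1 = dn s := by simpa using hd
        omega
      simp only [Model.spinLower, Matrix.of_apply, W1]
      by_cases hj : dn s = (j : ℕ) + 1
      · rw [if_pos (hd'.2 hj), if_pos hj]
        norm_num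
      · rw [if_neg (fun hh => hj (hd'.1 hh)), if_neg hj]
        norm_num
  rw [Finset.sum_congr rfl fun i _ => h1 i, ← Finset.sum_mul]
  rw [Matrix.mul_apply]
  have hsum : (∑ i, ((s i : ℕ) : ℂ)) = ((dn s : ℕ) : ℂ) := by unfold dn; push_cast; rfl
  rw [hsum]
  by_cases hj : dn s = (j : ℕ) + 1
  · rw [if_pos hj]
    have hjn : (j : ℕ) < n := by have := dn_le s; omega
    rw [Finset.sum_eq_single (⟨(j : ℕ) + 1, by omega⟩ : Fin (n + 1))]
    · simp only [W1, Model.spinLower, Matrix.of_apply]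
      rw [if_pos hj, if_pos trivial, hj]
      rw [← Complex.ofReal_natCast, ← Complex.ofReal_mul, ← Complex.ofReal_mul]
      congr 1
      have := sqrt_lower (n := n) (k := (j : ℕ)) hjn
      push_cast
      rw [this]
      congr 2
      ring
    · intro b _ hb
      have : ¬ dn s = (b : ℕ) := fun hh => hb (Fin.ext (by simp; omega))
      simp [W1, this]
    · intro hh; exact absurd (Finset.mem_univ _) hh
  · rw [if_neg hj, mul_zero]
    symm
    refine Finset.sum_eq_zero fun b _ => ?_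
    simp only [W1, Model.spinLower, Matrix.of_apply]
    by_cases hb : dn s = (b : ℕ)
    · have : ¬ (b : ℕ) = (j : ℕ) + 1 := fun hh => hj (hb.trans hh)
      rw [if_neg this, mul_zero]
    · rw [if_neg hb, zero_mul]

/-- `S⁺`. -/
theorem site_R (n : ℕ) :
    (∑ i : Fin n, siteOpV i (Model.spinLower 1)ᴴ) * W1 n = W1 n * (Model.spinLower n)ᴴ := by
  ext s j
  rw [Matrix.sum_mul, Matrix.sum_apply]
  simp only [siteOpV_mul_apply, sum2]
  have h1 : ∀ i : Fin n, (Model.spinLower 1)ᴴ (s i) 0 * W1 n (Function.update s i 0) j +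
      (Model.spinLower 1)ᴴ (s i) 1 * W1 n (Function.update s i 1) j =
      (1 - ((s i : ℕ) : ℂ)) * (if dn s + 1 = (j : ℕ) then
        (((Real.sqrt (n.choose (j : ℕ)))⁻¹ : ℝ) : ℂ) else 0) := by
    intro i
    have hd := dn_update s i 1
    have : s i = 0 ∨ s i = 1 := fin2_cases _
    rcases this with h | h
    · rw [h] at hd ⊢
      have hd' : dn (Function.update s i 1) = dn s + 1 := by simpa using hd
      simp only [Model.spinLower, Matrix.conjTranspose_apply, Matrix.of_apply, W1]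
      rw [hd']
      by_cases hj : dn s + 1 = (j : ℕ)
      · rw [if_pos hj]
        norm_num
      · rw [if_neg hj]
        norm_num
    · rw [h]
      simp [Model.spinLower]
  rw [Finset.sum_congr rfl fun i _ => h1 i, ← Finset.sum_mul]
  rw [Matrix.mul_apply]
  have hsum : (∑ i : Fin n, (1 - ((s i : ℕ) : ℂ))) = (n : ℂ) - ((dn s : ℕ) : ℂ) := by
    rw [Finset.sum_sub_distrib]; unfold dn; push_cast; simp
  rw [hsum]
  by_cases hj : dn s + 1 = (j : ℕ)
  · rw [if_pos hj]
    have hjn : dn s < n := by have := j.2; omega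
    rw [Finset.sum_eq_single (⟨dn s, by omega⟩ : Fin (n + 1))]
    · simp only [W1, Model.spinLower, Matrix.of_apply, Matrix.conjTranspose_apply]
      rw [if_pos trivial, if_pos hj.symm]
      have hc : ∀ r : ℝ, star (r : ℂ) = (r : ℂ) := Complex.conj_ofReal
      rw [hc, ← Complex.ofReal_natCast, ← Complex.ofReal_natCast, ← Complex.ofReal_sub,
        ← Complex.ofReal_mul, ← Complex.ofReal_mul]
      congr 1
      rw [← hj]
      have hk := sqrt_lower (n := n) (k := dn s) hjn
      set k := dn s with hkdef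
      have h1 : (0 : ℝ) < (n.choose k : ℝ) := by exact_mod_cast Nat.choose_pos hjn.le
      have h2 : (0 : ℝ) < (n.choose (k + 1) : ℝ) := by exact_mod_cast Nat.choose_pos hjn
      have hnk : (0 : ℝ) < (n : ℝ) - k := by
        have : (k : ℝ) < n := by exact_mod_cast hjn
        linarith
      have hk1 : (0 : ℝ) < (k : ℝ) + 1 := by positivity
      have h3 : (n.choose (k + 1) : ℝ) * ((k : ℝ) + 1) = (n.choose k : ℝ) * ((n : ℝ) - k) := by
        have := Nat.choose_succ_right_eq n k
        have h4 : ((n.choose (k + 1) * (k + 1) : ℕ) : ℝ) = ((n.choose k * (n - k) : ℕ) : ℝ) := by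
          rw [this]
        rw [Nat.cast_mul, Nat.cast_mul, Nat.cast_sub hjn.le] at h4
        push_cast at h4
        linarith
      have hr1 := Real.sqrt_pos.2 h1
      have hr2 := Real.sqrt_pos.2 h2
      push_cast
      have e1 : ((k : ℝ) + 1) * ((n : ℝ) + 1 - ((k : ℝ) + 1)) = ((k : ℝ) + 1) * ((n : ℝ) - k) := by
        ring
      rw [e1, ← sq_eq_sq₀ (by positivity) (by positivity)]
      rw [mul_pow, mul_pow, inv_pow, inv_pow, Real.sq_sqrt h1.le, Real.sq_sqrt h2.le,
        Real.sq_sqrt (by positivity)]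
      field_simp
      nlinarith [h3]
    · intro b _ hb
      have : ¬ dn s = (b : ℕ) := fun hh => hb (Fin.ext (by simp; omega))
      simp [W1, this]
    · intro hh; exact absurd (Finset.mem_univ _) hh
  · rw [if_neg hj, mul_zero]
    symm
    refine Finset.sum_eq_zero fun b _ => ?_
    simp only [W1, Model.spinLower, Matrix.of_apply, Matrix.conjTranspose_apply]
    by_cases hb : dn s = (b : ℕ)
    · have : ¬ (j : ℕ) = (b : ℕ) + 1 := fun hh => hj (by omega)
      rw [if_neg this, star_zero, mul_zero]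
    · rw [if_neg hb, zero_mul]

/-- All three components. -/
theorem site_spin (n : ℕ) (a : Fin 3) :
    (∑ i : Fin n, siteOpV i (Model.spin 1 a)) * W1 n = W1 n * Model.spin n a := by
  have hL := site_L n
  have hR := site_R n
  have hZ := site_Z n
  fin_cases a
  · show (∑ i : Fin n, siteOpV i ((1 / 2 : ℂ) • ((Model.spinLower 1)ᴴ + Model.spinLower 1))) * W1 n
      = W1 n * ((1 / 2 : ℂ) • ((Model.spinLower n)ᴴ + Model.spinLower n))
    simp only [siteOpV_smul, siteOpV_add]
    rw [← Finset.smul_sum, Finset.sum_add_distrib, Matrix.smul_mul, Matrix.add_mul, hL, hR,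
      Matrix.mul_smul, Matrix.mul_add]
  · show (∑ i : Fin n, siteOpV i ((1 / (2 * Complex.I) : ℂ) •
        ((Model.spinLower 1)ᴴ - Model.spinLower 1))) * W1 n
      = W1 n * ((1 / (2 * Complex.I) : ℂ) • ((Model.spinLower n)ᴴ - Model.spinLower n))
    simp only [siteOpV_smul, siteOpV_sub]
    rw [← Finset.smul_sum, Finset.sum_sub_distrib, Matrix.smul_mul, Matrix.sub_mul, hL, hR,
      Matrix.mul_smul, Matrix.mul_sub]
  · exact hZ

end Vale.Agent.P361.LRO.GenS
end

section

/-!
General spin, many sites: the model of spin `n / 2` on `V` is the model of spin `1 / 2` on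
`V × Fin n`, restricted to the tensors symmetric at each site.
-/

namespace Vale.Agent.P361.LRO.GenS

open Matrix Finset

set_option linter.unusedSectionVars false

section Rect

variable {V d e f : Type*} [Fintype V] [DecidableEq V]

/-- Rectangular product operator. -/
def prodR (B : V → Matrix d e ℂ) : Matrix (V → d) (V → e) ℂ :=
  Matrix.of fun σ τ => ∏ y, B y (σ y) (τ y)

theorem prodR_mul [Fintype e] (B : V → Matrix d e ℂ) (C : V → Matrix e f ℂ) :
    prodR B * prodR C = prodR (fun y => B y * C y) := by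
  classical
  ext σ τ
  simp only [prodR, Matrix.mul_apply, Matrix.of_apply]
  rw [Finset.prod_univ_sum, Fintype.piFinset_univ]
  refine Finset.sum_congr rfl fun ρ _ => ?_
  rw [← Finset.prod_mul_distrib]

theorem prodR_one [DecidableEq d] : prodR (fun _ : V => (1 : Matrix d d ℂ)) = 1 := by
  ext σ τ
  simp only [prodR, Matrix.of_apply, Matrix.one_apply]
  by_cases h : σ = τ
  · subst h; simp
  · rw [if_neg h]
    obtain ⟨y, hy⟩ := Function.ne_iff.mp h
    exact Finset.prod_eq_zero (Finset.mem_univ y) (by simp [hy])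

theorem prodR_conjTranspose (B : V → Matrix d e ℂ) :
    (prodR B)ᴴ = prodR (fun y => (B y)ᴴ) := by
  ext σ τ
  simp [prodR, Matrix.conjTranspose_apply]

/-- Multilinearity. -/
theorem prodR_sum (x : V) {κ : Type*} (s : Finset κ) (C : κ → Matrix d e ℂ)
    (W : Matrix d e ℂ) :
    (∑ k ∈ s, prodR fun y => if y = x then C k else W) =
      prodR fun y => if y = x then ∑ k ∈ s, C k else W := by
  ext σ τ
  rw [Matrix.sum_apply]
  simp only [prodR, Matrix.of_apply]
  rw [← Finset.mul_prod_erase _ _ (Finset.mem_univ x), if_pos rfl, Matrix.sum_apply,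
    Finset.sum_mul]
  refine Finset.sum_congr rfl fun k _ => ?_
  rw [← Finset.mul_prod_erase _ _ (Finset.mem_univ x), if_pos rfl]
  congr 1
  refine Finset.prod_congr rfl fun y hy => ?_
  rw [if_neg (Finset.ne_of_mem_erase hy), if_neg (Finset.ne_of_mem_erase hy)]

end Rect

section Many

variable {V : Type} [Fintype V] [DecidableEq V]

/-- The isometry on all sites. -/
noncomputable def WV (n : ℕ) (V : Type) [Fintype V] :
    Matrix (V × Fin n → Fin (1 + 1)) (V → Fin (n + 1)) ℂ :=
  Matrix.of fun σ τ => ∏ x, W1 n (fun i => σ (x, i)) (τ x)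

/-- Configurations of the copies, site by site. -/
def cu (V : Type) (n : ℕ) : (V × Fin n → Fin (1 + 1)) ≃ (V → Fin n → Fin (1 + 1)) :=
  Equiv.curry V (Fin n) (Fin (1 + 1))

theorem WV_eq (n : ℕ) : WV n V = (prodR fun _ : V => W1 n).submatrix (cu V n) id := rfl

theorem WV_conj_mul (n : ℕ) : (WV n V)ᴴ * WV n V = 1 := by
  rw [WV_eq, Matrix.conjTranspose_submatrix, Matrix.submatrix_mul_equiv, prodR_conjTranspose,
    prodR_mul]
  simp only [W1_conj_mul, prodR_one]
  exact Matrix.submatrix_id_id _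

theorem siteOp_copy (n : ℕ) (x : V) (i : Fin n) (A : Matrix (Fin (1 + 1)) (Fin (1 + 1)) ℂ) :
    siteOpV ((x, i) : V × Fin n) A =
      (prodR fun y : V => if y = x then siteOpV i A else 1).submatrix (cu V n) (cu V n) := by
  ext σ τ
  simp only [siteOpV, prodOp, prodR, Matrix.of_apply, Matrix.submatrix_apply]
  rw [Fintype.prod_prod_type]
  refine Finset.prod_congr rfl fun y _ => ?_
  by_cases hy : y = x
  · subst hy
    rw [if_pos rfl]
    simp only [prodOp, Matrix.of_apply, Prod.mk.injEq, true_and, cu, Equiv.curry_apply,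
      Function.curry]
  · rw [if_neg hy, Matrix.one_apply]
    have h1 : ∀ j : Fin n, (if (y, j) = (x, i) then A else 1) (σ (y, j)) (τ (y, j)) =
        (1 : Matrix (Fin (1 + 1)) (Fin (1 + 1)) ℂ) (σ (y, j)) (τ (y, j)) := by
      intro j
      rw [if_neg (fun h => hy (Prod.mk.inj h).1)]
    rw [Finset.prod_congr rfl fun j _ => h1 j]
    by_cases h : cu V n σ y = cu V n τ y
    · rw [if_pos h]
      refine Finset.prod_eq_one fun j _ => ?_
      have : σ (y, j) = τ (y, j) := congrFun h j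
      rw [this, Matrix.one_apply_eq]
    · rw [if_neg h]
      obtain ⟨j, hj⟩ := Function.ne_iff.mp h
      refine Finset.prod_eq_zero (Finset.mem_univ j) ?_
      exact Matrix.one_apply_ne hj

/-- `∑_i s^a_{(x,i)}`. -/
noncomputable def tot (n : ℕ) (a : Fin 3) (x : V) :
    Matrix (V × Fin n → Fin (1 + 1)) (V × Fin n → Fin (1 + 1)) ℂ :=
  ∑ i : Fin n, siteOpV ((x, i) : V × Fin n) (Model.spin 1 a)

theorem tot_mul (n : ℕ) (a : Fin 3) (x : V) :
    tot n a x * WV n V = WV n V * siteOpV x (Model.spin n a) := by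
  rw [tot, Matrix.sum_mul, WV_eq]
  have h1 : ∀ i : Fin n, siteOpV ((x, i) : V × Fin n) (Model.spin 1 a) *
      (prodR fun _ : V => W1 n).submatrix (cu V n) id =
      (prodR fun y : V => if y = x then siteOpV i (Model.spin 1 a) * W1 n else W1 n).submatrix
        (cu V n) id := by
    intro i
    rw [siteOp_copy, Matrix.submatrix_mul_equiv, prodR_mul]
    congr 2
    funext y
    by_cases hy : y = x
    · rw [if_pos hy, if_pos hy]
    · rw [if_neg hy, if_neg hy, Matrix.one_mul]
  rw [Finset.sum_congr rfl fun i _ => h1 i]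
  have h2 : (∑ i : Fin n,
      (prodR fun y : V => if y = x then siteOpV i (Model.spin 1 a) * W1 n else W1 n).submatrix
        (cu V n) id) =
      (∑ i : Fin n,
        (prodR fun y : V => if y = x then siteOpV i (Model.spin 1 a) * W1 n else W1 n)).submatrix
          (cu V n) id := by
    ext σ τ
    simp [Matrix.sum_apply]
  rw [h2, prodR_sum, ← Matrix.sum_mul, site_spin]
  have h3 : siteOpV x (Model.spin n a) = prodR fun y : V => if y = x then Model.spin n a else 1 :=
    rfl
  rw [h3]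
  have h4 : (prodR fun _ : V => W1 n).submatrix (cu V n) id *
      (prodR fun y : V => if y = x then Model.spin n a else 1) =
      ((prodR fun _ : V => W1 n) *
        (prodR fun y : V => if y = x then Model.spin n a else 1)).submatrix (cu V n) id := by
    ext σ τ
    simp [Matrix.mul_apply]
  rw [h4, prodR_mul]
  congr 2
  funext y
  by_cases hy : y = x
  · rw [if_pos hy, if_pos hy]
  · rw [if_neg hy, if_neg hy, Matrix.mul_one]

/-- The Hamiltonian of the copies. -/
noncomputable def hamC (n : ℕ) (J : V → V → Prop) [DecidableRel J] (h : ℂ) :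
    Matrix (V × Fin n → Fin (1 + 1)) (V × Fin n → Fin (1 + 1)) ℂ :=
  -((1 / 2 : ℂ) • ∑ x : V, ∑ y : V,
      if J x y then ∑ a : Fin 3, tot n a x * tot n a y else 0) - h • ∑ x : V, tot n 2 x

theorem hamC_mul (n : ℕ) (J : V → V → Prop) [DecidableRel J] (h : ℂ) :
    hamC n J h * WV n V =
      WV n V * (Model.hamiltonian n J - h • Model.magnetization n V) := by
  have hs : ∀ (x : V) (A : Matrix (Fin (n + 1)) (Fin (n + 1)) ℂ),
      Model.siteOp x A = siteOpV x A := fun x A => rfl
  rw [hamC, Model.hamiltonian, Model.magnetization]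
  simp only [hs]
  rw [Matrix.sub_mul, Matrix.mul_sub, Matrix.neg_mul, Matrix.mul_neg, Matrix.smul_mul,
    Matrix.mul_smul, Matrix.smul_mul, Matrix.mul_smul, Matrix.sum_mul, Matrix.mul_sum,
    Matrix.sum_mul, Matrix.mul_sum]
  congr 1
  · congr 2
    refine Finset.sum_congr rfl fun x _ => ?_
    rw [Matrix.sum_mul, Matrix.mul_sum]
    refine Finset.sum_congr rfl fun y _ => ?_
    split_ifs
    · rw [Matrix.sum_mul, Matrix.mul_sum]
      refine Finset.sum_congr rfl fun a _ => ?_
      rw [Matrix.mul_assoc, tot_mul, ← Matrix.mul_assoc, tot_mul, Matrix.mul_assoc]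
    · simp
  · congr 1
    refine Finset.sum_congr rfl fun x _ => ?_
    rw [tot_mul]

end Many

section Exp

variable {α β : Type*} [Fintype α] [DecidableEq α] [Fintype β] [DecidableEq β]

theorem exp_intertwine {A : Matrix α α ℂ} {B : Matrix β β ℂ} {W : Matrix α β ℂ}
    (h : A * W = W * B) : NormedSpace.exp A * W = W * NormedSpace.exp B := by
  let _ : NormedRing (Matrix α α ℂ) := Matrix.linftyOpNormedRing
  let _ : NormedAlgebra ℂ (Matrix α α ℂ) := Matrix.linftyOpNormedAlgebra
  let _ : NormedRing (Matrix β β ℂ) := Matrix.linftyOpNormedRing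
  let _ : NormedAlgebra ℂ (Matrix β β ℂ) := Matrix.linftyOpNormedAlgebra
  have hpow : ∀ k : ℕ, A ^ k * W = W * B ^ k := by
    intro k
    induction k with
    | zero => simp
    | succ k ih =>
      rw [pow_succ, Matrix.mul_assoc, h, ← Matrix.mul_assoc, ih, Matrix.mul_assoc, ← pow_succ]
  have hA := NormedSpace.exp_series_hasSum_exp' (𝕂 := ℂ) A
  have hB := NormedSpace.exp_series_hasSum_exp' (𝕂 := ℂ) B
  have h1 : HasSum (fun k : ℕ => ((k.factorial : ℂ)⁻¹ • A ^ k) * W) (NormedSpace.exp A * W) := by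
    let φ : Matrix α α ℂ →+ Matrix α β ℂ :=
      { toFun := fun M => M * W, map_zero' := Matrix.zero_mul W,
        map_add' := fun M N => Matrix.add_mul M N W }
    exact hA.map φ (continuous_id.matrix_mul continuous_const)
  have h2 : HasSum (fun k : ℕ => W * ((k.factorial : ℂ)⁻¹ • B ^ k)) (W * NormedSpace.exp B) := by
    let φ : Matrix β β ℂ →+ Matrix α β ℂ :=
      { toFun := fun M => W * M, map_zero' := Matrix.mul_zero W,
        map_add' := fun M N => Matrix.mul_add W M N }
    exact hB.map φ (continuous_const.matrix_mul continuous_id)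
  refine h1.unique ?_
  have h3 : (fun k : ℕ => ((k.factorial : ℂ)⁻¹ • A ^ k) * W) =
      fun k : ℕ => W * ((k.factorial : ℂ)⁻¹ • B ^ k) := by
    funext k
    rw [Matrix.smul_mul, Matrix.mul_smul, hpow]
  rw [h3]
  exact h2

theorem trace_exp_bridge {A : Matrix α α ℂ} {B : Matrix β β ℂ} {W : Matrix α β ℂ}
    (h : A * W = W * B) (hW : Wᴴ * W = 1) :
    Matrix.trace (NormedSpace.exp B) = Matrix.trace (NormedSpace.exp A * (W * Wᴴ)) := by
  have h1 := exp_intertwine h
  calc Matrix.trace (NormedSpace.exp B)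
      = Matrix.trace ((Wᴴ * W) * NormedSpace.exp B) := by rw [hW, Matrix.one_mul]
    _ = Matrix.trace (Wᴴ * (NormedSpace.exp A * W)) := by rw [Matrix.mul_assoc, h1]
    _ = Matrix.trace (NormedSpace.exp A * W * Wᴴ) := by rw [Matrix.trace_mul_comm]
    _ = Matrix.trace (NormedSpace.exp A * (W * Wᴴ)) := by rw [Matrix.mul_assoc]

end Exp

section Pi

variable {V : Type} [Fintype V] [DecidableEq V]

/-- The symmetriser at one site. -/
noncomputable def sym1 (n : ℕ) : Matrix (Fin n → Fin (1 + 1)) (Fin n → Fin (1 + 1)) ℂ :=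
  Matrix.of fun s t => if dn s = dn t then ((n.choose (dn s) : ℂ))⁻¹ else 0

theorem W1_mul_conj (n : ℕ) : W1 n * (W1 n)ᴴ = sym1 n := by
  ext s t
  rw [Matrix.mul_apply]
  simp only [W1, sym1, Matrix.conjTranspose_apply, Matrix.of_apply]
  by_cases h : dn s = dn t
  · rw [if_pos h]
    have hs := dn_le s
    rw [Finset.sum_eq_single (⟨dn s, by omega⟩ : Fin (n + 1))]
    · rw [if_pos rfl, if_pos h.symm]
      have hc : ∀ r : ℝ, star (r : ℂ) = (r : ℂ) := Complex.conj_ofReal
      have h1 : (0 : ℝ) < (n.choose (dn s) : ℝ) := by exact_mod_cast Nat.choose_pos hs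
      rw [hc, ← Complex.ofReal_mul, ← mul_inv, Real.mul_self_sqrt h1.le]
      push_cast
      rfl
    · intro b _ hb
      have : ¬ dn s = (b : ℕ) := fun hh => hb (Fin.ext (by simp [hh]))
      rw [if_neg this, zero_mul]
    · intro hh; exact absurd (Finset.mem_univ _) hh
  · rw [if_neg h]
    refine Finset.sum_eq_zero fun b _ => ?_
    by_cases hb : dn s = (b : ℕ)
    · have : ¬ dn t = (b : ℕ) := fun hh => h (hb.trans hh.symm)
      rw [if_neg this, star_zero, mul_zero]
    · rw [if_neg hb, zero_mul]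

/-- The symmetriser at all sites. -/
noncomputable def symV (n : ℕ) (V : Type) [Fintype V] :
    Matrix (V × Fin n → Fin (1 + 1)) (V × Fin n → Fin (1 + 1)) ℂ :=
  Matrix.of fun σ τ => ∏ x : V, sym1 n (fun i => σ (x, i)) (fun i => τ (x, i))

theorem WV_mul_conj (n : ℕ) : WV n V * (WV n V)ᴴ = symV n V := by
  rw [WV_eq, Matrix.conjTranspose_submatrix, prodR_conjTranspose]
  have h4 : (prodR fun _ : V => W1 n).submatrix (cu V n) id *
      (prodR fun _ : V => (W1 n)ᴴ).submatrix id (cu V n) =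
      ((prodR fun _ : V => W1 n) * (prodR fun _ : V => (W1 n)ᴴ)).submatrix (cu V n) (cu V n) := by
    ext σ τ
    simp [Matrix.mul_apply]
  rw [h4, prodR_mul]
  simp only [W1_mul_conj]
  rfl

/-- **The bridge**: partition function of spin `n / 2` as a symmetrised trace over `n` copies of
spin `1 / 2`. -/
theorem trace_exp_spin (n : ℕ) (J : V → V → Prop) [DecidableRel J] (β h : ℝ) :
    Matrix.trace (NormedSpace.exp
      (-(β : ℂ) • (Model.hamiltonian n J - (h : ℂ) • Model.magnetization n V))) =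
    Matrix.trace (NormedSpace.exp (-(β : ℂ) • hamC n J (h : ℂ)) * symV n V) := by
  rw [← WV_mul_conj]
  refine trace_exp_bridge ?_ (WV_conj_mul n)
  rw [Matrix.smul_mul, Matrix.mul_smul, hamC_mul]

end Pi

end Vale.Agent.P361.LRO.GenS
end

section

/-!
P361, general spin: the symmetriser of `m` copies is exactly a finite product of exchange gates
`(1 - p) + p P_{ij}` with `p = 1 / (j - i + 1) ≤ 1/2` (fusion formula).
-/

namespace Vale.Agent.P361.LRO.GenS

open Finset Matrix Equiv

noncomputable section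

/-! ### The fusion formula in an algebra -/

section Alg

variable {A : Type*} [Ring A] [Algebra ℝ A] {ι : Type*} [DecidableEq ι]

/-- The gate `(1 - p) + p U(x y)`. -/
def gU (U : Perm ι →* A) (e : ι × ι × ℝ) : A :=
  (1 - e.2.2) • (1 : A) + e.2.2 • U (swap e.1 e.2.1)

/-- Fusion list: for `j < m`, for `i < j`, the gate `(c i, c j, 1 / (j - i + 1))`. -/
def fusL (c : ℕ → ι) : ℕ → List (ι × ι × ℝ)
  | 0 => []
  | (j + 1) => fusL c j ++ (List.range j).map fun i => (c i, c j, 1 / ((j : ℝ) - i + 1))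

omit [DecidableEq ι] in
theorem fusL_mem (c : ℕ → ι) (m : ℕ) {e : ι × ι × ℝ} (he : e ∈ fusL c m) :
    ∃ i j : ℕ, i < j ∧ j < m ∧ e = (c i, c j, 1 / ((j : ℝ) - i + 1)) := by
  induction m with
  | zero => simp [fusL] at he
  | succ m ih =>
    rw [fusL, List.mem_append] at he
    rcases he with he | he
    · obtain ⟨i, j, h1, h2, h3⟩ := ih he
      exact ⟨i, j, h1, by omega, h3⟩
    · rw [List.mem_map] at he
      obtain ⟨i, hi, rfl⟩ := he
      exact ⟨i, m, List.mem_range.1 hi, by omega, rfl⟩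

omit [DecidableEq ι] in
theorem fusL_p (c : ℕ → ι) (m : ℕ) : ∀ e ∈ fusL c m, 0 ≤ e.2.2 ∧ e.2.2 ≤ 1 / 2 := by
  intro e he
  obtain ⟨i, j, h1, h2, rfl⟩ := fusL_mem c m he
  have h : (1 : ℝ) ≤ (j : ℝ) - i := by
    have : ((i + 1 : ℕ) : ℝ) ≤ (j : ℝ) := by exact_mod_cast h1
    push_cast at this
    linarith
  dsimp only
  constructor
  · positivity
  · rw [div_le_div_iff₀ (by linarith) (by norm_num)]
    linarith

variable (U : Perm ι →* A) (c : ℕ → ι)

/-- stage: multiplication of `P` with the gates `(i j)`, `i < l`. -/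
theorem stage {j : ℕ} (hc : ∀ i k, i ≤ j → k ≤ j → c i = c k → i = k) (P : A)
    (hP : ∀ i k, i < j → k < j → P * U (swap (c i) (c k)) = P) (l : ℕ) (hl : l ≤ j) :
    P * (((List.range l).map fun i => (c i, c j, 1 / ((j : ℝ) - i + 1))).map (gU U)).prod
      = (((j : ℝ) - l + 1) / (j + 1)) • P
          + (1 / ((j : ℝ) + 1)) • (P * ∑ i ∈ range l, U (swap (c i) (c j))) := by
  have hj1 : (0 : ℝ) < (j : ℝ) + 1 := by positivity
  induction l with
  | zero =>
    have : ((j : ℝ) - ((0 : ℕ) : ℝ) + 1) / (j + 1) = 1 := by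
      push_cast
      rw [sub_zero, div_self hj1.ne']
    rw [this]
    simp
  | succ l ih =>
    have ihl := ih (by omega)
    rw [List.range_succ, List.map_append, List.map_append, List.prod_append, ← mul_assoc, ihl]
    simp only [List.map_cons, List.map_nil, List.prod_cons, List.prod_nil, mul_one]
    have hjl : (0 : ℝ) < (j : ℝ) - l + 1 := by
      have : ((l + 1 : ℕ) : ℝ) ≤ (j : ℝ) := by exact_mod_cast hl
      push_cast at this
      linarith
    set Y : A := U (swap (c l) (c j)) with hY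
    set X : A := ∑ i ∈ range l, U (swap (c i) (c j)) with hX
    have hXY : P * X * Y = P * X := by
      rw [hX, Finset.mul_sum, Finset.sum_mul]
      refine sum_congr rfl fun i hi => ?_
      have hi' := mem_range.1 hi
      have e1 : swap (c i) (c j) * swap (c l) (c j) = swap (c i) (c l) * swap (c i) (c j) := by
        rw [Equiv.mul_swap_eq_swap_mul, Equiv.swap_apply_right, Equiv.swap_apply_of_ne_of_ne,
          Equiv.swap_comm (c l) (c i)]
        · intro h; have := hc l i (by omega) (by omega) h; omega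
        · intro h; have := hc l j (by omega) (by omega) h; omega
      rw [mul_assoc, hY, ← map_mul, e1, map_mul, ← mul_assoc, hP i l (by omega) (by omega)]
    rw [gU]
    dsimp only
    rw [sum_range_succ, ← hX, ← hY]
    have e2 : (((j : ℝ) - l + 1) / (j + 1)) • P * ((1 - 1 / ((j : ℝ) - l + 1)) • (1 : A)
          + (1 / ((j : ℝ) - l + 1)) • Y)
        = (((j : ℝ) - ((l + 1 : ℕ) : ℝ) + 1) / (j + 1)) • P + (1 / ((j : ℝ) + 1)) • (P * Y) := by
      rw [mul_add, mul_smul_comm, mul_one, smul_smul, mul_smul_comm, smul_mul_assoc, smul_smul]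
      congr 2
      · push_cast
        field_simp
        ring
      · field_simp
    have e3 : (1 / ((j : ℝ) + 1)) • (P * X) * ((1 - 1 / ((j : ℝ) - l + 1)) • (1 : A)
          + (1 / ((j : ℝ) - l + 1)) • Y) = (1 / ((j : ℝ) + 1)) • (P * X) := by
      rw [mul_add, mul_smul_comm, mul_one, smul_smul, mul_smul_comm, smul_mul_assoc, smul_smul,
        hXY, ← add_smul]
      congr 1
      ring
    rw [add_mul, e2, e3, mul_add, smul_add]
    abel

omit [Algebra ℝ A] in
/-- One more copy: if `P` absorbs the exchanges of the copies `< j`, then `P (1 + Σ (i j))` absorbs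
the exchanges of the copies `≤ j`. -/
theorem absorb_succ {j : ℕ} (hc : ∀ i k, i ≤ j → k ≤ j → c i = c k → i = k) (P : A)
    (hP : ∀ i k, i < j → k < j → P * U (swap (c i) (c k)) = P) (k l : ℕ) (hk : k ≤ j)
    (hl : l ≤ j) :
    (P + P * ∑ i ∈ range j, U (swap (c i) (c j))) * U (swap (c k) (c l))
      = P + P * ∑ i ∈ range j, U (swap (c i) (c j)) := by
  -- the case `l = j`
  have key : ∀ k, k < j → (P + P * ∑ i ∈ range j, U (swap (c i) (c j))) * U (swap (c k) (c j))
      = P + P * ∑ i ∈ range j, U (swap (c i) (c j)) := by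
    intro k hk
    have hkr : k ∈ range j := mem_range.2 hk
    rw [add_mul, ← Finset.add_sum_erase _ _ hkr, mul_add, add_mul]
    have h1 : P * U (swap (c k) (c j)) * U (swap (c k) (c j)) = P := by
      rw [mul_assoc, ← map_mul, Equiv.swap_mul_self, map_one, mul_one]
    have h2 : P * ∑ i ∈ (range j).erase k, U (swap (c i) (c j)) * U (swap (c k) (c j))
        = P * ∑ i ∈ (range j).erase k, U (swap (c i) (c j)) := by
      rw [Finset.mul_sum, Finset.mul_sum]
      refine sum_congr rfl fun i hi => ?_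
      have hi' := mem_range.1 (mem_of_mem_erase hi)
      have hik : i ≠ k := (mem_erase.1 hi).1
      have e1 : swap (c i) (c j) * swap (c k) (c j) = swap (c i) (c k) * swap (c i) (c j) := by
        rw [Equiv.mul_swap_eq_swap_mul, Equiv.swap_apply_right, Equiv.swap_apply_of_ne_of_ne,
          Equiv.swap_comm (c k) (c i)]
        · intro h; have := hc k i (by omega) (by omega) h; omega
        · intro h; have := hc k j (by omega) (by omega) h; omega
      rw [← map_mul, e1, map_mul, ← mul_assoc, hP i k (by omega) (by omega)]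
    rw [h1, mul_assoc P _ (U (swap (c k) (c j))), Finset.sum_mul, h2]
    abel
  have key2 : ∀ k l, k < j → l < j →
      (P + P * ∑ i ∈ range j, U (swap (c i) (c j))) * U (swap (c k) (c l))
      = P + P * ∑ i ∈ range j, U (swap (c i) (c j)) := by
    intro k l hk hl
    rw [add_mul, hP k l hk hl, mul_assoc]
    congr 1
    have e : (∑ i ∈ range j, U (swap (c i) (c j))) * U (swap (c k) (c l))
        = U (swap (c k) (c l)) * ∑ i ∈ range j, U (swap (c (swap k l i)) (c j)) := by
      rw [Finset.sum_mul, Finset.mul_sum]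
      refine sum_congr rfl fun i hi => ?_
      have hi' := mem_range.1 hi
      rw [← map_mul, ← map_mul]
      congr 1
      have hcc : swap (c k) (c l) (c (swap k l i)) = c i := by
        rcases eq_or_ne i k with rfl | hik
        · rw [Equiv.swap_apply_left, Equiv.swap_apply_right]
        · rcases eq_or_ne i l with rfl | hil
          · rw [Equiv.swap_apply_right, Equiv.swap_apply_left]
          · rw [Equiv.swap_apply_of_ne_of_ne hik hil, Equiv.swap_apply_of_ne_of_ne]
            · intro h; exact hik (hc i k (by omega) (by omega) h)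
            · intro h; exact hil (hc i l (by omega) (by omega) h)
      have hcj : swap (c k) (c l) (c j) = c j := by
        rw [Equiv.swap_apply_of_ne_of_ne]
        · intro h; have := hc j k (by omega) (by omega) h; omega
        · intro h; have := hc j l (by omega) (by omega) h; omega
      rw [Equiv.mul_swap_eq_swap_mul (swap (c k) (c l)) (c (swap k l i)) (c j), hcc, hcj]
    rw [e, ← mul_assoc, hP k l hk hl]
    congr 1
    refine Finset.sum_nbij' (fun i => swap k l i) (fun i => swap k l i) ?_ ?_ ?_ ?_ ?_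
    · intro i hi
      rw [mem_range] at hi ⊢
      rcases eq_or_ne i k with rfl | hik
      · rwa [Equiv.swap_apply_left]
      · rcases eq_or_ne i l with rfl | hil
        · rwa [Equiv.swap_apply_right]
        · rwa [Equiv.swap_apply_of_ne_of_ne hik hil]
    · intro i hi
      rw [mem_range] at hi ⊢
      rcases eq_or_ne i k with rfl | hik
      · rwa [Equiv.swap_apply_left]
      · rcases eq_or_ne i l with rfl | hil
        · rwa [Equiv.swap_apply_right]
        · rwa [Equiv.swap_apply_of_ne_of_ne hik hil]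
    · intro i _
      exact Equiv.swap_apply_self k l i
    · intro i _
      exact Equiv.swap_apply_self k l i
    · intro i _
      rfl
  rcases lt_or_eq_of_le hk with hk | rfl
  · rcases lt_or_eq_of_le hl with hl | rfl
    · exact key2 k l hk hl
    · exact key k hk
  · rcases lt_or_eq_of_le hl with hl | rfl
    · rw [Equiv.swap_comm]
      exact key l hl
    · rw [Equiv.swap_self]
      have : (Equiv.refl ι : Perm ι) = 1 := rfl
      rw [this, map_one, mul_one]

/-- The product of the fusion list absorbs the exchanges of all copies. -/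
theorem fus_absorb (m : ℕ) (hc : ∀ i k, i < m → k < m → c i = c k → i = k) (k l : ℕ)
    (hk : k < m) (hl : l < m) :
    ((fusL c m).map (gU U)).prod * U (swap (c k) (c l)) = ((fusL c m).map (gU U)).prod := by
  induction m generalizing k l with
  | zero => omega
  | succ j ih =>
    have ihj : ∀ i k, i < j → k < j →
        ((fusL c j).map (gU U)).prod * U (swap (c i) (c k)) = ((fusL c j).map (gU U)).prod :=
      fun i k hi hk => ih (fun a b ha hb => hc a b (by omega) (by omega)) i k hi hk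
    have hc' : ∀ i k, i ≤ j → k ≤ j → c i = c k → i = k :=
      fun i k hi hk => hc i k (by omega) (by omega)
    have hst := stage U c hc' _ ihj j le_rfl
    rw [fusL, List.map_append, List.prod_append, hst]
    have e : ((j : ℝ) - j + 1) / (j + 1) = 1 / ((j : ℝ) + 1) := by ring
    rw [e, ← smul_add, smul_mul_assoc, absorb_succ U c hc' _ ihj k l (by omega) (by omega)]

end Alg

/-! ### Matrices -/

section Mat

variable {ι : Type} [Fintype ι] [DecidableEq ι]

/-- The permutation matrix on configurations, `U g σ τ = 1` iff `σ ∘ g = τ`. -/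
def permU : Perm ι →* Matrix (ι → Fin 2) (ι → Fin 2) ℝ where
  toFun g := Matrix.of fun σ τ => if σ ∘ g = τ then 1 else 0
  map_one' := by
    ext σ τ
    simp [Matrix.one_apply]
  map_mul' g h := by
    ext σ τ
    simp only [Matrix.mul_apply, Matrix.of_apply, Equiv.Perm.coe_mul]
    rw [Finset.sum_eq_single (σ ∘ g)]
    · rw [if_pos rfl, one_mul]
      rfl
    · intro ρ _ hρ
      rw [if_neg (Ne.symm hρ), zero_mul]
    · intro h
      exact absurd (mem_univ _) h

theorem permU_apply (g : Perm ι) (σ τ : ι → Fin 2) :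
    permU g σ τ = if σ ∘ g = τ then 1 else 0 := rfl

theorem permU_swap (x y : ι) : permU (swap x y) = swapM x y := by
  ext σ τ
  rw [permU_apply, swapM, Matrix.of_apply]
  congr 1
  apply propext
  constructor
  · rintro rfl
    funext z
    simp
  · rintro rfl
    funext z
    simp

/-- The gate `(1 - p) + p P_{xy}` as a matrix. -/
def gM (e : ι × ι × ℝ) : Matrix (ι → Fin 2) (ι → Fin 2) ℝ :=
  (1 - e.2.2) • (1 : Matrix (ι → Fin 2) (ι → Fin 2) ℝ) + e.2.2 • swapM e.1 e.2.1

theorem gU_permU (e : ι × ι × ℝ) : gU permU e = gM e := by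
  rw [gU, gM, permU_swap]

theorem mul_swapM_apply (P : Matrix (ι → Fin 2) (ι → Fin 2) ℝ) (x y : ι) (σ τ : ι → Fin 2) :
    (P * swapM x y) σ τ = P σ (τ ∘ swap x y) := by
  rw [← permU_swap, Matrix.mul_apply, Finset.sum_eq_single (τ ∘ swap x y)]
  · rw [permU_apply, if_pos, mul_one]
    funext z
    simp
  · intro ρ _ hρ
    rw [permU_apply, if_neg, mul_zero]
    rintro rfl
    apply hρ
    funext z
    simp
  · intro h
    exact absurd (mem_univ _) h

theorem swapM_mul_apply (P : Matrix (ι → Fin 2) (ι → Fin 2) ℝ) (x y : ι) (σ τ : ι → Fin 2) :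
    (swapM x y * P) σ τ = P (σ ∘ swap x y) τ := by
  rw [← permU_swap, Matrix.mul_apply, Finset.sum_eq_single (σ ∘ swap x y)]
  · rw [permU_apply, if_pos rfl, one_mul]
  · intro ρ _ hρ
    rw [permU_apply, if_neg (Ne.symm hρ), zero_mul]
  · intro h
    exact absurd (mem_univ _) h

end Mat

/-! ### Copies -/

section Copies

variable {V : Type} [Fintype V] [DecidableEq V] {m : ℕ} [NeZero m]

/-- The gates of the symmetriser: sites in some order, at each site the fusion list. -/
def symGates (V : Type) [Fintype V] [DecidableEq V] (m : ℕ) [NeZero m] :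
    List ((V × Fin m) × (V × Fin m) × ℝ) :=
  ((Finset.univ : Finset V).toList).flatMap fun x => fusL (fun i => (x, Fin.ofNat m i)) m

theorem symGates_p : ∀ e ∈ symGates V m, 0 ≤ e.2.2 ∧ e.2.2 ≤ 1 / 2 := by
  intro e he
  rw [symGates, List.mem_flatMap] at he
  obtain ⟨x, -, hx⟩ := he
  exact fusL_p _ _ e hx

theorem symGates_site : ∀ e ∈ symGates V m, e.1.1 = e.2.1.1 := by
  intro e he
  rw [symGates, List.mem_flatMap] at he
  obtain ⟨x, -, hx⟩ := he
  obtain ⟨i, j, h1, h2, rfl⟩ := fusL_mem _ m hx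
  rfl

/-- The product of the gates of the symmetriser. -/
def symProd (V : Type) [Fintype V] [DecidableEq V] (m : ℕ) [NeZero m] :
    Matrix (V × Fin m → Fin 2) (V × Fin m → Fin 2) ℝ :=
  ((symGates V m).map gM).prod

omit [NeZero m] in
theorem flat_prod (l : List V) (f : V → List ((V × Fin m) × (V × Fin m) × ℝ)) :
    ((l.flatMap f).map gM).prod = (l.map fun x => ((f x).map gM).prod).prod := by
  induction l with
  | nil => simp
  | cons a l ih => simp [List.prod_append, ih]

/-- The symmetriser absorbs the exchange of two copies of a site. -/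
theorem symProd_mul_swapM (x : V) (a b : Fin m) :
    symProd V m * swapM (x, a) (x, b) = symProd V m := by
  have hfus : ((fusL (fun i => (x, Fin.ofNat m i)) m).map gM).prod * swapM (x, a) (x, b)
      = ((fusL (fun i => (x, Fin.ofNat m i)) m).map gM).prod := by
    have h := fus_absorb (permU (ι := V × Fin m)) (fun i => (x, Fin.ofNat m i)) m
      (by
        intro i k hi hk h
        have h2 := congrArg (fun z : V × Fin m => (z.2 : ℕ)) h
        simpa [Fin.ofNat, Nat.mod_eq_of_lt hi, Nat.mod_eq_of_lt hk] using h2)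
      a b a.2 b.2
    have e1 : (gU (permU (ι := V × Fin m))) = gM := by
      funext e
      exact gU_permU e
    rw [e1, permU_swap] at h
    simpa using h
  have hcomm : ∀ y : V, y ≠ x →
      Commute (((fusL (fun i => (y, Fin.ofNat m i)) m).map gM).prod) (swapM (x, a) (x, b)) := by
    intro y hy
    refine List.prod_induction (fun M => Commute M (swapM (x, a) (x, b))) (fun A B hA hB => ?_)
      (Commute.one_left _) ?_
    · exact Commute.mul_left hA hB
    · intro M hM
      rw [List.mem_map] at hM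
      obtain ⟨e, he, rfl⟩ := hM
      obtain ⟨i, j, h1, h2, rfl⟩ := fusL_mem _ m he
      rw [gM]
      refine Commute.add_left ((Commute.one_left _).smul_left _) (Commute.smul_left ?_ _)
      rw [← permU_swap, ← permU_swap]
      have : Commute (swap (y, Fin.ofNat m i) (y, Fin.ofNat m j)) (swap (x, a) (x, b)) := by
        apply Equiv.Perm.Disjoint.commute
        intro z
        by_cases hz : z.1 = x
        · left
          rw [Equiv.swap_apply_of_ne_of_ne]
          · rintro rfl
            exact hy hz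
          · rintro rfl
            exact hy hz
        · right
          rw [Equiv.swap_apply_of_ne_of_ne]
          · rintro rfl
            exact hz rfl
          · rintro rfl
            exact hz rfl
      exact this.map permU
  rw [symProd, symGates, flat_prod]
  have hnd : ((Finset.univ : Finset V).toList).Nodup := Finset.nodup_toList _
  have hx : x ∈ (Finset.univ : Finset V).toList := by simp
  generalize (Finset.univ : Finset V).toList = l at hnd hx
  induction l with
  | nil => simp at hx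
  | cons y l ih =>
    rw [List.map_cons, List.prod_cons]
    rw [List.nodup_cons] at hnd
    by_cases hxl : x ∈ l
    · rw [mul_assoc, ih hnd.2 hxl]
    · have hyx : x = y := by
        rcases List.mem_cons.1 hx with h | h
        · exact h
        · exact absurd h hxl
      subst hyx
      have hc : Commute ((l.map fun x => ((fusL (fun i => (x, Fin.ofNat m i)) m).map gM).prod).prod)
          (swapM (x, a) (x, b)) := by
        refine List.prod_induction (fun M => Commute M (swapM (x, a) (x, b)))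
          (fun A B hA hB => Commute.mul_left hA hB) (Commute.one_left _) ?_
        intro M hM
        rw [List.mem_map] at hM
        obtain ⟨y, hy, rfl⟩ := hM
        exact hcomm y (by rintro rfl; exact hxl hy)
      rw [mul_assoc, hc.eq, ← mul_assoc, hfus]

/-- Every gate with the two copies at the same site is absorbed. -/
theorem symProd_mul_gM {e : (V × Fin m) × (V × Fin m) × ℝ} (he : e.1.1 = e.2.1.1) :
    symProd V m * gM e = symProd V m := by
  obtain ⟨⟨x, a⟩, ⟨y, b⟩, p⟩ := e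
  dsimp only at he
  subst he
  rw [gM, mul_add, mul_smul_comm, mul_one, mul_smul_comm]
  dsimp only
  rw [symProd_mul_swapM, ← add_smul]
  simp

theorem symProd_mul_list (l : List ((V × Fin m) × (V × Fin m) × ℝ))
    (hl : ∀ e ∈ l, e.1.1 = e.2.1.1) : symProd V m * (l.map gM).prod = symProd V m := by
  induction l with
  | nil => simp
  | cons e l ih =>
    rw [List.map_cons, List.prod_cons, ← mul_assoc, symProd_mul_gM (hl e (by simp)),
      ih fun e he => hl e (by simp [he])]

theorem symProd_sq : symProd V m * symProd V m = symProd V m :=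
  symProd_mul_list _ symGates_site

/-- Everything which commutes with the exchanges of two copies of a site commutes with the
symmetriser. -/
theorem symProd_comm (B : Matrix (V × Fin m → Fin 2) (V × Fin m → Fin 2) ℝ)
    (hB : ∀ (x : V) (a b : Fin m), Commute (swapM (x, a) (x, b)) B) :
    Commute (symProd V m) B := by
  rw [symProd]
  refine List.prod_induction (fun M => Commute M B) (fun A B hA hB => Commute.mul_left hA hB)
    (Commute.one_left _) ?_
  intro M hM
  rw [List.mem_map] at hM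
  obtain ⟨e, he, rfl⟩ := hM
  have hs := symGates_site e he
  obtain ⟨⟨x, a⟩, ⟨y, b⟩, p⟩ := e
  dsimp only at hs
  subst hs
  rw [gM]
  exact Commute.add_left ((Commute.one_left _).smul_left _) (Commute.smul_left (hB _ _ _) _)

/-- Number of copies at `x` which are down. -/
def cnt (σ : V × Fin m → Fin 2) (x : V) : ℕ := #{a : Fin m | σ (x, a) = 1}

omit [Fintype V] [NeZero m] in
theorem cnt_swap (σ : V × Fin m → Fin 2) (x : V) (a b : Fin m) (y : V) :
    cnt (σ ∘ swap (x, a) (x, b)) y = cnt σ y := by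
  unfold cnt
  by_cases hy : y = x
  · subst hy
    refine Finset.card_nbij' (fun c => swap a b c) (fun c => swap a b c) ?_ ?_ ?_ ?_
    · intro c hc
      rw [mem_coe, mem_filter] at hc ⊢
      refine ⟨mem_univ _, ?_⟩
      rw [← hc.2]
      simp only [Function.comp_apply]
      congr 1
      rcases eq_or_ne c a with rfl | hca
      · rw [Equiv.swap_apply_left, Equiv.swap_apply_left]
      · rcases eq_or_ne c b with rfl | hcb
        · rw [Equiv.swap_apply_right, Equiv.swap_apply_right]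
        · rw [Equiv.swap_apply_of_ne_of_ne hca hcb, Equiv.swap_apply_of_ne_of_ne]
          · simpa using hca
          · simpa using hcb
    · intro c hc
      rw [mem_coe, mem_filter] at hc ⊢
      refine ⟨mem_univ _, ?_⟩
      rw [← hc.2]
      simp only [Function.comp_apply]
      congr 1
      rcases eq_or_ne c a with rfl | hca
      · rw [Equiv.swap_apply_left, Equiv.swap_apply_right]
      · rcases eq_or_ne c b with rfl | hcb
        · rw [Equiv.swap_apply_right, Equiv.swap_apply_left]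
        · rw [Equiv.swap_apply_of_ne_of_ne hca hcb, Equiv.swap_apply_of_ne_of_ne]
          · simpa using hca
          · simpa using hcb
    · intro c _
      exact Equiv.swap_apply_self a b c
    · intro c _
      exact Equiv.swap_apply_self a b c
  · congr 1
    refine filter_congr fun c _ => ?_
    rw [Function.comp_apply, Equiv.swap_apply_of_ne_of_ne]
    · rintro h
      exact hy (congrArg Prod.fst h)
    · rintro h
      exact hy (congrArg Prod.fst h)

omit [NeZero m] in
/-- A product of gates inside the sites conserves the counts. -/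
theorem list_supp (l : List ((V × Fin m) × (V × Fin m) × ℝ)) (hl : ∀ e ∈ l, e.1.1 = e.2.1.1)
    (σ τ : V × Fin m → Fin 2) (h : cnt σ ≠ cnt τ) : (l.map gM).prod σ τ = 0 := by
  induction l generalizing σ with
  | nil =>
    rw [List.map_nil, List.prod_nil, Matrix.one_apply, if_neg]
    rintro rfl
    exact h rfl
  | cons e l ih =>
    have he := hl e (by simp)
    obtain ⟨⟨x, a⟩, ⟨y, b⟩, p⟩ := e
    dsimp only at he
    subst he
    have ih' := fun σ h => ih (fun e he => hl e (by simp [he])) σ h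
    rw [List.map_cons, List.prod_cons, gM, add_mul, smul_mul_assoc, one_mul, smul_mul_assoc,
      Matrix.add_apply, Matrix.smul_apply, Matrix.smul_apply, swapM_mul_apply, ih' σ h, ih']
    · simp
    · intro h2
      apply h
      rw [← h2]
      funext y
      exact (cnt_swap σ x a b y).symm

omit [NeZero m] in
/-- Row sums of a product of gates. -/
theorem list_row (l : List ((V × Fin m) × (V × Fin m) × ℝ)) (σ : V × Fin m → Fin 2) :
    ∑ τ, (l.map gM).prod σ τ = 1 := by
  induction l generalizing σ with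
  | nil =>
    simp [Matrix.one_apply]
  | cons e l ih =>
    simp only [List.map_cons, List.prod_cons, gM, add_mul, smul_mul_assoc, one_mul,
      Matrix.add_apply, Matrix.smul_apply, swapM_mul_apply, Finset.sum_add_distrib, smul_eq_mul,
      ← Finset.mul_sum, ih]
    ring

/-- The entries of the symmetriser depend only on the counts of the column. -/
theorem symProd_const (σ : V × Fin m → Fin 2) : ∀ (d : ℕ) (τ τ' : V × Fin m → Fin 2),
    #{z | τ z ≠ τ' z} = d → cnt τ = cnt τ' → symProd V m σ τ = symProd V m σ τ' := by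
  intro d
  induction d using Nat.strong_induction_on with
  | _ d ih =>
    intro τ τ' hd hc
    by_cases h0 : τ = τ'
    · rw [h0]
    · obtain ⟨⟨x, a⟩, hxa⟩ := Function.ne_iff.1 h0
      -- there is `b` with the opposite difference
      have hb : ∃ b, τ (x, b) = τ' (x, a) ∧ τ' (x, b) = τ (x, a) := by
        by_contra hcon
        push Not at hcon
        have hcx : cnt τ x = cnt τ' x := by rw [hc]
        unfold cnt at hcx
        have h2 : ∀ u v : Fin 2, u ≠ v → (u = 0 ∧ v = 1) ∨ (u = 1 ∧ v = 0) := by decide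
        rcases h2 _ _ hxa with ⟨h3, h4⟩ | ⟨h3, h4⟩
        · -- τ (x,a) = 0, τ' (x,a) = 1
          have hsub : ({c : Fin m | τ (x, c) = 1} : Finset (Fin m))
              ⊂ ({c : Fin m | τ' (x, c) = 1} : Finset (Fin m)) := by
            rw [Finset.ssubset_iff_of_subset]
            · refine ⟨a, ?_, ?_⟩
              · simp [h4]
              · simp [h3]
            · intro c hcm
              rw [mem_filter] at hcm ⊢
              refine ⟨mem_univ _, ?_⟩
              have h5 := hcon c (by rw [hcm.2, h4])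
              rw [h3] at h5
              by_contra h6
              have : ∀ u : Fin 2, u ≠ 1 → u = 0 := by decide
              exact h5 (this _ h6)
          exact absurd hcx (Finset.card_lt_card hsub).ne
        · have hsub : ({c : Fin m | τ' (x, c) = 1} : Finset (Fin m))
              ⊂ ({c : Fin m | τ (x, c) = 1} : Finset (Fin m)) := by
            rw [Finset.ssubset_iff_of_subset]
            · refine ⟨a, ?_, ?_⟩
              · simp [h3]
              · simp [h4]
            · intro c hcm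
              rw [mem_filter] at hcm ⊢
              refine ⟨mem_univ _, ?_⟩
              by_contra h6
              have : ∀ u : Fin 2, u ≠ 1 → u = 0 := by decide
              have h5 := hcon c (by rw [h4]; exact this _ h6)
              rw [h3] at h5
              exact h5 hcm.2
          exact absurd hcx (Finset.card_lt_card hsub).ne'
      obtain ⟨b, hb1, hb2⟩ := hb
      have hstep : symProd V m σ τ = symProd V m σ (τ ∘ swap (x, a) (x, b)) := by
        have h := mul_swapM_apply (symProd V m) (x, a) (x, b) σ τ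
        rw [symProd_mul_swapM] at h
        exact h
      rw [hstep]
      refine ih #{z | (τ ∘ swap (x, a) (x, b)) z ≠ τ' z} ?_ _ _ rfl ?_
      · rw [← hd]
        apply Finset.card_lt_card
        rw [Finset.ssubset_iff_of_subset]
        · refine ⟨(x, a), ?_, ?_⟩
          · simpa using hxa
          · simp [hb1]
        · intro z hz
          rw [mem_filter] at hz ⊢
          refine ⟨mem_univ _, ?_⟩
          have hz2 := hz.2
          rw [Function.comp_apply] at hz2
          rcases eq_or_ne z (x, a) with rfl | h1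
          · exact hxa
          · rcases eq_or_ne z (x, b) with rfl | h2
            · rw [Equiv.swap_apply_right] at hz2
              exact absurd hb2.symm hz2
            · rwa [Equiv.swap_apply_of_ne_of_ne h1 h2] at hz2
      · rw [← hc]
        funext y
        exact cnt_swap τ x a b y

/-- The number of configurations of `m` copies with `k` downs. -/
theorem card_one (m k : ℕ) : #{f : Fin m → Fin 2 | #{a | f a = 1} = k} = m.choose k := by
  have h := Finset.card_powersetCard k (Finset.univ : Finset (Fin m))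
  rw [Finset.card_univ, Fintype.card_fin] at h
  rw [← h]
  refine Finset.card_nbij' (fun f => ({a | f a = 1} : Finset (Fin m)))
    (fun s a => if a ∈ s then 1 else 0) ?_ ?_ ?_ ?_
  · intro f hf
    rw [mem_coe, mem_filter] at hf
    rw [mem_coe, mem_powersetCard]
    exact ⟨subset_univ _, hf.2⟩
  · intro s hs
    rw [mem_coe, mem_powersetCard] at hs
    rw [mem_coe, mem_filter]
    refine ⟨mem_univ _, ?_⟩
    rw [← hs.2]
    congr 1
    ext a
    by_cases ha : a ∈ s <;> simp [ha]
  · intro f _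
    funext a
    have h2 : ∀ u : Fin 2, (if u = 1 then (1 : Fin 2) else 0) = u := by decide
    simp only [mem_filter, mem_univ, true_and]
    exact h2 (f a)
  · intro s _
    ext a
    by_cases ha : a ∈ s <;> simp [ha]

omit [NeZero m] in
theorem card_cnt (k : V → ℕ) : #{τ : V × Fin m → Fin 2 | cnt τ = k} = ∏ x, m.choose (k x) := by
  have h1 : #{τ : V × Fin m → Fin 2 | cnt τ = k}
      = #(Fintype.piFinset fun x => ({f : Fin m → Fin 2 | #{a | f a = 1} = k x} :
          Finset (Fin m → Fin 2))) := by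
    refine Finset.card_nbij' (fun τ x a => τ (x, a)) (fun f z => f z.1 z.2) ?_ ?_ ?_ ?_
    · intro τ hτ
      rw [mem_coe, mem_filter] at hτ
      rw [mem_coe, Fintype.mem_piFinset]
      intro x
      rw [mem_filter]
      refine ⟨mem_univ _, ?_⟩
      rw [← hτ.2]
      rfl
    · intro f hf
      rw [mem_coe, Fintype.mem_piFinset] at hf
      rw [mem_coe, mem_filter]
      refine ⟨mem_univ _, ?_⟩
      funext x
      exact (mem_filter.1 (hf x)).2
    · intro τ _
      rfl
    · intro f _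
      rfl
  rw [h1, Fintype.card_piFinset]
  exact prod_congr rfl fun x _ => card_one m (k x)

/-- The entries of the symmetriser: `1 / ∏ C(m, d_x)` if the numbers `d_x` of downs agree. -/
theorem symProd_apply (σ τ : V × Fin m → Fin 2) :
    symProd V m σ τ = if cnt σ = cnt τ then ∏ x, ((m.choose (cnt σ x) : ℕ) : ℝ)⁻¹ else 0 := by
  by_cases h : cnt σ = cnt τ
  · rw [if_pos h]
    have hrow : ∑ τ', symProd V m σ τ' = 1 := list_row (symGates V m) σ
    have h2 : ∑ τ', symProd V m σ τ'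
        = ∑ τ' ∈ ({τ' | cnt τ' = cnt σ} : Finset (V × Fin m → Fin 2)), symProd V m σ τ := by
      rw [← Finset.sum_filter_add_sum_filter_not univ (fun τ' => cnt τ' = cnt σ)]
      have h3 : ∑ τ' ∈ univ.filter (fun τ' => ¬ cnt τ' = cnt σ), symProd V m σ τ' = 0 := by
        refine sum_eq_zero fun τ' hτ' => ?_
        exact list_supp (symGates V m) symGates_site σ τ' (Ne.symm (mem_filter.1 hτ').2)
      rw [h3, add_zero]
      refine sum_congr rfl fun τ' hτ' => ?_
      exact symProd_const σ _ τ' τ rfl (by rw [(mem_filter.1 hτ').2, h])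
    rw [h2, sum_const, card_cnt, nsmul_eq_mul] at hrow
    rw [Finset.prod_inv_distrib, ← Nat.cast_prod]
    exact eq_inv_of_mul_eq_one_right hrow
  · rw [if_neg h]
    exact list_supp (symGates V m) symGates_site σ τ h

theorem symProd_transpose : (symProd V m)ᵀ = symProd V m := by
  ext σ τ
  rw [Matrix.transpose_apply, symProd_apply, symProd_apply]
  by_cases h : cnt σ = cnt τ
  · rw [if_pos h, if_pos h.symm, h]
  · rw [if_neg h, if_neg (Ne.symm h)]

theorem swapM_transpose {ι : Type} [Fintype ι] [DecidableEq ι] (x y : ι) :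
    (swapM x y)ᵀ = swapM x y := by
  ext σ τ
  rw [Matrix.transpose_apply, swapM, Matrix.of_apply, Matrix.of_apply]
  congr 1
  apply propext
  constructor
  · rintro rfl
    funext z
    simp
  · rintro rfl
    funext z
    simp

theorem swapM_mul_symProd (x : V) (a b : Fin m) :
    swapM (x, a) (x, b) * symProd V m = symProd V m := by
  have h := congrArg Matrix.transpose (symProd_mul_swapM (V := V) (m := m) x a b)
  rwa [Matrix.transpose_mul, symProd_transpose, swapM_transpose] at h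

theorem symProd_nonneg (σ τ : V × Fin m → Fin 2) : 0 ≤ symProd V m σ τ := by
  rw [symProd_apply]
  split_ifs
  · exact prod_nonneg fun x _ => by positivity
  · exact le_rfl

end Copies

end

end Vale.Agent.P361.LRO.GenS
end

section

/-!
P361, general spin: facts about the symmetriser, real form of the spin bridge.
-/

namespace Vale.Agent.P361.LRO.GenS

open Finset Matrix Equiv

noncomputable section

variable {V : Type} [Fintype V] [DecidableEq V] {m : ℕ} [NeZero m]

/-- The complex symmetriser of `Many.lean` is the product of the gates. -/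
theorem symV_eq : symV m V = cM (symProd V m) := by
  ext σ τ
  rw [cM_apply, symProd_apply, symV, Matrix.of_apply]
  have hd : ∀ (ρ : V × Fin m → Fin 2) (x : V), dn (fun i => ρ (x, i)) = cnt ρ x := by
    intro ρ x
    rw [dn_eq_card]
    rfl
  simp only [sym1, Matrix.of_apply]
  by_cases h : cnt σ = cnt τ
  · rw [if_pos h, Complex.ofReal_prod]
    refine prod_congr rfl fun x _ => ?_
    rw [if_pos (by rw [hd, hd, h]), hd]
    push_cast
    rfl
  · rw [if_neg h]
    obtain ⟨x, hx⟩ := Function.ne_iff.1 h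
    rw [Complex.ofReal_zero]
    refine prod_eq_zero (mem_univ x) ?_
    rw [if_neg]
    rw [hd, hd]
    exact hx

/-- Vectors invariant under the exchanges of copies are fixed by the symmetriser. -/
theorem symProd_mulVec (v : (V × Fin m → Fin 2) → ℝ)
    (hv : ∀ (x : V) (a b : Fin m), swapM (x, a) (x, b) *ᵥ v = v) : symProd V m *ᵥ v = v := by
  have key : ∀ l : List ((V × Fin m) × (V × Fin m) × ℝ), (∀ e ∈ l, e.1.1 = e.2.1.1) →
      (l.map gM).prod *ᵥ v = v := by
    intro l hl
    induction l with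
    | nil => simp
    | cons e l ih =>
      rw [List.map_cons, List.prod_cons, ← Matrix.mulVec_mulVec,
        ih fun e he => hl e (by simp [he])]
      have he := hl e (by simp)
      obtain ⟨⟨x, a⟩, ⟨y, b⟩, p⟩ := e
      dsimp only at he
      subst he
      rw [gM, Matrix.add_mulVec, Matrix.smul_mulVec, Matrix.smul_mulVec, Matrix.one_mulVec,
        hv x a b, ← add_smul]
      simp
  exact key _ symGates_site

/-- Same for matrices. -/
theorem symProd_mul_eq (B : Matrix (V × Fin m → Fin 2) (V × Fin m → Fin 2) ℝ)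
    (hB : ∀ (x : V) (a b : Fin m), swapM (x, a) (x, b) * B = B) : symProd V m * B = B := by
  have key : ∀ l : List ((V × Fin m) × (V × Fin m) × ℝ), (∀ e ∈ l, e.1.1 = e.2.1.1) →
      (l.map gM).prod * B = B := by
    intro l hl
    induction l with
    | nil => simp
    | cons e l ih =>
      rw [List.map_cons, List.prod_cons, mul_assoc, ih fun e he => hl e (by simp [he])]
      have he := hl e (by simp)
      obtain ⟨⟨x, a⟩, ⟨y, b⟩, p⟩ := e
      dsimp only at he
      subst he
      rw [gM, add_mul, smul_mul_assoc, one_mul, smul_mul_assoc, hB x a b, ← add_smul]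
      simp
  exact key _ symGates_site

/-! ### Copy edges -/

omit [Fintype V] [DecidableEq V] [NeZero m] in
theorem sum_interL {M : Type*} [AddCommMonoid M] (L : List (V × V))
    (f : (V × Fin m) × (V × Fin m) → M) :
    ((interL L m).map f).sum
      = (L.map fun e => ∑ ab : Fin m × Fin m, f ((e.1, ab.1), (e.2, ab.2))).sum := by
  induction L with
  | nil => simp [interL]
  | cons e L ih =>
    rw [interL] at ih ⊢
    rw [List.flatMap_cons, List.map_append, List.sum_append, ih, List.map_cons, List.sum_cons]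
    congr 1
    rw [List.map_map, Finset.sum_map_toList]
    rfl

/-- Conjugation of an exchange. -/
theorem swapM_conj {ι : Type} [Fintype ι] [DecidableEq ι] (x y z w : ι) :
    swapM x y * swapM z w = swapM (swap x y z) (swap x y w) * swapM x y := by
  rw [← permU_swap, ← permU_swap, ← permU_swap, ← map_mul, ← map_mul,
    Equiv.mul_swap_eq_swap_mul]

/-- Conjugation of `σ³`. -/
theorem swapM_szM {ι : Type} [Fintype ι] [DecidableEq ι] (x y z : ι) :
    swapM x y * szM z = szM (swap x y z) * swapM x y := by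
  ext σ τ
  rw [swapM_mul_apply, mul_swapM_apply, szM, szM, Matrix.diagonal_apply, Matrix.diagonal_apply]
  by_cases h : σ ∘ swap x y = τ
  · subst h
    have h2 : σ = (σ ∘ swap x y) ∘ swap x y := by
      funext u
      simp
    rw [if_pos rfl, if_pos h2]
    simp
  · rw [if_neg h, if_neg]
    intro h2
    apply h
    rw [h2]
    funext u
    simp

omit [Fintype V] [NeZero m] in
theorem swap_site (x : V) (a b : Fin m) (u : V) (c : Fin m) :
    swap (x, a) (x, b) (u, c) = (u, (if u = x then swap a b else 1) c) := by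
  by_cases hu : u = x
  · subst hu
    rw [if_pos rfl]
    rcases eq_or_ne c a with rfl | hca
    · rw [Equiv.swap_apply_left, Equiv.swap_apply_left]
    · rcases eq_or_ne c b with rfl | hcb
      · rw [Equiv.swap_apply_right, Equiv.swap_apply_right]
      · rw [Equiv.swap_apply_of_ne_of_ne hca hcb, Equiv.swap_apply_of_ne_of_ne]
        · simpa using hca
        · simpa using hcb
  · rw [if_neg hu, Equiv.swap_apply_of_ne_of_ne]
    · rfl
    · rintro h
      exact hu (congrArg Prod.fst h)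
    · rintro h
      exact hu (congrArg Prod.fst h)

omit [NeZero m] in
/-- The Hamiltonian of the copies commutes with the exchanges of copies of a site. -/
theorem comm_ham (L : List (V × V)) (h : V → ℝ) (x : V) (a b : Fin m) :
    Commute (swapM (x, a) (x, b)) (ham (interL L m) (lift m h)) := by
  rw [ham]
  refine Commute.sub_right ?_ ?_
  · rw [sum_interL]
    refine List.sum_induction (fun M => Commute (swapM (x, a) (x, b)) M)
      (fun A B hA hB => Commute.add_right hA hB) (Commute.zero_right _) ?_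
    intro M hM
    rw [List.mem_map] at hM
    obtain ⟨e, -, rfl⟩ := hM
    have e1 : swapM (x, a) (x, b) * ∑ ab : Fin m × Fin m, LRO.hM (e.1, ab.1) (e.2, ab.2)
        = (∑ ab : Fin m × Fin m, LRO.hM (e.1, (if e.1 = x then swap a b else 1) ab.1)
            (e.2, (if e.2 = x then swap a b else 1) ab.2)) * swapM (x, a) (x, b) := by
      rw [Finset.mul_sum, Finset.sum_mul]
      refine sum_congr rfl fun ab _ => ?_
      rw [LRO.hM, LRO.hM, mul_smul_comm, smul_mul_assoc, mul_sub, sub_mul, mul_one, one_mul,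
        swapM_conj, swap_site, swap_site]
    have e2 : (∑ ab : Fin m × Fin m, LRO.hM (e.1, (if e.1 = x then swap a b else 1) ab.1)
            (e.2, (if e.2 = x then swap a b else 1) ab.2))
        = ∑ ab : Fin m × Fin m, LRO.hM (e.1, ab.1) (e.2, ab.2) :=
      Equiv.sum_comp (Equiv.prodCongr (if e.1 = x then swap a b else 1 : Perm (Fin m))
        (if e.2 = x then swap a b else 1 : Perm (Fin m)))
        (fun ab : Fin m × Fin m => LRO.hM (e.1, ab.1) (e.2, ab.2))
    rw [e2] at e1
    exact e1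
  · have e1 : swapM (x, a) (x, b) * ∑ z : V × Fin m, (lift m h z / 2) • szM z
        = (∑ z : V × Fin m, (lift m h (swap (x, a) (x, b) z) / 2) •
            szM (swap (x, a) (x, b) z)) * swapM (x, a) (x, b) := by
      rw [Finset.mul_sum, Finset.sum_mul]
      refine sum_congr rfl fun z _ => ?_
      have hz : lift m h (swap (x, a) (x, b) z) = lift m h z := by
        obtain ⟨u, c⟩ := z
        rw [swap_site]
        rfl
      rw [mul_smul_comm, smul_mul_assoc, swapM_szM, hz]
    have e2 : (∑ z : V × Fin m, (lift m h (swap (x, a) (x, b) z) / 2) •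
            szM (swap (x, a) (x, b) z)) = ∑ z : V × Fin m, (lift m h z / 2) • szM z :=
      Equiv.sum_comp (swap (x, a) (x, b)) (fun z : V × Fin m => (lift m h z / 2) • szM z)
    rw [e2] at e1
    exact e1

/-- The symmetriser commutes with the Hamiltonian. -/
theorem symProd_comm_ham (L : List (V × V)) (h : V → ℝ) :
    Commute (symProd V m) (ham (interL L m) (lift m h)) :=
  symProd_comm _ fun x a b => comm_ham L h x a b

/-- The intra-site part vanishes on the range of the symmetriser. -/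
theorem intraM_mul_symProd : intraM V m * symProd V m = 0 := by
  rw [intraM]
  have key : ∀ l : List ((V × Fin m) × (V × Fin m)), (∀ e ∈ l, e.1.1 = e.2.1) →
      (l.map fun e => LRO.hM e.1 e.2).sum * symProd V m = 0 := by
    intro l hl
    induction l with
    | nil => simp
    | cons e l ih =>
      rw [List.map_cons, List.sum_cons, add_mul, ih fun e he => hl e (by simp [he]), add_zero]
      have he := hl e (by simp)
      obtain ⟨⟨x, a⟩, ⟨y, b⟩⟩ := e
      dsimp only at he
      subst he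
      rw [LRO.hM, smul_mul_assoc, sub_mul, one_mul, swapM_mul_symProd, sub_self, smul_zero]
  exact key _ fun e he => (mem_intraL.1 he).1

/-- Quadratic form of `h_xy`. -/
theorem hM_quad {ι : Type} [Fintype ι] [DecidableEq ι] (x y : ι) (v : (ι → Fin 2) → ℝ) :
    v ⬝ᵥ (LRO.hM x y *ᵥ v) = (1 / 4) * ∑ σ, (v σ - (swapM x y *ᵥ v) σ) ^ 2 := by
  have hsq : ∑ σ, (swapM x y *ᵥ v) σ ^ 2 = ∑ σ, v σ ^ 2 := by
    have h1 : ∀ σ, (swapM x y *ᵥ v) σ = v (σ ∘ swap x y) := by
      intro σ
      rw [← permU_swap, Matrix.mulVec, dotProduct, Finset.sum_eq_single (σ ∘ swap x y)]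
      · rw [permU_apply, if_pos rfl, one_mul]
      · intro ρ _ hρ
        rw [permU_apply, if_neg (Ne.symm hρ), zero_mul]
      · intro h
        exact absurd (mem_univ _) h
    simp only [h1]
    exact Equiv.sum_comp ((swap x y).arrowCongr (Equiv.refl (Fin 2))) (fun σ => v σ ^ 2)
  rw [LRO.hM, Matrix.smul_mulVec, Matrix.sub_mulVec, Matrix.one_mulVec, dotProduct_smul,
    dotProduct_sub, smul_eq_mul]
  have h2 : ∑ σ, (v σ - (swapM x y *ᵥ v) σ) ^ 2
      = ∑ σ, v σ ^ 2 - 2 * ∑ σ, v σ * (swapM x y *ᵥ v) σ + ∑ σ, (swapM x y *ᵥ v) σ ^ 2 := by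
    rw [Finset.mul_sum, ← Finset.sum_sub_distrib, ← Finset.sum_add_distrib]
    exact sum_congr rfl fun σ _ => by ring
  rw [h2, hsq]
  simp only [dotProduct]
  have h3 : ∑ σ, v σ * v σ = ∑ σ, v σ ^ 2 := sum_congr rfl fun σ _ => by ring
  rw [h3]
  ring

omit [NeZero m] in
theorem intraM_quad_nonneg_eq (v : (V × Fin m → Fin 2) → ℝ) (l : List ((V × Fin m) × (V × Fin m))) :
    0 ≤ v ⬝ᵥ ((l.map fun e => LRO.hM e.1 e.2).sum *ᵥ v) ∧
      (v ⬝ᵥ ((l.map fun e => LRO.hM e.1 e.2).sum *ᵥ v) = 0 →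
        ∀ e ∈ l, swapM e.1 e.2 *ᵥ v = v) := by
  induction l with
  | nil => simp
  | cons e l ih =>
    rw [List.map_cons, List.sum_cons, Matrix.add_mulVec, dotProduct_add]
    have h0 : 0 ≤ v ⬝ᵥ (LRO.hM e.1 e.2 *ᵥ v) := by
      rw [hM_quad]
      positivity
    refine ⟨add_nonneg h0 ih.1, fun h => ?_⟩
    have h1 : v ⬝ᵥ (LRO.hM e.1 e.2 *ᵥ v) = 0 := by
      have := ih.1
      linarith
    have h2 : v ⬝ᵥ ((l.map fun e => LRO.hM e.1 e.2).sum *ᵥ v) = 0 := by
      linarith
    intro f hf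
    rcases List.mem_cons.1 hf with rfl | hf
    · rw [hM_quad] at h1
      have h3 : ∑ σ, (v σ - (swapM f.1 f.2 *ᵥ v) σ) ^ 2 = 0 := by
        linarith
      rw [Finset.sum_eq_zero_iff_of_nonneg fun σ _ => sq_nonneg _] at h3
      funext σ
      have h4 := h3 σ (mem_univ _)
      rw [sq_eq_zero_iff] at h4
      linarith
    · exact ih.2 h2 f hf

/-- The kernel of the intra-site part is the range of the symmetriser. -/
theorem symProd_mulVec_of_intra (v : (V × Fin m → Fin 2) → ℝ) (hv : intraM V m *ᵥ v = 0) :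
    symProd V m *ᵥ v = v := by
  apply symProd_mulVec
  have h0 : v ⬝ᵥ (((intraL V m).map fun e => LRO.hM e.1 e.2).sum *ᵥ v) = 0 := by
    have : ((intraL V m).map fun e => LRO.hM e.1 e.2).sum *ᵥ v = 0 := hv
    rw [this, dotProduct_zero]
  have h1 := (intraM_quad_nonneg_eq v (intraL V m)).2 h0
  intro x a b
  rcases lt_trichotomy a b with h | h | h
  · exact h1 ((x, a), (x, b)) (mem_intraL.2 ⟨rfl, h⟩)
  · subst h
    rw [← permU_swap, Equiv.swap_self]
    have : (Equiv.refl (V × Fin m) : Perm (V × Fin m)) = 1 := rfl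
    rw [this, map_one, Matrix.one_mulVec]
  · rw [← permU_swap, Equiv.swap_comm, permU_swap]
    exact h1 ((x, b), (x, a)) (mem_intraL.2 ⟨rfl, h⟩)

/-! ### The real form of the spin bridge -/

omit [NeZero m] in
theorem tot_mul_tot (x y : V) (hxy : x ≠ y) :
    ∑ a : Fin 3, tot m a x * tot m a y
      = ((m : ℂ) ^ 2 * (1 / 4)) • (1 : Matrix (V × Fin m → Fin 2) (V × Fin m → Fin 2) ℂ)
        - cM (∑ ab : Fin m × Fin m, LRO.hM (x, ab.1) (y, ab.2)) := by
  have h1 : ∀ ab : Fin m × Fin m, cM (LRO.hM ((x, ab.1) : V × Fin m) (y, ab.2))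
      = (1 / 4 : ℂ) • (1 : Matrix (V × Fin m → Fin 2) (V × Fin m → Fin 2) ℂ) -
        ∑ a : Fin 3, siteOpV ((x, ab.1) : V × Fin m) (Model.spin 1 a) *
          siteOpV ((y, ab.2) : V × Fin m) (Model.spin 1 a) := by
    intro ab
    exact cM_hM (by
      intro h
      exact hxy (congrArg Prod.fst h))
  rw [cM_sum, Finset.sum_congr rfl fun ab _ => h1 ab, Finset.sum_sub_distrib, Finset.sum_const,
    Finset.card_univ, Fintype.card_prod, Fintype.card_fin, ← Nat.cast_smul_eq_nsmul ℂ, smul_smul]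
  have h2 : ∑ a : Fin 3, tot m a x * tot m a y = ∑ ab : Fin m × Fin m,
      ∑ a : Fin 3, siteOpV ((x, ab.1) : V × Fin m) (Model.spin 1 a) *
          siteOpV ((y, ab.2) : V × Fin m) (Model.spin 1 a) := by
    rw [Finset.sum_comm]
    refine Finset.sum_congr rfl fun a _ => ?_
    rw [tot, tot, Finset.sum_mul_sum, Fintype.sum_prod_type]
  rw [h2]
  push_cast
  module

omit [NeZero m] in
theorem tot_z (x : V) : tot m 2 x = cM (∑ i : Fin m, (1 / 2 : ℝ) • szM ((x, i) : V × Fin m)) := by
  rw [tot, cM_sum]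
  refine Finset.sum_congr rfl fun i _ => ?_
  have h2 : (((1 / 2 : ℝ) : ℝ) : ℂ) * 2 = 1 := by
    push_cast
    norm_num
  rw [cM_smul, cM_sz, smul_smul, h2, one_smul]
  rfl

end

section torusS

variable {n : ℕ} [NeZero n] {s : ℕ}

/-- The Hamiltonian of the copies in the swap form. -/
theorem hamC_eq (hn : 3 ≤ n) (h : ℝ) :
    hamC s (torusAdj n) (h : ℂ) =
      cM (ham (interL (edges n) s) (lift s fun _ : Tor n => h)) -
        (((s : ℂ) ^ 2 * (1 / 4)) * (Fintype.card (Tor n × Fin 3) : ℂ)) •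
          (1 : Matrix (Tor n × Fin s → Fin 2) (Tor n × Fin s → Fin 2) ℂ) := by
  have hn1 : 1 < n := by omega
  have hne : ∀ z : Tor n × Fin 3, z.1 ≠ z.1 + Pi.single z.2 1 := by
    intro z hz
    have : Fact (1 < n) := ⟨hn1⟩
    have h2 : (Pi.single z.2 1 : Tor n) = 0 := (left_eq_add.1 hz)
    have h3 := congrFun h2 z.2
    rw [Pi.single_eq_same, Pi.zero_apply] at h3
    exact one_ne_zero h3
  rw [hamC, sum_torusAdj hn (fun x y => ∑ a : Fin 3, tot s a x * tot s a y)]
  have e1 : ∀ z : Tor n × Fin 3, ∑ a : Fin 3, tot s a z.1 * tot s a (z.1 + Pi.single z.2 1)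
      = ((s : ℂ) ^ 2 * (1 / 4)) • (1 : Matrix (Tor n × Fin s → Fin 2) (Tor n × Fin s → Fin 2) ℂ)
        - cM (∑ ab : Fin s × Fin s, LRO.hM (z.1, ab.1) (z.1 + Pi.single z.2 1, ab.2)) :=
    fun z => tot_mul_tot _ _ (hne z)
  have hsym : ∀ x y : Tor n, (∑ ab : Fin s × Fin s, LRO.hM ((x, ab.1) : Tor n × Fin s) (y, ab.2))
      = ∑ ab : Fin s × Fin s, LRO.hM ((y, ab.1) : Tor n × Fin s) (x, ab.2) := by
    intro x y
    rw [← Equiv.sum_comp (Equiv.prodComm (Fin s) (Fin s))]
    refine Finset.sum_congr rfl fun ab _ => ?_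
    simp only [Equiv.prodComm_apply, Prod.fst_swap, Prod.snd_swap]
    rw [LRO.hM, LRO.hM, ← permU_swap, ← permU_swap, Equiv.swap_comm]
  have e2 : ∀ z : Tor n × Fin 3, ∑ a : Fin 3, tot s a (z.1 + Pi.single z.2 1) * tot s a z.1
      = ((s : ℂ) ^ 2 * (1 / 4)) • (1 : Matrix (Tor n × Fin s → Fin 2) (Tor n × Fin s → Fin 2) ℂ)
        - cM (∑ ab : Fin s × Fin s, LRO.hM (z.1, ab.1) (z.1 + Pi.single z.2 1, ab.2)) := by
    intro z
    rw [tot_mul_tot _ _ (hne z).symm, hsym]
  rw [Finset.sum_congr rfl fun z _ => e1 z, Finset.sum_congr rfl fun z _ => e2 z]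
  rw [ham, sum_interL, sum_edges, cM_sub, cM_sum, Finset.sum_sub_distrib, Finset.sum_const,
    Finset.card_univ, ← Nat.cast_smul_eq_nsmul ℂ, smul_smul]
  have e3 : (h : ℂ) • ∑ x : Tor n, tot s 2 x
      = cM (∑ z : Tor n × Fin s, (lift s (fun _ : Tor n => h) z / 2) • szM z) := by
    rw [Fintype.sum_prod_type, cM_sum, Finset.smul_sum]
    refine Finset.sum_congr rfl fun x _ => ?_
    rw [tot_z, ← cM_smul, Finset.smul_sum]
    congr 1
    refine Finset.sum_congr rfl fun i _ => ?_
    rw [smul_smul]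
    congr 1
    rw [lift]
    ring
  rw [e3]
  have key : ∀ (A O M : Matrix (Tor n × Fin s → Fin 2) (Tor n × Fin s → Fin 2) ℂ) (k k' : ℂ),
      k = k' → -((1 / 2 : ℂ) • ((k • O - A) + (k • O - A))) - M = A - M - k' • O := by
    intro A O M k k' hk
    subst hk
    module
  exact key _ _ _ _ _ (mul_comm _ _)

theorem exp_hamC_eq (hn : 3 ≤ n) (β h : ℝ) :
    NormedSpace.exp (-(β : ℂ) • hamC s (torusAdj n) (h : ℂ)) =
      ((Real.exp (β * ((s : ℝ) ^ 2 * (1 / 4) * (Fintype.card (Tor n × Fin 3)))) : ℝ) : ℂ) •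
        cM (NormedSpace.exp (-β • ham (interL (edges n) s) (lift s fun _ : Tor n => h))) := by
  have e1 : -(β : ℂ) • hamC s (torusAdj n) (h : ℂ) =
      cM (-β • ham (interL (edges n) s) (lift s fun _ : Tor n => h)) +
        ((β * ((s : ℝ) ^ 2 * (1 / 4) * (Fintype.card (Tor n × Fin 3))) : ℝ) : ℂ) •
          (1 : Matrix (Tor n × Fin s → Fin 2) (Tor n × Fin s → Fin 2) ℂ) := by
    rw [hamC_eq hn, cM_smul]
    have key : ∀ (X O : Matrix (Tor n × Fin s → Fin 2) (Tor n × Fin s → Fin 2) ℂ)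
        (k : ℂ), -(β : ℂ) • (X - k • O) = (-(β : ℂ)) • X + ((β : ℂ) * k) • O := by
      intro X O k
      module
    rw [key]
    push_cast
    rfl
  rw [e1, exp_add_smul_one, exp_cM]

/-- `Tr (e^B M) = Tr (e^A M' W Wᴴ)` if `A W = W B`, `M' W = W M`. -/
theorem trace_exp_mul_bridge {α β : Type*} [Fintype α] [DecidableEq α] [Fintype β] [DecidableEq β]
    {A M' : Matrix α α ℂ} {B M : Matrix β β ℂ} {W : Matrix α β ℂ}
    (h : A * W = W * B) (hM : M' * W = W * M) (hW : Wᴴ * W = 1) :
    Matrix.trace (NormedSpace.exp B * M) =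
      Matrix.trace (W * Wᴴ * NormedSpace.exp A * M') := by
  have h1 := exp_intertwine h
  calc Matrix.trace (NormedSpace.exp B * M)
      = Matrix.trace ((Wᴴ * W) * NormedSpace.exp B * M) := by rw [hW, Matrix.one_mul]
    _ = Matrix.trace (Wᴴ * (NormedSpace.exp A * (M' * W))) := by
        rw [hM, ← Matrix.mul_assoc (NormedSpace.exp A), h1]
        simp only [Matrix.mul_assoc]
    _ = Matrix.trace ((Wᴴ * (NormedSpace.exp A * M')) * W) := by
        simp only [Matrix.mul_assoc]
    _ = Matrix.trace (W * (Wᴴ * (NormedSpace.exp A * M'))) := by rw [Matrix.trace_mul_comm]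
    _ = Matrix.trace (W * Wᴴ * NormedSpace.exp A * M') := by
        simp only [Matrix.mul_assoc]

variable [NeZero s]

/-- **Real form of the bridge** (partition function). -/
theorem trace_exp_spin_real (hn : 3 ≤ n) (β h : ℝ) :
    Matrix.trace (NormedSpace.exp (expoV s (torusAdj n) β h)) =
      ((Real.exp (β * ((s : ℝ) ^ 2 * (1 / 4) * (Fintype.card (Tor n × Fin 3)))) *
        Matrix.trace (symProd (Tor n) s *
          NormedSpace.exp (-β • ham (interL (edges n) s) (lift s fun _ : Tor n => h))) : ℝ) :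
            ℂ) := by
  have h0 : expoV s (torusAdj n) β h = -(β : ℂ) • (Model.hamiltonian s (torusAdj n) -
    (h : ℂ) • Model.magnetization s (Tor n)) := rfl
  rw [h0, trace_exp_spin, exp_hamC_eq hn, symV_eq, Matrix.smul_mul, Matrix.trace_smul, ← cM_mul,
    trace_cM, smul_eq_mul, Matrix.trace_mul_comm, Complex.ofReal_mul]

/-- **Real form of the bridge** (magnetization). -/
theorem trace_exp_mag_real (hn : 3 ≤ n) (β h : ℝ) :
    Matrix.trace (NormedSpace.exp (expoV s (torusAdj n) β h) * Model.magnetization s (Tor n)) =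
      ((Real.exp (β * ((s : ℝ) ^ 2 * (1 / 4) * (Fintype.card (Tor n × Fin 3)))) *
        Matrix.trace (symProd (Tor n) s *
          NormedSpace.exp (-β • ham (interL (edges n) s) (lift s fun _ : Tor n => h)) *
          ∑ z : Tor n × Fin s, (1 / 2 : ℝ) • szM z) : ℝ) : ℂ) := by
  have h0 : expoV s (torusAdj n) β h = -(β : ℂ) • (Model.hamiltonian s (torusAdj n) -
    (h : ℂ) • Model.magnetization s (Tor n)) := rfl
  have hA : (-(β : ℂ) • hamC s (torusAdj n) (h : ℂ)) * WV s (Tor n) =
      WV s (Tor n) * expoV s (torusAdj n) β h := by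
    rw [h0, Matrix.smul_mul, Matrix.mul_smul, hamC_mul]
  have hM : (∑ x : Tor n, tot s 2 x) * WV s (Tor n) =
      WV s (Tor n) * Model.magnetization s (Tor n) := by
    have h1 : Model.magnetization s (Tor n) = ∑ x : Tor n, siteOpV x (Model.spin s 2) := rfl
    rw [h1, Matrix.sum_mul, Matrix.mul_sum]
    exact Finset.sum_congr rfl fun x _ => tot_mul s 2 x
  rw [trace_exp_mul_bridge hA hM (WV_conj_mul s), WV_mul_conj, exp_hamC_eq hn, symV_eq]
  have hS : (∑ x : Tor n, tot s 2 x) = cM (∑ z : Tor n × Fin s, (1 / 2 : ℝ) • szM z) := by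
    rw [Fintype.sum_prod_type, cM_sum]
    exact Finset.sum_congr rfl fun x _ => tot_z x
  rw [hS, Matrix.mul_smul, Matrix.smul_mul, Matrix.trace_smul, ← cM_mul, ← cM_mul, trace_cM,
    smul_eq_mul, Complex.ofReal_mul]

/-- The magnetization of the spin `s / 2` model in terms of the copies. -/
theorem gibbsMagV_spin (hn : 3 ≤ n) (β h : ℝ) :
    gibbsMagV s (torusAdj n) β h =
      Matrix.trace (symProd (Tor n) s *
          NormedSpace.exp (-β • ham (interL (edges n) s) (lift s fun _ : Tor n => h)) *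
          ∑ z : Tor n × Fin s, (1 / 2 : ℝ) • szM z) /
        Matrix.trace (symProd (Tor n) s *
          NormedSpace.exp (-β • ham (interL (edges n) s) (lift s fun _ : Tor n => h))) := by
  rw [gibbsMagV, trace_exp_mag_real hn, trace_exp_spin_real hn, Complex.ofReal_re,
    Complex.ofReal_re, mul_div_mul_left _ _ (Real.exp_pos _).ne']

/-- The symmetrised partition function is positive. -/
theorem trace_symProd_exp_pos (hn : 3 ≤ n) (β h : ℝ) :
    0 < Matrix.trace (symProd (Tor n) s *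
          NormedSpace.exp (-β • ham (interL (edges n) s) (lift s fun _ : Tor n => h))) := by
  have h1 := trace_exp_pos (expoV_isHermitian s (torusAdj n) (torusAdj_irrefl (by omega)) β h)
  rw [trace_exp_spin_real hn, Complex.ofReal_re] at h1
  exact (mul_pos_iff_of_pos_left (Real.exp_pos _)).1 h1

end torusS

end Vale.Agent.P361.LRO.GenS
end

section

/-!
# P361, all spins: the limit of infinitely many intra site edges

`A ≥ 0`, `P` the orthogonal projection onto `ker A`, `A B = B A`. Then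
`Tr (exp (-b (B + m A)) C) → Tr (P exp (-b B) C)` as `m → ∞`.
-/

namespace Vale.Agent.P361.LRO.GenS.Lim

open Matrix Filter Topology

variable {ι : Type*} [Fintype ι] [DecidableEq ι]

theorem tendsto_exp_neg (b d : ℝ) (hb : 0 < b) (hd : 0 ≤ d) :
    Tendsto (fun m : ℕ => Real.exp (-(b * m) * d)) atTop (𝓝 (if d = 0 then 1 else 0)) := by
  by_cases h : d = 0
  · simp [h]
  · have hd' : 0 < d := lt_of_le_of_ne hd (Ne.symm h)
    rw [if_neg h]
    have h1 : Tendsto (fun m : ℕ => (b * d) * (m : ℝ)) atTop atTop :=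
      Tendsto.const_mul_atTop (by positivity) tendsto_natCast_atTop_atTop
    have h2 : Tendsto (fun m : ℕ => Real.exp (-((b * d) * (m : ℝ)))) atTop (𝓝 0) :=
      Real.tendsto_exp_neg_atTop_nhds_zero.comp h1
    refine h2.congr fun m => ?_
    congr 1
    ring

/-- The spectral form of the exponential of a multiple of a symmetric matrix. -/
theorem exp_spec (A : Matrix ι ι ℝ) (hA : A.IsHermitian) (c : ℝ) :
    NormedSpace.exp (c • A) = (hA.eigenvectorUnitary : Matrix ι ι ℝ) *
      diagonal (fun i => Real.exp (c * hA.eigenvalues i)) *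
        (star (hA.eigenvectorUnitary : Matrix ι ι ℝ)) := by
  set U : Matrix ι ι ℝ := (hA.eigenvectorUnitary : Matrix ι ι ℝ) with hU
  have hUU : U * star U = 1 := Unitary.coe_mul_star_self hA.eigenvectorUnitary
  have hUU' : star U * U = 1 := Unitary.coe_star_mul_self hA.eigenvectorUnitary
  have hsp : A = U * diagonal (fun i => hA.eigenvalues i) * star U := by
    have := hA.spectral_theorem
    simpa [hU, Unitary.conjStarAlgAut_apply, Function.comp_def] using this
  have hcA : c • A = U * diagonal (fun i => c * hA.eigenvalues i) * star U := by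
    conv_lhs => rw [hsp]
    rw [← Matrix.smul_mul, ← Matrix.mul_smul, ← diagonal_smul]
    rfl
  have hunit : IsUnit U := by
    exact ⟨⟨U, star U, hUU, hUU'⟩, rfl⟩
  have hinv : U⁻¹ = star U := Matrix.inv_eq_right_inv hUU
  rw [hcA, ← hinv, Matrix.exp_conj _ _ hunit, Matrix.exp_diagonal]
  congr 2
  ext i
  rw [Pi.exp_def]
  simp [← Real.exp_eq_exp_ℝ]

/-- `exp (-(b m) A)` tends to the projection onto the kernel of `A`. -/
theorem tendsto_exp_proj (A P : Matrix ι ι ℝ) (hA : A.PosSemidef) (hP : P.IsSymm)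
    (hAP : A * P = 0) (hker : ∀ v, A *ᵥ v = 0 → P *ᵥ v = v) {b : ℝ} (hb : 0 < b) :
    Tendsto (fun m : ℕ => NormedSpace.exp (-(b * m) • A)) atTop (𝓝 P) := by
  have hH := hA.isHermitian
  set U : Matrix ι ι ℝ := (hH.eigenvectorUnitary : Matrix ι ι ℝ) with hU
  have hUU : U * star U = 1 := Unitary.coe_mul_star_self hH.eigenvectorUnitary
  have hUU' : star U * U = 1 := Unitary.coe_star_mul_self hH.eigenvectorUnitary
  set D : Matrix ι ι ℝ := diagonal (fun i => if hH.eigenvalues i = 0 then (1 : ℝ) else 0) with hD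
  set Q : Matrix ι ι ℝ := U * D * star U with hQ
  have hsp : A = U * diagonal (fun i => hH.eigenvalues i) * star U := by
    have := hH.spectral_theorem
    simpa [hU, Unitary.conjStarAlgAut_apply, Function.comp_def] using this
  have hlim : Tendsto (fun m : ℕ => NormedSpace.exp (-(b * m) • A)) atTop (𝓝 Q) := by
    have h1 : Tendsto (fun m : ℕ => (diagonal (fun i => Real.exp (-(b * m) * hH.eigenvalues i)) :
        Matrix ι ι ℝ)) atTop (𝓝 D) := by
      have h2 : Tendsto (fun m : ℕ => (fun i => Real.exp (-(b * m) * hH.eigenvalues i)))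
          atTop (𝓝 (fun i => if hH.eigenvalues i = 0 then (1 : ℝ) else 0)) :=
        tendsto_pi_nhds.mpr fun i => tendsto_exp_neg b _ hb (hA.eigenvalues_nonneg i)
      exact (Continuous.matrix_diagonal continuous_id).continuousAt.tendsto.comp h2
    have h3 := (tendsto_const_nhds (x := U)).mul (h1.mul (tendsto_const_nhds (x := star U)))
    refine (h3.congr fun m => ?_).trans ?_
    · rw [exp_spec A hH, ← hU, Matrix.mul_assoc]
    · rw [← Matrix.mul_assoc]
  have hAQ : A * Q = 0 := by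
    rw [hsp, hQ]
    have : U * diagonal (fun i => hH.eigenvalues i) * star U * (U * D * star U) =
        U * (diagonal (fun i => hH.eigenvalues i) * ((star U * U) * D)) * star U := by
      simp only [Matrix.mul_assoc]
    rw [this, hUU', Matrix.one_mul, hD, diagonal_mul_diagonal]
    have h0 : (diagonal fun i => hH.eigenvalues i *
        (if hH.eigenvalues i = 0 then (1 : ℝ) else 0)) = (0 : Matrix ι ι ℝ) := by
      rw [← diagonal_zero]
      congr 1
      ext i
      by_cases h : hH.eigenvalues i = 0 <;> simp [h]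
    rw [h0]
    simp
  have hPQ : P * Q = Q := by
    ext i j
    have h1 : A *ᵥ (fun k => Q k j) = 0 := by
      ext k
      have := congrFun (congrFun hAQ k) j
      simpa [Matrix.mul_apply, Matrix.mulVec, dotProduct] using this
    have h2 := congrFun (hker _ h1) i
    simpa [Matrix.mul_apply, Matrix.mulVec, dotProduct] using h2
  have hQP : Q * P = P := by
    have hcomm : ∀ m : ℕ, NormedSpace.exp (-(b * m) • A) * P = P := by
      intro m
      have hcA : (-(b * m) • A) * P = 0 := by rw [Matrix.smul_mul, hAP, smul_zero]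
      rw [exp_spec A hH]
      have hAUP : ∀ i j, hH.eigenvalues i = 0 ∨ (star U * P) i j = 0 := by
        intro i j
        have h4 : diagonal (fun i => hH.eigenvalues i) * (star U * P) = 0 := by
          have h5 : star U * (A * P) = 0 := by rw [hAP, Matrix.mul_zero]
          rw [hsp] at h5
          have h6 : star U * (U * diagonal (fun i => hH.eigenvalues i) * star U * P) =
              (star U * U) * (diagonal (fun i => hH.eigenvalues i) * (star U * P)) := by
            simp only [Matrix.mul_assoc]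
          rw [h6, hUU', Matrix.one_mul] at h5
          exact h5
        have h7 := congrFun (congrFun h4 i) j
        rw [diagonal_mul] at h7
        simpa using h7
      have h8 : diagonal (fun i => Real.exp (-(b * m) * hH.eigenvalues i)) * (star U * P) =
          star U * P := by
        ext i j
        rw [diagonal_mul]
        rcases hAUP i j with h | h
        · rw [h]; simp
        · rw [h]; simp
      rw [← hU, Matrix.mul_assoc, Matrix.mul_assoc, h8, ← Matrix.mul_assoc, hUU, Matrix.one_mul]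
    have h1 : Tendsto (fun m : ℕ => NormedSpace.exp (-(b * m) • A) * P) atTop (𝓝 (Q * P)) :=
      hlim.mul tendsto_const_nhds
    have h2 : Tendsto (fun m : ℕ => NormedSpace.exp (-(b * m) • A) * P) atTop (𝓝 P) := by
      have h3 : (fun m : ℕ => NormedSpace.exp (-(b * m) • A) * P) = fun _ => P :=
        funext hcomm
      rw [h3]
      exact tendsto_const_nhds
    exact tendsto_nhds_unique h1 h2
  have hQs : Qᵀ = Q := by
    rw [hQ, Matrix.transpose_mul, Matrix.transpose_mul, hD, diagonal_transpose, ← Matrix.mul_assoc]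
    congr 1
  have hPeq : P = Q := by
    have h1 : Pᵀ = P := hP
    have h2 : (Q * P)ᵀ = Pᵀ := by rw [hQP]
    rw [Matrix.transpose_mul, h1, hQs, hPQ] at h2
    exact h2.symm
  rw [hPeq]
  exact hlim

theorem tendsto_exp_proj' (A P : Matrix ι ι ℝ) (hA : A.PosSemidef) (_hPP : P * P = P)
    (hP : Pᵀ = P) (hAP : A * P = 0) (hker : ∀ v, A *ᵥ v = 0 → P *ᵥ v = v) {t : ℝ} (ht : 0 < t) :
    Tendsto (fun m : ℕ => NormedSpace.exp (-((m : ℝ) * t) • A)) atTop (𝓝 P) := by
  simpa only [mul_comm] using tendsto_exp_proj A P hA hP hAP hker ht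

/-- The limit inside a trace. -/
theorem tendsto_trace_proj (A B C P : Matrix ι ι ℝ) (hA : A.PosSemidef) (hP : P.IsSymm)
    (hAP : A * P = 0) (hker : ∀ v, A *ᵥ v = 0 → P *ᵥ v = v) (hAB : Commute A B) {b : ℝ}
    (hb : 0 < b) :
    Tendsto (fun m : ℕ => trace (NormedSpace.exp (-b • (B + (m : ℝ) • A)) * C)) atTop
      (𝓝 (trace (P * NormedSpace.exp (-b • B) * C))) := by
  have h1 := tendsto_exp_proj A P hA hP hAP hker hb
  have h2 : ∀ m : ℕ, NormedSpace.exp (-b • (B + (m : ℝ) • A)) =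
      NormedSpace.exp (-(b * m) • A) * NormedSpace.exp (-b • B) := by
    intro m
    rw [← Matrix.exp_add_of_commute]
    · congr 1
      rw [smul_add, smul_smul, add_comm]
      congr 2
      ring
    · exact (hAB.smul_left _).smul_right _
  simp only [h2]
  have h3 : Tendsto (fun m : ℕ => NormedSpace.exp (-(b * m) • A) * NormedSpace.exp (-b • B) * C)
      atTop (𝓝 (P * NormedSpace.exp (-b • B) * C)) :=
    (h1.mul tendsto_const_nhds).mul tendsto_const_nhds
  exact (Continuous.matrix_trace continuous_id).continuousAt.tendsto.comp h3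

section Phys

variable {V : Type} [Fintype V] [DecidableEq V]

theorem swapM_transpose (x y : V) : (swapM x y)ᵀ = swapM x y := by
  ext σ τ
  simp only [Matrix.transpose_apply, swapM, Matrix.of_apply]
  congr 1
  apply propext
  constructor
  · rintro rfl
    ext z
    simp [Function.comp]
  · rintro rfl
    ext z
    simp [Function.comp]

theorem swapM_sq (x y : V) : swapM x y * swapM x y = 1 := by
  ext σ τ
  rw [Matrix.mul_apply]
  simp only [swapM, Matrix.of_apply, Matrix.one_apply]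
  rw [Finset.sum_eq_single (σ ∘ Equiv.swap x y)]
  · have h1 : σ = (σ ∘ Equiv.swap x y) ∘ Equiv.swap x y := by
      ext z; simp [Function.comp]
    rw [if_pos h1, one_mul]
    congr 1
    apply propext
    constructor
    · intro h
      ext z
      have := congrFun h (Equiv.swap x y z)
      simpa [Function.comp] using congrArg Fin.val this
    · rintro rfl
      rfl
  · intro ρ _ hρ
    rw [if_neg, zero_mul]
    rintro rfl
    apply hρ
    ext z
    simp [Function.comp]
  · intro h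
    exact absurd (Finset.mem_univ _) h

theorem hM_transpose (x y : V) : (hM x y)ᵀ = hM x y := by
  simp [hM, swapM_transpose]

theorem hM_sq (x y : V) : hM x y * hM x y = hM x y := by
  have h : (1 - swapM x y) * (1 - swapM x y) = (2 : ℝ) • (1 - swapM x y) := by
    have h1 : (1 - swapM x y) * (1 - swapM x y) =
        1 - swapM x y - swapM x y + swapM x y * swapM x y := by noncomm_ring
    rw [h1, swapM_sq, two_smul]
    abel
  rw [hM, Matrix.smul_mul, Matrix.mul_smul, h, smul_smul, smul_smul]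
  norm_num

theorem hM_posSemidef (x y : V) : (hM x y).PosSemidef := by
  have h : hM x y = (hM x y)ᴴ * hM x y := by
    rw [Matrix.conjTranspose_eq_transpose_of_trivial, hM_transpose, hM_sq]
  rw [h]
  exact Matrix.posSemidef_conjTranspose_mul_self _

theorem sum_hM_posSemidef (E : List (V × V)) : (E.map fun e => hM e.1 e.2).sum.PosSemidef := by
  induction E with
  | nil => simpa using Matrix.PosSemidef.zero
  | cons e E ih => simpa using (hM_posSemidef e.1 e.2).add ih

/-- The kernel of `∑ h_e` consists of the vectors invariant under all the exchanges. -/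
theorem ker_sum_hM (E : List (V × V)) (v : (V → Fin 2) → ℝ)
    (hv : (E.map fun e => hM e.1 e.2).sum *ᵥ v = 0) :
    ∀ e ∈ E, swapM e.1 e.2 *ᵥ v = v := by
  have hq : ∀ E : List (V × V), v ⬝ᵥ ((E.map fun e => hM e.1 e.2).sum *ᵥ v) =
      (E.map fun e => (hM e.1 e.2 *ᵥ v) ⬝ᵥ (hM e.1 e.2 *ᵥ v)).sum := by
    intro E
    induction E with
    | nil => simp
    | cons e E ih =>
      simp only [List.map_cons, List.sum_cons, Matrix.add_mulVec, dotProduct_add, ih]
      congr 1
      conv_lhs => rw [← hM_sq, ← Matrix.mulVec_mulVec, Matrix.dotProduct_mulVec,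
        ← Matrix.mulVec_transpose, hM_transpose]
  have h0 := hq E
  rw [hv, dotProduct_zero] at h0
  have hnn : ∀ a ∈ (E.map fun e => (hM e.1 e.2 *ᵥ v) ⬝ᵥ (hM e.1 e.2 *ᵥ v)), (0 : ℝ) ≤ a := by
    intro a ha
    obtain ⟨e, -, rfl⟩ := List.mem_map.mp ha
    exact Finset.sum_nonneg fun i _ => mul_self_nonneg _
  intro e he
  have h1 : (hM e.1 e.2 *ᵥ v) ⬝ᵥ (hM e.1 e.2 *ᵥ v) = 0 := by
    have h2 := List.single_le_sum hnn _ (List.mem_map.mpr ⟨e, he, rfl⟩)
    have h3 := hnn _ (List.mem_map.mpr ⟨e, he, rfl⟩)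
    rw [← h0] at h2
    exact le_antisymm h2 h3
  have h4 : hM e.1 e.2 *ᵥ v = 0 := dotProduct_self_eq_zero.mp h1
  rw [hM, Matrix.smul_mulVec, Matrix.sub_mulVec, Matrix.one_mulVec] at h4
  have h5 : v - swapM e.1 e.2 *ᵥ v = 0 := by
    rcases smul_eq_zero.mp h4 with h | h
    · norm_num at h
    · exact h
  exact (sub_eq_zero.mp h5).symm

theorem ham_append_replicate (L E : List (V × V)) (m : ℕ) (h : V → ℝ) :
    ham (L ++ (List.replicate m E).flatten) h =
      ham L h + (m : ℝ) • (E.map fun e => hM e.1 e.2).sum := by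
  have h1 : (((List.replicate m E).flatten).map fun e => hM e.1 e.2).sum =
      (m : ℝ) • (E.map fun e => hM e.1 e.2).sum := by
    induction m with
    | zero => simp
    | succ m ih =>
      rw [List.replicate_succ, List.flatten_cons, List.map_append, List.sum_append, ih]
      push_cast
      rw [add_smul, one_smul, add_comm]
  rw [ham, ham, List.map_append, List.sum_append, h1]
  abel

/-- **The limit of infinitely many intra site edges.** -/
theorem tendsto_trace_ham (L E : List (V × V)) (h : V → ℝ) {β : ℝ} (hβ : 0 < β)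
    (P C : Matrix (V → Fin 2) (V → Fin 2) ℝ) (hP : P.IsSymm)
    (hEP : ∀ e ∈ E, swapM e.1 e.2 * P = P)
    (hker : ∀ v, (∀ e ∈ E, swapM e.1 e.2 *ᵥ v = v) → P *ᵥ v = v)
    (hcomm : ∀ e ∈ E, Commute (swapM e.1 e.2) (ham L h)) :
    Tendsto (fun m : ℕ => trace (NormedSpace.exp
      (-β • ham (L ++ (List.replicate m E).flatten) h) * C)) atTop
      (𝓝 (trace (P * NormedSpace.exp (-β • ham L h) * C))) := by
  simp only [ham_append_replicate]
  refine tendsto_trace_proj _ _ C P (sum_hM_posSemidef E) hP ?_ ?_ ?_ hβ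
  · clear hker hcomm
    induction E with
    | nil => simp
    | cons e E ih =>
      rw [List.map_cons, List.sum_cons, add_mul, ih fun e' he' => hEP e' (by simp [he'])]
      rw [hM, Matrix.smul_mul, sub_mul, one_mul, hEP e (by simp)]
      simp
  · intro v hv
    exact hker v (ker_sum_hM E v hv)
  · clear hker hEP
    induction E with
    | nil => simp
    | cons e E ih =>
      rw [List.map_cons, List.sum_cons]
      refine Commute.add_left ?_ (ih fun e' he' => hcomm e' (by simp [he']))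
      rw [hM]
      exact ((Commute.one_left _).sub_left (hcomm e (by simp))).smul_left _

/-- The same for the Gibbs expectation. -/
theorem tendsto_gib (L E : List (V × V)) (h : V → ℝ) {β : ℝ} (hβ : 0 < β)
    (P C : Matrix (V → Fin 2) (V → Fin 2) ℝ) (hP : P.IsSymm)
    (hEP : ∀ e ∈ E, swapM e.1 e.2 * P = P)
    (hker : ∀ v, (∀ e ∈ E, swapM e.1 e.2 *ᵥ v = v) → P *ᵥ v = v)
    (hcomm : ∀ e ∈ E, Commute (swapM e.1 e.2) (ham L h))
    (hpos : trace (P * NormedSpace.exp (-β • ham L h)) ≠ 0) :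
    Tendsto (fun m : ℕ => gib (L ++ (List.replicate m E).flatten) β h C) atTop
      (𝓝 (trace (P * NormedSpace.exp (-β • ham L h) * C) /
        trace (P * NormedSpace.exp (-β • ham L h)))) := by
  have h1 := tendsto_trace_ham L E h hβ P C hP hEP hker hcomm
  have h2 := tendsto_trace_ham L E h hβ P 1 hP hEP hker hcomm
  simp only [Matrix.mul_one] at h2
  exact h1.div h2 hpos

end Phys

end Vale.Agent.P361.LRO.GenS.Lim
end

section

/-!
P361 LRO, general spin: the limit `M → ∞` of the Gibbs states of `edgesS n s M` is the Gibbs state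
of the spin `s / 2` model.
-/

namespace Vale.Agent.P361.LRO.GenS

open Finset Matrix Filter Topology

noncomputable section

section Lists

variable {α κ M : Type*} [AddCommMonoid M]

theorem list_flatMap_sum (l : List α) (g : α → List κ) (f : κ → M) :
    ((l.flatMap g).map f).sum = (l.map fun a => ((g a).map f).sum).sum := by
  induction l with
  | nil => simp
  | cons a l ih => simp [List.flatMap_cons, List.map_append, List.sum_append, ih]

theorem finRange_sum {s : ℕ} (f : Fin s → M) :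
    ((List.finRange s).map f).sum = ∑ i, f i := by
  rw [← List.sum_ofFn, List.ofFn_eq_map]

end Lists

variable {n s : ℕ} [NeZero n]

theorem sum_interE {M : Type*} [AddCommMonoid M] (f : (Tor n × Fin s) × (Tor n × Fin s) → M) :
    ((interE n s).map f).sum = ((interL (edges n) s).map f).sum := by
  unfold interE interL
  rw [list_flatMap_sum, list_flatMap_sum]
  congr 1
  refine List.map_congr_left fun e _ => ?_
  rw [list_flatMap_sum]
  have h1 : (fun i : Fin s => (((List.finRange s).map fun j => ((e.1, i), (e.2, j))).map f).sum) =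
      fun i : Fin s => ∑ j : Fin s, f ((e.1, i), (e.2, j)) := by
    funext i
    rw [List.map_map]
    exact finRange_sum _
  rw [h1, finRange_sum, List.map_map, Finset.sum_map_toList, Fintype.sum_prod_type]
  rfl

theorem intraE_eq : intraE n s = intraL (Tor n) s := rfl

theorem ham_edgesS (M : ℕ) (h : Tor n × Fin s → ℝ) :
    ham (edgesS n s M) h = ham (Lm (edges n) s M) h := by
  unfold ham edgesS Lm
  rw [List.map_append, List.sum_append, List.map_append, List.sum_append, sum_interE, intraE_eq]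

theorem gib_edgesS (M : ℕ) (β : ℝ) (h : Tor n × Fin s → ℝ)
    (A : Matrix (Tor n × Fin s → Fin 2) (Tor n × Fin s → Fin 2) ℝ) :
    gib (edgesS n s M) β h A = gib (Lm (edges n) s M) β h A := by
  unfold gib
  rw [ham_edgesS]

theorem ham_symm {W : Type} [Fintype W] [DecidableEq W] (L : List (W × W)) (h : W → ℝ) :
    (ham L h).IsSymm := by
  have h1 : ∀ E : List (W × W), ((E.map fun e => hM e.1 e.2).sum)ᵀ =
      (E.map fun e => hM e.1 e.2).sum := by
    intro E
    induction E with
    | nil => simp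
    | cons e E ih => rw [List.map_cons, List.sum_cons, Matrix.transpose_add, ih, Lim.hM_transpose]
  unfold ham Matrix.IsSymm
  rw [Matrix.transpose_sub, h1, Matrix.transpose_sum]
  congr 1
  refine Finset.sum_congr rfl fun x _ => ?_
  rw [Matrix.transpose_smul, szM, Matrix.diagonal_transpose]

/-- **(M4)** The total magnetization of the copies converges to the magnetization of the spin
`s / 2` model. -/
theorem tendsto_gibbsMag [NeZero s] (hn : 3 ≤ n) {β : ℝ} (hβ : 0 < β) (h : ℝ) :
    Tendsto (fun M : ℕ => ∑ z : Tor n × Fin s,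
        (1 / 2 - rho (edgesS n s M) β (hS fun _ => h) z)) atTop
      (𝓝 (gibbsMagV s (torusAdj n) β h)) := by
  have hZ : ∀ M : ℕ, Matrix.trace (NormedSpace.exp
      (-β • ham (edgesS n s M) (hS fun _ : Tor n => h))) ≠ 0 := fun M => (trace_exp_pos_real (by
      unfold Matrix.IsSymm
      rw [Matrix.transpose_smul, ham_symm])).ne'
  have h1 : ∀ M : ℕ, ∑ z : Tor n × Fin s, (1 / 2 - rho (edgesS n s M) β (hS fun _ => h) z) =
      gib (Lm (edges n) s M) β (lift s fun _ : Tor n => h)
        (∑ z : Tor n × Fin s, (1 / 2 : ℝ) • szM z) := by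
    intro M
    have e1 : ∀ z : Tor n × Fin s, 1 / 2 - rho (edgesS n s M) β (hS fun _ => h) z =
        gib (edgesS n s M) β (hS fun _ => h) ((1 / 2 : ℝ) • szM z) :=
      fun z => rho_eq_gib _ _ _ _ (hZ M)
    rw [Finset.sum_congr rfl fun z _ => e1 z, ← gib_edgesS]
    unfold gib
    rw [← Finset.sum_div, Finset.mul_sum, Matrix.trace_sum]
    rfl
  simp only [h1]
  rw [gibbsMagV_spin hn]
  have key := Lim.tendsto_gib (interL (edges n) s) (intraL (Tor n) s) (lift s fun _ : Tor n => h) hβ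
    (symProd (Tor n) s) (∑ z : Tor n × Fin s, (1 / 2 : ℝ) • szM z) symProd_transpose
    (fun e he => by
      obtain ⟨⟨x, a⟩, ⟨y, b⟩⟩ := e
      have h2 := (mem_intraL.1 he).1
      dsimp only at h2
      subst h2
      exact swapM_mul_symProd x a b)
    (fun v hv => symProd_mulVec v fun x a b => by
      rcases lt_trichotomy a b with hab | hab | hab
      · exact hv ((x, a), (x, b)) (mem_intraL.2 ⟨rfl, hab⟩)
      · subst hab
        have : swapM (x, a) (x, a) = (1 : Matrix (Tor n × Fin s → Fin 2)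
            (Tor n × Fin s → Fin 2) ℝ) := by
          ext σ τ
          simp [swapM, Matrix.one_apply]
        rw [this, Matrix.one_mulVec]
      · have h3 := hv ((x, b), (x, a)) (mem_intraL.2 ⟨rfl, hab⟩)
        have h4 : swapM (x, a) (x, b) = swapM (x, b) (x, a) := by
          ext σ τ
          simp [swapM, Equiv.swap_comm]
        rw [h4]
        exact h3)
    (fun e he => by
      obtain ⟨⟨x, a⟩, ⟨y, b⟩⟩ := e
      have h2 := (mem_intraL.1 he).1
      dsimp only at h2
      subst h2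
      exact comm_ham (edges n) _ x a b)
    (trace_symProd_exp_pos hn β h).ne'
  exact key

end

end Vale.Agent.P361.LRO.GenS
end

section

/-!
P361, stage 3, (LT0): `tr exp(-β H_b + g(N_b)) ≤ (|b| + 1) (A tr exp(-β H_b - τ₁ D_b) + …)` for
couplings inside the block, `exp g ≤ A exp(-τ₁ r) + B exp(-τ₂ r)`.
-/

namespace Vale.Agent.P361.LRO.TwJ

set_option linter.all false

open Matrix Finset
open scoped ComplexOrder

variable {V : Type} [Fintype V] [DecidableEq V]

theorem swap_comm_Sg {b : Finset V} {x y : V} (hx : x ∈ b) (hy : y ∈ b) (A : M2) :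
    Sg b A * cm (swapM x y) = cm (swapM x y) * Sg b A := by
  have hs : ∀ z, Equiv.swap x y z ∈ b ↔ z ∈ b := by
    intro z
    by_cases hzx : z = x
    · subst hzx; simp [hx, hy]
    · by_cases hzy : z = y
      · subst hzy; simp [hx, hy]
      · rw [Equiv.swap_apply_of_ne_of_ne hzx hzy]
  have hinv : ∀ σ τ : V → Fin 2, σ = τ ∘ Equiv.swap x y ↔ τ = σ ∘ Equiv.swap x y := by
    intro σ τ
    constructor
    · intro h; rw [h]; ext1 z; simp
    · intro h; rw [h]; ext1 z; simp
  have h1 : ∀ (X : Opr V) σ τ, (cm (swapM x y) * X) σ τ = X (σ ∘ Equiv.swap x y) τ := by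
    intro X σ τ
    rw [Matrix.mul_apply, Finset.sum_eq_single (σ ∘ Equiv.swap x y)]
    · rw [cm, Matrix.of_apply, swapM, Matrix.of_apply, if_pos ((hinv _ _).2 rfl)]; simp
    · intro ρ _ hρ
      rw [cm, Matrix.of_apply, swapM, Matrix.of_apply, if_neg (fun h => hρ ((hinv _ _).1 h))]; simp
    · intro h; exact absurd (Finset.mem_univ _) h
  have h2 : ∀ (X : Opr V) σ τ, (X * cm (swapM x y)) σ τ = X σ (τ ∘ Equiv.swap x y) := by
    intro X σ τ
    rw [Matrix.mul_apply, Finset.sum_eq_single (τ ∘ Equiv.swap x y)]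
    · rw [cm, Matrix.of_apply, swapM, Matrix.of_apply, if_pos rfl]; simp
    · intro ρ _ hρ
      rw [cm, Matrix.of_apply, swapM, Matrix.of_apply, if_neg hρ]; simp
    · intro h; exact absurd (Finset.mem_univ _) h
  ext σ τ
  rw [h1, h2, Sg, Matrix.sum_apply, Matrix.sum_apply]
  refine Finset.sum_bij' (fun z _ => Equiv.swap x y z) (fun z _ => Equiv.swap x y z)
    (fun z hz => (hs z).2 hz) (fun z hz => (hs z).2 hz) (fun z _ => by simp) (fun z _ => by simp)
    fun z hz => ?_
  rw [st_apply, st_apply]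
  simp only [Function.comp_apply, Equiv.swap_apply_self]
  congr 1
  have : (∀ w, w ≠ z → σ w = τ (Equiv.swap x y w)) ↔
      (∀ w, w ≠ Equiv.swap x y z → σ (Equiv.swap x y w) = τ w) := by
    constructor
    · intro h w hw
      have := h (Equiv.swap x y w) (fun h' => hw (by rw [← h']; simp))
      rwa [Equiv.swap_apply_self] at this
    · intro h w hw
      have := h (Equiv.swap x y w) (fun h' => hw ((Equiv.swap x y).injective h'))
      rwa [Equiv.swap_apply_self] at this
  simp only [this]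

theorem hM_comm_Sg {b : Finset V} {x y : V} (hx : x ∈ b) (hy : y ∈ b) (A : M2) :
    Sg b A * cm (hM x y) = cm (hM x y) * Sg b A := by
  rw [hM, cm_smul, cm_sub, cm_one, Matrix.smul_mul, Matrix.mul_smul, Matrix.sub_mul,
    Matrix.mul_sub, swap_comm_Sg hx hy, one_mul, mul_one]

theorem cm_zero : cm (0 : Matrix (V → Fin 2) (V → Fin 2) ℝ) = 0 := by
  ext σ τ; simp [cm]

theorem ham_comm_Sg {b : Finset V} {L : List (V × V)} (hL : ∀ e ∈ L, e.1 ∈ b ∧ e.2 ∈ b)
    (A : M2) :
    Sg b A * cm (ham L fun _ => 0) = cm (ham L fun _ => 0) * Sg b A := by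
  have h0 : ham L (fun _ : V => (0 : ℝ)) = (L.map fun e => hM e.1 e.2).sum := by
    simp [ham]
  rw [h0]
  clear h0
  induction L with
  | nil => simp [cm_zero]
  | cons e L ih =>
    rw [List.map_cons, List.sum_cons, cm_add, mul_add, add_mul,
      hM_comm_Sg (hL e (by simp)).1 (hL e (by simp)).2, ih fun e' he' => hL e' (by simp [he'])]

theorem comm_cm_exp {Y : Opr V} {A : Matrix (V → Fin 2) (V → Fin 2) ℝ}
    (h : Y * cm A = cm A * Y) : Y * cm (NormedSpace.exp A) = cm (NormedSpace.exp A) * Y := by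
  have h3 := hasSum_exp_matrix A
  have hcm : Continuous fun X : Matrix (V → Fin 2) (V → Fin 2) ℝ => cm X := by
    unfold cm
    fun_prop
  have hc : Continuous fun X : Matrix (V → Fin 2) (V → Fin 2) ℝ =>
      Y * cm X - cm X * Y := by fun_prop
  have h4 := h3.map (⟨⟨fun X : Matrix (V → Fin 2) (V → Fin 2) ℝ =>
      Y * cm X - cm X * Y, by simp [cm_zero]⟩, by
        intro X Z
        simp only [cm_add, Matrix.mul_add, Matrix.add_mul]
        abel⟩ :
          Matrix (V → Fin 2) (V → Fin 2) ℝ →+ Opr V) hc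
  have hp : ∀ n : ℕ, Y * cm (A ^ n) = cm (A ^ n) * Y := by
    intro n
    induction n with
    | zero => simp [cm_one]
    | succ n ih => rw [pow_succ, cm_mul, ← mul_assoc, ih, mul_assoc, h, mul_assoc]
  have h5 : HasSum (fun _ : ℕ => (0 : Opr V))
      (Y * cm (NormedSpace.exp A) - cm (NormedSpace.exp A) * Y) := by
    refine h4.congr_fun ?_
    intro n
    change 0 = Y * cm (((n.factorial : ℝ)⁻¹) • A ^ n) - cm (((n.factorial : ℝ)⁻¹) • A ^ n) * Y
    rw [cm_smul, Matrix.mul_smul, Matrix.smul_mul, hp, sub_self]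
  exact sub_eq_zero.1 (h5.unique hasSum_zero)

theorem cm_injective : Function.Injective
    (cm : Matrix (V → Fin 2) (V → Fin 2) ℝ → Opr V) := by
  intro A B h
  ext σ τ
  have := congrFun (congrFun h σ) τ
  simpa [cm] using this

theorem comm_of_Sg {b : Finset V} {X : Matrix (V → Fin 2) (V → Fin 2) ℝ}
    (h : ∀ A : M2, Sg b A * cm X = cm X * Sg b A) : Commute X (Om b) ∧ Commute X (Dn b) := by
  have hC : Cas b * cm X = cm X * Cas b := by
    have e1 : Sg b sm * Sg b sp * cm X = cm X * (Sg b sm * Sg b sp) := by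
      rw [mul_assoc, h sp, ← mul_assoc, h sm, mul_assoc]
    have e2 : Sg b sz * Sg b sz * cm X = cm X * (Sg b sz * Sg b sz) := by
      rw [mul_assoc, h sz, ← mul_assoc, h sz, mul_assoc]
    rw [Cas, Matrix.add_mul, Matrix.add_mul, Matrix.mul_add, Matrix.mul_add, e1, e2, h sz]
  constructor
  · apply cm_injective
    rw [cm_mul, cm_mul, cm_Om, Matrix.mul_sub, Matrix.sub_mul, Matrix.mul_smul, Matrix.smul_mul,
      mul_one, one_mul, hC]
  · apply cm_injective
    rw [cm_mul, cm_mul, cm_Dn, Matrix.mul_sub, Matrix.sub_mul, Matrix.mul_smul, Matrix.smul_mul,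
      mul_one, one_mul, h sz]

theorem commute_aeval {X A : Matrix (V → Fin 2) (V → Fin 2) ℝ} (h : Commute X A)
    (P : Polynomial ℝ) : Commute X (Polynomial.aeval A P) := by
  induction P using Polynomial.induction_on with
  | C a =>
    rw [Polynomial.aeval_C]
    exact Algebra.commutes' a X |>.symm
  | add p q hp hq => rw [map_add]; exact hp.add_right hq
  | monomial n a ih =>
    rw [pow_succ, ← mul_assoc, map_mul, Polynomial.aeval_X]
    exact ih.mul_right h

theorem hsym_exp (L : List (V × V)) (β : ℝ) (h : V → ℝ) (σ τ : V → Fin 2)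
    (hd : NormedSpace.exp (-β • ham L h) σ τ ≠ 0) :
    ∑ x, ((σ x : ℕ) : ℤ) = ∑ x, ((τ x : ℕ) : ℤ) := by
  have h1 := Tw.expH_cons L β h σ τ hd
  unfold Tw.dn at h1
  exact_mod_cast h1

/-- **(LT0), law form.** -/
theorem lt0_law {b : Finset V} {L : List (V × V)} (hL : ∀ e ∈ L, e.1 ∈ b ∧ e.2 ∈ b) (β : ℝ)
    {g : ℕ → ℝ} {G : Polynomial ℝ}
    (hG : ∀ r : ℕ, 2 * r ≤ b.card → G.eval ((r : ℝ) * ((b.card : ℝ) - r + 1)) = g r)
    {A B τ₁ τ₂ : ℝ} (hA : 0 ≤ A) (hB : 0 ≤ B) (h1 : 0 ≤ τ₁) (h2 : 0 ≤ τ₂)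
    (hgAB : ∀ r : ℕ, 2 * r ≤ b.card →
      Real.exp (g r) ≤ A * Real.exp (-τ₁ * r) + B * Real.exp (-τ₂ * r)) :
    Matrix.trace (NormedSpace.exp (-β • ham L (fun _ => 0) + Polynomial.aeval (Om b) G)) ≤
      ((b.card : ℝ) + 1) * (A * Matrix.trace
        (NormedSpace.exp (-β • ham L (fun _ => 0) - τ₁ • Dn b)) +
          B * Matrix.trace (NormedSpace.exp (-β • ham L (fun _ => 0) - τ₂ • Dn b))) := by
  have hcS := ham_comm_Sg hL
  obtain ⟨c1, c2⟩ := comm_of_Sg hcS
  set W := NormedSpace.exp (-β • ham L (fun _ : V => (0 : ℝ))) with hW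
  have hcomm : Sg b sp * cm W = cm W * Sg b sp := by
    apply comm_cm_exp
    rw [cm_smul, Matrix.mul_smul, Matrix.smul_mul, hcS]
  obtain ⟨ι, hι, μ, N, r, p, hμ, hNp, hlaw, -, -⟩ :=
    joint_law_poly (Tw.expH_psd L β fun _ => 0) (hsym_exp L β fun _ => 0) b
  rw [← hW] at hlaw
  have hN := fun i => (hNp i).1
  have hp := fun i => (hNp i).2
  -- the left side
  have e1 : NormedSpace.exp (-β • ham L (fun _ => 0) + Polynomial.aeval (Om b) G) =
      W * NormedSpace.exp ((1 : ℝ) • Polynomial.aeval (Om b) G) := by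
    rw [one_smul, hW]
    exact Matrix.exp_add_of_commute _ _ (commute_aeval (c1.smul_left _) G)
  have e2 : ∀ τ : ℝ, Matrix.trace (NormedSpace.exp (-β • ham L (fun _ => 0) - τ • Dn b)) =
      ∑ i, μ i * Real.exp (-τ * ((r i : ℝ) + p i)) := by
    intro τ
    have h3 : NormedSpace.exp (-β • ham L (fun _ => 0) - τ • Dn b) =
        W * NormedSpace.exp (-τ • Dn b) := by
      rw [hW, sub_eq_add_neg, ← neg_smul]
      exact Matrix.exp_add_of_commute _ _ ((c2.smul_left _).smul_right _)
    rw [h3]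
    have h4 := law_exp2 hlaw 0 (Polynomial.C (-τ) * Polynomial.X)
    simp only [Polynomial.eval_zero, Real.exp_zero, one_mul, Polynomial.eval_mul,
      Polynomial.eval_C, Polynomial.eval_X, map_zero, NormedSpace.exp_zero, map_mul,
      Polynomial.aeval_C, Polynomial.aeval_X, Algebra.algebraMap_eq_smul_one, Matrix.smul_mul]
      at h4
    exact h4.symm
  rw [e1, ← (law_fun hN hlaw hG).2 1, e2, e2]
  have hF := law_le hμ hN hp hlaw hcomm (g := fun r : ℕ =>
    A * Real.exp (-τ₁ * r) + B * Real.exp (-τ₂ * r)) (fun x _ => by positivity)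
  calc ∑ i, μ i * Real.exp (1 * g (r i)) ≤
        ∑ i, μ i * (A * Real.exp (-τ₁ * r i) + B * Real.exp (-τ₂ * r i)) := by
        refine Finset.sum_le_sum fun i _ => mul_le_mul_of_nonneg_left ?_ (hμ i)
        rw [one_mul]
        exact hgAB _ (by have := hN i; omega)
    _ ≤ _ := hF
    _ ≤ _ := by
        refine mul_le_mul_of_nonneg_left ?_ (by positivity)
        rw [Finset.mul_sum, Finset.mul_sum, ← Finset.sum_add_distrib]
        refine Finset.sum_le_sum fun i _ => ?_
        have hμi := hμ i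
        split_ifs with h0
        · rw [h0]
          simp only [Nat.cast_zero, add_zero]
          exact le_of_eq (by ring)
        · rw [mul_zero]
          positivity

end Vale.Agent.P361.LRO.TwJ
end

section

/-!
P361, stage 3, (LT0) for a general positive semidefinite matrix `W` commuting with the block
spin (all spins: `W = P exp(-β H)`).
-/

namespace Vale.Agent.P361.LRO.TwJ

set_option linter.all false

open Matrix Finset
open scoped ComplexOrder

variable {V : Type} [Fintype V] [DecidableEq V]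

/-- **(LT0), general form.** -/
theorem lt0_gen {W : Matrix (V → Fin 2) (V → Fin 2) ℝ} (hW : W.PosSemidef)
    (hsym : ∀ σ τ, W σ τ ≠ 0 → ∑ x, ((σ x : ℕ) : ℤ) = ∑ x, ((τ x : ℕ) : ℤ))
    {b : Finset V} (hcomm : Sg b sp * cm W = cm W * Sg b sp)
    {g : ℕ → ℝ} {G : Polynomial ℝ}
    (hG : ∀ r : ℕ, 2 * r ≤ b.card → G.eval ((r : ℝ) * ((b.card : ℝ) - r + 1)) = g r)
    {A B τ₁ τ₂ : ℝ} (hA : 0 ≤ A) (hB : 0 ≤ B)
    (hgAB : ∀ r : ℕ, 2 * r ≤ b.card →
      Real.exp (g r) ≤ A * Real.exp (-τ₁ * r) + B * Real.exp (-τ₂ * r)) :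
    Matrix.trace (W * NormedSpace.exp (Polynomial.aeval (Om b) G)) ≤
      ((b.card : ℝ) + 1) * (A * Matrix.trace (W * NormedSpace.exp (-τ₁ • Dn b)) +
          B * Matrix.trace (W * NormedSpace.exp (-τ₂ • Dn b))) := by
  obtain ⟨ι, hι, μ, N, r, p, hμ, hNp, hlaw, -, -⟩ := joint_law_poly hW hsym b
  have hN := fun i => (hNp i).1
  have hp := fun i => (hNp i).2
  have e1 : NormedSpace.exp (Polynomial.aeval (Om b) G) =
      NormedSpace.exp ((1 : ℝ) • Polynomial.aeval (Om b) G) := by
    rw [one_smul]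
  have e2 : ∀ τ : ℝ, Matrix.trace (W * NormedSpace.exp (-τ • Dn b)) =
      ∑ i, μ i * Real.exp (-τ * ((r i : ℝ) + p i)) := by
    intro τ
    have h4 := law_exp2 hlaw 0 (Polynomial.C (-τ) * Polynomial.X)
    simp only [Polynomial.eval_zero, Real.exp_zero, one_mul, Polynomial.eval_mul,
      Polynomial.eval_C, Polynomial.eval_X, map_zero, NormedSpace.exp_zero, map_mul,
      Polynomial.aeval_C, Polynomial.aeval_X, Algebra.algebraMap_eq_smul_one, Matrix.smul_mul]
      at h4
    exact h4.symm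
  rw [e1, ← (law_fun hN hlaw hG).2 1, e2, e2]
  have hF := law_le hμ hN hp hlaw hcomm (g := fun r : ℕ =>
    A * Real.exp (-τ₁ * r) + B * Real.exp (-τ₂ * r)) (fun x _ => by positivity)
  calc ∑ i, μ i * Real.exp (1 * g (r i)) ≤
        ∑ i, μ i * (A * Real.exp (-τ₁ * r i) + B * Real.exp (-τ₂ * r i)) := by
        refine Finset.sum_le_sum fun i _ => mul_le_mul_of_nonneg_left ?_ (hμ i)
        rw [one_mul]
        exact hgAB _ (by have := hN i; omega)
    _ ≤ _ := hF
    _ ≤ _ := by
        refine mul_le_mul_of_nonneg_left ?_ (by positivity)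
        rw [Finset.mul_sum, Finset.mul_sum, ← Finset.sum_add_distrib]
        refine Finset.sum_le_sum fun i _ => ?_
        have hμi := hμ i
        split_ifs with h0
        · rw [h0]
          simp only [Nat.cast_zero, add_zero]
          exact le_of_eq (by ring)
        · rw [mul_zero]
          positivity

/-- Product of commuting matrices: positive semidefinite. -/
theorem psd_mul {P W : Matrix (V → Fin 2) (V → Fin 2) ℝ} (hP : P.PosSemidef) (hPP : P * P = P)
    (hW : W.PosSemidef) (h : Commute P W) : (P * W).PosSemidef := by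
  have h1 : P * W = P * W * Pᴴ := by
    rw [hP.1.eq, mul_assoc, ← h.eq, ← mul_assoc, hPP]
  rw [h1]
  exact hW.mul_mul_conjTranspose_same P

theorem hsym_mul {P W : Matrix (V → Fin 2) (V → Fin 2) ℝ}
    (hP : ∀ σ τ, P σ τ ≠ 0 → ∑ x, ((σ x : ℕ) : ℤ) = ∑ x, ((τ x : ℕ) : ℤ))
    (hW : ∀ σ τ, W σ τ ≠ 0 → ∑ x, ((σ x : ℕ) : ℤ) = ∑ x, ((τ x : ℕ) : ℤ)) (σ τ : V → Fin 2)
    (h : (P * W) σ τ ≠ 0) : ∑ x, ((σ x : ℕ) : ℤ) = ∑ x, ((τ x : ℕ) : ℤ) := by
  rw [Matrix.mul_apply] at h
  obtain ⟨ρ, _, hρ⟩ := Finset.exists_ne_zero_of_sum_ne_zero h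
  exact (hP _ _ (left_ne_zero_of_mul hρ)).trans (hW _ _ (right_ne_zero_of_mul hρ))

theorem comm_Sg_mul {b : Finset V} {A : M2} {P W : Matrix (V → Fin 2) (V → Fin 2) ℝ}
    (hP : Sg b A * cm P = cm P * Sg b A) (hW : Sg b A * cm W = cm W * Sg b A) :
    Sg b A * cm (P * W) = cm (P * W) * Sg b A := by
  rw [cm_mul, ← mul_assoc, hP, mul_assoc, hW, mul_assoc]

end Vale.Agent.P361.LRO.TwJ
end

section

/-!
P361, stage 3, all spins: identification of the symmetrised partition functions of the copies with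
the partition functions of the spin `s / 2` models: free boxes (`B.Zt`) and tori.
-/

namespace Vale.Agent.P361.LRO.S3S

open Finset Matrix Filter Topology Vale.Agent.P361.LRO.GenS Vale.Agent.P361.LRO.S3
open Vale.Agent.P361.LRO.TwJ

noncomputable section

section General

variable {V : Type} [Fintype V] [DecidableEq V] {s : ℕ}

/-- `∑ (S² - S_x · S_y)` over the edges of `L`, spin `s / 2`. -/
def hamSp (s : ℕ) (L : List (V × V)) : Matrix (V → Fin (s + 1)) (V → Fin (s + 1)) ℂ :=
  (L.map fun e => (((s : ℂ) / 2) ^ 2) • (1 : Matrix (V → Fin (s + 1)) (V → Fin (s + 1)) ℂ) -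
    ∑ a : Fin 3, siteOpV e.1 (Model.spin s a) * siteOpV e.2 (Model.spin s a)).sum

/-- `∑ (S - S³_x)`. -/
def numSp (s : ℕ) (V : Type) [Fintype V] [DecidableEq V] :
    Matrix (V → Fin (s + 1)) (V → Fin (s + 1)) ℂ :=
  ∑ x : V, (((s : ℂ) / 2) • (1 : Matrix (V → Fin (s + 1)) (V → Fin (s + 1)) ℂ) -
    siteOpV x (Model.spin s 2))

theorem edge_mul {x y : V} (hxy : x ≠ y) :
    cM (∑ ab : Fin s × Fin s, LRO.hM (x, ab.1) (y, ab.2)) * WV s V =
      WV s V * ((((s : ℂ) / 2) ^ 2) • (1 : Matrix (V → Fin (s + 1)) (V → Fin (s + 1)) ℂ) -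
        ∑ a : Fin 3, siteOpV x (Model.spin s a) * siteOpV y (Model.spin s a)) := by
  have h1 := tot_mul_tot (m := s) x y hxy
  have h2 : cM (∑ ab : Fin s × Fin s, LRO.hM ((x, ab.1) : V × Fin s) (y, ab.2)) =
      ((s : ℂ) ^ 2 * (1 / 4)) • (1 : Matrix (V × Fin s → Fin 2) (V × Fin s → Fin 2) ℂ) -
        ∑ a : Fin 3, tot s a x * tot s a y := by
    rw [h1]
    abel
  rw [h2, Matrix.sub_mul, Matrix.mul_sub, Matrix.smul_mul, Matrix.mul_smul, Matrix.one_mul,
    Matrix.mul_one, Matrix.sum_mul, Matrix.mul_sum]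
  congr 1
  · congr 1
    ring
  · refine Finset.sum_congr rfl fun a _ => ?_
    rw [Matrix.mul_assoc, tot_mul, ← Matrix.mul_assoc, tot_mul, Matrix.mul_assoc]

theorem inter_mul (L : List (V × V)) (hL : ∀ e ∈ L, e.1 ≠ e.2) :
    cM (((interL L s).map fun e => LRO.hM e.1 e.2).sum) * WV s V = WV s V * hamSp s L := by
  rw [sum_interL, hamSp]
  induction L with
  | nil => simp [cM_zero]
  | cons e L ih =>
    rw [List.map_cons, List.map_cons, List.sum_cons, List.sum_cons, cM_add, Matrix.add_mul,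
      Matrix.mul_add, ih fun e he => hL e (List.mem_cons_of_mem _ he),
      edge_mul (hL e List.mem_cons_self)]

theorem num_mul : cM (Dn (univ : Finset (V × Fin s))) * WV s V = WV s V * numSp s V := by
  have h1 : cM (Dn (univ : Finset (V × Fin s))) =
      ∑ x : V, (((s : ℂ) / 2) • (1 : Matrix (V × Fin s → Fin 2) (V × Fin s → Fin 2) ℂ) -
        tot s 2 x) := by
    rw [Dn, Fintype.sum_prod_type, cM_sum]
    refine Finset.sum_congr rfl fun x _ => ?_
    have h2 : ∑ i : Fin s, (1 / 2 : ℝ) •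
        (1 - szM ((x, i) : V × Fin s)) =
        ((s : ℝ) / 2) • (1 : Matrix (V × Fin s → Fin 2) (V × Fin s → Fin 2) ℝ) -
          ∑ i : Fin s, (1 / 2 : ℝ) • szM ((x, i) : V × Fin s) := by
      simp only [smul_sub, Finset.sum_sub_distrib, Finset.sum_const, Finset.card_univ,
        Fintype.card_fin]
      congr 1
      rw [← Nat.cast_smul_eq_nsmul ℝ, smul_smul]
      congr 1
      ring
    rw [h2, cM_sub, ← tot_z, cM_smul, cM_one]
    push_cast
    rfl
  rw [h1, numSp, Matrix.sum_mul, Matrix.mul_sum]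
  refine Finset.sum_congr rfl fun x _ => ?_
  rw [Matrix.sub_mul, Matrix.mul_sub, Matrix.smul_mul, Matrix.mul_smul, Matrix.one_mul,
    Matrix.mul_one, tot_mul]

/-- The bridge of the partition functions, general graph. -/
theorem trace_spin [NeZero s] (L : List (V × V)) (hL : ∀ e ∈ L, e.1 ≠ e.2) (β τ : ℝ) :
    trace (NormedSpace.exp (-((β : ℂ) • hamSp s L + (τ : ℂ) • numSp s V))) =
      ((trace (symProd V s * NormedSpace.exp (-β • ham (interL L s) 0 -
        τ • Dn (univ : Finset (V × Fin s)))) : ℝ) : ℂ) := by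
  have hA : cM (-β • ham (interL L s) 0 - τ • Dn (univ : Finset (V × Fin s))) * WV s V =
      WV s V * (-((β : ℂ) • hamSp s L + (τ : ℂ) • numSp s V)) := by
    have h0 : ham (interL L s) 0 = ((interL L s).map fun e => LRO.hM e.1 e.2).sum := by
      simp [ham]
    rw [h0, cM_sub, cM_smul, cM_smul, Matrix.sub_mul, Matrix.smul_mul, Matrix.smul_mul,
      inter_mul L hL, num_mul, neg_add, Matrix.mul_add, Matrix.mul_neg, Matrix.mul_neg,
      Matrix.mul_smul, Matrix.mul_smul]
    push_cast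
    module
  rw [trace_exp_bridge hA (WV_conj_mul s), WV_mul_conj, symV_eq, exp_cM, ← cM_mul, trace_cM,
    Matrix.trace_mul_comm]

end General

section Box

variable {Λ : Finset Site} {s : ℕ}

theorem hT_eq (s : ℕ) (Λ : Finset Site) : B.hT s Λ = (1 / 2 : ℂ) • hamSp s (nnL Λ) := by
  have h0 : hamSp s (nnL Λ) = ∑ x : Λ, ∑ y : Λ,
      if IsNN x.1 y.1 then ((((s : ℂ) / 2) ^ 2) •
        (1 : Matrix (Λ → Fin (s + 1)) (Λ → Fin (s + 1)) ℂ) -
        ∑ a : Fin 3, siteOpV x (Model.spin s a) * siteOpV y (Model.spin s a)) else 0 := by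
    rw [hamSp, nnL, Finset.sum_map_toList, Finset.sum_filter, Fintype.sum_prod_type]
  rw [h0]
  rfl

theorem numOp_eq (s : ℕ) (Λ : Finset Site) : B.numOp s Λ = numSp s Λ := rfl

/-- **Free boxes**: the spin `s / 2` partition function in terms of the copies. -/
theorem Zt_eq [NeZero s] (Λ : Finset Site) (β τ : ℝ) : B.Zt s Λ β τ =
    trace (symProd Λ s * NormedSpace.exp (-(β / 2) • ham (interL (nnL Λ) s) 0 -
      τ • Dn (univ : Finset (Λ × Fin s)))) := by
  have hL : ∀ e ∈ nnL Λ, e.1 ≠ e.2 := by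
    intro e he
    rw [nnL, Finset.mem_toList, Finset.mem_filter] at he
    exact H.isNN_ne he.2
  have h1 := trace_spin (s := s) (nnL Λ) hL (β / 2) τ
  rw [B.Zt, hT_eq, numOp_eq]
  have h2 : (β : ℂ) • ((1 / 2 : ℂ) • hamSp s (nnL Λ)) =
      ((β / 2 : ℝ) : ℂ) • hamSp s (nnL Λ) := by
    rw [smul_smul]
    congr 1
    push_cast
    ring
  rw [h2, h1, Complex.ofReal_re]

end Box

end

end Vale.Agent.P361.LRO.S3S
end

section

/-!
P361 LRO, all spins: covariance of the densities under translations and permutations of the copies.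
-/

namespace Vale.Agent.P361.LRO.GenS

open Finset Matrix Filter Topology

noncomputable section

namespace TransS

variable {n s : ℕ} [NeZero n]

theorem interE_map_sum {A : Type*} [AddCommMonoid A]
    (f : (Tor n × Fin s) → (Tor n × Fin s) → A) :
    ((interE n s).map fun e => f e.1 e.2).sum =
      ∑ z : Tor n × Fin 3, ∑ i : Fin s, ∑ j : Fin s,
        f (z.1, i) (z.1 + Pi.single z.2 1, j) := by
  have h1 : ∀ l : List (Tor n × Tor n),
      ((l.flatMap fun e => (List.finRange s).flatMap fun i => (List.finRange s).map fun j =>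
        (((e.1, i), (e.2, j)) : (Tor n × Fin s) × (Tor n × Fin s))).map
          fun e => f e.1 e.2).sum =
        (l.map fun e => ∑ i : Fin s, ∑ j : Fin s, f (e.1, i) (e.2, j)).sum := by
    intro l
    induction l with
    | nil => rfl
    | cons e l ih =>
      rw [List.flatMap_cons, List.map_append, List.sum_append, ih, List.map_cons, List.sum_cons]
      congr 1
      have h2 : ∀ k : List (Fin s), ((k.flatMap fun i => (List.finRange s).map fun j =>
          (((e.1, i), (e.2, j)) : (Tor n × Fin s) × (Tor n × Fin s))).map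
            fun e => f e.1 e.2).sum = (k.map fun i => ∑ j : Fin s, f (e.1, i) (e.2, j)).sum := by
        intro k
        induction k with
        | nil => rfl
        | cons i k ihk =>
          rw [List.flatMap_cons, List.map_append, List.sum_append, ihk, List.map_cons,
            List.sum_cons]
          congr 1
          rw [List.map_map, ← List.ofFn_eq_map, List.sum_ofFn]
          rfl
      rw [h2, ← List.ofFn_eq_map, List.sum_ofFn]
  unfold interE
  rw [h1, edges, List.map_map, Finset.sum_map_toList]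
  rfl

theorem intraE_map_sum {A : Type*} [AddCommMonoid A]
    (f : (Tor n × Fin s) → (Tor n × Fin s) → A) :
    ((intraE n s).map fun e => f e.1 e.2).sum =
      ∑ z ∈ (univ : Finset (Tor n × Fin s × Fin s)).filter (fun z => z.2.1 < z.2.2),
        f (z.1, z.2.1) (z.1, z.2.2) := by
  unfold intraE
  rw [List.map_map, Finset.sum_map_toList]
  rfl

theorem edgesS_map_sum {A : Type*} [AddCommMonoid A] (M : ℕ)
    (f : (Tor n × Fin s) → (Tor n × Fin s) → A) :
    ((edgesS n s M).map fun e => f e.1 e.2).sum =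
      ((interE n s).map fun e => f e.1 e.2).sum +
        M • ((intraE n s).map fun e => f e.1 e.2).sum := by
  unfold edgesS
  rw [List.map_append, List.sum_append]
  congr 1
  induction M with
  | zero => rw [List.replicate_zero, List.flatten_nil, List.map_nil, List.sum_nil, zero_smul]
  | succ M ih =>
    rw [List.replicate_succ, List.flatten_cons, List.map_append, List.sum_append, ih, succ_nsmul']

/-- Translation and permutation of the copies. -/
def gS (a : Tor n) (π : Equiv.Perm (Fin s)) : (Tor n × Fin s) ≃ (Tor n × Fin s) :=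
  (Equiv.addRight a).prodCongr π

omit [NeZero n] in
theorem gS_apply (a : Tor n) (π : Equiv.Perm (Fin s)) (x : Tor n) (i : Fin s) :
    gS a π (x, i) = (x + a, π i) := rfl

theorem interE_inv {A : Type*} [AddCommMonoid A] (a : Tor n) (π : Equiv.Perm (Fin s))
    (f : (Tor n × Fin s) → (Tor n × Fin s) → A) :
    ((interE n s).map fun e => f (gS a π e.1) (gS a π e.2)).sum =
      ((interE n s).map fun e => f e.1 e.2).sum := by
  rw [interE_map_sum, interE_map_sum (fun u v => f (gS a π u) (gS a π v))]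
  refine Fintype.sum_equiv ((Equiv.addRight a).prodCongr (Equiv.refl (Fin 3))) _ _ fun z => ?_
  refine Fintype.sum_equiv π _ _ fun i => ?_
  refine Fintype.sum_equiv π _ _ fun j => ?_
  rw [gS_apply, gS_apply]
  simp only [Equiv.prodCongr_apply, Prod.map, Equiv.coe_addRight, Equiv.refl_apply]
  rw [add_right_comm]

theorem intraE_two {A : Type*} [AddCommMonoid A]
    (f : (Tor n × Fin s) → (Tor n × Fin s) → A) (hf : ∀ u v, f u v = f v u) :
    ((intraE n s).map fun e => f e.1 e.2).sum + ((intraE n s).map fun e => f e.1 e.2).sum =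
      ∑ x : Tor n, ∑ i : Fin s, ∑ j : Fin s, if i ≠ j then f (x, i) (x, j) else 0 := by
  have h1 : ((intraE n s).map fun e => f e.1 e.2).sum =
      ∑ x : Tor n, ∑ i : Fin s, ∑ j : Fin s, if i < j then f (x, i) (x, j) else 0 := by
    rw [intraE_map_sum, Finset.sum_filter, Fintype.sum_prod_type]
    refine Finset.sum_congr rfl fun x _ => ?_
    rw [Fintype.sum_prod_type]
  have h2 : ((intraE n s).map fun e => f e.1 e.2).sum =
      ∑ x : Tor n, ∑ i : Fin s, ∑ j : Fin s, if j < i then f (x, i) (x, j) else 0 := by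
    rw [h1]
    refine Finset.sum_congr rfl fun x _ => ?_
    rw [Finset.sum_comm]
    refine Finset.sum_congr rfl fun i _ => Finset.sum_congr rfl fun j _ => ?_
    rw [hf]
  conv_lhs => rw [h1]
  rw [← h1]
  conv_lhs =>
    lhs
    rw [h1]
  conv_lhs =>
    rhs
    rw [h2]
  rw [← Finset.sum_add_distrib]
  refine Finset.sum_congr rfl fun x _ => ?_
  rw [← Finset.sum_add_distrib]
  refine Finset.sum_congr rfl fun i _ => ?_
  rw [← Finset.sum_add_distrib]
  refine Finset.sum_congr rfl fun j _ => ?_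
  rcases lt_trichotomy i j with h | h | h
  · rw [if_pos h, if_neg (not_lt.2 h.le), if_pos h.ne, add_zero]
  · rw [if_neg (by simp [h]), if_neg (by simp [h]), if_neg (by simp [h]), add_zero]
  · rw [if_pos h, if_neg (not_lt.2 h.le), if_pos h.ne', zero_add]

theorem intraE_inv (a : Tor n) (π : Equiv.Perm (Fin s)) {ι : Type*}
    (f : (Tor n × Fin s) → (Tor n × Fin s) → Matrix ι ι ℝ) (hf : ∀ u v, f u v = f v u) :
    ((intraE n s).map fun e => f (gS a π e.1) (gS a π e.2)).sum =
      ((intraE n s).map fun e => f e.1 e.2).sum := by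
  have h1 := intraE_two f hf
  have h2 := intraE_two (fun u v => f (gS a π u) (gS a π v)) fun u v => hf _ _
  have h3 : (∑ x : Tor n, ∑ i : Fin s, ∑ j : Fin s,
      if i ≠ j then f (gS a π (x, i)) (gS a π (x, j)) else 0) =
      ∑ x : Tor n, ∑ i : Fin s, ∑ j : Fin s, if i ≠ j then f (x, i) (x, j) else 0 := by
    refine Fintype.sum_equiv (Equiv.addRight a) _ _ fun x => ?_
    refine Fintype.sum_equiv π _ _ fun i => ?_
    refine Fintype.sum_equiv π _ _ fun j => ?_
    rw [gS_apply, gS_apply, Equiv.coe_addRight]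
    by_cases hij : i = j
    · rw [if_neg (by simp [hij]), if_neg (by simp [hij])]
    · rw [if_pos hij, if_pos (fun h => hij (π.injective h))]
  rw [h3, ← h1] at h2
  have h4 : ∀ A B : Matrix ι ι ℝ, A + A = B + B → A = B := by
    intro A B h
    ext i j
    have := congrFun (congrFun h i) j
    simp only [Matrix.add_apply] at this
    linarith
  exact h4 _ _ h2

theorem hM_comm {V : Type} [Fintype V] [DecidableEq V] (x y : V) : hM x y = hM y x := by
  unfold hM swapM
  rw [Equiv.swap_comm]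

theorem rho_gS (M : ℕ) (β : ℝ) (h : Tor n × Fin s → ℝ) (a : Tor n) (π : Equiv.Perm (Fin s))
    (z : Tor n × Fin s) :
    rho (edgesS n s M) β (fun y => h (gS a π y)) z = rho (edgesS n s M) β h (gS a π z) := by
  refine Trans.rho_comp (gS a π) (edgesS n s M) β h z ?_
  rw [edgesS_map_sum M (fun u v : Tor n × Fin s => hM (gS a π u) (gS a π v)),
    edgesS_map_sum M (fun u v : Tor n × Fin s => hM u v), interE_inv a π (fun u v => hM u v),
    intraE_inv a π (fun u v => hM u v) fun u v => hM_comm u v]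

end TransS

theorem transStmtS (s : ℕ) : TransStmtS s := by
  intro n _ M β h x a i j
  have h1 := TransS.rho_gS M β (hS h) a (Equiv.swap i j) (x, i)
  rw [TransS.gS_apply, Equiv.swap_apply_left] at h1
  rw [← h1]
  rfl

end

end Vale.Agent.P361.LRO.GenS
end

section

/-!
P361, step (8): the name `reg` for `LY.regStmt`.
-/

namespace Vale.Agent.P361.LRO

/-- Step (8): the Lee-Yang regularity. -/
theorem reg : RegStmt := LY.regStmt

end Vale.Agent.P361.LRO
end

section

/-!
P361, stage 3, block (M), item (C): the block rewards averaged over all translates are bounded by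
the second quantisation of `gmat` (helper44).
-/

namespace Vale.Agent.P361.LRO.S3

open Finset Matrix

noncomputable section

section gen

variable {V : Type} [Fintype V] [DecidableEq V]

theorem dd_eq_pairK (x y : V) : OB.dd x y = pairK x y := by
  funext u v
  rfl

theorem gib_hcM_dd (L : List (V × V)) (β : ℝ) (h : V → ℝ) (x y : V) :
    2 * gib L β h (hM x y) ≤ gib L β h (hcM (OB.dd x y)) := by
  rw [dd_eq_pairK]
  by_cases hxy : x = y
  · subst hxy
    have h2 : (pairK x x : V → V → ℝ) = fun _ _ => 0 := by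
      funext u v; exact Mean.pairK_self x u v
    rw [h2, Mean.hcM_zero, hM_self]
    simp [gib]
  · rw [hcM_pairK hxy, Mean.gib_add, Mean.gib_smul, Mean.gib_smul]
    have := gib_nn_nonneg L β h x y
    linarith

end gen

section torus

variable {n : ℕ} [NeZero n]

theorem hcM_gmat (w : ℕ) : hcM (OB.gmat n w) = (1 / (2 * (w : ℝ) ^ 6)) •
    ∑ z : Tor n, ∑ a : Fin 3 → Fin w, ∑ b : Fin 3 → Fin w, hcM (OB.dd (ptc z a) (ptc z b)) := by
  have h0 : OB.gmat n w = fun u v => (1 / (2 * (w : ℝ) ^ 6)) *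
      ∑ z : Tor n, ∑ a : Fin 3 → Fin w, ∑ b : Fin 3 → Fin w, OB.dd (ptc z a) (ptc z b) u v := by
    funext u v
    unfold OB.gmat
    rw [div_eq_inv_mul, one_div]
    rfl
  rw [h0, hcM_smul, hcM_sum]
  congr 1
  refine Finset.sum_congr rfl fun z _ => ?_
  rw [hcM_sum]
  refine Finset.sum_congr rfl fun a _ => ?_
  rw [hcM_sum]

/-- **Item (C)**: `n³ y_b ≤ <dΓ(g)>`. -/
theorem yb_le_gmat {w : ℕ} (hw0 : 1 ≤ w) (hw : w ≤ n) (β h : ℝ) (x : Tor n) :
    (n : ℝ) ^ 3 * yb (edges n) β (fun _ => h) (cube n x w) ≤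
      gib (edges n) β (fun _ => h) (hcM (OB.gmat n w)) := by
  rw [yb_eq hw hw0, hcM_gmat, Mean.gib_smul, Mean.gib_sum]
  have h1 : ∀ z : Tor n, 2 * ∑ a : Fin 3 → Fin w, ∑ b : Fin 3 → Fin w,
      gib (edges n) β (fun _ => h) (hM (ptc z a) (ptc z b)) ≤
      gib (edges n) β (fun _ => h) (∑ a : Fin 3 → Fin w, ∑ b : Fin 3 → Fin w,
        hcM (OB.dd (ptc z a) (ptc z b))) := by
    intro z
    rw [Mean.gib_sum, Finset.mul_sum]
    refine Finset.sum_le_sum fun a _ => ?_
    rw [Mean.gib_sum, Finset.mul_sum]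
    exact Finset.sum_le_sum fun b _ => gib_hcM_dd _ _ _ _ _
  have h2 := Finset.sum_le_sum fun (z : Tor n) (_ : z ∈ Finset.univ) => h1 z
  rw [← Finset.mul_sum] at h2
  have hw6 : (0 : ℝ) < (w : ℝ) ^ 6 := by
    have : (0 : ℝ) < w := by exact_mod_cast hw0
    positivity
  calc (1 / (w : ℝ) ^ 6) * ∑ z : Tor n, ∑ a : Fin 3 → Fin w, ∑ b : Fin 3 → Fin w,
        gib (edges n) β (fun _ => h) (hM (ptc z a) (ptc z b))
      = (1 / (2 * (w : ℝ) ^ 6)) * (2 * ∑ z : Tor n, ∑ a : Fin 3 → Fin w, ∑ b : Fin 3 → Fin w,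
        gib (edges n) β (fun _ => h) (hM (ptc z a) (ptc z b))) := by
        field_simp
    _ ≤ _ := mul_le_mul_of_nonneg_left h2 (by positivity)

end torus

end

end Vale.Agent.P361.LRO.S3
end

section

/-!
P361 stage 3, block (M): the numbers, final forms (with the landed lower bound of the pressure in
the form of `TorLow.logZ_lower`, and with the split right-hand side of `MeanMain.finite_ineq`).
-/

namespace Vale.Agent.P361.LRO.S3

open Filter Topology Vale.Agent.P361.B

theorem lz_conv {K β h lZ M : ℝ} (hK : 1 ≤ K) (hKβ : K ≤ β) (h0 : 0 ≤ h)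
    (hh : h ≤ β ^ (-(10 : ℝ))) (hM : 0 < M)
    (hl : ((1 - K / β) * FS (1 / 2) (β * h) / Real.sqrt β ^ 3 - (Real.sqrt β ^ 3)⁻¹ / β) * M ≤ lZ) :
    β ^ (-(3 / 2) : ℝ) * (FS (1 / 2) 0 - (K * FS (1 / 2) 0 + Vale.Agent.P361.B.aS (1 / 2) + 1) * β ^ (-(1 : ℝ))) ≤
      lZ / M := by
  have hβ1 : 1 ≤ β := hK.trans hKβ
  have hβp : 0 < β := by linarith
  have hX0 : 0 < (Real.sqrt β ^ 3)⁻¹ := by have := Real.sqrt_pos.2 hβp; positivity
  have h1 : ((1 - K / β) * FS (1 / 2) (β * h) / Real.sqrt β ^ 3 - (Real.sqrt β ^ 3)⁻¹ / β) ≤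
      lZ / M := by rw [le_div_iff₀ hM]; exact hl
  refine le_trans ?_ h1
  rw [rpow_neg_three_half hβp, Real.rpow_neg_one]
  have e : (1 - K / β) * FS (1 / 2) (β * h) / Real.sqrt β ^ 3 - (Real.sqrt β ^ 3)⁻¹ / β =
      (Real.sqrt β ^ 3)⁻¹ * ((1 - K / β) * FS (1 / 2) (β * h) - 1 / β) := by
    rw [div_eq_mul_inv _ (Real.sqrt β ^ 3)]; ring
  rw [e]
  refine mul_le_mul_of_nonneg_left ?_ hX0.le
  have hbh : β * h ≤ 1 / β := by
    rw [le_div_iff₀ hβp]
    have h2 : β * h * β ≤ β * β ^ (-(10 : ℝ)) * β :=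
      mul_le_mul_of_nonneg_right (mul_le_mul_of_nonneg_left hh hβp.le) hβp.le
    have h3 : β * β ^ (-(10 : ℝ)) * β = β ^ (-(8 : ℝ)) := by
      have h4 : ∀ x : ℝ, β * x * β = β ^ (1 : ℝ) * x * β ^ (1 : ℝ) := fun x => by
        rw [Real.rpow_one]
      rw [h4, ← Real.rpow_add hβp, ← Real.rpow_add hβp]
      norm_num
    have h5 : β ^ (-(8 : ℝ)) ≤ 1 := Real.rpow_le_one_of_one_le_of_nonpos hβ1 (by norm_num)
    linarith
  have hge := FS_ge (s := β * h) (mul_nonneg hβp.le h0) (1 / 2)
  have hle := FS_mono_zero (mul_nonneg hβp.le h0) (1 / 2)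
  have ha : 0 < Vale.Agent.P361.B.aS (1 / 2) := by rw [aS_half]; exact BC_pos
  have hFn := FS_nonneg (1 / 2) (β * h)
  have h6 : β * h * Vale.Agent.P361.B.aS (1 / 2) ≤ 1 / β * Vale.Agent.P361.B.aS (1 / 2) := mul_le_mul_of_nonneg_right hbh ha.le
  have h7 : K / β * FS (1 / 2) (β * h) ≤ K / β * FS (1 / 2) 0 :=
    mul_le_mul_of_nonneg_left hle (by positivity)
  have e2 : (K * FS (1 / 2) 0 + Vale.Agent.P361.B.aS (1 / 2) + 1) * β⁻¹ =
      K / β * FS (1 / 2) 0 + 1 / β * Vale.Agent.P361.B.aS (1 / 2) + 1 / β := by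
    rw [← one_div]; ring
  rw [e2]
  have e3 : (1 - K / β) * FS (1 / 2) (β * h) = FS (1 / 2) (β * h) - K / β * FS (1 / 2) (β * h) := by
    ring
  rw [e3]
  linarith

/-- Numbers of (M), with the split right-hand side (form of `finite_ineq`) and any `c`. -/
theorem mean_num_split {c : ℝ} (hc : 0 < c) (C0 C1 C7 : ℝ) : ∃ c' d : ℝ, 0 < c' ∧ 0 < d ∧
    d ≤ 1 / 100 ∧
    ∀ δ : ℝ, 0 < δ → ∃ β0 : ℝ, 1 ≤ β0 ∧ ∀ β : ℝ, β0 ≤ β → ∀ w : ℝ, 0 ≤ w →
    w ≤ 3 * β ^ (1 / 2 + d) → ∃ μ : ℝ, 0 ≤ μ ∧ μ ≤ 1 / 2 ∧ C0 * β ^ (-1 - c') * w ^ 2 ≤ μ ∧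
    ∀ h : ℝ, 0 < h → ∀ᶠ m : ℕ in atTop, ∀ [NeZero m] (y lZ ρ : ℝ),
      β ^ (-(3 / 2) : ℝ) * (FS (1 / 2) 0 - C1 * β ^ (-c)) ≤ lZ / (m : ℝ) ^ 3 →
      0 ≤ ρ → ρ ≤ C7 * β ^ (-(3 / 2) : ℝ) →
      β * β ^ (-1 - c') * ((m : ℝ) ^ 3 * y) ≤
        ∑ k : Fin 3 → ZMod m, -Real.log (1 - Real.exp (-(β * (tK m k + h)))) +
        β * β ^ (-1 - c') *
          ∑ k : Fin 3 → ZMod m, 1 / (Real.exp (β * ((1 - μ) * tK m k + h)) - 1) - lZ +
          β * (24 * (m : ℝ) ^ 3 * ρ ^ 2) →
      y ≤ (1 + δ) * BC * β ^ (-(3 / 2) : ℝ) := by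
  obtain ⟨Cp, hCp, hp⟩ := tor_log_eventually (n := 1) le_rfl
  obtain ⟨Cd, hCd, hd⟩ := tor_dens_eventually (n := 1) le_rfl
  obtain ⟨c', hc'0, hc'c, hc'4⟩ : ∃ c' : ℝ, 0 < c' ∧ c' < c ∧ c' ≤ 1 / 4 :=
    ⟨min (c / 2) (1 / 4), lt_min (by linarith) (by norm_num),
      lt_of_le_of_lt (min_le_left _ _) (by linarith), min_le_right _ _⟩
  obtain ⟨d, hd0, hd100, hdc⟩ : ∃ d : ℝ, 0 < d ∧ d ≤ 1 / 100 ∧ d ≤ c' / 4 :=
    ⟨min (1 / 100) (c' / 4), lt_min (by norm_num) (by linarith), min_le_left _ _, min_le_right _ _⟩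
  refine ⟨c', d, hc'0, hd0, hd100, fun δ hδ => ?_⟩
  obtain ⟨β0, hβ0⟩ := eventually_atTop.1 ((G_lim (C0 := C0) (c := c) (c' := c') (d := d) (Cp := Cp)
    (Cd := Cd) (C1 := C1) (C7 := C7) hδ (by linarith) (by linarith) (by linarith)
    (by linarith)).and (eventually_ge_atTop (2 * 448 : ℝ)))
  refine ⟨max 1 β0, le_max_left _ _, fun β hβ w hw0 hw => ?_⟩
  obtain ⟨⟨hG, hτ⟩, h896⟩ := hβ0 β (le_trans (le_max_right _ _) hβ)
  have hβ1 : 1 ≤ β := by linarith
  have hβp : 0 < β := by linarith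
  obtain ⟨τ, hτd⟩ : ∃ τ : ℝ, τ = 9 * |C0| * β ^ (-(c' - 2 * d)) := ⟨_, rfl⟩
  rw [← hτd] at hG hτ
  have hτw : C0 * β ^ (-1 - c') * w ^ 2 ≤ τ := by
    have h1 := w_step (C0 := C0) (c' := c') (t := 1) (gk := C0 * w ^ 2) hβp zero_le_one hw0 hw
      (by rw [mul_one])
    rw [mul_one, ← hτd] at h1
    linarith
  refine ⟨τ, by rw [hτd]; positivity, hτ, hτw, fun h hh => ?_⟩
  have hβ' : 448 ≤ (1 - τ) * β := by nlinarith
  have hs : 0 < β * h := mul_pos hβp hh
  filter_upwards [hp β (by linarith) (β * h) hs β⁻¹ (by positivity),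
    hd ((1 - τ) * β) hβ' (β * h) hs β⁻¹ (by positivity), eventually_gt_atTop 0] with m hm1 hm2 hm0
  intro _ y lZ ρ hlZ hρ0 hρ hV
  have m1 := hm1
  have m2 := hm2
  have hmR : (0 : ℝ) < m := by exact_mod_cast hm0
  have hm3 : (0 : ℝ) < (m : ℝ) ^ 3 := by positivity
  have e1 : ∀ k : Fin 3 → ZMod m,
      β * (((1 : ℕ) : ℝ) * tK m k) + β * h = β * (tK m k + h) := fun k => by push_cast; ring
  have e2 : ∀ k : Fin 3 → ZMod m, (1 - τ) * β * (((1 : ℕ) : ℝ) * tK m k) + β * h =
      β * ((1 - τ) * tK m k + h) := fun k => by push_cast; ring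
  have hh1 : (((1 : ℕ) : ℝ) / 2) = 1 / 2 := by norm_num
  rw [hh1] at m1 m2
  simp only [e1] at m1
  simp only [e2] at m2
  have f1 : FS (1 / 2) (β * h) ≤ FS (1 / 2) 0 := FS_mono_zero hs.le _
  have f2 : fS (1 / 2) (β * h) ≤ Vale.Agent.P361.B.aS (1 / 2) := fS_le _ hs.le
  generalize (∑ k : Fin 3 → ZMod m, -Real.log (1 - Real.exp (-(β * (tK m k + h))))) = P at *
  generalize (∑ k : Fin 3 → ZMod m, 1 / (Real.exp (β * ((1 - τ) * tK m k + h)) - 1)) = Q at *
  have P1 := p_step (P := P) (M := (m : ℝ) ^ 3) (F0 := FS (1 / 2) 0) (Cp := Cp) hβp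
    (m1.trans (by linarith))
  have Q1 := q_step (Q := Q) (M := (m : ℝ) ^ 3) (A := Vale.Agent.P361.B.aS (1 / 2)) (Cd := Cd) hβp hCd hτ
    (m2.trans (by linarith))
  rw [rpow_neg_three_half hβp] at hlZ hρ ⊢
  have V3 := mean_core (c := c) (c' := c') (C1 := C1) (C7 := C7) (D1 := Cp + 1) (F0 := FS (1 / 2) 0)
    (A := Vale.Agent.P361.B.aS (1 / 2) + (2 * Cd + 1) / β) (y := y) hβp hm3 P1 Q1 hlZ hρ0 hρ (by linarith)
  refine V3.trans ?_
  rw [mul_comm ((1 + δ) * BC)]
  exact mul_le_mul_of_nonneg_left hG (by positivity)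

/-- Final form for `MeanStmt3`: split right-hand side and the bound of `logZ_lower`. -/
theorem mean_final {K : ℝ} (hK : 1 ≤ K) (C0 C7 : ℝ) : ∃ c' d : ℝ, 0 < c' ∧ 0 < d ∧ d ≤ 1 / 100 ∧
    ∀ δ : ℝ, 0 < δ → ∃ β0 : ℝ, K ≤ β0 ∧ ∀ β : ℝ, β0 ≤ β → ∀ w : ℝ, 0 ≤ w →
    w ≤ 3 * β ^ (1 / 2 + d) → ∃ μ : ℝ, 0 ≤ μ ∧ μ ≤ 1 / 2 ∧ C0 * β ^ (-1 - c') * w ^ 2 ≤ μ ∧
    ∀ h : ℝ, 0 < h → h ≤ β ^ (-(10 : ℝ)) → ∃ ε : ℝ, 0 < ε ∧ ∀ᶠ m : ℕ in atTop,
      ∀ [NeZero m] (y lZ ρ : ℝ),
      ((1 - K / β) * FS (1 / 2) (β * h) / Real.sqrt β ^ 3 - ε) * (m : ℝ) ^ 3 ≤ lZ →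
      0 ≤ ρ → ρ ≤ C7 * β ^ (-(3 / 2) : ℝ) →
      β * β ^ (-1 - c') * ((m : ℝ) ^ 3 * y) ≤
        ∑ k : Fin 3 → ZMod m, -Real.log (1 - Real.exp (-(β * (tK m k + h)))) +
        β * β ^ (-1 - c') *
          ∑ k : Fin 3 → ZMod m, 1 / (Real.exp (β * ((1 - μ) * tK m k + h)) - 1) - lZ +
          β * (24 * (m : ℝ) ^ 3 * ρ ^ 2) →
      y ≤ (1 + δ) * BC * β ^ (-(3 / 2) : ℝ) := by
  obtain ⟨c', d, hc', hd, hd100, H⟩ := mean_num_split (c := 1) one_pos C0
    (K * FS (1 / 2) 0 + Vale.Agent.P361.B.aS (1 / 2) + 1) C7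
  refine ⟨c', d, hc', hd, hd100, fun δ hδ => ?_⟩
  obtain ⟨β0, hβ01, H0⟩ := H δ hδ
  refine ⟨max K β0, le_max_left _ _, fun β hβ w hw0 hw => ?_⟩
  obtain ⟨μ, hμ0, hμ1, hμw, H1⟩ := H0 β ((le_max_right _ _).trans hβ) w hw0 hw
  have hKβ : K ≤ β := (le_max_left _ _).trans hβ
  have hβp : 0 < β := by linarith
  refine ⟨μ, hμ0, hμ1, hμw, fun h hh hhβ => ⟨(Real.sqrt β ^ 3)⁻¹ / β, ?_, ?_⟩⟩
  · have := Real.sqrt_pos.2 hβp
    positivity
  · filter_upwards [H1 h hh, eventually_gt_atTop 0] with m hm hm0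
    intro _ y lZ ρ hlZ hρ0 hρ hV
    have hmR : (0 : ℝ) < m := by exact_mod_cast hm0
    have h1 := lz_conv hK hKβ hh.le hhβ (by positivity : (0 : ℝ) < (m : ℝ) ^ 3) hlZ
    exact hm y lZ ρ h1 hρ0 hρ hV

end Vale.Agent.P361.LRO.S3
end

section

/-!
P361, stage 3, all spins: the Peierls–Bogoliubov inequality with a projector.

`P` a symmetric projection commuting with the symmetric matrices `X`, `Y`:
`log tr (P e^X) + tr (P e^X Y) / tr (P e^X) ≤ log tr (P e^{X+Y})`.
The proof applies the usual inequality to `X - M (1 - P)` and lets `M → ∞`.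
-/

namespace Vale.Agent.P361.LRO.S3.PBP

open Matrix Filter Topology Finset
open scoped Matrix.Norms.Operator Nat

variable {ι : Type*} [Fintype ι] [DecidableEq ι]

/-- Exponential of a multiple of an idempotent (real matrices). -/
theorem exp_smul_idem {Q : Matrix ι ι ℝ} (hQ : Q * Q = Q) (a : ℝ) :
    NormedSpace.exp (a • Q) = (1 - Q) + Real.exp a • Q := by
  have h1 := NormedSpace.exp_series_hasSum_exp' (𝕂 := ℝ) (a • Q)
  have h2 := NormedSpace.exp_series_hasSum_exp' (𝕂 := ℝ) a
  have h3 : HasSum (fun n : ℕ => ((n !⁻¹ : ℝ) • a ^ n) • Q) (NormedSpace.exp a • Q) :=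
    h2.smul_const Q
  have h4 : HasSum (fun n : ℕ => if n = 0 then (1 - Q) else 0) (1 - Q) :=
    hasSum_ite_eq (0 : ℕ) (1 - Q)
  have h5 := h4.add h3
  have h6 : (fun n : ℕ => (n !⁻¹ : ℝ) • (a • Q) ^ n) =
      fun n : ℕ => (if n = 0 then (1 - Q) else 0) + ((n !⁻¹ : ℝ) • a ^ n) • Q := by
    funext n
    have hp : ∀ k : ℕ, Q ^ (k + 1) = Q := by
      intro k
      induction k with
      | zero => rw [zero_add, pow_one]
      | succ k ih => rw [pow_succ, ih, hQ]
    rcases n with _ | n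
    · simp
    · rw [if_neg (Nat.succ_ne_zero n), zero_add, smul_pow, hp n, smul_smul, smul_eq_mul]
  rw [h6] at h1
  have h7 := h1.unique h5
  rw [← Real.exp_eq_exp_ℝ] at h7
  exact h7

/-- `e^{Z - M (1 - P)} = e^Z (P + e^{-M} (1 - P))`. -/
theorem exp_sub_proj {Z P : Matrix ι ι ℝ} (hPP : P * P = P) (hPZ : P * Z = Z * P) (M : ℝ) :
    NormedSpace.exp (Z + (-M) • (1 - P)) =
      NormedSpace.exp Z * P + Real.exp (-M) • (NormedSpace.exp Z * (1 - P)) := by
  have hQQ : (1 - P) * (1 - P) = 1 - P := by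
    simp only [sub_mul, mul_sub, one_mul, mul_one, hPP]; abel
  have hc : Commute Z ((-M) • (1 - P)) := by
    refine Commute.smul_right ?_ _
    refine (Commute.one_right Z).sub_right ?_
    exact hPZ.symm
  rw [Matrix.exp_add_of_commute _ _ hc, exp_smul_idem hQQ, mul_add, Matrix.mul_smul]
  congr 2
  abel

theorem comm_exp {Z P : Matrix ι ι ℝ} (hPZ : P * Z = Z * P) :
    P * NormedSpace.exp Z = NormedSpace.exp Z * P := by
  have h : Commute P Z := hPZ
  exact (h.exp_right).eq

/-- **Peierls–Bogoliubov with a projector**. -/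
theorem peierls_bogoliubov_proj [Nonempty ι] {X Y P : Matrix ι ι ℝ} (hX : X.IsSymm)
    (hY : Y.IsSymm) (hP : P.IsSymm) (hPP : P * P = P) (hPX : P * X = X * P)
    (hPY : P * Y = Y * P) (hpos : 0 < trace (P * NormedSpace.exp X)) :
    Real.log (trace (P * NormedSpace.exp X)) +
      trace (P * NormedSpace.exp X * Y) / trace (P * NormedSpace.exp X) ≤
      Real.log (trace (P * NormedSpace.exp (X + Y))) := by
  have hPXY : P * (X + Y) = (X + Y) * P := by rw [mul_add, add_mul, hPX, hPY]
  -- the perturbed quantities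
  have hsy : ∀ Z : Matrix ι ι ℝ, Z.IsSymm → ∀ M : ℝ, (Z + (-M) • (1 - P)).IsSymm := by
    intro Z hZ M
    rw [Matrix.IsSymm, transpose_add, transpose_smul, transpose_sub, transpose_one, hP, hZ]
  have hM : ∀ M : ℝ, Real.exp (Real.log (trace (NormedSpace.exp (X + (-M) • (1 - P)))) +
      trace (NormedSpace.exp (X + (-M) • (1 - P)) * Y) /
        trace (NormedSpace.exp (X + (-M) • (1 - P)))) ≤
      trace (NormedSpace.exp (X + Y + (-M) • (1 - P))) := by
    intro M
    have h := peierls_bogoliubov_real (hsy X hX M) hY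
    have he : X + (-M) • (1 - P) + Y = X + Y + (-M) • (1 - P) := by abel
    rw [he] at h
    have hpos' : 0 < trace (NormedSpace.exp (X + Y + (-M) • (1 - P))) :=
      trace_exp_pos_real (hsy _ (hX.add hY) M)
    calc _ ≤ Real.exp (Real.log (trace (NormedSpace.exp (X + Y + (-M) • (1 - P))))) :=
          Real.exp_le_exp.mpr h
      _ = _ := Real.exp_log hpos'
  -- limits
  have hlim0 : Tendsto (fun M : ℝ => Real.exp (-M)) atTop (𝓝 0) :=
    Real.tendsto_exp_neg_atTop_nhds_zero
  have hlim : ∀ Z W : Matrix ι ι ℝ, P * Z = Z * P →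
      Tendsto (fun M : ℝ => trace (NormedSpace.exp (Z + (-M) • (1 - P)) * W)) atTop
        (𝓝 (trace (P * NormedSpace.exp Z * W))) := by
    intro Z W hZ
    have h1 : (fun M : ℝ => trace (NormedSpace.exp (Z + (-M) • (1 - P)) * W)) =
        fun M : ℝ => trace (P * NormedSpace.exp Z * W) +
          Real.exp (-M) * trace (NormedSpace.exp Z * (1 - P) * W) := by
      funext M
      rw [exp_sub_proj hPP hZ, add_mul, trace_add, comm_exp hZ, Matrix.smul_mul, trace_smul,
        smul_eq_mul]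
    rw [h1]
    have h2 := (hlim0.mul_const (trace (NormedSpace.exp Z * (1 - P) * W))).const_add
      (trace (P * NormedSpace.exp Z * W))
    simpa using h2
  have hlimX : Tendsto (fun M : ℝ => trace (NormedSpace.exp (X + (-M) • (1 - P)))) atTop
      (𝓝 (trace (P * NormedSpace.exp X))) := by
    simpa using hlim X 1 hPX
  have hlimXY : Tendsto (fun M : ℝ => trace (NormedSpace.exp (X + Y + (-M) • (1 - P)))) atTop
      (𝓝 (trace (P * NormedSpace.exp (X + Y)))) := by
    simpa using hlim (X + Y) 1 hPXY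
  have hlimL := ((hlimX.log hpos.ne').add ((hlim X Y hPX).div hlimX hpos.ne')).rexp
  have hle := le_of_tendsto_of_tendsto' hlimL hlimXY hM
  have hpos2 : 0 < trace (P * NormedSpace.exp (X + Y)) := lt_of_lt_of_le (Real.exp_pos _) hle
  rw [← Real.exp_le_exp, Real.exp_log hpos2]
  exact hle

/-- Positivity of `tr (P e^X Y)` for `Y` positive semidefinite commuting with `P`. -/
theorem trace_proj_exp_mul_nonneg [Nonempty ι] {X Y P : Matrix ι ι ℝ} (hX : X.IsSymm)
    (hY : Y.PosSemidef) (hP : P.IsSymm) (hPP : P * P = P) (hPX : P * X = X * P) :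
    0 ≤ trace (P * NormedSpace.exp X * Y) := by
  have h1 : trace (P * NormedSpace.exp X * Y) = trace (NormedSpace.exp X * (P * Y * P)) := by
    have e1 : P * NormedSpace.exp X * Y = P * (P * NormedSpace.exp X * Y) := by
      rw [← mul_assoc, ← mul_assoc, hPP]
    rw [e1, comm_exp hPX, trace_mul_comm, mul_assoc, mul_assoc, mul_assoc]
  rw [h1]
  refine trace_exp_mul_nonneg_real hX ?_
  have h2 : P * Y * P = Pᴴ * Y * P := by
    rw [conjTranspose_eq_transpose_of_trivial, hP]
  rw [h2]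
  exact hY.conjTranspose_mul_mul_same P

/-- `0 < tr (P e^X)` unless `P = 0`. -/
theorem trace_proj_exp_pos [Nonempty ι] {X P : Matrix ι ι ℝ} (hX : X.IsSymm) (hP : P.IsSymm)
    (hPP : P * P = P) (hPX : P * X = X * P) (hP0 : P ≠ 0) :
    0 < trace (P * NormedSpace.exp X) := by
  set B := NormedSpace.exp ((1 / 2 : ℝ) • X) with hB
  have hBB : B * B = NormedSpace.exp X := by
    rw [hB, ← Matrix.exp_add_of_commute _ _ (Commute.refl _), ← add_smul]
    norm_num
  have hBs : Bᵀ = B := by
    rw [hB, ← Matrix.exp_transpose, transpose_smul, hX]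
  have hBP : P * B = B * P := comm_exp (by rw [Matrix.mul_smul, Matrix.smul_mul, hPX])
  have h1 : P * NormedSpace.exp X = (B * P)ᴴ * (B * P) := by
    rw [conjTranspose_eq_transpose_of_trivial, transpose_mul, hBs, hP, ← hBB]
    calc P * (B * B) = (P * P) * (B * B) := by rw [hPP]
      _ = P * (P * B) * B := by simp only [mul_assoc]
      _ = P * (B * P) * B := by rw [hBP]
      _ = P * B * (P * B) := by simp only [mul_assoc]
      _ = P * B * (B * P) := by rw [hBP]
  have h2 : (P * NormedSpace.exp X).PosSemidef := by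
    rw [h1]; exact posSemidef_conjTranspose_mul_self _
  refine lt_of_le_of_ne h2.trace_nonneg fun h => hP0 ?_
  have h3 := h2.trace_eq_zero_iff.mp h.symm
  rw [h1] at h3
  have h4 : B * P = 0 := Matrix.conjTranspose_mul_self_eq_zero.mp h3
  have h5 : NormedSpace.exp (-((1 / 2 : ℝ) • X)) * B = 1 := by
    rw [hB, ← Matrix.exp_add_of_commute _ _ (Commute.neg_left (Commute.refl ((1 / 2 : ℝ) • X))),
      neg_add_cancel, NormedSpace.exp_zero]
  calc P = (NormedSpace.exp (-((1 / 2 : ℝ) • X)) * B) * P := by rw [h5, one_mul]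
    _ = NormedSpace.exp (-((1 / 2 : ℝ) • X)) * (B * P) := by rw [mul_assoc]
    _ = 0 := by rw [h4, mul_zero]

/-- `tr (P e^X) ≤ tr e^X`. -/
theorem trace_proj_exp_le [Nonempty ι] {X P : Matrix ι ι ℝ} (hX : X.IsSymm) (hP : P.IsSymm)
    (hPP : P * P = P) (hPX : P * X = X * P) :
    trace (P * NormedSpace.exp X) ≤ trace (NormedSpace.exp X) := by
  have hQs : (1 - P).IsSymm := by rw [Matrix.IsSymm, transpose_sub, transpose_one, hP]
  have hQQ : (1 - P) * (1 - P) = 1 - P := by
    simp only [sub_mul, mul_sub, one_mul, mul_one, hPP]; abel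
  have hQX : (1 - P) * X = X * (1 - P) := by rw [sub_mul, mul_sub, hPX, one_mul, mul_one]
  have h := trace_proj_exp_mul_nonneg hX (PosSemidef.one (n := ι) (R := ℝ)) hQs hQQ hQX
  rw [mul_one, sub_mul, one_mul, trace_sub] at h
  linarith

end Vale.Agent.P361.LRO.S3.PBP
end

section

/-!
P361, stage 3, all spins: lower bound of the partition function of the copies by the one of
spin `s / 2` (uniform in `M`), and the free energy of large tori.
-/

namespace Vale.Agent.P361.LRO.S3S

open Finset Matrix Filter Topology Vale.Agent.P361.LRO.GenS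

noncomputable section

namespace LogZH

section Gen

variable {V : Type} [Fintype V] [DecidableEq V] {s : ℕ} [NeZero s]

omit [NeZero s] in
/-- The part between the sites commutes with the part inside the sites. -/
theorem comm_inter_intra (L : List (V × V)) (h : V → ℝ) :
    Commute (ham (interL L s) (lift s h)) (intraM V s) := by
  rw [intraM]
  have key : ∀ l : List ((V × Fin s) × (V × Fin s)), (∀ e ∈ l, e.1.1 = e.2.1) →
      Commute (ham (interL L s) (lift s h)) (l.map fun e => LRO.hM e.1 e.2).sum := by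
    intro l hl
    induction l with
    | nil => simp
    | cons e l ih =>
      rw [List.map_cons, List.sum_cons]
      refine Commute.add_right ?_ (ih fun e he => hl e (by simp [he]))
      have he := hl e (by simp)
      obtain ⟨⟨x, a⟩, ⟨y, b⟩⟩ := e
      dsimp only at he
      subst he
      rw [LRO.hM]
      exact ((Commute.one_right _).sub_right (comm_ham L h x a b).symm).smul_right _
  exact key _ fun e he => (mem_intraL.1 he).1

omit [NeZero s] in
theorem intraM_transpose : (intraM V s)ᵀ = intraM V s := by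
  rw [intraM]
  induction intraL V s with
  | nil => simp
  | cons e l ih => rw [List.map_cons, List.sum_cons, transpose_add, ih, Lim.hM_transpose]

theorem symProd_mul_intraM : symProd V s * intraM V s = 0 := by
  have h := congrArg Matrix.transpose (intraM_mul_symProd (V := V) (m := s))
  rwa [transpose_mul, symProd_transpose, intraM_transpose, transpose_zero] at h

section Exp

open scoped Matrix.Norms.Operator Nat

/-- `P e^Y = P` if `P Y = 0`. -/
theorem mul_exp_of_mul_zero {ι : Type*} [Fintype ι] [DecidableEq ι] {P Y : Matrix ι ι ℝ}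
    (h : P * Y = 0) : P * NormedSpace.exp Y = P := by
  have h1 := (NormedSpace.exp_series_hasSum_exp' (𝕂 := ℝ) Y).mul_left P
  have h2 : HasSum (fun n : ℕ => P * ((n !⁻¹ : ℝ) • Y ^ n)) P := by
    have h3 := hasSum_single (f := fun n : ℕ => P * ((n !⁻¹ : ℝ) • Y ^ n)) 0 (by
      intro n hn
      obtain ⟨k, rfl⟩ := Nat.exists_eq_succ_of_ne_zero hn
      show P * (((Nat.succ k) !⁻¹ : ℝ) • Y ^ (Nat.succ k)) = 0
      rw [Matrix.mul_smul, Nat.succ_eq_add_one, pow_succ', ← Matrix.mul_assoc, h, Matrix.zero_mul,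
        smul_zero])
    simpa using h3
  exact h1.unique h2

end Exp

/-- **The copies dominate spin `s / 2`**, for every `M`. -/
theorem trace_symProd_le [Nonempty (V × Fin s → Fin 2)] (L : List (V × V)) (β : ℝ) (h : V → ℝ)
    (M : ℕ) :
    trace (symProd V s * NormedSpace.exp (-β • ham (interL L s) (lift s h))) ≤
      trace (NormedSpace.exp (-β • ham (Lm L s M) (lift s h))) := by
  have hX : -β • ham (Lm L s M) (lift s h) =
      -β • ham (interL L s) (lift s h) + (-β * (M : ℝ)) • intraM V s := by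
    rw [ham_Lm, smul_add, smul_smul]
  have hc : Commute (-β • ham (interL L s) (lift s h)) ((-β * (M : ℝ)) • intraM V s) :=
    ((comm_inter_intra L h).smul_right _).smul_left _
  have hP : Commute (symProd V s) (-β • ham (interL L s) (lift s h)) :=
    (symProd_comm_ham L h).smul_right _
  have hPI : symProd V s * ((-β * (M : ℝ)) • intraM V s) = 0 := by
    rw [Matrix.mul_smul, symProd_mul_intraM, smul_zero]
  have hIP : ((-β * (M : ℝ)) • intraM V s) * symProd V s = 0 := by
    rw [Matrix.smul_mul, intraM_mul_symProd, smul_zero]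
  have e1 : symProd V s * NormedSpace.exp (-β • ham (Lm L s M) (lift s h)) =
      symProd V s * NormedSpace.exp (-β • ham (interL L s) (lift s h)) := by
    rw [hX, Matrix.exp_add_of_commute _ _ hc, ← Matrix.mul_assoc,
      S3.PBP.comm_exp hP.eq, Matrix.mul_assoc, mul_exp_of_mul_zero hPI]
  rw [← e1]
  refine S3.PBP.trace_proj_exp_le ?_ symProd_transpose symProd_sq ?_
  · rw [Matrix.IsSymm, transpose_smul, ham_symm]
  · rw [hX, mul_add, add_mul, hP.eq, hPI, hIP]

end Gen

end LogZH

/-- **Free energy of large tori**, uniform in `M`. -/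
theorem logZ_copies_ge {s : ℕ} (hs : 1 ≤ s) {β h : ℝ} (hβ : 0 < β) {ε : ℝ} (hε : 0 < ε) :
    ∃ n0 : ℕ, ∀ (n : ℕ) [NeZero n], n0 ≤ n → Odd n → ∀ M : ℕ,
      (n : ℝ) ^ 3 * (B.gRed s β h + β * h * s / 2 - ε) ≤
        Real.log (trace (NormedSpace.exp (-β • ham (edgesS n s M) (hS fun _ => h)))) := by
  have : NeZero s := ⟨by omega⟩
  have h1 := (pressTorus_tendsto s hβ h).const_mul β
  have e : β * Model.pressure s β h = B.gRed s β h + β * h * s / 2 + 3 * β * (s : ℝ) ^ 2 / 4 := by
    unfold B.gRed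
    rw [Bridge.pressure_eq]
    ring
  rw [e] at h1
  obtain ⟨N0, hN0⟩ := eventually_atTop.1 ((tendsto_order.1 h1).1
    (B.gRed s β h + β * h * s / 2 + 3 * β * (s : ℝ) ^ 2 / 4 - ε) (by linarith))
  refine ⟨max (2 * N0 + 1) 3, fun n _ hn hodd M => ?_⟩
  have hn3 : 3 ≤ n := (le_max_right _ _).trans hn
  obtain ⟨N, rfl⟩ := hodd
  have h2 := hN0 N (by have := (le_max_left _ _).trans hn; omega)
  unfold pressTorus at h2
  have hnp : (0 : ℝ) < (2 * (N : ℝ) + 1) ^ 3 := by positivity
  have h3 : β * ((β * (2 * (N : ℝ) + 1) ^ 3)⁻¹ * Model.logTr s (torusAdj (2 * N + 1)) β h) =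
      Model.logTr s (torusAdj (2 * N + 1)) β h / (2 * (N : ℝ) + 1) ^ 3 := by
    field_simp
  rw [h3, lt_div_iff₀ hnp] at h2
  have hpos := trace_symProd_exp_pos (s := s) hn3 β h
  have h4 : Model.logTr s (torusAdj (2 * N + 1)) β h =
      β * ((s : ℝ) ^ 2 * (1 / 4) * (3 * (2 * (N : ℝ) + 1) ^ 3)) +
      Real.log (trace (symProd (Tor (2 * N + 1)) s * NormedSpace.exp
        (-β • ham (interL (edges (2 * N + 1)) s) (lift s fun _ : Tor (2 * N + 1) => h)))) := by
    have h5 : Model.logTr s (torusAdj (2 * N + 1)) β h =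
        Real.log (trace (NormedSpace.exp (expoV s (torusAdj (2 * N + 1)) β h))).re := rfl
    have hcard : (Fintype.card (Tor (2 * N + 1) × Fin 3) : ℝ) = 3 * (2 * (N : ℝ) + 1) ^ 3 := by
      rw [Fintype.card_prod, Fintype.card_fun, ZMod.card, Fintype.card_fin]
      push_cast
      ring
    rw [h5, trace_exp_spin_real hn3, Complex.ofReal_re,
      Real.log_mul (Real.exp_pos _).ne' hpos.ne', Real.log_exp, hcard]
  have h6 := LogZH.trace_symProd_le (s := s) (edges (2 * N + 1)) β (fun _ : Tor (2 * N + 1) => h) M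
  have h7 : trace (NormedSpace.exp (-β • ham (Lm (edges (2 * N + 1)) s M)
      (lift s fun _ : Tor (2 * N + 1) => h))) =
      trace (NormedSpace.exp (-β • ham (edgesS (2 * N + 1) s M) (hS fun _ => h))) := by
    rw [ham_edgesS]
    rfl
  rw [h7] at h6
  have h8 := Real.log_le_log hpos h6
  push_cast
  nlinarith [h2, h4, h8]

end

end Vale.Agent.P361.LRO.S3S
end
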