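import Vale.Agent.P361.Bdl.B6
import Vale.Agent.P361.Bd4.B1
import Vale.Agent.P361.Bdl.B13
import Vale.Agent.P361.Bdl.B9
import Vale.Agent.P361.Bdl.B8
import Vale.Agent.P361.Bdl.B10

set_option linter.all false

section

/-!
# P361, stage 3, all spins: the lumped walk on the torus and its lower bound
-/

namespace Vale.Agent.P361.LRO.S3S.KerS

open Finset NormedSpace Vale.Agent.P361.LRO.Bloch Vale.Agent.P361.LRO.Bloch.Ker

noncomputable section

variable {n : ℕ}

/-- sum over the six neighbours -/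
def nb (f : Tor n → ℝ) (y : Tor n) : ℝ :=
  ∑ i : Fin 3, (f (y + Pi.single i 1) + f (y - Pi.single i 1))

theorem nb_mono {f g : Tor n → ℝ} (h : ∀ y, f y ≤ g y) (y : Tor n) : nb f y ≤ nb g y :=
  Finset.sum_le_sum fun _ _ => add_le_add (h _) (h _)

theorem nb_zero (y : Tor n) : nb (fun _ => 0) y = 0 := by simp [nb]

theorem nb_nonneg {f : Tor n → ℝ} (h : ∀ y, 0 ≤ f y) (y : Tor n) : 0 ≤ nb f y :=
  Finset.sum_nonneg fun _ _ => add_nonneg (h _) (h _)

theorem nb_smul (c : ℝ) (f : Tor n → ℝ) (y : Tor n) : nb (fun v => c * f v) y = c * nb f y := by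
  simp only [nb, ← mul_add, ← Finset.mul_sum]

theorem nb_sub (f g : Tor n → ℝ) (y : Tor n) : nb (fun v => f v - g v) y = nb f y - nb g y := by
  simp only [nb, ← Finset.sum_sub_distrib]
  exact Finset.sum_congr rfl fun i _ => by ring

theorem nb_sum {ι : Type*} (s : Finset ι) (f : ι → Tor n → ℝ) (y : Tor n) :
    nb (fun v => ∑ j ∈ s, f j v) y = ∑ j ∈ s, nb (f j) y := by
  simp only [nb]
  rw [Finset.sum_comm]
  exact Finset.sum_congr rfl fun i _ => by rw [Finset.sum_add_distrib]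

/-- The lumped walk: stay weight `c0`, move weight `c1` to each neighbour; `j` counts the moves. -/
def qS (c0 c1 : ℝ) (x0 : Tor n) : ℕ → Tor n → ℕ → ℝ
  | 0 => q0 x0
  | k + 1 => fun y j => c0 * qS c0 c1 x0 k y j +
      c1 * (if j = 0 then 0 else nb (fun v => qS c0 c1 x0 k v (j - 1)) y)

theorem qS_nonneg {c0 c1 : ℝ} (h0 : 0 ≤ c0) (h1 : 0 ≤ c1) (x0 : Tor n) (k : ℕ) (y : Tor n)
    (j : ℕ) : 0 ≤ qS c0 c1 x0 k y j := by
  induction k generalizing y j with
  | zero => simp only [qS, q0]; split_ifs <;> norm_num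
  | succ k ih =>
    simp only [qS]
    refine add_nonneg (mul_nonneg h0 (ih y j)) (mul_nonneg h1 ?_)
    split_ifs
    · exact le_rfl
    · exact nb_nonneg (fun v => ih v _) y

theorem qS_mono {c0 c1 d0 d1 : ℝ} (h0 : 0 ≤ c0) (h1 : 0 ≤ c1) (h2 : c0 ≤ d0) (h3 : c1 ≤ d1)
    (x0 : Tor n) (k : ℕ) (y : Tor n) (j : ℕ) : qS c0 c1 x0 k y j ≤ qS d0 d1 x0 k y j := by
  induction k generalizing y j with
  | zero => exact le_rfl
  | succ k ih =>
    simp only [qS]
    refine add_le_add (mul_le_mul h2 (ih y j) (qS_nonneg h0 h1 _ _ _ _) (h0.trans h2)) ?_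
    split_ifs
    · simp
    · exact mul_le_mul h3 (nb_mono (fun v => ih v _) y) (nb_nonneg (fun v => qS_nonneg h0 h1 _ _ _ _) y)
        (h1.trans h3)

theorem qS_mul (r c0 c1 : ℝ) (x0 : Tor n) (k : ℕ) (y : Tor n) (j : ℕ) :
    qS (r * c0) (r * c1) x0 k y j = r ^ k * qS c0 c1 x0 k y j := by
  induction k generalizing y j with
  | zero => simp [qS]
  | succ k ih =>
    simp only [qS]
    have e : (fun v => qS (r * c0) (r * c1) x0 k v (j - 1)) =
        fun v => r ^ k * qS c0 c1 x0 k v (j - 1) := funext fun v => ih v _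
    rw [ih, e, nb_smul]
    split_ifs <;> ring

/-- truncation invariant -/
def Inv (q : Tor n → ℕ → ℝ) (Q1 Q2 : Tor n → ℝ) : Prop :=
  (∀ y, 0 ≤ Q1 y) ∧ (∀ y, Q1 y ≤ Q2 y) ∧
    ∀ y J, Q1 y - (1 / 2) ^ J * Q2 y ≤ ∑ j ∈ range J, q y j

theorem Inv.step {q : Tor n → ℕ → ℝ} {Q1 Q2 : Tor n → ℝ} (h : Inv q Q1 Q2) {c0 c1 : ℝ}
    (h0 : 0 ≤ c0) (h1 : 0 ≤ c1) :
    Inv (fun y j => c0 * q y j + c1 * (if j = 0 then 0 else nb (fun v => q v (j - 1)) y))
      (fun y => c0 * Q1 y + c1 * nb Q1 y) (fun y => c0 * Q2 y + 2 * c1 * nb Q2 y) := by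
  obtain ⟨i1, i2, i3⟩ := h
  have hle : ∀ y, c0 * Q1 y + c1 * nb Q1 y ≤ c0 * Q2 y + 2 * c1 * nb Q2 y := by
    intro y
    have a1 := mul_le_mul_of_nonneg_left (i2 y) h0
    have a2 := mul_le_mul_of_nonneg_left (nb_mono i2 y) h1
    have a3 : 0 ≤ c1 * nb Q2 y := mul_nonneg h1 (nb_nonneg (fun v => (i1 v).trans (i2 v)) y)
    linarith
  refine ⟨fun y => add_nonneg (mul_nonneg h0 (i1 y)) (mul_nonneg h1 (nb_nonneg i1 y)), hle, ?_⟩
  intro y J
  cases J with
  | zero =>
    simp only [pow_zero, one_mul, Finset.range_zero, Finset.sum_empty]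
    linarith [hle y]
  | succ J =>
    have e1 : ∑ j ∈ range (J + 1), (c0 * q y j +
        c1 * (if j = 0 then 0 else nb (fun v => q v (j - 1)) y)) =
        c0 * ∑ j ∈ range (J + 1), q y j + c1 * nb (fun v => ∑ j ∈ range J, q v j) y := by
      rw [Finset.sum_add_distrib, ← Finset.mul_sum, ← Finset.mul_sum, nb_sum]
      congr 2
      rw [Finset.sum_range_succ']
      simp
    rw [e1]
    have a1 := mul_le_mul_of_nonneg_left (i3 y (J + 1)) h0
    have a2 : nb (fun v => Q1 v - (1 / 2) ^ J * Q2 v) y ≤ nb (fun v => ∑ j ∈ range J, q v j) y :=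
      nb_mono (fun v => i3 v J) y
    have a3 := mul_le_mul_of_nonneg_left a2 h1
    rw [nb_sub, nb_smul] at a3
    rw [pow_succ] at a1 ⊢
    nlinarith

/-- The neighbour matrix. -/
def Bm (n : ℕ) : Matrix (Tor n) (Tor n) ℝ :=
  ∑ i : Fin 3, (Sh (Pi.single i 1) + Sh (-Pi.single i 1))

/-- One layer. -/
def Mm (n : ℕ) (c0 c1 : ℝ) : Matrix (Tor n) (Tor n) ℝ := c0 • 1 + c1 • Bm n

theorem sum_mul_Sh [NeZero n] (f : Tor n → ℝ) (v y : Tor n) :
    ∑ x, f x * (Sh v : Matrix (Tor n) (Tor n) ℝ) x y = f (y - v) := by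
  rw [Finset.sum_eq_single (y - v)]
  · simp [Sh]
  · intro x _ hx
    have : ¬ y = x + v := fun h => hx (by rw [h]; abel)
    simp [Sh, this]
  · intro h
    exact absurd (mem_univ _) h

theorem sum_mul_Bm [NeZero n] (f : Tor n → ℝ) (y : Tor n) : ∑ x, f x * Bm n x y = nb f y := by
  have h1 : ∀ x, f x * Bm n x y = ∑ i : Fin 3, (f x * (Sh (Pi.single i 1) : Matrix (Tor n) (Tor n) ℝ) x y +
      f x * (Sh (-Pi.single i 1) : Matrix (Tor n) (Tor n) ℝ) x y) := by
    intro x
    rw [Bm, Matrix.sum_apply, Finset.mul_sum]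
    exact Finset.sum_congr rfl fun i _ => by rw [Matrix.add_apply]; ring
  simp only [h1]
  rw [Finset.sum_comm]
  unfold nb
  refine Finset.sum_congr rfl fun i _ => ?_
  rw [Finset.sum_add_distrib, sum_mul_Sh, sum_mul_Sh, sub_neg_eq_add]
  ring

theorem sum_mul_Mm [NeZero n] (f : Tor n → ℝ) (c0 c1 : ℝ) (y : Tor n) :
    ∑ x, f x * Mm n c0 c1 x y = c0 * f y + c1 * nb f y := by
  have h1 : ∀ x, f x * Mm n c0 c1 x y = c0 * (f x * (1 : Matrix (Tor n) (Tor n) ℝ) x y) +
      c1 * (f x * Bm n x y) := by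
    intro x
    simp only [Mm, Matrix.add_apply, Matrix.smul_apply, smul_eq_mul]
    ring
  simp only [h1]
  rw [Finset.sum_add_distrib, ← Finset.mul_sum, ← Finset.mul_sum, sum_mul_Bm]
  congr 2
  rw [Finset.sum_eq_single y]
  · simp
  · intro x _ hx
    simp [hx]
  · intro h
    exact absurd (mem_univ _) h

theorem inv_qS [NeZero n] {c0 c1 : ℝ} (h0 : 0 ≤ c0) (h1 : 0 ≤ c1) (x0 : Tor n) (k : ℕ) :
    Inv (qS c0 c1 x0 k) (fun y => (Mm n c0 c1 ^ k) x0 y) (fun y => (Mm n c0 (2 * c1) ^ k) x0 y) := by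
  induction k with
  | zero =>
    refine ⟨fun y => ?_, fun y => ?_, fun y J => ?_⟩
    · simp only [pow_zero, Matrix.one_apply]
      split_ifs <;> norm_num
    · simp
    · simp only [pow_zero, Matrix.one_apply, qS, q0]
      cases J with
      | zero => simp
      | succ J =>
        by_cases h : x0 = y
        · subst h
          have e : ∑ j ∈ range (J + 1), (if x0 = x0 ∧ j = 0 then (1 : ℝ) else 0) = 1 := by
            rw [Finset.sum_range_succ']
            simp
          rw [e]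
          simp only [if_true]
          have : (0 : ℝ) ≤ (1 / 2) ^ (J + 1) := by positivity
          linarith
        · have h' : ¬ y = x0 := fun h'' => h h''.symm
          simp [h, h']
  | succ k ih =>
    have h := ih.step h0 h1
    have e1 : (fun y => (Mm n c0 c1 ^ (k + 1)) x0 y) =
        fun y => c0 * (Mm n c0 c1 ^ k) x0 y + c1 * nb (fun y => (Mm n c0 c1 ^ k) x0 y) y := by
      funext y
      rw [pow_succ, Matrix.mul_apply, sum_mul_Mm (fun v => (Mm n c0 c1 ^ k) x0 v)]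
    have e2 : (fun y => (Mm n c0 (2 * c1) ^ (k + 1)) x0 y) =
        fun y => c0 * (Mm n c0 (2 * c1) ^ k) x0 y +
          2 * c1 * nb (fun y => (Mm n c0 (2 * c1) ^ k) x0 y) y := by
      funext y
      rw [pow_succ, Matrix.mul_apply, sum_mul_Mm (fun v => (Mm n c0 (2 * c1) ^ k) x0 v)]
    rw [e1, e2]
    exact h

theorem one_sub_pow_le {p : ℝ} (h0 : 0 ≤ p) (h1 : p ≤ 1) (k : ℕ) :
    (1 - p) ^ k ≤ 1 - k * p + (k * p) ^ 2 := by
  induction k with
  | zero => simp
  | succ k ih =>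
    rw [pow_succ]
    have h2 : 0 ≤ 1 - p := by linarith
    have h3 := mul_le_mul_of_nonneg_right ih h2
    push_cast
    have hk : (0 : ℝ) ≤ k := Nat.cast_nonneg k
    have h4 : 0 ≤ (k * p) ^ 2 * p := by positivity
    have h5 : 0 ≤ (k : ℝ) * p ^ 2 := by positivity
    nlinarith

section Norm

open scoped Matrix.Norms.Operator

theorem norm_Bm [NeZero n] : ‖Bm n‖ ≤ 6 := by
  unfold Bm
  refine (norm_sum_le _ _).trans ?_
  refine (sum_le_sum fun i _ => (norm_add_le _ _).trans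
    (add_le_add (norm_Sh_le _) (norm_Sh_le _))).trans ?_
  rw [sum_const, card_univ, Fintype.card_fin]
  norm_num

theorem Lap_eq [NeZero n] : Lap n = Bm n - (6 : ℝ) • 1 := by
  rw [Lap, sum_sub_distrib, Bm, sum_const, card_univ, Fintype.card_fin,
    ← Nat.cast_smul_eq_nsmul ℝ, smul_smul]
  norm_num

/-- Discretization error, `a = 1, 2`. -/
theorem disc_err [NeZero n] {a : ℝ} (ha : 0 ≤ a) (ha2 : a ≤ 2) {s : ℕ} {p : ℝ} (h0 : 0 ≤ p) (h1 : p ≤ 1)
    (m : ℕ) (x y : Tor n) :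
    |(Mm n ((1 - p) ^ (6 * s)) (a * (s * p * (1 - p) ^ (12 * s))) ^ m) x y -
      exp ((m * p : ℝ) • ((a * s) • Bm n - (6 * s : ℝ) • 1)) x y| ≤
      180 * m * (s * p) ^ 2 * Real.exp (18 * s * p) ^ m +
      2 * m * (p * (18 * s)) ^ 2 * Real.exp ((m + 1) * (p * (18 * s))) := by
  set G : Matrix (Tor n) (Tor n) ℝ := (a * s) • Bm n - (6 * s : ℝ) • 1 with hG
  set M : Matrix (Tor n) (Tor n) ℝ :=
    Mm n ((1 - p) ^ (6 * s)) (a * (s * p * (1 - p) ^ (12 * s))) with hM
  have hs0 : (0 : ℝ) ≤ s := Nat.cast_nonneg s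
  have hone : ‖(1 : Matrix (Tor n) (Tor n) ℝ)‖ ≤ 1 := norm_one_le
  have hB := norm_Bm (n := n)
  have hGn : ‖G‖ ≤ 18 * s := by
    rw [hG]
    refine (norm_sub_le _ _).trans ?_
    rw [norm_smul, norm_smul, Real.norm_of_nonneg (by positivity),
      Real.norm_of_nonneg (by positivity)]
    nlinarith [mul_le_mul_of_nonneg_left hB (mul_nonneg ha hs0),
      mul_le_mul_of_nonneg_left hone (by positivity : (0 : ℝ) ≤ 6 * s),
      mul_le_mul_of_nonneg_right ha2 hs0]
  have hp6 : 0 ≤ (1 - p) ^ (6 * s) := pow_nonneg (by linarith) _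
  have hp6' : (1 - p) ^ (6 * s) ≤ 1 := pow_le_one₀ (by linarith) (by linarith)
  have hp12 : 0 ≤ (1 - p) ^ (12 * s) := pow_nonneg (by linarith) _
  have hp12' : (1 - p) ^ (12 * s) ≤ 1 := pow_le_one₀ (by linarith) (by linarith)
  have hb6 := one_add_mul_le_pow (a := -p) (by linarith) (6 * s)
  have hb12 := one_add_mul_le_pow (a := -p) (by linarith) (12 * s)
  rw [← sub_eq_add_neg] at hb6 hb12
  push_cast at hb6 hb12
  have hu6 := one_sub_pow_le h0 h1 (6 * s)
  push_cast at hu6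
  -- difference of one layer
  have hdiff : ‖M - (1 + p • G)‖ ≤ 180 * (s * p) ^ 2 := by
    have e : M - (1 + p • G) = ((1 - p) ^ (6 * s) - 1 + 6 * s * p) • 1 +
        (-(a * (s * p * (1 - (1 - p) ^ (12 * s))))) • Bm n := by
      rw [hM, hG, Mm]
      module
    rw [e]
    refine (norm_add_le _ _).trans ?_
    rw [norm_smul, norm_smul, norm_neg]
    have c1 : ‖(1 - p) ^ (6 * s) - 1 + 6 * s * p‖ ≤ 36 * (s * p) ^ 2 := by
      rw [Real.norm_eq_abs, abs_le]
      constructor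
      · have : 0 ≤ 36 * (s * p) ^ 2 := by positivity
        linarith
      · nlinarith
    have c2 : ‖a * (s * p * (1 - (1 - p) ^ (12 * s)))‖ ≤ 24 * (s * p) ^ 2 := by
      have d1 : 0 ≤ 1 - (1 - p) ^ (12 * s) := by linarith
      have d2 : 1 - (1 - p) ^ (12 * s) ≤ 12 * (s * p) := by linarith
      have d3 : 0 ≤ s * p := mul_nonneg hs0 h0
      rw [Real.norm_of_nonneg (by positivity)]
      calc a * (s * p * (1 - (1 - p) ^ (12 * s))) ≤ 2 * (s * p * (12 * (s * p))) := by gcongr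
        _ = _ := by ring
    have c3 : 0 ≤ ‖(1 - p) ^ (6 * s) - 1 + 6 * s * p‖ := norm_nonneg _
    have c4 : 0 ≤ ‖a * (s * p * (1 - (1 - p) ^ (12 * s)))‖ := norm_nonneg _
    nlinarith [mul_le_mul_of_nonneg_left hone c3, mul_le_mul_of_nonneg_left hB c4]
  have hexp1 : 1 ≤ Real.exp (18 * s * p) := Real.one_le_exp (by positivity)
  have hMn : ‖M‖ ≤ Real.exp (18 * s * p) := by
    have : ‖M‖ ≤ 1 + 12 * s * p := by
      rw [hM, Mm]
      refine (norm_add_le _ _).trans ?_
      rw [norm_smul, norm_smul, Real.norm_of_nonneg hp6, Real.norm_of_nonneg (by positivity)]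
      have c1 : (1 - p) ^ (6 * s) * ‖(1 : Matrix (Tor n) (Tor n) ℝ)‖ ≤ 1 * 1 := by gcongr
      have c2 : a * (s * p * (1 - p) ^ (12 * s)) * ‖Bm n‖ ≤ 2 * (s * p * 1) * 6 := by gcongr
      linarith
    have h3 := Real.add_one_le_exp (18 * s * p)
    have : 0 ≤ (s : ℝ) * p := mul_nonneg hs0 h0
    nlinarith
  have hTn : ‖1 + p • G‖ ≤ Real.exp (18 * s * p) := by
    refine (norm_add_le _ _).trans ?_
    rw [norm_smul, Real.norm_of_nonneg h0]
    have h3 := Real.add_one_le_exp (18 * s * p)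
    have := mul_le_mul_of_nonneg_left hGn h0
    linarith
  have hpow := Trot.norm_pow_sub_pow_le hexp1 hMn hTn m hone
  have hdisc := Disc.disc_bound hone [G] h0 (c := 18 * s) (by simpa using hGn) m
  simp only [List.map_cons, List.map_nil, List.prod_cons, List.prod_nil, mul_one, List.sum_cons,
    List.sum_nil, add_zero] at hdisc
  have h5 := entry_le_norm (M ^ m - exp ((m * p : ℝ) • G)) x y
  rw [Matrix.sub_apply] at h5
  refine h5.trans ?_
  have e : M ^ m - exp ((m * p : ℝ) • G) =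
      (M ^ m - (1 + p • G) ^ m) + ((1 + p • G) ^ m - exp ((m * p : ℝ) • G)) := by abel
  rw [e]
  refine (norm_add_le _ _).trans (add_le_add (hpow.trans ?_) hdisc)
  have h6 : (m : ℝ) * Real.exp (18 * s * p) ^ m * ‖M - (1 + p • G)‖ ≤
      m * Real.exp (18 * s * p) ^ m * (180 * (s * p) ^ 2) := by gcongr
  refine h6.trans (le_of_eq ?_)
  ring

end Norm

/-- Lower bound for the lumped walk, in terms of the heat kernel. -/
theorem qS_lowerE {A : ℝ} (hA : 0 ≤ A) {n : ℕ} [NeZero n] {s : ℕ} (hs1 : 1 ≤ s) {β : ℝ}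
    (hβ : 0 < β) :
    ∃ N0 : ℕ, ∀ N : ℕ, N0 ≤ N → β ≤ N ∧ ∀ m ≤ N, ∀ t : ℝ, t = s * (m * (β / (2 * N))) → 1 ≤ t →
      ∀ J : ℕ, cJ A * t ≤ J → ∀ (x : Tor n) (z : Fin 3 → ℤ), (∀ i, |(z i : ℝ)| ≤ A * √t) →
      exp (t • Lap n) x (x + fun i => (z i : ZMod n)) - (cK A / √t) ^ 3 / 2 ≤ ∑ j ∈ range J,
        qS ((1 - β / (2 * N)) ^ (6 * s)) (s * (β / (2 * N)) * (1 - β / (2 * N)) ^ (12 * s)) x m
          (x + fun i => (z i : ZMod n)) j := by
  have hs0 : (1 : ℝ) ≤ s := by exact_mod_cast hs1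
  have hcA := cK_pos A
  set K : ℝ := (180 + 648) * (s * β) ^ 2 * Real.exp (18 * s * β) with hK
  have hK0 : 0 ≤ K := by positivity
  set T0 : ℝ := (cK A / √(s * β / 2)) ^ 3 with hT0
  have hT0p : 0 < T0 := by
    have : 0 < √(s * β / 2) := Real.sqrt_pos.2 (by positivity)
    positivity
  refine ⟨max 1 (max ⌈β⌉₊ ⌈8 * K / T0⌉₊), fun N hN => ?_⟩
  have hN1 : 1 ≤ N := (le_max_left _ _).trans hN
  have hNβ : β ≤ N := (Nat.le_ceil β).trans
    (by exact_mod_cast ((le_max_left _ _).trans (le_max_right _ _)).trans hN)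
  refine ⟨hNβ, fun m hm t ht ht1 J hJ x z hz => ?_⟩
  have hNK : 8 * K / T0 ≤ N := (Nat.le_ceil _).trans
    (by exact_mod_cast ((le_max_right _ _).trans (le_max_right _ _)).trans hN)
  have hN0 : (0 : ℝ) < N := by exact_mod_cast hN1
  have hN1' : (1 : ℝ) ≤ N := by exact_mod_cast hN1
  set p : ℝ := β / (2 * N) with hp
  have hp0 : 0 ≤ p := by positivity
  have hp1 : p ≤ 1 := by
    rw [hp, div_le_one (by positivity)]
    linarith
  have hmN : (m : ℝ) ≤ N := by exact_mod_cast hm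
  have hm0 : (0 : ℝ) ≤ m := Nat.cast_nonneg m
  have hmp : (m : ℝ) * p ≤ β / 2 := by
    rw [hp, ← mul_div_assoc, div_le_iff₀ (by positivity)]
    nlinarith
  have hm1p : ((m : ℝ) + 1) * p ≤ β := by
    rw [hp, ← mul_div_assoc, div_le_iff₀ (by positivity)]
    nlinarith
  have htβ : t ≤ s * β / 2 := by
    rw [ht]
    nlinarith [mul_le_mul_of_nonneg_left hmp (by linarith : (0 : ℝ) ≤ s)]
  have ht0 : 0 < t := by linarith
  set y : Tor n := x + fun i => (z i : ZMod n) with hy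
  set T : ℝ := (cK A / √t) ^ 3 with hT
  have hTT : T0 ≤ T := by
    rw [hT0, hT]
    have h1 : 0 < √t := Real.sqrt_pos.2 ht0
    have h2 : √t ≤ √(s * β / 2) := Real.sqrt_le_sqrt htβ
    gcongr
  have hc0 : 0 ≤ (1 - p) ^ (6 * s) := pow_nonneg (by linarith) _
  have hc1 : 0 ≤ s * p * (1 - p) ^ (12 * s) :=
    mul_nonneg (mul_nonneg (by linarith) hp0) (pow_nonneg (by linarith) _)
  -- the error of the discretization
  have herr : ∀ a : ℝ, 0 ≤ a → a ≤ 2 →
      |(Mm n ((1 - p) ^ (6 * s)) (a * (s * p * (1 - p) ^ (12 * s))) ^ m) x y -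
        exp ((m * p : ℝ) • ((a * s) • Bm n - (6 * s : ℝ) • 1)) x y| ≤ T / 8 := by
    intro a ha ha2
    refine (disc_err ha ha2 hp0 hp1 m x y).trans ?_
    have e1 : Real.exp (18 * s * p) ^ m ≤ Real.exp (18 * s * β) := by
      rw [← Real.exp_nat_mul]
      refine Real.exp_le_exp.2 ?_
      have : (m : ℝ) * p ≤ β := by linarith
      calc (m : ℝ) * (18 * s * p) = 18 * s * (m * p) := by ring
        _ ≤ 18 * s * β := by gcongr
    have e2 : Real.exp ((m + 1) * (p * (18 * s))) ≤ Real.exp (18 * s * β) := by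
      refine Real.exp_le_exp.2 ?_
      calc ((m : ℝ) + 1) * (p * (18 * s)) = 18 * s * ((m + 1) * p) := by ring
        _ ≤ 18 * s * β := by gcongr
    have e3 : (m : ℝ) * (s * p) ^ 2 ≤ (s * β) ^ 2 / N := by
      have b0 : (m : ℝ) * p ≤ β := by linarith
      have b1 : p ≤ β / N := by
        rw [hp]
        gcongr
        linarith
      calc (m : ℝ) * (s * p) ^ 2 = s ^ 2 * ((m * p) * p) := by ring
        _ ≤ s ^ 2 * (β * (β / N)) := by gcongr
        _ = _ := by ring
    calc 180 * (m : ℝ) * (s * p) ^ 2 * Real.exp (18 * s * p) ^ m +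
          2 * m * (p * (18 * s)) ^ 2 * Real.exp ((m + 1) * (p * (18 * s)))
        = 180 * (m * (s * p) ^ 2) * Real.exp (18 * s * p) ^ m +
          648 * (m * (s * p) ^ 2) * Real.exp ((m + 1) * (p * (18 * s))) := by ring
      _ ≤ 180 * ((s * β) ^ 2 / N) * Real.exp (18 * s * β) +
          648 * ((s * β) ^ 2 / N) * Real.exp (18 * s * β) := by gcongr
      _ = K / N := by rw [hK]; ring
      _ ≤ T0 / 8 := by
          rw [div_le_iff₀ hN0]
          rw [div_le_iff₀ hT0p] at hNK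
          linarith
      _ ≤ T / 8 := by linarith
  have h1 := abs_le.1 (herr 1 (by norm_num) (by norm_num))
  have h2 := abs_le.1 (herr 2 (by norm_num) le_rfl)
  have g1 : (m * p : ℝ) • ((1 * s : ℝ) • Bm n - (6 * s : ℝ) • (1 : Matrix (Tor n) (Tor n) ℝ)) =
      t • Lap n := by
    rw [Lap_eq, ht]
    module
  have g2 : (m * p : ℝ) • ((2 * s : ℝ) • Bm n - (6 * s : ℝ) • (1 : Matrix (Tor n) (Tor n) ℝ)) =
      t • ((2 : ℝ) • Lap n + (6 : ℝ) • 1) := by
    rw [Lap_eq, ht]
    module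
  rw [g1, one_mul] at h1
  rw [g2] at h2
  have h3 := Lap_lower hA ht1 hz x
  have h4 := exp_two_le (n := n) ht0.le x y
  have h5 := half_pow_le ht1 hJ
  have hInv := inv_qS (n := n) hc0 hc1 x m
  have h6 := hInv.2.2 y J
  simp only at h6
  refine le_trans ?_ h6
  have h7 : (1 / 2 : ℝ) ^ J * (Mm n ((1 - p) ^ (6 * s)) (2 * (s * p * (1 - p) ^ (12 * s))) ^ m) x y ≤
      (1 / 2 : ℝ) ^ J * (Real.exp (6 * t) + T / 8) :=
    mul_le_mul_of_nonneg_left (by linarith [h2.2]) (by positivity)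
  have h8 : (1 / 2 : ℝ) ^ J * (T / 8) ≤ T / 8 := by
    have a1 : (1 / 2 : ℝ) ^ J ≤ 1 := pow_le_one₀ (by norm_num) (by norm_num)
    have a2 : 0 ≤ T / 8 := by linarith
    nlinarith
  linarith [h1.1]

/-- **Lower bound for the lumped walk.** -/
theorem qS_lower {A : ℝ} (hA : 0 ≤ A) {n : ℕ} [NeZero n] {s : ℕ} (hs1 : 1 ≤ s) {β : ℝ}
    (hβ : 0 < β) :
    ∃ N0 : ℕ, ∀ N : ℕ, N0 ≤ N → ∀ m ≤ N, ∀ t : ℝ, t = s * (m * (β / (2 * N))) → 1 ≤ t →
      ∀ J : ℕ, cJ A * t ≤ J → ∀ (x : Tor n) (z : Fin 3 → ℤ), (∀ i, |(z i : ℝ)| ≤ A * √t) →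
      (cK A / √t) ^ 3 / 2 ≤ ∑ j ∈ range J,
        qS ((1 - β / (2 * N)) ^ (6 * s)) (s * (β / (2 * N)) * (1 - β / (2 * N)) ^ (12 * s)) x m
          (x + fun i => (z i : ZMod n)) j := by
  obtain ⟨N0, h⟩ := qS_lowerE hA (n := n) hs1 hβ
  refine ⟨N0, fun N hN m hm t ht ht1 J hJ x z hz => ?_⟩
  have h1 := (h N hN).2 m hm t ht ht1 J hJ x z hz
  have h3 := Lap_lower hA ht1 hz x
  linarith

theorem Bm_nonneg : Le 0 (Bm n) := by
  intro x y
  rw [Bm, Matrix.sum_apply]
  exact Finset.sum_nonneg fun i _ => add_nonneg (Sh_nonneg _ x y) (Sh_nonneg _ x y)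

theorem Bm_add (x : Tor n) (i : Fin 3) : 1 ≤ Bm n x (x + Pi.single i 1) := by
  rw [Bm, Matrix.sum_apply]
  have h1 : (Sh (Pi.single i 1) + Sh (-Pi.single i 1) : Matrix (Tor n) (Tor n) ℝ) x
      (x + Pi.single i 1) ≤ ∑ c : Fin 3,
      (Sh (Pi.single c 1) + Sh (-Pi.single c 1) : Matrix (Tor n) (Tor n) ℝ) x
      (x + Pi.single i 1) :=
    Finset.single_le_sum (f := fun c : Fin 3 =>
      (Sh (Pi.single c 1) + Sh (-Pi.single c 1) : Matrix (Tor n) (Tor n) ℝ) x
      (x + Pi.single i 1)) (fun c _ => add_nonneg (Sh_nonneg _ _ _) (Sh_nonneg _ _ _))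
      (mem_univ i)
  refine le_trans ?_ h1
  rw [Matrix.add_apply]
  have h2 : (Sh (Pi.single i 1) : Matrix (Tor n) (Tor n) ℝ) x (x + Pi.single i 1) = 1 := by
    simp [Sh]
  have h3 : (0 : ℝ) ≤ (Sh (-Pi.single i 1) : Matrix (Tor n) (Tor n) ℝ) x (x + Pi.single i 1) :=
    Sh_nonneg _ _ _
  linarith

theorem Bm_sub (x : Tor n) (i : Fin 3) : 1 ≤ Bm n x (x - Pi.single i 1) := by
  rw [Bm, Matrix.sum_apply]
  have h1 : (Sh (Pi.single i 1) + Sh (-Pi.single i 1) : Matrix (Tor n) (Tor n) ℝ) x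
      (x - Pi.single i 1) ≤ ∑ c : Fin 3,
      (Sh (Pi.single c 1) + Sh (-Pi.single c 1) : Matrix (Tor n) (Tor n) ℝ) x
      (x - Pi.single i 1) :=
    Finset.single_le_sum (f := fun c : Fin 3 =>
      (Sh (Pi.single c 1) + Sh (-Pi.single c 1) : Matrix (Tor n) (Tor n) ℝ) x
      (x - Pi.single i 1)) (fun c _ => add_nonneg (Sh_nonneg _ _ _) (Sh_nonneg _ _ _))
      (mem_univ i)
  refine le_trans ?_ h1
  rw [Matrix.add_apply]
  have h2 : (Sh (-Pi.single i 1) : Matrix (Tor n) (Tor n) ℝ) x (x - Pi.single i 1) = 1 := by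
    simp [Sh, sub_eq_add_neg]
  have h3 : (0 : ℝ) ≤ (Sh (Pi.single i 1) : Matrix (Tor n) (Tor n) ℝ) x (x - Pi.single i 1) :=
    Sh_nonneg _ _ _
  linarith

theorem Bm_sq_diag [NeZero n] (x : Tor n) : 6 ≤ (Bm n ^ 2) x x := by
  rw [pow_two, Matrix.mul_apply, sum_mul_Bm (fun v => Bm n x v)]
  unfold nb
  rw [Fin.sum_univ_three]
  linarith [Bm_add x 0, Bm_add x 1, Bm_add x 2, Bm_sub x 0, Bm_sub x 1, Bm_sub x 2]

theorem exp_Lap_eq [NeZero n] (t : ℝ) :
    exp (t • Lap n) = Real.exp (-(6 * t)) • exp (t • Bm n) := by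
  have h1 : t • Lap n = t • Bm n + (-(6 * t)) • (1 : Matrix (Tor n) (Tor n) ℝ) := by
    rw [Lap_eq]
    module
  rw [h1, Matrix.exp_add_of_commute _ _ ((Commute.one_right _).smul_right _)]
  have h2 : exp ((-(6 * t)) • (1 : Matrix (Tor n) (Tor n) ℝ)) = Real.exp (-(6 * t)) • 1 := by
    open scoped Matrix.Norms.Operator in
    rw [← Algebra.algebraMap_eq_smul_one, ← Algebra.algebraMap_eq_smul_one, Real.exp_eq_exp_ℝ]
    exact (algebraMap_exp_comm (-(6 * t))).symm
  rw [h2, mul_smul_comm, mul_one]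

/-- The walk returns to its starting point after two moves with a fixed fraction. -/
theorem exp_Lap_diag [NeZero n] {t : ℝ} (ht : 1 ≤ t) (x : Tor n) :
    4 * Real.exp (-(6 * t)) ≤ exp (t • Lap n) x x := by
  have ht0 : 0 ≤ t := by linarith
  have hX : Le 0 (t • Bm n) := by simpa using (Bm_nonneg (n := n)).smul ht0
  have h1 := exp_ge_sum hX {0, 2} x x
  rw [Finset.sum_pair (by norm_num), Matrix.add_apply, Matrix.smul_apply, Matrix.smul_apply,
    pow_zero, Matrix.one_apply_eq, smul_pow, Matrix.smul_apply] at h1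
  simp only [Nat.factorial, smul_eq_mul] at h1
  have h2 := Bm_sq_diag (n := n) x
  have h3 : 4 ≤ exp (t • Bm n) x x := by
    have h4 : (1 : ℝ) * 6 ≤ t ^ 2 * (Bm n ^ 2) x x :=
      mul_le_mul (by nlinarith) h2 (by norm_num) (by positivity)
    norm_num at h1
    linarith
  rw [exp_Lap_eq, Matrix.smul_apply, smul_eq_mul, mul_comm]
  exact mul_le_mul_of_nonneg_left h3 (Real.exp_pos _).le

theorem qS_zero (c0 c1 : ℝ) (x0 : Tor n) (k : ℕ) (y : Tor n) :
    qS c0 c1 x0 k y 0 = c0 ^ k * (if y = x0 then 1 else 0) := by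
  induction k with
  | zero => simp [qS, q0]
  | succ k ih =>
    simp only [qS, if_true, mul_zero, add_zero]
    rw [ih, pow_succ]
    ring

/-- **Lower bound for the lumped walk with at least one move.** -/
theorem qS_lower1 {A : ℝ} (hA : 0 ≤ A) {n : ℕ} [NeZero n] {s : ℕ} (hs1 : 1 ≤ s) {β : ℝ}
    (hβ : 0 < β) :
    ∃ N0 : ℕ, ∀ N : ℕ, N0 ≤ N → ∀ m ≤ N, ∀ t : ℝ, t = s * (m * (β / (2 * N))) → 1 ≤ t →
      ∀ J : ℕ, cJ A * t ≤ J → ∀ (x : Tor n) (z : Fin 3 → ℤ), (∀ i, |(z i : ℝ)| ≤ A * √t) →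
      (cK A / √t) ^ 3 / 4 ≤ ∑ j ∈ Ico 1 J,
        qS ((1 - β / (2 * N)) ^ (6 * s)) (s * (β / (2 * N)) * (1 - β / (2 * N)) ^ (12 * s)) x m
          (x + fun i => (z i : ZMod n)) j := by
  have hcA := cK_pos A
  obtain ⟨N0, h⟩ := qS_lowerE hA (n := n) hs1 hβ
  refine ⟨max 1 N0, fun N hN m hm t ht ht1 J hJ x z hz => ?_⟩
  obtain ⟨hNβ, h'⟩ := h N ((le_max_right _ _).trans hN)
  have hN1 : (1 : ℝ) ≤ N := by exact_mod_cast (le_max_left _ _).trans hN
  have h1 := h' m hm t ht ht1 J hJ x z hz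
  have h3 := Lap_lower hA ht1 hz x
  have ht0 : 0 < √t := Real.sqrt_pos.2 (by linarith)
  have hT : 0 < (cK A / √t) ^ 3 := by positivity
  set p : ℝ := β / (2 * N) with hp
  have hp0 : 0 ≤ p := by positivity
  have hp1 : p ≤ 1 := by
    rw [hp, div_le_one (by positivity)]
    linarith
  have hJ0 : 0 < J := by
    rcases Nat.eq_zero_or_pos J with h0 | h0
    · subst h0
      rw [Finset.range_zero, Finset.sum_empty] at h1
      linarith
    · exact h0
  rw [Finset.range_eq_Ico, Finset.sum_eq_sum_Ico_succ_bot hJ0, zero_add, qS_zero] at h1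
  by_cases hy : x + (fun i => (z i : ZMod n)) = x
  · rw [if_pos hy, mul_one] at h1
    have h4 := exp_Lap_diag (n := n) ht1 x
    rw [hy] at h1 h3 ⊢
    have h5 : ((1 - p) ^ (6 * s)) ^ m ≤ Real.exp (-(6 * t)) := by
      have a1 : 1 - p ≤ Real.exp (-p) := by
        have := Real.add_one_le_exp (-p)
        linarith
      have a2 : 0 ≤ 1 - p := by linarith
      calc ((1 - p) ^ (6 * s)) ^ m = (1 - p) ^ (6 * s * m) := by rw [← pow_mul]
        _ ≤ Real.exp (-p) ^ (6 * s * m) := pow_le_pow_left₀ a2 a1 _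
        _ = Real.exp (-(6 * t)) := by
          rw [← Real.exp_nat_mul, ht]
          congr 1
          push_cast
          ring
    linarith
  · rw [if_neg hy, mul_zero, zero_add] at h1
    linarith

end

end Vale.Agent.P361.LRO.S3S.KerS
end

section

/-!
P361, Bloch's law for all spins: long windows with copies, abstract part (families of strands).
-/

namespace Vale.Agent.P361.LRO.Bloch.H1

open Finset Matrix

set_option linter.unusedSectionVars false

noncomputable section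

variable {V : Type} [Fintype V] [DecidableEq V] {X : Type} [Fintype X] [DecidableEq X]

/-- The state of the induction. -/
structure Inv (st : V → X) (s : ℕ) (C : MM V) (B c : ℝ) (w : List (Lt V)) (Q : MM V)
    (q : X → ℕ → ℝ) (a : ℝ) (Y W R : V → ℕ → MM V) : Prop where
  Q0 : Le 0 Q
  q0 : ∀ x j, 0 ≤ q x j
  Y0 : ∀ v j, Le 0 (Y v j)
  W0 : ∀ v j, Le 0 (W v j)
  R0 : ∀ v j, Le 0 (R v j)
  YW : ∀ v j, Le (W v j - R v j) (Y v j)
  lump : ∀ x j, ∑ v with st v = x, W v j = q x j • Q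
  unif : ∀ v j, j ≠ 0 → W v j = (q (st v) j / s) • Q
  RT : ∀ x (j : ℕ), ∑ v with st v = x, trace (R v j * wd w * C) ≤ B * (a + c * j) * q x j

/-- Bounds for the defects at the gates between different sites. -/
def HXI (st : V → X) (C : MM V) (B : ℝ) (w : List (Lt V)) (Q : MM V) : Prop :=
  ∀ w1 w2 a b p, w = w1 ++ Lt.gate a b p :: w2 → st a ≠ st b →
    trace (Q * wd w1 * exM a b * wd w2 * C) ≤ B ∧ trace (Q * wd w1 * neM a b * wd w2 * C) ≤ B

theorem HXI.tail {st : V → X} {C : MM V} {B : ℝ} {w w' : List (Lt V)} {Q : MM V}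
    (h : HXI st C B (w ++ w') Q) : HXI st C B w' (Q * wd w) := by
  intro w1 w2 a b p hw hab
  have := h (w ++ w1) w2 a b p (by rw [hw, List.append_assoc]) hab
  rwa [wd_append, ← Matrix.mul_assoc] at this

theorem W_le {st : V → X} {s : ℕ} {C : MM V} {B c : ℝ} {w : List (Lt V)} {Q : MM V}
    {q : X → ℕ → ℝ} {a : ℝ} {Y W R : V → ℕ → MM V} (h : Inv st s C B c w Q q a Y W R) (v : V)
    (j : ℕ) : Le (W v j) (q (st v) j • Q) := by
  rw [← h.lump (st v) j]
  intro i k
  rw [Matrix.sum_apply]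
  exact Finset.single_le_sum (f := fun u => W u j i k) (fun u _ => h.W0 u j i k)
    (Finset.mem_filter.2 ⟨Finset.mem_univ v, rfl⟩)

/-! ### Gates between two copies of a site -/

theorem SS_intra (J : ℕ) (a b : V) (p : ℝ) (Y : V → ℕ → MM V) :
    SS J (fun v j => (1 - p) • Y v j + p • (Y (Equiv.swap a b v) j * swapM a b)) =
      SS J Y * mt (.gate a b p) := by
  have h1 : SS J Y * mt (.gate a b p) =
      ∑ y, ((∑ j ∈ range J, (1 - p) • (Y y j * sxM y)) +
        ∑ j ∈ range J, p • (Y y j * (swapM a b * sxM (Equiv.swap a b y)))) := by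
    unfold SS
    rw [Finset.sum_mul]
    refine Finset.sum_congr rfl fun y _ => ?_
    rw [Finset.sum_mul, ← Finset.sum_add_distrib]
    refine Finset.sum_congr rfl fun j _ => ?_
    show Y y j * sxM y * ((1 - p) • (1 : MM V) + p • swapM a b) = _
    rw [Matrix.mul_assoc, sxM_mul_gate, Matrix.mul_add, Matrix.mul_smul, Matrix.mul_smul]
  have h2 : ∑ y, ∑ j ∈ range J, p • (Y y j * (swapM a b * sxM (Equiv.swap a b y))) =
      ∑ y, ∑ j ∈ range J, p • (Y (Equiv.swap a b y) j * (swapM a b * sxM y)) := by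
    rw [← Equiv.sum_comp (Equiv.swap a b)
      (fun y => ∑ j ∈ range J, p • (Y y j * (swapM a b * sxM (Equiv.swap a b y))))]
    refine Finset.sum_congr rfl fun y _ => Finset.sum_congr rfl fun j _ => ?_
    rw [Equiv.swap_apply_self]
  rw [h1, Finset.sum_add_distrib, h2, ← Finset.sum_add_distrib]
  unfold SS
  refine Finset.sum_congr rfl fun y _ => ?_
  rw [← Finset.sum_add_distrib]
  refine Finset.sum_congr rfl fun j _ => ?_
  rw [Matrix.add_mul, Matrix.smul_mul, Matrix.smul_mul, Matrix.mul_assoc]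

theorem swap_st {st : V → X} {a b : V} (hab : st a = st b) (v : V) :
    st (Equiv.swap a b v) = st v := by
  rcases eq_or_ne v a with rfl | hva
  · rw [Equiv.swap_apply_left, hab]
  · rcases eq_or_ne v b with rfl | hvb
    · rw [Equiv.swap_apply_right, hab]
    · rw [Equiv.swap_apply_of_ne_of_ne hva hvb]

theorem sum_swap_fiber {M : Type*} [AddCommMonoid M] {st : V → X} {a b : V} (hab : st a = st b)
    (x : X) (f : V → M) :
    ∑ v with st v = x, f (Equiv.swap a b v) = ∑ v with st v = x, f v := by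
  refine Finset.sum_equiv (Equiv.swap a b) (fun v => ?_) (fun v _ => rfl)
  simp only [Finset.mem_filter, Finset.mem_univ, true_and]
  rw [swap_st hab]

theorem intra_step {st : V → X} {s : ℕ} {C : MM V} {B c : ℝ} {w : List (Lt V)} {Q : MM V}
    {q : X → ℕ → ℝ} {a : ℝ} {Y W R : V → ℕ → MM V} {u v : V} {p : ℝ} (h0 : 0 ≤ p) (h1 : p ≤ 1)
    (huv : st u = st v) (h : Inv st s C B c (Lt.gate u v p :: w) Q q a Y W R) (J : ℕ) :
    ∃ Y' W' R' : V → ℕ → MM V, Inv st s C B c w (Q * mt (.gate u v p)) q a Y' W' R' ∧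
      Le (SS J Y') (SS J Y * mt (.gate u v p)) := by
  have hp1 : 0 ≤ 1 - p := by linarith
  have hs := swapM_nonneg u v
  have key : ∀ {Z : V → ℕ → MM V}, (∀ v j, Le 0 (Z v j)) → ∀ y j,
      Le 0 ((1 - p) • Z y j + p • (Z (Equiv.swap u v y) j * swapM u v)) := fun hZ y j =>
    ((hZ y j).zero_smul hp1).zero_add (((hZ _ j).zero_mul hs).zero_smul h0)
  refine ⟨fun y j => (1 - p) • Y y j + p • (Y (Equiv.swap u v y) j * swapM u v),
    fun y j => (1 - p) • W y j + p • (W (Equiv.swap u v y) j * swapM u v),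
    fun y j => (1 - p) • R y j + p • (R (Equiv.swap u v y) j * swapM u v),
    ⟨h.Q0.zero_mul (gate_nonneg u v h0 h1), h.q0, key h.Y0, key h.W0, key h.R0, ?_, ?_, ?_, ?_⟩,
    Le.ofEq (SS_intra J u v p Y)⟩
  · intro y j
    have h2 := (h.YW y j).smul hp1
    have h3 := ((h.YW (Equiv.swap u v y) j).mul_right hs).smul h0
    refine Le.trans (Le.ofEq ?_) (h2.add h3)
    rw [Matrix.sub_mul, smul_sub, smul_sub]
    abel
  · intro x j
    rw [Finset.sum_add_distrib, ← Finset.smul_sum, ← Finset.smul_sum,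
      sum_swap_fiber huv x (fun y => W y j * swapM u v), ← Finset.sum_mul, h.lump x j]
    show (1 - p) • q x j • Q + p • (q x j • Q * swapM u v) =
      q x j • (Q * ((1 - p) • (1 : MM V) + p • swapM u v))
    rw [Matrix.mul_add, Matrix.mul_smul, Matrix.mul_smul, Matrix.mul_one, Matrix.smul_mul, smul_add,
      smul_comm (1 - p) (q x j), smul_comm p (q x j)]
  · intro y j hj
    rw [h.unif y j hj, h.unif _ j hj, swap_st huv]
    show (1 - p) • (q (st y) j / s) • Q + p • ((q (st y) j / s) • Q * swapM u v) =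
      (q (st y) j / s) • (Q * ((1 - p) • (1 : MM V) + p • swapM u v))
    rw [Matrix.mul_add, Matrix.mul_smul, Matrix.mul_smul, Matrix.mul_one, Matrix.smul_mul, smul_add,
      smul_comm (1 - p) (q (st y) j / s), smul_comm p (q (st y) j / s)]
  · intro x j
    refine le_trans (le_of_eq ?_) (h.RT x j)
    have e1 : ∀ y, trace (((1 - p) • R y j + p • (R (Equiv.swap u v y) j * swapM u v)) * wd w * C) =
        (1 - p) * trace (R y j * wd w * C) +
          p * trace (R (Equiv.swap u v y) j * (swapM u v * wd w * C)) := by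
      intro y
      rw [Matrix.add_mul, Matrix.add_mul, Matrix.trace_add, Matrix.smul_mul, Matrix.smul_mul,
        Matrix.smul_mul, Matrix.smul_mul, Matrix.trace_smul, Matrix.trace_smul, smul_eq_mul,
        smul_eq_mul]
      simp only [Matrix.mul_assoc]
    simp only [e1]
    rw [Finset.sum_add_distrib, ← Finset.mul_sum, ← Finset.mul_sum,
      sum_swap_fiber huv x (fun y => trace (R y j * (swapM u v * wd w * C))), Finset.mul_sum,
      Finset.mul_sum, ← Finset.sum_add_distrib]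
    refine Finset.sum_congr rfl fun y _ => ?_
    rw [wd_cons]
    show _ = trace (R y j * (((1 - p) • (1 : MM V) + p • swapM u v) * wd w) * C)
    rw [Matrix.add_mul, Matrix.mul_add, Matrix.add_mul, Matrix.trace_add, Matrix.smul_mul,
      Matrix.smul_mul, Matrix.mul_smul, Matrix.mul_smul, Matrix.smul_mul, Matrix.smul_mul,
      Matrix.trace_smul, Matrix.trace_smul, smul_eq_mul, smul_eq_mul, Matrix.one_mul]
    simp only [Matrix.mul_assoc]

theorem intra_word {st : V → X} {s : ℕ} {C : MM V} {B c : ℝ} {p : ℝ} (h0 : 0 ≤ p) (h1 : p ≤ 1)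
    (J : ℕ) (I : List (V × V)) : (∀ e ∈ I, st e.1 = st e.2) → ∀ {w : List (Lt V)} {Q : MM V}
    {q : X → ℕ → ℝ} {a : ℝ} {Y W R : V → ℕ → MM V},
    Inv st s C B c ((I.map fun e => Lt.gate e.1 e.2 p) ++ w) Q q a Y W R →
    ∃ Y' W' R' : V → ℕ → MM V,
      Inv st s C B c w (Q * wd (I.map fun e => Lt.gate e.1 e.2 p)) q a Y' W' R' ∧
      Le (SS J Y') (SS J Y * wd (I.map fun e => Lt.gate e.1 e.2 p)) := by
  induction I with
  | nil =>
    intro _ w Q q a Y W R h
    refine ⟨Y, W, R, ?_, ?_⟩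
    · simpa [wd] using h
    · simp only [wd, List.map_nil, List.prod_nil, Matrix.mul_one]
      exact Le.refl _
  | cons e I ih =>
    intro hI w Q q a Y W R h
    rw [List.map_cons, List.cons_append] at h
    obtain ⟨Y1, W1, R1, h2, h3⟩ := intra_step h0 h1 (hI e (by simp)) h J
    obtain ⟨Y2, W2, R2, h4, h5⟩ := ih (fun e' he' => hI e' (by simp [he'])) h2
    refine ⟨Y2, W2, R2, ?_, ?_⟩
    · rw [List.map_cons, wd_cons, ← Matrix.mul_assoc]
      exact h4
    · rw [List.map_cons, wd_cons, ← Matrix.mul_assoc]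
      refine h5.trans (h3.mul_right (wd_nonneg fun l hl => ?_))
      rw [List.mem_map] at hl
      obtain ⟨e', _, rfl⟩ := hl
      exact ⟨h0, h1⟩

/-! ### The slices of a layer -/

theorem node_sx {τ : ℝ} (v z : V) {t : ℝ} (h0 : 0 ≤ t) (hτ : t ≤ τ) (hτ1 : τ ≤ 1) :
    Le ((if z = v then (1 - τ) / (1 + τ) else 1) • (mt (.node z t) * sxM v : MM V))
      (sxM v * mt (.node z t)) := by
  by_cases hz : z = v
  · subst hz
    rw [if_pos rfl]
    have hτ0 : 0 ≤ τ := h0.trans hτ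
    have hr : (1 - τ) / (1 + τ) * (1 + t) ≤ 1 - t := by
      rw [div_mul_eq_mul_div, div_le_iff₀ (by linarith)]
      nlinarith
    have hr1 : (1 - τ) / (1 + τ) ≤ 1 := by
      rw [div_le_one (by linarith)]; linarith
    have hr0 : 0 ≤ (1 - τ) / (1 + τ) := div_nonneg (by linarith) (by linarith)
    intro σ ρ
    have h2 := sxM_nonneg z σ ρ
    show ((1 - τ) / (1 + τ)) * (((1 + t • szM z : MM V) * sxM z) σ ρ) ≤
      ((sxM z : MM V) * (1 + t • szM z)) σ ρ
    rw [Matrix.add_mul, Matrix.mul_add, Matrix.one_mul, Matrix.mul_one, Matrix.smul_mul,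
      Matrix.mul_smul, szM]
    simp only [Matrix.add_apply, Matrix.smul_apply, Matrix.diagonal_mul, Matrix.mul_diagonal,
      smul_eq_mul]
    by_cases hx : σ = Function.update ρ z (1 - ρ z)
    · have h3 : (sxM z : MM V) σ ρ = 1 := by simp [sxM, hx]
      rw [h3]
      have h4 : (if σ z = 0 then (1 : ℝ) else -1) = -(if ρ z = 0 then (1 : ℝ) else -1) := by
        rw [hx, Function.update_self]
        generalize ρ z = b
        fin_cases b <;> simp
      rw [h4]
      split_ifs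
      · nlinarith
      · nlinarith
    · have h3 : (sxM z : MM V) σ ρ = 0 := by simp [sxM, hx]
      rw [h3]
      simp
  · rw [if_neg hz, one_smul]
    refine Le.ofEq ?_
    show (1 + t • szM z : MM V) * sxM v = sxM v * (1 + t • szM z)
    rw [Matrix.mul_add, Matrix.add_mul, Matrix.mul_one, Matrix.one_mul, Matrix.mul_smul,
      Matrix.smul_mul, sxM_mul_szM (Ne.symm hz)]

theorem nodes_sx {τ : ℝ} (hτ0 : 0 ≤ τ) (hτ1 : τ ≤ 1) (v : V) {t : V → ℝ} (h0 : ∀ z, 0 ≤ t z)
    (hτ : ∀ z, t z ≤ τ) (l : List V) :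
    Le (((1 - τ) / (1 + τ)) ^ l.count v • (wd (l.map fun z => Lt.node z (t z)) * sxM v))
      (sxM v * wd (l.map fun z => Lt.node z (t z))) := by
  induction l with
  | nil =>
    simp only [List.map_nil, List.count_nil, pow_zero, one_smul]
    unfold wd
    simp only [List.map_nil, List.prod_nil, Matrix.one_mul, Matrix.mul_one]
    exact Le.refl _
  | cons z l ih =>
    have hr0 : 0 ≤ (1 - τ) / (1 + τ) := div_nonneg (by linarith) (by linarith)
    rw [List.map_cons, wd_cons, ← Matrix.mul_assoc]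
    have hwn : Le 0 (wd (l.map fun z => Lt.node z (t z))) := wd_nonneg fun l' hl' => by
      rw [List.mem_map] at hl'
      obtain ⟨z', _, rfl⟩ := hl'
      exact ⟨h0 z', (hτ z').trans hτ1⟩
    have h2 := (node_sx v z (h0 z) (hτ z) hτ1).mul_right hwn
    refine Le.trans ?_ h2
    have hmn : Le 0 (mt (.node z (t z)) : MM V) := node_nonneg z (h0 z) ((hτ z).trans hτ1)
    have h3 := (ih.mul_left hmn).smul (c := if z = v then (1 - τ) / (1 + τ) else 1)
      (by split_ifs <;> [exact hr0; norm_num])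
    refine Le.trans (Le.ofEq ?_) (h3.trans (Le.ofEq ?_))
    · rw [List.count_cons, Matrix.mul_smul, smul_smul, Matrix.mul_assoc]
      congr 1
      by_cases hz : z = v
      · simp [hz, pow_succ']
      · simp [hz]
    · rw [Matrix.smul_mul, Matrix.mul_assoc]

theorem slices_step {st : V → X} {s : ℕ} {C : MM V} {B c : ℝ} {w : List (Lt V)} {Q : MM V}
    {q : X → ℕ → ℝ} {a : ℝ} {Y W R : V → ℕ → MM V} {τ : ℝ} (hτ0 : 0 ≤ τ) (hτ1 : τ ≤ 1)
    {t : V → ℝ} (h0 : ∀ z, 0 ≤ t z) (hτ : ∀ z, t z ≤ τ)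
    (h : Inv st s C B c (nl t ++ w) Q q a Y W R) (J : ℕ) :
    ∃ Y' W' R' : V → ℕ → MM V, Inv st s C B c w (Q * wd (nl t))
      (fun x j => (1 - τ) / (1 + τ) * q x j) a Y' W' R' ∧
      Le (SS J Y') (SS J Y * wd (nl t)) := by
  have hr0 : 0 ≤ (1 - τ) / (1 + τ) := div_nonneg (by linarith) (by linarith)
  have hN : Le 0 (wd (nl t)) := wd_nonneg (ok_nl fun z => ⟨h0 z, (hτ z).trans hτ1⟩)
  set r := (1 - τ) / (1 + τ) with hr
  refine ⟨fun v j => r • (Y v j * wd (nl t)), fun v j => r • (W v j * wd (nl t)),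
    fun v j => r • (R v j * wd (nl t)), ⟨h.Q0.zero_mul hN, fun x j => mul_nonneg hr0 (h.q0 x j),
    fun v j => ((h.Y0 v j).zero_mul hN).zero_smul hr0,
    fun v j => ((h.W0 v j).zero_mul hN).zero_smul hr0,
    fun v j => ((h.R0 v j).zero_mul hN).zero_smul hr0, ?_, ?_, ?_, ?_⟩, ?_⟩
  · intro v j
    have h2 := ((h.YW v j).mul_right hN).smul hr0
    refine Le.trans (Le.ofEq ?_) h2
    rw [Matrix.sub_mul, smul_sub]
  · intro x j
    rw [← Finset.smul_sum, ← Finset.sum_mul, h.lump x j, Matrix.smul_mul, smul_smul]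
  · intro v j hj
    rw [h.unif v j hj, Matrix.smul_mul, smul_smul, mul_div_assoc]
  · intro x j
    have h2 := mul_le_mul_of_nonneg_left (h.RT x j) hr0
    refine le_trans (le_of_eq ?_) (h2.trans (le_of_eq ?_))
    · rw [Finset.mul_sum]
      refine Finset.sum_congr rfl fun v _ => ?_
      rw [Matrix.smul_mul, Matrix.smul_mul, Matrix.trace_smul, smul_eq_mul, wd_append]
      simp only [Matrix.mul_assoc]
    · ring
  · unfold SS
    rw [Finset.sum_mul]
    refine Le.sum fun v _ => ?_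
    rw [Finset.sum_mul]
    refine Le.sum fun j _ => ?_
    have h2 := nodes_sx hτ0 hτ1 v h0 hτ (Finset.univ : Finset V).toList
    rw [List.count_eq_one_of_mem (Finset.nodup_toList _)
      (Finset.mem_toList.2 (Finset.mem_univ v)), pow_one] at h2
    have h3 := h2.mul_left (h.Y0 v j)
    refine Le.trans (Le.ofEq ?_) (h3.trans (Le.ofEq ?_))
    · rw [Matrix.smul_mul, Matrix.mul_smul, Matrix.mul_assoc]
      rfl
    · rw [Matrix.mul_assoc]
      rfl

end

end Vale.Agent.P361.LRO.Bloch.H1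
end

section

/-!
P361, Bloch's law for all spins: long windows with copies, abstract part (one block of gates
between different sites).
-/

namespace Vale.Agent.P361.LRO.Bloch.H1

open Finset Matrix

set_option linter.unusedSectionVars false

noncomputable section

variable {V : Type} [Fintype V] [DecidableEq V] {X : Type} [Fintype X] [DecidableEq X]

theorem HB_of_HXI {st : V → X} {C : MM V} {B p : ℝ} {w : List (Lt V)} (E : List (V × V))
    (hE : ∀ e ∈ E, st e.1 ≠ st e.2) : ∀ {Q : MM V},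
    HXI st C B ((E.map fun e => Lt.gate e.1 e.2 p) ++ w) Q → HB p (wd w * C) B E Q := by
  induction E with
  | nil => intro Q _; trivial
  | cons e E ih =>
    intro Q h
    refine ⟨?_, ?_⟩
    · have h2 := h [] ((E.map fun e => Lt.gate e.1 e.2 p) ++ w) e.1 e.2 p rfl (hE e (by simp))
      have e1 : wd ([] : List (Lt V)) = 1 := by simp [wd]
      rw [e1, Matrix.mul_one, wd_append] at h2
      have e2 : wd (E.map fun e => Lt.gate e.1 e.2 p) = GM p E := rfl
      rw [e2] at h2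
      simp only [Matrix.mul_assoc] at h2 ⊢
      exact h2
    · refine ih (fun e' he' => hE e' (by simp [he'])) ?_
      have h3 : HXI st C B ([Lt.gate e.1 e.2 p] ++ ((E.map fun e => Lt.gate e.1 e.2 p) ++ w)) Q :=
        h
      have h4 := h3.tail
      have e3 : wd [Lt.gate e.1 e.2 p] = gm p e := by
        unfold wd
        rw [List.map_cons, List.map_nil, List.prod_cons, List.prod_nil, mul_one]
        rfl
      rwa [e3] at h4

theorem HB_mono {C' : MM V} (hC : Le 0 C') {B p κ : ℝ} (h0 : 0 ≤ p) (h1 : p ≤ 1) (hκ : 0 ≤ κ)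
    (E : List (V × V)) : ∀ {Q W : MM V}, HB p C' B E Q → Le W (κ • Q) →
    HB p C' (κ * B) E W := by
  induction E with
  | nil => intro Q W _ _; trivial
  | cons e E ih =>
    intro Q W h hW
    have key : ∀ D : MM V, Le 0 D → trace (Q * D * GM p E * C') ≤ B →
        trace (W * D * GM p E * C') ≤ κ * B := by
      intro D hD hb
      have h2 := (((hW.mul_right hD).mul_right (GM_nonneg h0 h1 E)).mul_right hC).trace
      refine h2.trans ?_
      rw [Matrix.smul_mul, Matrix.smul_mul, Matrix.smul_mul, Matrix.trace_smul, smul_eq_mul]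
      exact mul_le_mul_of_nonneg_left hb hκ
    refine ⟨⟨key _ (exM_nonneg _ _) h.1.1, key _ (neM_nonneg _ _) h.1.2⟩, ih h.2 ?_⟩
    have := hW.mul_right (gm_nonneg h0 h1 e)
    rwa [Matrix.smul_mul] at this

/-- sums over neighbours -/
theorem sum_cE {M : Type*} [AddCommGroup M] [Module ℝ M] {st : V → X} {E : List (V × V)}
    {cX : X → X → ℕ} (hc : ∀ y v, cE y v E = cX (st y) (st v)) (v : V) (Z : V → M) :
    ∑ y, (cE y v E : ℝ) • Z y =
      ∑ x', (cX x' (st v) : ℝ) • ∑ y with st y = x', Z y := by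
  rw [← Finset.sum_fiberwise (Finset.univ : Finset V) st]
  refine Finset.sum_congr rfl fun x' _ => ?_
  rw [Finset.smul_sum]
  refine Finset.sum_congr rfl fun y hy => ?_
  rw [hc, (Finset.mem_filter.1 hy).2]

theorem sum_cE2 {M : Type*} [AddCommGroup M] [Module ℝ M] {st : V → X} {s : ℕ}
    (hs : ∀ x, (univ.filter fun v => st v = x).card = s) {E : List (V × V)}
    {cX : X → X → ℕ} (hc : ∀ y v, cE y v E = cX (st y) (st v)) (x : X) (Z : V → M) :
    ∑ v with st v = x, ∑ y, (cE y v E : ℝ) • Z y =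
      (s : ℝ) • ∑ x', (cX x' x : ℝ) • ∑ y with st y = x', Z y := by
  rw [Finset.sum_congr rfl (g := fun _ => ∑ x', (cX x' x : ℝ) • ∑ y with st y = x', Z y)
    fun v hv => by rw [sum_cE hc v Z, (Finset.mem_filter.1 hv).2]]
  rw [Finset.sum_const, hs x, Nat.cast_smul_eq_nsmul]

/-- **One block of gates between different sites.** -/
theorem inter_block {st : V → X} {s : ℕ} (hs : ∀ x, (univ.filter fun v => st v = x).card = s)
    {C : MM V} (hC : Le 0 C) {B : ℝ} (hB : 0 ≤ B) {c : ℝ} {p : ℝ} (h0 : 0 ≤ p) (h1 : p ≤ 1)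
    {D : ℕ} (E : List (V × V)) (hE : ∀ e ∈ E, st e.1 ≠ st e.2) (hD : ∀ v, nE v E ≤ D)
    (cX : X → X → ℕ) (hc : ∀ y v, cE y v E = cX (st y) (st v))
    (hcc : s * (1 + 2 * D * p) ≤ c) {w : List (Lt V)} (hw : ∀ l ∈ w, Ok l) {Q : MM V}
    {q : X → ℕ → ℝ} {a : ℝ} {Y W R : V → ℕ → MM V}
    (hX : HXI st C B ((E.map fun e => Lt.gate e.1 e.2 p) ++ w) Q)
    (h : Inv st s C B c ((E.map fun e => Lt.gate e.1 e.2 p) ++ w) Q q a Y W R) (J : ℕ) :
    ∃ Y' W' R' : V → ℕ → MM V, Inv st s C B c w (Q * GM p E)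
      (fun x j => (1 - p) ^ D * q x j + s * p * (1 - p) ^ (2 * D) *
        (if j = 0 then 0 else ∑ x', (cX x' x : ℝ) * q x' (j - 1))) (a + s * D * p) Y' W' R' ∧
      Le (SS J Y') (SS J Y * GM p E) := by
  have hp1 : 0 ≤ 1 - p := by linarith
  have hG := GM_nonneg h0 h1 E
  set G := GM p E with hGdef
  have hPD : 0 ≤ (1 - p) ^ D := pow_nonneg hp1 _
  set κ : ℝ := p * (1 - p) ^ (2 * D) with hκ
  have hκ0 : 0 ≤ κ := mul_nonneg h0 (pow_nonneg hp1 _)
  have hwC : Le 0 (wd w * C) := (wd_nonneg hw).zero_mul hC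
  have hwd : wd ((E.map fun e => Lt.gate e.1 e.2 p) ++ w) = G * wd w := by
    rw [wd_append]; rfl
  have hHB := HB_of_HXI E hE hX
  have hHBW : ∀ v j, HB p (wd w * C) (q (st v) j * B) E (W v j) := fun v j =>
    HB_mono hwC h0 h1 (h.q0 _ _) E hHB (W_le h v j)
  have hqB : ∀ x j, 0 ≤ q x j * B := fun x j => mul_nonneg (h.q0 x j) hB
  have hDr : ∀ v, (nE v E : ℝ) ≤ D := fun v => by exact_mod_cast hD v
  have hEr : ∀ v j, trace (Er p v E (W v j) * (wd w * C)) ≤ D * p * (q (st v) j * B) := by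
    intro v j
    refine (Er_trace h0 v (hqB _ _) E (hHBW v j)).trans ?_
    exact mul_le_mul_of_nonneg_right (mul_le_mul_of_nonneg_right (hDr v) h0) (hqB _ _)
  have hErM : ∀ y v j, trace (ErM p y v E (W y j) * (wd w * C)) ≤
      (cE y v E : ℝ) * ((1 + 2 * D * p) * (q (st y) j * B)) := by
    intro y v j
    refine (ErM_trace h0 h1 y v (hqB _ _) E (hHBW y j)).trans ?_
    rw [mul_assoc]
    refine mul_le_mul_of_nonneg_left ?_ (Nat.cast_nonneg _)
    refine mul_le_mul_of_nonneg_right ?_ (hqB _ _)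
    nlinarith [hDr y, hDr v]
  refine ⟨fun v j => Y v j * St p v E + (if j = 0 then 0 else ∑ y, Y y (j - 1) * Mv p y v E),
    fun v j => (1 - p) ^ D • (W v j * G) +
      (if j = 0 then 0 else κ • ∑ y, (cE y v E : ℝ) • (W y (j - 1) * G)),
    fun v j => (1 - p) ^ D • (R v j * G + Er p v E (W v j)) +
      (if j = 0 then 0 else κ • ∑ y, ((cE y v E : ℝ) • (R y (j - 1) * G) +
        ErM p y v E (W y (j - 1)))), ⟨h.Q0.zero_mul hG, ?_, ?_, ?_, ?_, ?_, ?_, ?_, ?_⟩, ?_⟩
  · -- q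
    intro x j
    refine add_nonneg (mul_nonneg hPD (h.q0 x j)) (mul_nonneg (mul_nonneg (mul_nonneg
      (Nat.cast_nonneg _) h0) (pow_nonneg hp1 _)) ?_)
    split_ifs
    · exact le_rfl
    · exact Finset.sum_nonneg fun x' _ => mul_nonneg (Nat.cast_nonneg _) (h.q0 _ _)
  · -- Y
    intro v j
    refine ((h.Y0 v j).zero_mul (St_nonneg h0 h1 v E)).zero_add ?_
    split_ifs
    · exact Le.refl 0
    · exact Le.zero_sum fun y _ => (h.Y0 _ _).zero_mul (Mv_nonneg h0 h1 _ _ E)
  · -- W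
    intro v j
    refine (((h.W0 v j).zero_mul hG).zero_smul hPD).zero_add ?_
    split_ifs
    · exact Le.refl 0
    · exact (Le.zero_sum fun y _ => ((h.W0 _ _).zero_mul hG).zero_smul
        (Nat.cast_nonneg _)).zero_smul hκ0
  · -- R
    intro v j
    refine ((((h.R0 v j).zero_mul hG).zero_add (Er_nonneg h0 h1 v E (h.W0 v j))).zero_smul
      hPD).zero_add ?_
    split_ifs
    · exact Le.refl 0
    · exact (Le.zero_sum fun y _ => (((h.R0 _ _).zero_mul hG).zero_smul
        (Nat.cast_nonneg _)).zero_add (ErM_nonneg h0 h1 y v E (h.W0 _ _))).zero_smul hκ0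
  · -- YW
    intro v j
    have h2 := reduce ((h.Y0 v j).zero_mul (St_nonneg h0 h1 v E)) h0 h1 (hD v)
      (stay_bound h0 h1 v E (h.Y0 v j) (h.W0 v j) (h.R0 v j) (h.YW v j))
    by_cases hj : j = 0
    · simp only [if_pos hj, add_zero]
      refine Le.trans (Le.ofEq ?_) h2
      rw [← smul_sub]
    · simp only [if_neg hj]
      have h3 : Le (∑ y, κ • ((cE y v E : ℝ) • (W y (j - 1) * G) -
          ((cE y v E : ℝ) • (R y (j - 1) * G) + ErM p y v E (W y (j - 1)))))
          (∑ y, Y y (j - 1) * Mv p y v E) := by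
        refine Le.sum fun y _ => ?_
        exact move_bound h0 h1 y v E (K := 2 * D) (by have := hD y; have := hD v; omega)
          (h.Y0 _ _) (h.W0 _ _) (h.R0 _ _) (h.YW _ _)
      refine Le.trans (Le.ofEq ?_) (h2.add h3)
      rw [← Finset.smul_sum, Finset.sum_sub_distrib, smul_sub, smul_sub]
      abel
  · -- lump
    intro x j
    rw [Finset.sum_add_distrib, ← Finset.smul_sum, ← Finset.sum_mul, h.lump x j]
    by_cases hj : j = 0
    · simp only [if_pos hj, Finset.sum_const_zero, add_zero, mul_zero]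
      rw [Matrix.smul_mul, smul_smul]
    · simp only [if_neg hj]
      rw [← Finset.smul_sum, sum_cE2 hs hc x]
      have e1 : ∀ x', ∑ y with st y = x', W y (j - 1) * G = q x' (j - 1) • (Q * G) := by
        intro x'
        rw [← Finset.sum_mul, h.lump x' (j - 1), Matrix.smul_mul]
      simp only [e1]
      have e2 : ∑ x', (cX x' x : ℝ) • q x' (j - 1) • (Q * G) =
          (∑ x', (cX x' x : ℝ) * q x' (j - 1)) • (Q * G) := by
        rw [Finset.sum_smul]
        exact Finset.sum_congr rfl fun x' _ => by rw [mul_smul]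
      rw [e2, smul_smul, smul_smul, Matrix.smul_mul, smul_smul, ← add_smul]
      congr 1
      rw [hκ]
      ring
  · -- unif
    intro v j hj
    have hs0 : (s : ℝ) ≠ 0 := by
      have : 0 < s := by
        rw [← hs (st v)]
        exact Finset.card_pos.2 ⟨v, Finset.mem_filter.2 ⟨Finset.mem_univ v, rfl⟩⟩
      positivity
    simp only [if_neg hj]
    rw [h.unif v j hj, sum_cE hc v]
    have e1 : ∀ x', ∑ y with st y = x', W y (j - 1) * G = q x' (j - 1) • (Q * G) := by
      intro x'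
      rw [← Finset.sum_mul, h.lump x' (j - 1), Matrix.smul_mul]
    simp only [e1]
    have e2 : ∑ x', (cX x' (st v) : ℝ) • q x' (j - 1) • (Q * G) =
        (∑ x', (cX x' (st v) : ℝ) * q x' (j - 1)) • (Q * G) := by
      rw [Finset.sum_smul]
      exact Finset.sum_congr rfl fun x' _ => by rw [mul_smul]
    rw [e2, Matrix.smul_mul, smul_smul, smul_smul, ← add_smul]
    congr 1
    rw [hκ]
    field_simp
  · -- RT
    intro x j
    have e0 : ∀ v, trace (((1 - p) ^ D • (R v j * G + Er p v E (W v j)) +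
        (if j = 0 then 0 else κ • ∑ y, ((cE y v E : ℝ) • (R y (j - 1) * G) +
        ErM p y v E (W y (j - 1))))) * wd w * C) =
        (1 - p) ^ D * (trace (R v j * wd ((E.map fun e => Lt.gate e.1 e.2 p) ++ w) * C) +
          trace (Er p v E (W v j) * (wd w * C))) +
        (if j = 0 then 0 else κ * (∑ y, ((cE y v E : ℝ) •
          trace (R y (j - 1) * wd ((E.map fun e => Lt.gate e.1 e.2 p) ++ w) * C)) +
          ∑ y, trace (ErM p y v E (W y (j - 1)) * (wd w * C)))) := by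
      intro v
      rw [Matrix.mul_assoc _ (wd w) C, Matrix.add_mul, Matrix.trace_add, Matrix.smul_mul,
        Matrix.trace_smul, smul_eq_mul, Matrix.add_mul, Matrix.trace_add, hwd]
      congr 1
      · simp only [Matrix.mul_assoc]
      · by_cases hj : j = 0
        · simp only [if_pos hj, Matrix.zero_mul, Matrix.trace_zero]
        · simp only [if_neg hj]
          rw [Matrix.smul_mul, Matrix.trace_smul, smul_eq_mul, Finset.sum_mul, Matrix.trace_sum,
            ← Finset.sum_add_distrib]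
          congr 1
          refine Finset.sum_congr rfl fun y _ => ?_
          rw [Matrix.add_mul, Matrix.trace_add, Matrix.smul_mul, Matrix.trace_smul]
          simp only [Matrix.mul_assoc]
    simp only [e0]
    rw [Finset.sum_add_distrib, ← Finset.mul_sum, Finset.sum_add_distrib]
    have hst := h.RT x j
    have hEs : ∑ v with st v = x, trace (Er p v E (W v j) * (wd w * C)) ≤
        s * (D * p * (q x j * B)) := by
      refine (Finset.sum_le_sum fun v _ => hEr v j).trans (le_of_eq ?_)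
      rw [Finset.sum_congr rfl (g := fun _ => D * p * (q x j * B)) fun v hv => by
        rw [(Finset.mem_filter.1 hv).2], Finset.sum_const, hs x, nsmul_eq_mul]
    have h4 := mul_le_mul_of_nonneg_left (add_le_add hst hEs) hPD
    by_cases hj : j = 0
    · simp only [if_pos hj, Finset.sum_const_zero, add_zero, mul_zero]
      refine h4.trans (le_of_eq ?_)
      ring
    · simp only [if_neg hj]
      rw [← Finset.mul_sum, Finset.sum_add_distrib, sum_cE2 hs hc x]
      have hj1 : ((j - 1 : ℕ) : ℝ) = (j : ℝ) - 1 := by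
        rw [Nat.cast_sub (Nat.one_le_iff_ne_zero.2 hj)]; simp
      set S : ℝ := ∑ x', (cX x' x : ℝ) * q x' (j - 1) with hS
      have hS0 : 0 ≤ S :=
        Finset.sum_nonneg fun x' _ => mul_nonneg (Nat.cast_nonneg _) (h.q0 _ _)
      have h5 : ∑ x', (cX x' x : ℝ) • ∑ y with st y = x',
          trace (R y (j - 1) * wd ((E.map fun e => Lt.gate e.1 e.2 p) ++ w) * C) ≤
          B * (a + c * (j - 1)) * S := by
        rw [hS, Finset.mul_sum]
        refine Finset.sum_le_sum fun x' _ => ?_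
        have h6 := h.RT x' (j - 1)
        rw [hj1] at h6
        rw [smul_eq_mul]
        have h7 := mul_le_mul_of_nonneg_left h6 (Nat.cast_nonneg (α := ℝ) (cX x' x))
        linarith
      have h8 : ∑ v with st v = x, ∑ y, trace (ErM p y v E (W y (j - 1)) * (wd w * C)) ≤
          s * (s * ((1 + 2 * D * p) * B) * S) := by
        refine (Finset.sum_le_sum fun v _ => Finset.sum_le_sum fun y _ => hErM y v (j - 1)).trans
          (le_of_eq ?_)
        have e3 : ∀ v, ∑ y, (cE y v E : ℝ) * ((1 + 2 * D * p) * (q (st y) (j - 1) * B)) =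
            ∑ y, (cE y v E : ℝ) • ((1 + 2 * D * p) * (q (st y) (j - 1) * B)) := fun v => rfl
        simp only [e3]
        rw [sum_cE2 hs hc x, smul_eq_mul]
        congr 1
        rw [hS, Finset.mul_sum]
        refine Finset.sum_congr rfl fun x' _ => ?_
        rw [Finset.sum_congr rfl (g := fun _ => (1 + 2 * D * p) * (q x' (j - 1) * B))
          fun y hy => by rw [(Finset.mem_filter.1 hy).2], Finset.sum_const, hs x', nsmul_eq_mul,
          smul_eq_mul]
        ring
      have h9 := mul_le_mul_of_nonneg_left (add_le_add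
        (mul_le_mul_of_nonneg_left h5 (Nat.cast_nonneg (α := ℝ) s)) h8) hκ0
      have h10 := add_le_add h4 h9
      rw [smul_eq_mul]
      refine h10.trans ?_
      have hk : 0 ≤ κ * s * B * S :=
        mul_nonneg (mul_nonneg (mul_nonneg hκ0 (Nat.cast_nonneg _)) hB) hS0
      have h11 : κ * s * B * S * (a + c * (j - 1) + s * (1 + 2 * D * p)) ≤
          κ * s * B * S * (a + s * D * p + c * j) := by
        refine mul_le_mul_of_nonneg_left ?_ hk
        have : 0 ≤ (s : ℝ) * D * p := by positivity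
        linarith
      have e4 : (s : ℝ) * p * (1 - p) ^ (2 * D) = κ * s := by rw [hκ]; ring
      rw [e4]
      nlinarith [h11]
  · -- SS
    have hF : ∀ j, Le 0 (∑ v, ∑ y, Y y j * Mv p y v E * sxM v) := fun j =>
      Le.zero_sum fun v _ => Le.zero_sum fun y _ =>
        ((h.Y0 _ _).zero_mul (Mv_nonneg h0 h1 _ _ E)).zero_mul (sxM_nonneg v)
    have e1 : SS J (fun v j => Y v j * St p v E +
        (if j = 0 then 0 else ∑ y, Y y (j - 1) * Mv p y v E)) =
        (∑ j ∈ range J, ∑ v, Y v j * St p v E * sxM v) +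
        ∑ j ∈ range J, (if j = 0 then 0 else
          (fun j => ∑ v, ∑ y, Y y j * Mv p y v E * sxM v) (j - 1)) := by
      unfold SS
      rw [Finset.sum_comm, ← Finset.sum_add_distrib]
      refine Finset.sum_congr rfl fun j _ => ?_
      by_cases hj : j = 0
      · simp only [if_pos hj, add_zero]
      · simp only [if_neg hj]
        rw [← Finset.sum_add_distrib]
        refine Finset.sum_congr rfl fun v _ => ?_
        rw [Matrix.add_mul, Finset.sum_mul]
    rw [e1]
    refine Le.trans ((Le.refl _).add (shift_le hF J)) ?_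
    rw [← Finset.sum_add_distrib]
    have e2 : SS J Y * G = ∑ j ∈ range J, ∑ y, Y y j * (sxM y * G) := by
      unfold SS
      rw [Finset.sum_comm, Finset.sum_mul]
      refine Finset.sum_congr rfl fun j _ => ?_
      rw [Finset.sum_mul]
      exact Finset.sum_congr rfl fun y _ => by rw [Matrix.mul_assoc]
    rw [e2]
    refine Le.sum fun j _ => ?_
    rw [Finset.sum_comm (f := fun v y => Y y j * Mv p y v E * sxM v), ← Finset.sum_add_distrib]
    refine Le.sum fun y _ => ?_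
    have h2 := (strand_block h0 h1 E y).mul_left (h.Y0 y j)
    refine Le.trans (Le.ofEq ?_) h2
    rw [Matrix.mul_add, Finset.mul_sum]
    simp only [Matrix.mul_assoc]

end

end Vale.Agent.P361.LRO.Bloch.H1
end

section

/-!
P361, Bloch's law for all spins: long windows with copies, the word induction.
-/

namespace Vale.Agent.P361.LRO.Bloch.H1

open Finset Matrix

set_option linter.unusedSectionVars false

noncomputable section

variable {V : Type} [Fintype V] [DecidableEq V] {X : Type} [Fintype X] [DecidableEq X]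

/-- the weights after one more layer -/
def stepQ (s D : ℕ) (p : ℝ) (cX : X → X → ℕ) (q : X → ℕ → ℝ) : X → ℕ → ℝ := fun x j =>
  (1 - p) ^ D * q x j + s * p * (1 - p) ^ (2 * D) *
    (if j = 0 then 0 else ∑ x', (cX x' x : ℝ) * q x' (j - 1))

theorem stepQ_smul (s D : ℕ) (p : ℝ) (cX : X → X → ℕ) (κ : ℝ) (q : X → ℕ → ℝ) :
    stepQ s D p cX (fun x j => κ * q x j) = fun x j => κ * stepQ s D p cX q x j := by
  funext x j
  unfold stepQ
  split_ifs
  · ring
  · rw [mul_add, Finset.mul_sum, Finset.mul_sum, Finset.mul_sum]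
    congr 1
    · ring
    · exact Finset.sum_congr rfl fun x' _ => by ring

theorem ok_gates {p : ℝ} (h0 : 0 ≤ p) (h1 : p ≤ 1) (E : List (V × V)) :
    ∀ l ∈ E.map (fun e => Lt.gate e.1 e.2 p), Ok l := by
  intro l hl
  rw [List.mem_map] at hl
  obtain ⟨e, _, rfl⟩ := hl
  exact ⟨h0, h1⟩

theorem gl_step {st : V → X} {s : ℕ} (hs : ∀ x, (univ.filter fun v => st v = x).card = s)
    {C : MM V} (hC : Le 0 C) {B : ℝ} (hB : 0 ≤ B) {c : ℝ} {p : ℝ} (h0 : 0 ≤ p) (h1 : p ≤ 1)
    {D : ℕ} {E I : List (V × V)} (hE : ∀ e ∈ E, st e.1 ≠ st e.2) (hI : ∀ e ∈ I, st e.1 = st e.2)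
    (hD : ∀ v, nE v E ≤ D) {cX : X → X → ℕ} (hc : ∀ y v, cE y v E = cX (st y) (st v))
    (hcc : s * (1 + 2 * D * p) ≤ c) {L : List (V × V)}
    (hgl : gl L p = (I.map fun e => Lt.gate e.1 e.2 p) ++ (E.map fun e => Lt.gate e.1 e.2 p))
    (J : ℕ) {w : List (Lt V)} (hw : ∀ l ∈ w, Ok l) {Q : MM V}
    {q : X → ℕ → ℝ} {a : ℝ} {Y W R : V → ℕ → MM V}
    (hX : HXI st C B (gl L p ++ w) Q) (h : Inv st s C B c (gl L p ++ w) Q q a Y W R) :
    ∃ Y' W' R' : V → ℕ → MM V, Inv st s C B c w (Q * wd (gl L p))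
      (stepQ s D p cX q) (a + s * D * p) Y' W' R' ∧ Le (SS J Y') (SS J Y * wd (gl L p)) := by
  rw [hgl, List.append_assoc] at h hX
  obtain ⟨Y1, W1, R1, h2, h3⟩ := intra_word h0 h1 J I hI h
  obtain ⟨Y2, W2, R2, h4, h5⟩ := inter_block hs hC hB h0 h1 E hE hD cX hc hcc hw hX.tail h2 J
  have e1 : ∀ M : MM V, M * wd (gl L p) = M * wd (I.map fun e => Lt.gate e.1 e.2 p) * GM p E := by
    intro M
    rw [hgl, wd_append, Matrix.mul_assoc]
    rfl
  refine ⟨Y2, W2, R2, ?_, ?_⟩
  · rw [e1]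
    exact h4
  · rw [e1]
    exact h5.trans (h3.mul_right (GM_nonneg h0 h1 E))

theorem mid_ind {st : V → X} {s : ℕ} (hs : ∀ x, (univ.filter fun v => st v = x).card = s)
    {C : MM V} (hC : Le 0 C) {B : ℝ} (hB : 0 ≤ B) {c : ℝ} {p : ℝ} (h0 : 0 ≤ p) (h1 : p ≤ 1)
    {D : ℕ} {E I : List (V × V)} (hE : ∀ e ∈ E, st e.1 ≠ st e.2) (hI : ∀ e ∈ I, st e.1 = st e.2)
    (hD : ∀ v, nE v E ≤ D) {cX : X → X → ℕ} (hc : ∀ y v, cE y v E = cX (st y) (st v))
    (hcc : s * (1 + 2 * D * p) ≤ c) {L : List (V × V)}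
    (hgl : gl L p = (I.map fun e => Lt.gate e.1 e.2 p) ++ (E.map fun e => Lt.gate e.1 e.2 p))
    {τ : ℝ} (hτ0 : 0 ≤ τ) (hτ1 : τ ≤ 1) {t : ℕ → V → ℝ} (ht : ∀ j z, 0 ≤ t j z ∧ t j z ≤ 1)
    (J : ℕ) {qs : ℕ → X → ℕ → ℝ} (hqs : ∀ k, qs (k + 1) = stepQ s D p cX (qs k)) (m : ℕ) :
    (∀ j z, 1 ≤ j → j ≤ m → t j z ≤ τ) → ∀ {w : List (Lt V)}, (∀ l ∈ w, Ok l) → ∀ {Q : MM V}
    {κ : ℝ} {k : ℕ} {a : ℝ} {Y W R : V → ℕ → MM V}, HXI st C B (mid L p t m ++ w) Q →
    Inv st s C B c (mid L p t m ++ w) Q (fun x j => κ * qs k x j) a Y W R →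
    ∃ Y' W' R' : V → ℕ → MM V, Inv st s C B c w (Q * wd (mid L p t m))
      (fun x j => κ * ((1 - τ) / (1 + τ)) ^ m * qs (k + m + 1) x j) (a + (m + 1) * (s * D * p))
      Y' W' R' ∧ Le (SS J Y') (SS J Y * wd (mid L p t m)) := by
  induction m with
  | zero =>
    intro _ w hw Q κ k a Y W R hX h
    simp only [mid] at hX h ⊢
    obtain ⟨Y1, W1, R1, h2, h3⟩ := gl_step hs hC hB h0 h1 hE hI hD hc hcc hgl J hw hX h
    refine ⟨Y1, W1, R1, ?_, h3⟩
    rw [stepQ_smul, ← hqs] at h2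
    have e1 : (fun x j => κ * ((1 - τ) / (1 + τ)) ^ 0 * qs (k + 0 + 1) x j) =
        fun x j => κ * qs (k + 1) x j := by
      funext x j
      rw [pow_zero, mul_one]
    have e2 : a + (((0 : ℕ) : ℝ) + 1) * (s * D * p) = a + s * D * p := by
      rw [Nat.cast_zero]; ring
    rw [e1, e2]
    exact h2
  | succ m ih =>
    intro hτ w hw Q κ k a Y W R hX h
    simp only [mid, List.append_assoc] at hX h
    have hwm : ∀ l ∈ mid L p t m ++ w, Ok l := by
      intro l hl
      rw [List.mem_append] at hl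
      rcases hl with hl | hl
      · exact ok_mid L h0 h1 ht m l hl
      · exact hw l hl
    have hwn : ∀ l ∈ nl (t (m + 1)) ++ (mid L p t m ++ w), Ok l := by
      intro l hl
      rw [List.mem_append] at hl
      rcases hl with hl | hl
      · exact ok_nl (ht _) l hl
      · exact hwm l hl
    obtain ⟨Y1, W1, R1, h2, h3⟩ := gl_step hs hC hB h0 h1 hE hI hD hc hcc hgl J hwn hX h
    rw [stepQ_smul, ← hqs] at h2
    obtain ⟨Y2, W2, R2, h4, h5⟩ := slices_step hτ0 hτ1 (fun z => (ht (m + 1) z).1)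
      (fun z => hτ (m + 1) z (by omega) le_rfl) h2 J
    have e0 : (fun x j => (1 - τ) / (1 + τ) * (κ * qs (k + 1) x j)) =
        fun x j => (1 - τ) / (1 + τ) * κ * qs (k + 1) x j := by
      funext x j; ring
    rw [e0] at h4
    obtain ⟨Y3, W3, R3, h6, h7⟩ := ih (fun j z hj hjm => hτ j z hj (by omega)) hw
      hX.tail.tail h4
    have e1 : ∀ M : MM V, M * wd (mid L p t (m + 1)) =
        M * wd (gl L p) * wd (nl (t (m + 1))) * wd (mid L p t m) := by
      intro M
      simp only [mid]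
      rw [wd_append, wd_append]
      simp only [Matrix.mul_assoc]
    refine ⟨Y3, W3, R3, ?_, ?_⟩
    · rw [e1]
      have e2 : (fun x j => κ * ((1 - τ) / (1 + τ)) ^ (m + 1) * qs (k + (m + 1) + 1) x j) =
          fun x j => (1 - τ) / (1 + τ) * κ * ((1 - τ) / (1 + τ)) ^ m * qs (k + 1 + m + 1) x j := by
        funext x j
        rw [show k + (m + 1) + 1 = k + 1 + m + 1 by omega, pow_succ]
        ring
      have e3 : a + (((m + 1 : ℕ) : ℝ) + 1) * (s * D * p) =
          a + s * D * p + ((m : ℝ) + 1) * (s * D * p) := by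
        push_cast; ring
      rw [e2, e3]
      exact h6
    · rw [e1]
      have hmn : Le 0 (wd (mid L p t m)) := wd_nonneg (ok_mid L h0 h1 ht m)
      have hnn : Le 0 (wd (nl (t (m + 1)))) := wd_nonneg (ok_nl (ht _))
      refine h7.trans (Le.mul_right ?_ hmn)
      exact h5.trans (h3.mul_right hnn)

/-- **Long windows with copies, trace form.** -/
theorem long_copies {st : V → X} {s : ℕ} (hs : ∀ x, (univ.filter fun v => st v = x).card = s)
    {A C : MM V} (hA : Le 0 A) (hC : Le 0 C) {p : ℝ} (h0 : 0 ≤ p) (h1 : p ≤ 1)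
    {D : ℕ} {E I : List (V × V)} (hE : ∀ e ∈ E, st e.1 ≠ st e.2) (hI : ∀ e ∈ I, st e.1 = st e.2)
    (hD : ∀ v, nE v E ≤ D) {cX : X → X → ℕ} (hc : ∀ y v, cE y v E = cX (st y) (st v))
    {L : List (V × V)}
    (hgl : gl L p = (I.map fun e => Lt.gate e.1 e.2 p) ++ (E.map fun e => Lt.gate e.1 e.2 p))
    {τ : ℝ} (hτ0 : 0 ≤ τ) (hτ1 : τ ≤ 1) {t : ℕ → V → ℝ} (ht : ∀ j z, 0 ≤ t j z ∧ t j z ≤ 1)
    (m : ℕ) (hτ : ∀ j z, 1 ≤ j → j ≤ m → t j z ≤ τ) (x y : V) {qs : ℕ → X → ℕ → ℝ}
    (hq0 : ∀ v j, qs 0 v j = if v = st x ∧ j = 0 then 1 else 0)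
    (hqs : ∀ k, qs (k + 1) = stepQ s D p cX (qs k)) {δ : ℝ} (hδ : 0 ≤ δ)
    (hX : HXI st C (δ * trace (A * wd (mid L p t m) * C)) (mid L p t m) A) (J : ℕ) :
    ((1 - τ) / (1 + τ)) ^ m * (∑ l ∈ Ico 1 J, qs (m + 1) (st y) l *
      (1 / s - δ * ((m + 1) * (s * D * p) + s * (1 + 2 * D * p) * l))) *
      trace (A * wd (mid L p t m) * C) ≤
      trace (A * sxM x * wd (mid L p t m) * (sxM y * C)) := by
  set w := mid L p t m with hw
  have hok : ∀ l ∈ w, Ok l := ok_mid L h0 h1 ht m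
  have hwn : Le 0 (wd w) := wd_nonneg hok
  have hZ : 0 ≤ trace (A * wd w * C) := by
    have := ((hA.zero_mul hwn).zero_mul hC).trace
    rwa [Matrix.trace_zero] at this
  have hB : 0 ≤ δ * trace (A * wd w * C) := mul_nonneg hδ hZ
  rcases Nat.eq_zero_or_pos J with hJ | hJ
  · subst hJ
    have e : Ico 1 0 = (∅ : Finset ℕ) := by simp
    rw [e, Finset.sum_empty, mul_zero, zero_mul]
    have := (((hA.zero_mul (sxM_nonneg x)).zero_mul hwn).zero_mul
      ((sxM_nonneg y).zero_mul hC)).trace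
    rwa [Matrix.trace_zero] at this
  set Y : V → ℕ → MM V := fun v j => if v = x ∧ j = 0 then A else 0 with hY
  have hYn : ∀ v j, Le 0 (Y v j) := by
    intro v j
    rw [hY]
    simp only
    split_ifs
    · exact hA
    · exact Le.refl 0
  have hSS : SS J Y = A * sxM x := by
    unfold SS
    rw [Finset.sum_eq_single x]
    · rw [Finset.sum_eq_single 0]
      · rw [hY]; simp
      · intro j _ hj
        rw [hY]; simp [hj]
      · intro h
        exact absurd (Finset.mem_range.2 hJ) h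
    · intro v _ hv
      refine Finset.sum_eq_zero fun j _ => ?_
      rw [hY]; simp [hv]
    · intro h
      exact absurd (Finset.mem_univ _) h
  have hInv : Inv st s C (δ * trace (A * wd w * C)) (s * (1 + 2 * D * p)) (w ++ []) A
      (fun v j => 1 * qs 0 v j) 0 Y Y (fun _ _ => 0) := by
    refine ⟨hA, fun v j => ?_, hYn, hYn, fun _ _ => Le.refl 0, fun v j => ?_, fun v j => ?_,
      fun v j hj => ?_, fun v j => ?_⟩
    · rw [hq0, one_mul]; split_ifs <;> norm_num
    · rw [sub_zero]; exact Le.refl _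
    · rw [hq0, one_mul]
      by_cases hv : v = st x ∧ j = 0
      · rw [if_pos hv, one_smul, Finset.sum_eq_single x]
        · rw [hY]; simp [hv.2]
        · intro u _ hu
          rw [hY]; simp [hu]
        · intro h
          exact absurd (Finset.mem_filter.2 ⟨Finset.mem_univ x, hv.1.symm⟩) h
      · rw [if_neg hv, zero_smul]
        refine Finset.sum_eq_zero fun u hu => ?_
        rw [hY]
        simp only
        rw [if_neg]
        rintro ⟨rfl, hj⟩
        exact hv ⟨(Finset.mem_filter.1 hu).2.symm, hj⟩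
    · rw [hq0, hY]
      simp [hj]
    · simp only [Matrix.zero_mul, Matrix.trace_zero, Finset.sum_const_zero]
      rw [hq0]
      split_ifs with hv
      · rw [hv.2]; simp
      · simp
  obtain ⟨Y', W', R', h2, h3⟩ := mid_ind hs hC hB h0 h1 hE hI hD hc le_rfl hgl hτ0 hτ1 ht J hqs m
    hτ (w := []) (by simp) (by rw [← hw, List.append_nil]; exact hX) (by rw [← hw]; exact hInv)
  rw [← hw] at h2 h3
  rw [hSS] at h3
  have hsC : Le 0 ((sxM y : MM V) * C) := (sxM_nonneg y).zero_mul hC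
  have h4 := (h3.mul_right hsC).trace
  refine le_trans ?_ h4
  have hsx : (sxM y : MM V) * sxM y = 1 := by
    ext σ τ
    rw [Matrix.mul_apply, Finset.sum_eq_single (Function.update τ y (1 - τ y))]
    · have e : Function.update (Function.update τ y (1 - τ y)) y
          (1 - (Function.update τ y (1 - τ y)) y) = τ := by
        funext v
        rcases eq_or_ne v y with rfl | hv
        · simp
        · simp [Function.update_of_ne hv]
      simp only [sxM, Matrix.of_apply, if_true, mul_one, e, Matrix.one_apply]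
    · intro ρ _ hρ
      simp [sxM, hρ]
    · intro h
      exact absurd (Finset.mem_univ _) h
  have h5 : ∑ j ∈ range J, trace (Y' y j * C) ≤ trace (SS J Y' * (sxM y * C)) := by
    unfold SS
    rw [Finset.sum_mul, Matrix.trace_sum,
      ← Finset.add_sum_erase Finset.univ _ (Finset.mem_univ y)]
    have h6 : trace ((∑ j ∈ range J, Y' y j * sxM y) * (sxM y * C)) =
        ∑ j ∈ range J, trace (Y' y j * C) := by
      rw [Finset.sum_mul, Matrix.trace_sum]
      refine Finset.sum_congr rfl fun j _ => ?_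
      rw [Matrix.mul_assoc, ← Matrix.mul_assoc (sxM y) (sxM y) C, hsx, Matrix.one_mul]
    rw [h6]
    have h7 : 0 ≤ ∑ v ∈ Finset.univ.erase y,
        trace ((∑ j ∈ range J, Y' v j * sxM v) * (sxM y * C)) := by
      refine Finset.sum_nonneg fun v _ => ?_
      have := ((Le.zero_sum fun j _ => (h2.Y0 v j).zero_mul
        (sxM_nonneg v)).zero_mul hsC (A := ∑ j ∈ range J, Y' v j * sxM v)).trace
      rwa [Matrix.trace_zero] at this
    linarith
  have h8 : ∑ j ∈ Ico 1 J, trace (Y' y j * C) ≤ ∑ j ∈ range J, trace (Y' y j * C) := by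
    refine Finset.sum_le_sum_of_subset_of_nonneg (fun j hj => ?_) fun j _ _ => ?_
    · rw [Finset.mem_Ico] at hj
      exact Finset.mem_range.2 hj.2
    · have := ((h2.Y0 y j).zero_mul hC).trace
      rwa [Matrix.trace_zero] at this
  refine le_trans ?_ (h8.trans h5)
  rw [Finset.mul_sum, Finset.sum_mul]
  refine Finset.sum_le_sum fun j hj => ?_
  have hj0 : j ≠ 0 := by
    rw [Finset.mem_Ico] at hj
    omega
  have h9 := ((h2.YW y j).mul_right hC).trace
  rw [Matrix.sub_mul, Matrix.trace_sub, h2.unif y j hj0, Matrix.smul_mul, Matrix.trace_smul,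
    smul_eq_mul] at h9
  have h10 := h2.RT (st y) j
  have h11 : trace (R' y j * C) ≤ ∑ v with st v = st y, trace (R' v j * wd [] * C) := by
    have e1 : wd ([] : List (Lt V)) = 1 := by simp [wd]
    rw [e1]
    simp only [Matrix.mul_one]
    refine Finset.single_le_sum (f := fun v => trace (R' v j * C)) (fun v _ => ?_)
      (Finset.mem_filter.2 ⟨Finset.mem_univ y, rfl⟩)
    have := ((h2.R0 v j).zero_mul hC).trace
    rwa [Matrix.trace_zero] at this
  have e0 : (0 : ℕ) + m + 1 = m + 1 := by omega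
  rw [e0] at h9 h10
  refine le_trans (le_of_eq ?_) ((sub_le_sub_left (h11.trans h10) _).trans h9)
  ring

end

end Vale.Agent.P361.LRO.Bloch.H1
end

section

/-!
P361, Bloch's law for all spins: counting the gates between different sites.
-/

namespace Vale.Agent.P361.LRO.Bloch.H1.C527

open Finset Matrix Vale.Agent.P361.LRO.GenS Vale.Agent.P361.LRO.S3S.KerS

set_option linter.unusedSectionVars false

noncomputable section

variable {V : Type} [Fintype V] [DecidableEq V]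

theorem cE_sum (y v : V) (E : List (V × V)) : cE y v E =
    (E.map fun e => if (y = e.1 ∨ y = e.2) ∧ v = Equiv.swap e.1 e.2 y then 1 else 0).sum := by
  induction E with
  | nil => simp [cE]
  | cons e E ih => simp [cE, ih]

theorem nE_sum (y : V) (E : List (V × V)) : nE y E =
    (E.map fun e => if y = e.1 ∨ y = e.2 then 1 else 0).sum := by
  induction E with
  | nil => simp [nE]
  | cons e E ih => simp [nE, ih]

variable {n s : ℕ} [NeZero n]

theorem sum_interE_map (f : (Tor n × Fin s) × (Tor n × Fin s) → ℕ) :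
    ((interE n s).map f).sum =
      ∑ d : Fin 3, ∑ z : Tor n, ∑ i : Fin s, ∑ j : Fin s, f ((z, i), (z + Pi.single d 1, j)) := by
  have hf : ∀ g : Fin s → ℕ, ((List.finRange s).map g).sum = ∑ i, g i := by
    intro g
    rw [← List.sum_ofFn, List.ofFn_eq_map]
  have h0 : ∀ (l : List (Tor n × Tor n)),
      ((l.flatMap fun e => (List.finRange s).flatMap fun i => (List.finRange s).map fun j =>
        ((e.1, i), (e.2, j))).map f).sum =
      (l.map fun e => ∑ i : Fin s, ∑ j : Fin s, f ((e.1, i), (e.2, j))).sum := by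
    intro l
    induction l with
    | nil => simp
    | cons e l ih =>
      rw [List.flatMap_cons, List.map_append, List.sum_append, ih, List.map_cons, List.sum_cons]
      congr 1
      rw [List.map_flatMap, ← hf]
      have h4 : ∀ (q : List (Fin s)) (F : Fin s → List ℕ),
          (q.flatMap F).sum = (q.map fun i => (F i).sum).sum := by
        intro q F
        induction q with
        | nil => simp
        | cons a q ih => rw [List.flatMap_cons, List.sum_append, ih, List.map_cons, List.sum_cons]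
      rw [h4]
      congr 1
      refine List.map_congr_left fun i _ => ?_
      rw [List.map_map, ← hf]
      rfl
  unfold interE
  rw [h0]
  unfold edges
  rw [List.map_map]
  have h1 := Finset.sum_map_toList (Finset.univ : Finset (Tor n × Fin 3))
    (fun z => ∑ i : Fin s, ∑ j : Fin s, f ((z.1, i), (z.1 + Pi.single z.2 1, j)))
  have h2 : ((fun e : Tor n × Tor n => ∑ i : Fin s, ∑ j : Fin s, f ((e.1, i), (e.2, j))) ∘
      fun z : Tor n × Fin 3 => (z.1, z.1 + Pi.single z.2 1)) =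
      fun z => ∑ i : Fin s, ∑ j : Fin s, f ((z.1, i), (z.1 + Pi.single z.2 1, j)) := rfl
  rw [h2, h1, Fintype.sum_prod_type, Finset.sum_comm]

theorem sum_reverse_map (f : (Tor n × Fin s) × (Tor n × Fin s) → ℕ)
    (E : List ((Tor n × Fin s) × (Tor n × Fin s))) :
    (E.reverse.map f).sum = (E.map f).sum := by
  rw [List.map_reverse, List.sum_reverse]

theorem single_ne {n : ℕ} (hn : 2 ≤ n) (d : Fin 3) : (Pi.single d 1 : Tor n) ≠ 0 := by
  intro h
  have := congrFun h d
  rw [Pi.single_eq_same, Pi.zero_apply] at this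
  have : Fact (1 < n) := ⟨hn⟩
  exact one_ne_zero ‹_›

/-- Every copy is touched by at most `6 s` gates. -/
theorem nE_inter (v : Tor n × Fin s) : nE v (interE n s).reverse ≤ 6 * s := by
  rw [nE_sum, sum_reverse_map, sum_interE_map]
  have h1 : ∀ (d : Fin 3) (z : Tor n) (i j : Fin s),
      (if v = (z, i) ∨ v = (z + Pi.single d 1, j) then 1 else 0) ≤
      (if z = v.1 then (if i = v.2 then 1 else 0) else 0) +
      (if z = v.1 - Pi.single d 1 then (if j = v.2 then 1 else 0) else 0) := by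
    intro d z i j
    obtain ⟨x, a⟩ := v
    simp only [Prod.mk.injEq]
    by_cases h : x = z ∧ a = i
    · obtain ⟨rfl, rfl⟩ := h
      simp
    · by_cases h' : x = z + Pi.single d 1 ∧ a = j
      · obtain ⟨rfl, rfl⟩ := h'
        have : z = z + Pi.single d 1 - Pi.single d 1 := by abel
        simp
      · rw [if_neg (by tauto)]
        exact Nat.zero_le _
  refine (Finset.sum_le_sum fun d _ => Finset.sum_le_sum fun z _ => Finset.sum_le_sum fun i _ =>
    Finset.sum_le_sum fun j _ => h1 d z i j).trans ?_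
  have h2 : ∀ d : Fin 3, ∑ z : Tor n, ∑ i : Fin s, ∑ j : Fin s,
      ((if z = v.1 then (if i = v.2 then 1 else 0) else 0) +
      (if z = v.1 - Pi.single d 1 then (if j = v.2 then 1 else 0) else 0)) = 2 * s := by
    intro d
    simp only [Finset.sum_add_distrib, Finset.sum_const, Finset.card_univ, Fintype.card_fin,
      smul_eq_mul]
    have e1 : ∀ z : Tor n, ∑ i : Fin s, s * (if z = v.1 then (if i = v.2 then 1 else 0) else 0) =
        if z = v.1 then s else 0 := by
      intro z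
      by_cases hz : z = v.1
      · simp [hz]
      · simp [hz]
    have e2 : ∀ z : Tor n, s * ∑ j : Fin s,
        (if z = v.1 - Pi.single d 1 then (if j = v.2 then 1 else 0) else 0) =
        if z = v.1 - Pi.single d 1 then s else 0 := by
      intro z
      by_cases hz : z = v.1 - Pi.single d 1
      · simp [hz]
      · simp [hz]
    rw [Finset.sum_congr rfl fun z _ => e1 z, Finset.sum_congr rfl fun z _ => e2 z]
    simp
    ring
  rw [Finset.sum_congr rfl fun d _ => h2 d, Finset.sum_const, Finset.card_univ, Fintype.card_fin,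
    smul_eq_mul]
  omega

/-- Number of edges between two sites. -/
def cT (n : ℕ) [NeZero n] (x' x : Tor n) : ℕ :=
  ∑ d : Fin 3, ((if x' = x + Pi.single d 1 then 1 else 0) +
    (if x' = x - Pi.single d 1 then 1 else 0))

theorem cE_inter (hn : 2 ≤ n) (y v : Tor n × Fin s) :
    cE y v (interE n s).reverse = cT n y.1 v.1 := by
  rw [cE_sum, sum_reverse_map, sum_interE_map]
  unfold cT
  refine Finset.sum_congr rfl fun d _ => ?_
  obtain ⟨y, b⟩ := y
  obtain ⟨x, a⟩ := v
  have hne : ∀ (z : Tor n) (i j : Fin s), ((z, i) : Tor n × Fin s) ≠ (z + Pi.single d 1, j) := by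
    intro z i j h
    have h2 := congrArg Prod.fst h
    exact single_ne hn d (left_eq_add.1 h2)
  have h1 : ∀ (z : Tor n) (i j : Fin s),
      (if ((y, b) = (z, i) ∨ (y, b) = (z + Pi.single d 1, j)) ∧
        (x, a) = Equiv.swap (z, i) (z + Pi.single d 1, j) (y, b) then 1 else 0) =
      (if z = x then (if i = a then (if j = b then
        (if y = x + Pi.single d 1 then 1 else 0) else 0) else 0) else 0) +
      (if z = y then (if i = b then (if j = a then
        (if y = x - Pi.single d 1 then 1 else 0) else 0) else 0) else 0) := by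
    intro z i j
    by_cases hA : (y, b) = ((z, i) : Tor n × Fin s)
    · have hy : y = z := congrArg Prod.fst hA
      have hb : b = i := congrArg Prod.snd hA
      subst hy hb
      rw [Equiv.swap_apply_left]
      have e1 : ¬ (y = x ∧ y = x + Pi.single d 1) := by
        rintro ⟨h1, h2⟩
        rw [h1] at h2
        exact single_ne hn d (left_eq_add.1 h2)
      have e2 : (((y, b) = ((y, b) : Tor n × Fin s) ∨ (y, b) = (y + Pi.single d 1, j)) ∧
          (x, a) = ((y + Pi.single d 1, j) : Tor n × Fin s)) ↔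
          (j = a ∧ y = x - Pi.single d 1) := by
        simp only [true_or, true_and, Prod.mk.injEq]
        constructor
        · rintro ⟨h1, h2⟩; exact ⟨h2.symm, by rw [h1]; abel⟩
        · rintro ⟨h1, h2⟩; exact ⟨by rw [h2]; abel, h1.symm⟩
      have e3 : (if y = x then (if b = a then (if j = b then
          (if y = x + Pi.single d 1 then (1:ℕ) else 0) else 0) else 0) else 0) = 0 := by
        by_cases h1 : y = x
        · rw [if_pos h1]
          have : ¬ (y = x + Pi.single d 1) := fun h2 => e1 ⟨h1, h2⟩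
          simp [this]
        · rw [if_neg h1]
      rw [if_congr e2 rfl rfl, e3, zero_add, if_pos (rfl : y = y), if_pos (rfl : b = b), ite_and]
    · by_cases hB : (y, b) = ((z + Pi.single d 1, j) : Tor n × Fin s)
      · have hy : y = z + Pi.single d 1 := congrArg Prod.fst hB
        have hb : b = j := congrArg Prod.snd hB
        subst hy hb
        rw [Equiv.swap_apply_right]
        have hz : ¬ z = z + Pi.single d 1 := fun h => single_ne hn d (left_eq_add.1 h)
        have e2 : (((z + Pi.single d 1, b) = ((z, i) : Tor n × Fin s) ∨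
            (z + Pi.single d 1, b) = ((z + Pi.single d 1, b) : Tor n × Fin s)) ∧
            (x, a) = ((z, i) : Tor n × Fin s)) ↔ (z = x ∧ i = a) := by
          simp only [or_true, true_and, Prod.mk.injEq]
          constructor
          · rintro ⟨h1, h2⟩; exact ⟨h1.symm, h2.symm⟩
          · rintro ⟨h1, h2⟩; exact ⟨h1.symm, h2.symm⟩
        rw [if_congr e2 rfl rfl, if_neg hz, add_zero, ite_and]
        by_cases h1 : z = x
        · rw [if_pos h1, if_pos h1, if_pos (rfl : b = b), h1, if_pos rfl]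
        · rw [if_neg h1, if_neg h1]
      · rw [if_neg (by tauto)]
        symm
        rw [Nat.add_eq_zero_iff]
        constructor
        · by_cases h1 : z = x
          · by_cases h2 : j = b
            · have : ¬ (y = x + Pi.single d 1) := by
                intro h3
                apply hB
                rw [h3, h1, h2]
              simp [this]
            · simp [h2]
          · rw [if_neg h1]
        · by_cases h1 : z = y
          · by_cases h2 : i = b
            · exact absurd (by rw [h1, h2]) hA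
            · simp [h2]
          · rw [if_neg h1]
  simp only [h1]
  simp only [Finset.sum_add_distrib]
  congr 1
  · have e1 : ∀ z : Tor n, ∑ i : Fin s, ∑ j : Fin s, (if z = x then (if i = a then (if j = b then
        (if y = x + Pi.single d 1 then (1:ℕ) else 0) else 0) else 0) else 0) =
        if z = x then (if y = x + Pi.single d 1 then 1 else 0) else 0 := by
      intro z
      by_cases hz : z = x
      · simp [hz]
      · simp [hz]
    rw [Finset.sum_congr rfl fun z _ => e1 z]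
    simp
  · have e1 : ∀ z : Tor n, ∑ i : Fin s, ∑ j : Fin s, (if z = y then (if i = b then (if j = a then
        (if y = x - Pi.single d 1 then (1:ℕ) else 0) else 0) else 0) else 0) =
        if z = y then (if y = x - Pi.single d 1 then 1 else 0) else 0 := by
      intro z
      by_cases hz : z = y
      · simp [hz]
      · simp [hz]
    rw [Finset.sum_congr rfl fun z _ => e1 z]
    simp

theorem sum_cT (q : Tor n → ℝ) (x : Tor n) : ∑ x', (cT n x' x : ℝ) * q x' = Vale.Agent.P361.LRO.S3S.KerS.nb q x := by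
  unfold cT Vale.Agent.P361.LRO.S3S.KerS.nb
  have h1 : ∀ x', ((∑ d : Fin 3, ((if x' = x + Pi.single d 1 then 1 else 0) +
      (if x' = x - Pi.single d 1 then 1 else 0)) : ℕ) : ℝ) * q x' =
      ∑ d : Fin 3, ((if x' = x + Pi.single d 1 then q x' else 0) +
        (if x' = x - Pi.single d 1 then q x' else 0)) := by
    intro x'
    push_cast
    rw [Finset.sum_mul]
    refine Finset.sum_congr rfl fun d _ => ?_
    split_ifs <;> ring
  simp only [h1]
  rw [Finset.sum_comm]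
  refine Finset.sum_congr rfl fun d _ => ?_
  rw [Finset.sum_add_distrib, Finset.sum_ite_eq', Finset.sum_ite_eq']
  simp

theorem card_fiber (x : Tor n) :
    (univ.filter fun v : Tor n × Fin s => v.1 = x).card = s := by
  have : (univ.filter fun v : Tor n × Fin s => v.1 = x) =
      (univ : Finset (Fin s)).map ⟨fun i => (x, i), fun i j h => (Prod.mk.inj h).2⟩ := by
    ext ⟨y, i⟩
    simp only [mem_filter, mem_univ, true_and, mem_map]
    constructor
    · intro h
      exact ⟨i, by rw [h]; rfl⟩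
    · rintro ⟨j, h⟩
      exact (congrArg Prod.fst h).symm
  rw [this, Finset.card_map, Finset.card_univ, Fintype.card_fin]

theorem inter_ne (hn : 2 ≤ n) : ∀ e ∈ (interE n s).reverse, e.1.1 ≠ e.2.1 := by
  intro e he
  rw [List.mem_reverse] at he
  unfold interE at he
  simp only [List.mem_flatMap, List.mem_map] at he
  obtain ⟨e', he', i, -, j, -, rfl⟩ := he
  unfold edges at he'
  obtain ⟨z, -, rfl⟩ := List.mem_map.1 he'
  intro h
  exact single_ne hn z.2 (left_eq_add.1 h)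

theorem intra_eq (M : ℕ) : ∀ e ∈ ((List.replicate M (intraE n s)).flatten).reverse,
    e.1.1 = e.2.1 := by
  intro e he
  rw [List.mem_reverse, List.mem_flatten] at he
  obtain ⟨l, hl, he⟩ := he
  rw [List.eq_of_mem_replicate hl] at he
  unfold intraE at he
  obtain ⟨z, -, rfl⟩ := List.mem_map.1 he
  rfl

theorem gl_edgesS (M : ℕ) (p : ℝ) : gl (edgesS n s M) p =
    ((((List.replicate M (intraE n s)).flatten).reverse).map fun e => Lt.gate e.1 e.2 p) ++
      ((interE n s).reverse.map fun e => Lt.gate e.1 e.2 p) := by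
  unfold gl edgesS
  rw [List.reverse_append, List.map_append]

end

end Vale.Agent.P361.LRO.Bloch.H1.C527
end

section

/-!
P361, all spins: `W = P exp(-β H)` with the symmetriser `P` satisfies the hypotheses of the joint
law.
-/

namespace Vale.Agent.P361.LRO.TwJ

set_option linter.all false

open Matrix Finset GenS
open scoped ComplexOrder

variable {V : Type} [Fintype V] [DecidableEq V] {m : ℕ} [NeZero m]

theorem symProd_psd : (symProd V m).PosSemidef := by
  have h : symProd V m = (symProd V m)ᴴ * symProd V m := by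
    rw [Matrix.conjTranspose_eq_transpose_of_trivial, symProd_transpose, symProd_sq]
  rw [h]
  exact Matrix.posSemidef_conjTranspose_mul_self _

theorem sum_cnt (σ : V × Fin m → Fin 2) : ∑ z, ((σ z : ℕ) : ℤ) = ∑ x, ((cnt σ x : ℕ) : ℤ) := by
  rw [Fintype.sum_prod_type]
  refine Finset.sum_congr rfl fun x _ => ?_
  rw [cnt, Finset.card_filter, Nat.cast_sum]
  refine Finset.sum_congr rfl fun a _ => ?_
  generalize σ (x, a) = i
  fin_cases i <;> simp

theorem symProd_hsym (σ τ : V × Fin m → Fin 2) (h : symProd V m σ τ ≠ 0) :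
    ∑ z, ((σ z : ℕ) : ℤ) = ∑ z, ((τ z : ℕ) : ℤ) := by
  rw [symProd_apply] at h
  have h1 : cnt σ = cnt τ := by
    by_contra h2
    rw [if_neg h2] at h
    exact h rfl
  rw [sum_cnt, sum_cnt, h1]

theorem swap_comm_Sg' {b : Finset V} {x y : V} (hxy : x ∈ b ↔ y ∈ b) (A : M2) :
    Sg b A * cm (swapM x y) = cm (swapM x y) * Sg b A := by
  have hs : ∀ z, Equiv.swap x y z ∈ b ↔ z ∈ b := by
    intro z
    by_cases hzx : z = x
    · subst hzx; simp [hxy]
    · by_cases hzy : z = y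
      · subst hzy; simp [hxy]
      · rw [Equiv.swap_apply_of_ne_of_ne hzx hzy]
  have hinv : ∀ σ τ : V → Fin 2, σ = τ ∘ Equiv.swap x y ↔ τ = σ ∘ Equiv.swap x y := by
    intro σ τ
    constructor
    · intro h; rw [h]; ext1 z; simp
    · intro h; rw [h]; ext1 z; simp
  have h1 : ∀ (X : Opr V) σ τ, (cm (swapM x y) * X) σ τ = X (σ ∘ Equiv.swap x y) τ := by
    intro X σ τ
    rw [Matrix.mul_apply, Finset.sum_eq_single (σ ∘ Equiv.swap x y)]
    · rw [cm, Matrix.of_apply, swapM, Matrix.of_apply, if_pos ((hinv _ _).2 rfl)]; simp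
    · intro ρ _ hρ
      rw [cm, Matrix.of_apply, swapM, Matrix.of_apply, if_neg (fun h => hρ ((hinv _ _).1 h))]; simp
    · intro h; exact absurd (Finset.mem_univ _) h
  have h2 : ∀ (X : Opr V) σ τ, (X * cm (swapM x y)) σ τ = X σ (τ ∘ Equiv.swap x y) := by
    intro X σ τ
    rw [Matrix.mul_apply, Finset.sum_eq_single (τ ∘ Equiv.swap x y)]
    · rw [cm, Matrix.of_apply, swapM, Matrix.of_apply, if_pos rfl]; simp
    · intro ρ _ hρ
      rw [cm, Matrix.of_apply, swapM, Matrix.of_apply, if_neg hρ]; simp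
    · intro h; exact absurd (Finset.mem_univ _) h
  ext σ τ
  rw [h1, h2, Sg, Matrix.sum_apply, Matrix.sum_apply]
  refine Finset.sum_bij' (fun z _ => Equiv.swap x y z) (fun z _ => Equiv.swap x y z)
    (fun z hz => (hs z).2 hz) (fun z hz => (hs z).2 hz) (fun z _ => by simp) (fun z _ => by simp)
    fun z hz => ?_
  rw [st_apply, st_apply]
  simp only [Function.comp_apply, Equiv.swap_apply_self]
  congr 1
  have : (∀ w, w ≠ z → σ w = τ (Equiv.swap x y w)) ↔
      (∀ w, w ≠ Equiv.swap x y z → σ (Equiv.swap x y w) = τ w) := by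
    constructor
    · intro h w hw
      have := h (Equiv.swap x y w) (fun h' => hw (by rw [← h']; simp))
      rwa [Equiv.swap_apply_self] at this
    · intro h w hw
      have := h (Equiv.swap x y w) (fun h' => hw ((Equiv.swap x y).injective h'))
      rwa [Equiv.swap_apply_self] at this
  simp only [this]

/-- The symmetriser commutes with the spin operators of a block of whole columns. -/
theorem symProd_comm_Sg {b : Finset (V × Fin m)} (hb : ∀ (x : V) (i j : Fin m),
      (x, i) ∈ b ↔ (x, j) ∈ b) (A : M2) :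
    Sg b A * cm (symProd V m) = cm (symProd V m) * Sg b A := by
  have key : ∀ l : List ((V × Fin m) × (V × Fin m) × ℝ), (∀ e ∈ l, e.1.1 = e.2.1.1) →
      Sg b A * cm (l.map gM).prod = cm (l.map gM).prod * Sg b A := by
    intro l hl
    induction l with
    | nil => simp [cm_one]
    | cons e l ih =>
      have he := hl e (by simp)
      obtain ⟨⟨x, a⟩, ⟨y, c⟩, p⟩ := e
      dsimp only at he
      subst he
      rw [List.map_cons, List.prod_cons, cm_mul, ← mul_assoc]
      have h1 : Sg b A * cm (gM ((x, a), (x, c), p)) = cm (gM ((x, a), (x, c), p)) * Sg b A := by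
        rw [gM, cm_add, cm_smul, cm_smul, cm_one, mul_add, add_mul, Matrix.mul_smul,
          Matrix.smul_mul, Matrix.mul_smul, Matrix.smul_mul, mul_one, one_mul,
          swap_comm_Sg' (hb x a c)]
      rw [h1, mul_assoc, ih fun e he => hl e (by simp [he]), mul_assoc]
  exact key _ symGates_site

theorem exp_comm_symProd (L : List (V × V)) (β : ℝ) (h : V → ℝ) :
    Commute (symProd V m) (NormedSpace.exp (-β • ham (interL L m) (lift m h))) :=
  ((symProd_comm_ham L h).smul_right _).exp_right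

/-- The Gibbs operator of the spin `m / 2` model on the copies. -/
noncomputable def WS (L : List (V × V)) (m : ℕ) [NeZero m] (β : ℝ) (h : V → ℝ) :
    Matrix (V × Fin m → Fin 2) (V × Fin m → Fin 2) ℝ :=
  symProd V m * NormedSpace.exp (-β • ham (interL L m) (lift m h))

theorem WS_psd (L : List (V × V)) (β : ℝ) (h : V → ℝ) : (WS L m β h).PosSemidef :=
  psd_mul symProd_psd symProd_sq (Tw.expH_psd _ β _) (exp_comm_symProd L β h)

theorem WS_hsym (L : List (V × V)) (β : ℝ) (h : V → ℝ) (σ τ : V × Fin m → Fin 2)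
    (hd : WS L m β h σ τ ≠ 0) : ∑ x, ((σ x : ℕ) : ℤ) = ∑ x, ((τ x : ℕ) : ℤ) :=
  hsym_mul symProd_hsym (hsym_exp _ β _) σ τ hd

/-- Zero field, edges inside the block of whole columns: `W` commutes with the block spin. -/
theorem WS_comm_Sg {L : List (V × V)} {B : Finset V} (hL : ∀ e ∈ L, e.1 ∈ B ∧ e.2 ∈ B) (β : ℝ)
    (A : M2) :
    Sg (liftB m B) A * cm (WS L m β fun _ => 0) = cm (WS L m β fun _ => 0) * Sg (liftB m B) A := by
  have hl : ∀ e ∈ interL L m, e.1 ∈ liftB m B ∧ e.2 ∈ liftB m B := by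
    intro e he
    have := hL _ (mem_interL.1 he)
    simp only [liftB, Finset.mem_product, Finset.mem_univ, and_true]
    exact this
  refine comm_Sg_mul (symProd_comm_Sg (fun x i j => by simp [liftB]) A) ?_
  apply comm_cm_exp
  have h1 := ham_comm_Sg hl A
  have h2 : lift m (fun _ : V => (0 : ℝ)) = fun _ => 0 := rfl
  rw [cm_smul, Matrix.mul_smul, Matrix.smul_mul, h2, h1]

end Vale.Agent.P361.LRO.TwJ
end

section

/-!
P361, stage 3, all spins, lower tail: (LT0S) from the identification of the spin `s / 2` trace,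
by (LT0) at `M` intra edges and the limit `M → ∞`.
-/

namespace Vale.Agent.P361.LRO.S3S

open Matrix Finset Filter Topology
open Vale.Agent.P361.LRO.TwJ Vale.Agent.P361.LRO.GenS Vale.Agent.P361.LRO.S3

set_option linter.all false

noncomputable section

section general

variable {V : Type} [Fintype V] [DecidableEq V]

theorem trace_exp_pos_real {A : Matrix (V → Fin 2) (V → Fin 2) ℝ} (hA : Aᵀ = A) :
    0 < trace (NormedSpace.exp A) := by
  have hC : NormedSpace.exp A = (NormedSpace.exp ((1 / 2 : ℝ) • A))ᴴ *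
      NormedSpace.exp ((1 / 2 : ℝ) • A) := by
    rw [Matrix.conjTranspose_eq_transpose_of_trivial, ← Matrix.exp_transpose, transpose_smul,
      hA, ← Matrix.exp_add_of_commute _ _ rfl, ← add_smul]
    norm_num
  have hpsd : (NormedSpace.exp A).PosSemidef := by
    rw [hC]
    exact Matrix.posSemidef_conjTranspose_mul_self _
  refine lt_of_le_of_ne hpsd.trace_nonneg fun h0 => ?_
  rw [hC] at h0
  have h1 := (Matrix.trace_conjTranspose_mul_self_eq_zero_iff).1 h0.symm
  exact (Matrix.isUnit_exp ((1 / 2 : ℝ) • A)).ne_zero h1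

theorem aeval_transpose {A : Matrix (V → Fin 2) (V → Fin 2) ℝ} (hA : Aᵀ = A)
    (P : Polynomial ℝ) : (Polynomial.aeval A P)ᵀ = Polynomial.aeval A P := by
  induction P using Polynomial.induction_on with
  | C a =>
    rw [Polynomial.aeval_C, Algebra.algebraMap_eq_smul_one, transpose_smul, transpose_one]
  | add p q hp hq => rw [map_add, transpose_add, hp, hq]
  | monomial n a ih =>
    rw [pow_succ, ← mul_assoc, map_mul, Polynomial.aeval_X, transpose_mul, ih, hA]
    exact Vale.Agent.P361.LRO.TwJ.commute_aeval (Commute.refl A) _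

theorem Om_transpose (b : Finset V) : (Om b)ᵀ = Om b := by
  rw [Om, transpose_sum]
  refine Finset.sum_congr rfl fun x _ => ?_
  rw [transpose_sum]
  exact Finset.sum_congr rfl fun y _ => Lim.hM_transpose x y

end general

variable {Λ : Finset Site} {s : ℕ} [NeZero s]

/-- The limit `M → ∞` of one partition function. -/
theorem tendsto_Z1 (hs : 1 ≤ s) {β : ℝ} (hβ : 0 < β) (τ : ℝ) :
    Tendsto (fun M : ℕ => trace (NormedSpace.exp (-(β / 2) • ham (Lm (nnL Λ) s M)
        0 - τ • Dn (univ : Finset (Λ × Fin s))))) atTop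
      (𝓝 (trace (symProd Λ s * NormedSpace.exp (-(β / 2) • ham (interL (nnL Λ) s) 0 -
        τ • Dn (univ : Finset (Λ × Fin s)))))) := by
  have hz : (0 : Λ × Fin s → ℝ) = fun _ => 0 := rfl
  have hl : lift s (fun _ : Λ => (0 : ℝ)) = (0 : Λ × Fin s → ℝ) := rfl
  -- everything commutes with the total spin
  have hcomm : ∀ L : List ((Λ × Fin s) × (Λ × Fin s)),
      Commute (ham L (fun _ => 0)) (Dn (univ : Finset (Λ × Fin s))) := fun L =>
    (comm_of_Sg (Vale.Agent.P361.LRO.TwJ.ham_comm_Sg (b := univ) (L := L) fun e _ => ⟨mem_univ _, mem_univ _⟩)).2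
  have e1 : ∀ L : List ((Λ × Fin s) × (Λ × Fin s)),
      NormedSpace.exp (-(β / 2) • ham L (fun _ => 0) - τ • Dn (univ : Finset (Λ × Fin s))) =
      NormedSpace.exp (-(β / 2) • ham L (fun _ => 0)) *
        NormedSpace.exp (-τ • Dn (univ : Finset (Λ × Fin s))) := by
    intro L
    rw [sub_eq_add_neg, ← neg_smul]
    exact Matrix.exp_add_of_commute _ _ (((hcomm L).smul_left _).smul_right _)
  simp only [e1, hz]
  have hpsd : (intraM Λ s).PosSemidef := Lim.sum_hM_posSemidef _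
  have hker : ∀ v, intraM Λ s *ᵥ v = 0 → symProd Λ s *ᵥ v = v := fun v hv =>
    symProd_mulVec_of_intra v hv
  have hAB : Commute (intraM Λ s) (ham (interL (nnL Λ) s) (fun _ => 0)) := by
    rw [intraM]
    have key : ∀ l : List ((Λ × Fin s) × (Λ × Fin s)), (∀ e ∈ l, e.1.1 = e.2.1) →
        Commute (l.map fun e => hM e.1 e.2).sum (ham (interL (nnL Λ) s) (fun _ => 0)) := by
      intro l hl'
      induction l with
      | nil => simp
      | cons e l ih =>
        rw [List.map_cons, List.sum_cons]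
        refine Commute.add_left ?_ (ih fun e he => hl' e (by simp [he]))
        have he := hl' e (by simp)
        obtain ⟨⟨x, a⟩, ⟨y, c⟩⟩ := e
        dsimp only at he
        subst he
        rw [hM]
        have h1 := comm_ham (nnL Λ) (fun _ : Λ => (0 : ℝ)) x a c
        exact ((Commute.one_left _).sub_left h1).smul_left _
    exact key _ fun e he => (mem_intraL.1 he).1
  have h3 := Lim.tendsto_trace_proj (intraM Λ s) (ham (interL (nnL Λ) s) (fun _ => 0))
    (NormedSpace.exp (-τ • Dn (univ : Finset (Λ × Fin s)))) (symProd Λ s) hpsd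
    symProd_transpose intraM_mul_symProd hker hAB (b := β / 2) (by positivity)
  rw [mul_assoc] at h3
  refine h3.congr fun M => ?_
  rw [ham_Lm]

/-- The same along the even numbers. -/
theorem tendsto_Z (hs : 1 ≤ s) {β : ℝ} (hβ : 0 < β) (τ : ℝ) :
    Tendsto (fun M : ℕ => trace (NormedSpace.exp (-(β / 2) • ham (Lm (nnL Λ) s (2 * M))
        (fun _ => 0) - τ • Dn (univ : Finset (Λ × Fin s))))) atTop
      (𝓝 (trace (symProd Λ s * NormedSpace.exp (-(β / 2) • ham (interL (nnL Λ) s) 0 -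
        τ • Dn (univ : Finset (Λ × Fin s)))))) := by
  have h4 : Tendsto (fun M : ℕ => 2 * M) atTop atTop :=
    tendsto_atTop_mono (fun n => by simp only [id]; omega) tendsto_id
  exact (tendsto_Z1 hs hβ τ).comp h4

theorem lt0S_of (hs : 1 ≤ s) (Λ : Finset Site) {β : ℝ} (hβ : 0 < β)
    (hZ : ∀ τ : ℝ, B.Zt s Λ β τ = trace (symProd Λ s * NormedSpace.exp
      (-(β / 2) • ham (interL (nnL Λ) s) 0 - τ • Dn (univ : Finset (Λ × Fin s)))))
    {G : Polynomial ℝ} {τ1 τ2 c1 c2 : ℝ} (h1 : 0 < τ1) (h2 : 0 < τ2)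
    (hc1 : 0 ≤ c1) (hc2 : 0 ≤ c2)
    (hG : ∀ r : ℕ, 2 * r ≤ s * Λ.card →
      Real.exp (G.eval ((r : ℝ) * ((s : ℝ) * Λ.card - r + 1))) ≤
        c1 * Real.exp (-(τ1 * r)) + c2 * Real.exp (-(τ2 * r)))
    {ε : ℝ} (hε : 0 < ε) :
    ∃ M0 : ℕ, ∀ M, M0 ≤ M →
      Real.log (trace (NormedSpace.exp (-(β / 2) • ham (Lm (nnL Λ) s (2 * M)) 0 +
        Polynomial.aeval (Om (univ : Finset (Λ × Fin s))) G))) ≤
      Real.log (((s : ℝ) * Λ.card + 1) * (c1 * B.Zt s Λ β τ1 + c2 * B.Zt s Λ β τ2)) + ε := by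
  have hcard : (univ : Finset (Λ × Fin s)).card = s * Λ.card := by
    rw [Finset.card_univ, Fintype.card_prod, Fintype.card_fin, Fintype.card_coe, mul_comm]
  have hcard' : ((univ : Finset (Λ × Fin s)).card : ℝ) = (s : ℝ) * Λ.card := by
    rw [hcard]; push_cast; ring
  -- positivity of the coefficients
  have hc : 0 < c1 + c2 := by
    have := hG 0 (by omega)
    simp only [Nat.cast_zero, mul_zero, neg_zero, Real.exp_zero, mul_one, zero_mul] at this
    exact lt_of_lt_of_le (Real.exp_pos _) this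
  have hZ1 := B.Zt_pos (n := s) (Λ := Λ) β τ1
  have hZ2 := B.Zt_pos (n := s) (Λ := Λ) β τ2
  set R := ((s : ℝ) * Λ.card + 1) * (c1 * B.Zt s Λ β τ1 + c2 * B.Zt s Λ β τ2) with hR
  have hRpos : 0 < R := by
    have h3 : 0 < (s : ℝ) * Λ.card + 1 := by positivity
    have h4 : 0 < c1 * B.Zt s Λ β τ1 + c2 * B.Zt s Λ β τ2 := by
      rcases eq_or_lt_of_le hc1 with h | h
      · rw [← h, zero_add] at hc
        have := mul_pos hc hZ2
        rw [← h, zero_mul, zero_add]
        exact this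
      · have := mul_pos h hZ1
        have := mul_nonneg hc2 hZ2.le
        linarith
    exact mul_pos h3 h4
  -- finite `M`
  have hfin : ∀ M : ℕ, trace (NormedSpace.exp (-(β / 2) • ham (Lm (nnL Λ) s (2 * M)) 0 +
        Polynomial.aeval (Om (univ : Finset (Λ × Fin s))) G)) ≤
      ((s : ℝ) * Λ.card + 1) * (c1 * trace (NormedSpace.exp (-(β / 2) •
          ham (Lm (nnL Λ) s (2 * M)) (fun _ => 0) - τ1 • Dn (univ : Finset (Λ × Fin s)))) +
        c2 * trace (NormedSpace.exp (-(β / 2) •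
          ham (Lm (nnL Λ) s (2 * M)) (fun _ => 0) - τ2 • Dn (univ : Finset (Λ × Fin s))))) := by
    intro M
    have h := lt0_law (b := (univ : Finset (Λ × Fin s))) (L := Lm (nnL Λ) s (2 * M))
      (fun e _ => ⟨mem_univ _, mem_univ _⟩) (β / 2)
      (g := fun r : ℕ => G.eval ((r : ℝ) *
        (((univ : Finset (Λ × Fin s)).card : ℝ) - r + 1))) (G := G) (fun r _ => rfl)
      hc1 hc2 h1.le h2.le (fun r hr => by
        rw [hcard'] at *
        have := hG r (by rw [hcard] at hr; exact hr)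
        simp only [neg_mul]
        exact this)
    rw [hcard'] at h
    exact h
  have hlim : Tendsto (fun M : ℕ => ((s : ℝ) * Λ.card + 1) * (c1 * trace (NormedSpace.exp
      (-(β / 2) • ham (Lm (nnL Λ) s (2 * M)) (fun _ => 0) -
        τ1 • Dn (univ : Finset (Λ × Fin s)))) +
        c2 * trace (NormedSpace.exp (-(β / 2) • ham (Lm (nnL Λ) s (2 * M)) (fun _ => 0) -
          τ2 • Dn (univ : Finset (Λ × Fin s)))))) atTop (𝓝 R) := by
    rw [hR, hZ, hZ]
    exact (((tendsto_Z hs hβ τ1).const_mul _).add ((tendsto_Z hs hβ τ2).const_mul _)).const_mul _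
  have hev := hlim.eventually_le_const (u := R * Real.exp ε)
    (lt_mul_of_one_lt_right hRpos (Real.one_lt_exp_iff.2 hε))
  obtain ⟨M0, hM0⟩ := eventually_atTop.1 hev
  refine ⟨M0, fun M hM => ?_⟩
  have h5 := (hfin M).trans (hM0 M hM)
  have h6 : 0 < trace (NormedSpace.exp (-(β / 2) • ham (Lm (nnL Λ) s (2 * M)) 0 +
        Polynomial.aeval (Om (univ : Finset (Λ × Fin s))) G)) := by
    apply trace_exp_pos_real
    rw [transpose_add, transpose_smul, EnR.ham_transpose, aeval_transpose (Om_transpose _)]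
  calc _ ≤ Real.log (R * Real.exp ε) := Real.log_le_log h6 h5
    _ = _ := by rw [Real.log_mul hRpos.ne' (Real.exp_pos _).ne', Real.log_exp]

end

end Vale.Agent.P361.LRO.S3S
end

section

/-!
P361, stage 3, block (T) for all spins `s / 2`: lower tail of `N_b`. Assembly (helper260).
-/

namespace Vale.Agent.P361.LRO.S3ST

open Finset Matrix Filter Topology
open Vale.Agent.P361.LRO Vale.Agent.P361.LRO.S3 Vale.Agent.P361.LRO.S3T Vale.Agent.P361.LRO.S3S
open Vale.Agent.P361.LRO.GenS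

/-- (T0) + (T1) for spin `s / 2`. -/
def LT01StmtS (s : ℕ) : Prop :=
  ∀ β h : ℝ, 0 < β → 0 < h → ∀ w : ℕ, 0 < w → ∀ ε : ℝ, 0 < ε →
    ∃ n0 : ℕ, ∀ (n : ℕ) [NeZero n], n0 ≤ n → Odd n →
    ∀ (x : Tor n) (G : Polynomial ℝ) (τ1 τ2 c1 c2 : ℝ), 0 < τ1 → 0 < τ2 → 0 ≤ c1 → 0 ≤ c2 →
    (∀ r : ℕ, 2 * r ≤ s * w ^ 3 →
      Real.exp (G.eval ((r : ℝ) * (((s * w ^ 3 : ℕ) : ℝ) - r + 1))) ≤
        c1 * Real.exp (-(τ1 * r)) + c2 * Real.exp (-(τ2 * r))) →
    ∃ M0 : ℕ, ∀ M : ℕ, M0 ≤ M →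
    gib (edgesS n s M) β (hS fun _ => h) (Polynomial.aeval (CM (cubeS n s x w)) G) ≤
      Real.log (((s : ℝ) * (w : ℝ) ^ 3 + 1) *
        (c1 * B.Zt s (B.cube w) β τ1 + c2 * B.Zt s (B.cube w) β τ2)) -
      (w : ℝ) ^ 3 * B.gRed s β h + ε

theorem BCS_eq (s : ℕ) : BCS s = B.aS ((s : ℝ) / 2) := by
  unfold BCS B.aS
  have h1 : Real.sqrt (4 * Real.pi * ((s : ℝ) / 2)) ^ 3 =
      8 * Real.pi ^ (3 / 2 : ℝ) * ((s : ℝ) / 2) ^ (3 / 2 : ℝ) := by
    have hpi := Real.pi_pos
    have e1 : Real.sqrt (4 * Real.pi * ((s : ℝ) / 2)) ^ 3 =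
        (4 * Real.pi * ((s : ℝ) / 2)) ^ (3 / 2 : ℝ) := by
      rw [Real.sqrt_eq_rpow, ← Real.rpow_natCast, ← Real.rpow_mul (by positivity)]
      norm_num
    rw [e1, Real.mul_rpow (by positivity) (by positivity), Real.mul_rpow (by norm_num) hpi.le]
    have e2 : (4 : ℝ) ^ (3 / 2 : ℝ) = 8 := by
      rw [show (4 : ℝ) = 2 ^ (2 : ℝ) by norm_num, ← Real.rpow_mul (by norm_num)]
      norm_num
    rw [e2]
  rw [h1, div_eq_inv_mul]

theorem aS_posS {s : ℕ} (hs : 1 ≤ s) : 0 < B.aS ((s : ℝ) / 2) := by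
  refine lt_of_lt_of_le ?_ (B.fR_le ((s : ℝ) / 2) 1 (t := 0) le_rfl)
  unfold B.fR
  have hpi := Real.pi_pos
  have : (0 : ℝ) < s := by exact_mod_cast hs
  simp only [Finset.range_one, Finset.sum_singleton]
  positivity

/-- Eventual lower bound of the reduced pressure at tiny fields. -/
theorem gRed_geS {s : ℕ} (hs : 1 ≤ s) {ε : ℝ} (hε : 0 < ε) : ∃ β0 : ℝ, ∀ β : ℝ, β0 ≤ β → ∀ h : ℝ, 0 < h →
    h ≤ β ^ (-(10 : ℝ)) → B.FS ((s : ℝ) / 2) 0 - ε ≤ Real.sqrt β ^ 3 * B.gRed s β h := by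
  obtain ⟨K, hK1, hK⟩ := B.gRed_lower hs
  obtain ⟨R, hR⟩ := ((B.FR_tendsto ((s : ℝ) / 2) (t := 0) le_rfl).eventually
    (lt_mem_nhds (show B.FS ((s : ℝ) / 2) 0 - ε / 3 < B.FS ((s : ℝ) / 2) 0 by linarith))).exists
  have hcont : Tendsto (fun t : ℝ => B.FR ((s : ℝ) / 2) R t) (𝓝 0) (𝓝 (B.FR ((s : ℝ) / 2) R 0)) :=
    (B.hasDerivAt_FR ((s : ℝ) / 2) R 0).continuousAt
  have hsmall : Tendsto (fun β : ℝ => β ^ (-(9 : ℝ))) atTop (𝓝 0) :=
    tendsto_rpow_neg_atTop (by norm_num)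
  have h1 : ∀ᶠ t in 𝓝 (0 : ℝ), B.FS ((s : ℝ) / 2) 0 - 2 * ε / 3 < B.FR ((s : ℝ) / 2) R t :=
    hcont.eventually (lt_mem_nhds (by linarith))
  obtain ⟨δ', hδ', hball⟩ := Metric.eventually_nhds_iff.1 h1
  set X : ℝ := B.FS ((s : ℝ) / 2) 0 - 2 * ε / 3 with hX
  have h2 : Tendsto (fun β : ℝ => (1 - K / β) * X) atTop (𝓝 ((1 - 0) * X)) :=
    (tendsto_const_nhds.sub (tendsto_const_nhds.div_atTop tendsto_id)).mul_const X
  have h3 : ∀ᶠ β : ℝ in atTop, X - ε / 3 < (1 - K / β) * X :=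
    h2.eventually (lt_mem_nhds (by linarith))
  have h4 : ∀ᶠ β : ℝ in atTop, β ^ (-(9 : ℝ)) < δ' := hsmall.eventually (gt_mem_nhds hδ')
  obtain ⟨β0, hβ0⟩ := eventually_atTop.1 (h3.and (h4.and (eventually_ge_atTop (max K 1))))
  refine ⟨β0, fun β hβ h hh0 hh => ?_⟩
  obtain ⟨h5, h6, h7⟩ := hβ0 β hβ
  have hβK : K ≤ β := (le_max_left _ _).trans h7
  have hβ1 : 1 ≤ β := (le_max_right _ _).trans h7
  have hβ : 0 < β := by linarith
  refine le_trans ?_ (hK β hβK h hh0.le R)
  have h8 : β * h < δ' := by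
    refine lt_of_le_of_lt ?_ h6
    calc β * h ≤ β * β ^ (-(10 : ℝ)) := mul_le_mul_of_nonneg_left hh hβ.le
      _ = β ^ (-(9 : ℝ)) := by
        nth_rewrite 1 [← Real.rpow_one β]
        rw [← Real.rpow_add hβ]
        norm_num
  have h9 : X < B.FR ((s : ℝ) / 2) R (β * h) := by
    refine hball ?_
    rw [Real.dist_eq, sub_zero, abs_of_nonneg (by positivity)]
    exact h8
  have h10 : 0 ≤ 1 - K / β := by
    rw [sub_nonneg, div_le_one hβ]; exact hβK
  have h11 := mul_le_mul_of_nonneg_left h9.le h10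
  linarith

theorem num_logS {β d W v c σ : ℝ} (hσ : 1 ≤ σ) (hβ1 : 1 ≤ β) (hd1 : d ≤ 1 / 100) (hWp : 0 < W)
    (ha1 : β ^ (1 / 2 + d) ≤ W) (ha2 : W ≤ 3 * β ^ (1 / 2 + d)) (hv : v = W ^ 3 / Real.sqrt β ^ 3)
    (hc : 0 < c) (k1 : Real.log (56 * σ) + 3 * Real.log β ≤ c * β ^ (3 * d)) :
    Real.log (2 * (σ * W ^ 3 + 1)) ≤ c * v := by
  have hβ0 : 0 < β := by linarith
  have hσ0 : 0 < σ := by linarith
  have hsb : 0 < Real.sqrt β ^ 3 := by
    have := Real.sqrt_pos.2 hβ0
    positivity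
  have a1 : W ≤ 3 * β := by
    refine ha2.trans ?_
    refine mul_le_mul_of_nonneg_left ?_ (by norm_num)
    calc β ^ (1 / 2 + d) ≤ β ^ (1 : ℝ) :=
          Real.rpow_le_rpow_of_exponent_le hβ1 (by linarith)
      _ = β := Real.rpow_one β
  have a2 : 2 * (σ * W ^ 3 + 1) ≤ 56 * σ * β ^ 3 := by
    have b1 : W ^ 3 ≤ (3 * β) ^ 3 := pow_le_pow_left₀ hWp.le a1 3
    have b2 : 1 ≤ β ^ 3 := one_le_pow₀ hβ1
    have b3 : (3 * β) ^ 3 = 27 * β ^ 3 := by ring
    rw [b3] at b1
    have b4 := mul_le_mul_of_nonneg_left b1 hσ0.le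
    have b5 : 1 ≤ σ * β ^ 3 := by nlinarith
    linarith
  have a3 := Real.log_le_log (by positivity) a2
  rw [Real.log_mul (x := 56 * σ) (by positivity) (by positivity), Real.log_pow] at a3
  have a4 : β ^ (3 * d) ≤ v := by
    rw [hv, le_div_iff₀ hsb]
    have b1 : Real.sqrt β ^ 3 = β ^ (3 / 2 : ℝ) := by
      rw [Real.sqrt_eq_rpow, ← Real.rpow_natCast, ← Real.rpow_mul hβ0.le]
      norm_num
    have b2 : (β ^ (1 / 2 + d)) ^ 3 ≤ W ^ 3 :=
      pow_le_pow_left₀ (Real.rpow_nonneg hβ0.le _) ha1 3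
    refine le_trans (le_of_eq ?_) b2
    rw [b1, ← Real.rpow_natCast (β ^ (1 / 2 + d)) 3, ← Real.rpow_mul hβ0.le,
      ← Real.rpow_add hβ0]
    congr 1
    push_cast
    ring
  have a5 := mul_le_mul_of_nonneg_left a4 hc.le
  push_cast at a3
  linarith

theorem card_cubeS {n s : ℕ} [NeZero n] (x : Tor n) {w : ℕ} (hw : w ≤ n) :
    (cubeS n s x w).card = s * w ^ 3 := by
  unfold cubeS
  rw [Finset.card_product, EnR.card_cube x hw, Finset.card_univ, Fintype.card_fin, mul_comm]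

theorem tailStmt3S_of {s : ℕ} (hs1 : 1 ≤ s) (h01 : LT01StmtS s) (hB : BootStmt3S s) :
    TailStmt3S s := by
  intro d hd0 hd1 δ hδ
  have hsR : (1 : ℝ) ≤ s := by exact_mod_cast hs1
  have hsR0 : (0 : ℝ) < s := by linarith
  obtain ⟨C7, βB, hC7, hB⟩ := hB
  rcases le_or_gt 1 δ with hδ1 | hδ1
  · refine ⟨1, fun β hβ a _ _ h _ _ => ⟨0, fun n _ _ _ x P hP => ⟨0, fun M _ => ?_⟩⟩⟩
    obtain ⟨ι, hι, μ, r, hμ0, hr, hμ1, hlaw, -⟩ :=
      gib_law (edgesS n s M) β (hS fun _ => h) (cubeS n s x (3 ^ a))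
    rw [← hlaw P]
    calc _ ≤ ∑ i, μ i * 1 := Finset.sum_le_sum fun i _ =>
          mul_le_mul_of_nonneg_left ((hP _ (hr i)).trans (by split_ifs <;> norm_num)) (hμ0 i)
      _ = 1 := by simp [hμ1]
      _ ≤ δ := hδ1
  set A : ℝ := B.aS ((s : ℝ) / 2) with hA
  have hA0 : 0 < A := aS_posS hs1
  obtain ⟨τ, hτ0, hτ⟩ : ∃ τ : ℝ, 0 < τ ∧ (1 - δ / 4) * A ≤ B.fS ((s : ℝ) / 2) τ := by
    have h1 := B.fS_tendsto_zero ((s : ℝ) / 2)
    rw [B.fS_zero] at h1
    have h2 : ∀ᶠ t in 𝓝[≥] (0 : ℝ), (1 - δ / 4) * A < B.fS ((s : ℝ) / 2) t :=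
      h1.eventually (lt_mem_nhds (by nlinarith))
    have h3 : ∀ᶠ t in 𝓝[>] (0 : ℝ), (1 - δ / 4) * A < B.fS ((s : ℝ) / 2) t :=
      h2.filter_mono (nhdsWithin_mono _ Set.Ioi_subset_Ici_self)
    obtain ⟨t, ht1, ht2⟩ := (h3.and self_mem_nhdsWithin).exists
    exact ⟨t, ht2, ht1.le⟩
  obtain ⟨s0, hs0⟩ : ∃ s0 : ℝ, s0 = 3 / 4 * δ * τ * A := ⟨_, rfl⟩
  have hs0p : 0 < s0 := by rw [hs0]; positivity
  obtain ⟨C8, hC8⟩ : ∃ C8 : ℝ, C8 = s * C7 := ⟨_, rfl⟩
  have hC8p : 0 < C8 := by rw [hC8]; positivity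
  obtain ⟨t', ht'⟩ : ∃ t' : ℝ, t' = s0 * δ / (4 * C8) := ⟨_, rfl⟩
  have ht'p : 0 < t' := by rw [ht']; positivity
  obtain ⟨ε, hε⟩ : ∃ ε : ℝ, ε = s0 * δ / 16 := ⟨_, rfl⟩
  have hεp : 0 < ε := by rw [hε]; positivity
  obtain ⟨β1, hβ1⟩ := lt2n hs1 hd0 hd1 ht'p hεp
  obtain ⟨β2, hβ2⟩ := lt2n hs1 hd0 hd1 hτ0 hεp
  obtain ⟨β3, hβ3⟩ := gRed_geS hs1 hεp
  have hc : 0 < s0 * δ / 8 := by positivity
  have hl : ∀ᶠ β : ℝ in atTop, Real.log (56 * s) + 3 * Real.log β ≤ s0 * δ / 8 * β ^ (3 * d) := by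
    have l1 := (isLittleO_log_rpow_atTop (show 0 < 3 * d by linarith)).bound
      (show 0 < s0 * δ / 8 / 6 by positivity)
    have l2 : ∀ᶠ β : ℝ in atTop, Real.log (56 * s) / (s0 * δ / 8 / 2) ≤ β ^ (3 * d) :=
      (tendsto_rpow_atTop (by linarith)).eventually_ge_atTop _
    filter_upwards [l1, l2, eventually_ge_atTop 1] with β l1 l2 l3
    rw [Real.norm_of_nonneg (Real.log_nonneg l3),
      Real.norm_of_nonneg (Real.rpow_nonneg (by linarith) _)] at l1
    rw [div_le_iff₀ (by positivity)] at l2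
    nlinarith
  have hl2 : ∀ᶠ β : ℝ in atTop, s * β ^ (-(9 : ℝ)) ≤ 1 := by
    have l1 : Tendsto (fun β : ℝ => s * β ^ (-(9 : ℝ))) atTop (𝓝 (s * 0)) :=
      (tendsto_rpow_neg_atTop (by norm_num)).const_mul _
    rw [mul_zero] at l1
    filter_upwards [l1.eventually (gt_mem_nhds one_pos)] with β l2 using l2.le
  obtain ⟨β4, hβ4⟩ := eventually_atTop.1 (hl.and (hl2.and (eventually_ge_atTop (max 1 βB))))
  refine ⟨max (max β1 β2) (max β3 β4), fun β hβ a ha1 ha2 h hh0 hh => ?_⟩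
  have hb1 : β1 ≤ β := (le_max_left _ _).trans ((le_max_left _ _).trans hβ)
  have hb2 : β2 ≤ β := (le_max_right _ _).trans ((le_max_left _ _).trans hβ)
  have hb3 : β3 ≤ β := (le_max_left _ _).trans ((le_max_right _ _).trans hβ)
  have hb4 : β4 ≤ β := (le_max_right _ _).trans ((le_max_right _ _).trans hβ)
  obtain ⟨k1, k2, k3⟩ := hβ4 β hb4
  have hβ1' : 1 ≤ β := (le_max_left _ _).trans k3
  have hβB : βB ≤ β := (le_max_right _ _).trans k3
  have hβ0 : 0 < β := by linarith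
  obtain ⟨nB, hnB⟩ := hB β hβB
  have hw0 : 0 < 3 ^ a := by positivity
  obtain ⟨W, hW⟩ : ∃ W : ℝ, W = (3 : ℝ) ^ a := ⟨_, rfl⟩
  have hW1 : 1 ≤ W := by rw [hW]; exact one_le_pow₀ (by norm_num)
  have hWp : 0 < W := by linarith
  have hsb : 0 < Real.sqrt β ^ 3 := by
    have := Real.sqrt_pos.2 hβ0
    positivity
  obtain ⟨v, hv⟩ : ∃ v : ℝ, v = W ^ 3 / Real.sqrt β ^ 3 := ⟨_, rfl⟩
  have hvp : 0 < v := by rw [hv]; positivity
  obtain ⟨n1, hn1⟩ := h01 β h hβ0 hh0 (3 ^ a) hw0 (s0 * δ / 8 * v) (by positivity)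
  obtain ⟨nh, hnh⟩ : ∃ nh : ℕ, ∀ n : ℕ, nh ≤ n → (n : ℝ) ^ (-(1 / 4) : ℝ) ≤ s * β * h := by
    have l1 : Tendsto (fun n : ℕ => (n : ℝ) ^ (-(1 / 4) : ℝ)) atTop (𝓝 0) :=
      (tendsto_rpow_neg_atTop (by norm_num)).comp tendsto_natCast_atTop_atTop
    obtain ⟨N, hN⟩ := eventually_atTop.1
      (l1.eventually (gt_mem_nhds (show 0 < s * β * h by positivity)))
    exact ⟨N, fun n hn => (hN n hn).le⟩
  have hhβ : s * β * h ≤ 1 := by
    calc s * β * h ≤ s * β * β ^ (-(10 : ℝ)) :=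
          mul_le_mul_of_nonneg_left hh (by positivity)
      _ = s * β ^ (-(9 : ℝ)) := by
        rw [mul_assoc]
        congr 1
        nth_rewrite 1 [← Real.rpow_one β]
        rw [← Real.rpow_add hβ0]
        norm_num
      _ ≤ 1 := k2
  refine ⟨max (max n1 (3 ^ a)) (max nB nh), fun n _ hn hodd x P hP => ?_⟩
  have hn1' : n1 ≤ n := (le_max_left _ _).trans ((le_max_left _ _).trans hn)
  have hwn : 3 ^ a ≤ n := (le_max_right _ _).trans ((le_max_left _ _).trans hn)
  have hnB' : nB ≤ n := (le_max_left _ _).trans ((le_max_right _ _).trans hn)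
  have hnh' : nh ≤ n := (le_max_right _ _).trans ((le_max_right _ _).trans hn)
  have hcard : (cubeS n s x (3 ^ a)).card = s * (3 ^ a) ^ 3 := card_cubeS x hwn
  have hcardR : ((cubeS n s x (3 ^ a)).card : ℝ) = s * W ^ 3 := by
    rw [hcard, hW]; push_cast; ring
  obtain ⟨q, hq⟩ : ∃ q : ℝ, q = (1 - δ) * A * v := ⟨_, rfl⟩
  have hpow : β ^ (-(3 / 2) : ℝ) = 1 / Real.sqrt β ^ 3 := by
    rw [Real.rpow_neg hβ0.le, Real.sqrt_eq_rpow, ← Real.rpow_natCast, ← Real.rpow_mul hβ0.le,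
      one_div]
    norm_num
  have hq' : (1 - δ) * (BCS s / s) * β ^ (-(3 / 2) : ℝ) * (cubeS n s x (3 ^ a)).card = q := by
    have e1 : BCS s = A := BCS_eq s
    rw [hq, e1, hcardR, hpow, hv]
    have e2 : (1 - δ) * (A / s) * (1 / Real.sqrt β ^ 3) * (s * W ^ 3) =
        (1 - δ) * A * (W ^ 3 / Real.sqrt β ^ 3) * (s / s) := by ring
    rw [e2, div_self hsR0.ne', mul_one]
  rw [hq'] at hP
  obtain ⟨sg, hsg⟩ : ∃ sg : ℝ, sg = s0 * v := ⟨_, rfl⟩
  obtain ⟨G, hG⟩ := TwJ.exists_poly (s * (3 ^ a) ^ 3)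
    (fun r : ℕ => (if (r : ℝ) < q then sg else 0) - t' * r)
  have hcast : ((3 ^ a : ℕ) : ℝ) = W := by rw [hW]; push_cast; rfl
  obtain ⟨M1, hM1⟩ := hn1 n hn1' hodd x G t' τ 1 (Real.exp (sg + τ * q)) ht'p hτ0 zero_le_one
    (Real.exp_pos _).le (fun r' hr' => exp_G ht'p.le hτ0.le (hG r' hr'))
  obtain ⟨MB, hMB⟩ := hnB n hnB' hodd
  refine ⟨max M1 MB, fun M hM => ?_⟩
  have hX := hM1 M ((le_max_left _ _).trans hM)
  have hMB' := hMB M ((le_max_right _ _).trans hM)
  obtain ⟨ι, hι, μ, r, hμ0, hr, hμ1, hlaw, hmean⟩ :=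
    gib_law (edgesS n s M) β (hS fun _ => h) (cubeS n s x (3 ^ a))
  rw [← hlaw P]
  -- mean of `r`
  have hrho : ∀ z, rho (edgesS n s M) β (hS fun _ => h) z ≤ C7 * β ^ (-(3 / 2) : ℝ) := by
    intro z
    have h1 := hMB' (s * β * h) (hnh n hnh') hhβ (fun _ => s * β * h)
      (Vale.Agent.P361.LRO.S3T.fam_const (by positivity) hhβ (by positivity)) z
    have e1 : (fun _ : Tor n => s * β * h / (s * β)) = fun _ => h := by
      funext _
      rw [mul_div_cancel_left₀ _ (by positivity)]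
    simp only [e1] at h1
    exact h1
  have hmean' : ∑ i, μ i * (r i : ℝ) ≤ C8 * v := by
    refine hmean.trans ((Finset.sum_le_card_nsmul _ _ _ fun z _ => hrho z).trans ?_)
    rw [nsmul_eq_mul, hcardR, hpow, hv, hC8]
    refine le_of_eq ?_
    ring
  -- the exponent
  have hFt := FS_anti ((s : ℝ) / 2) ht'p.le
  have hFτ := FS_sub_ge ((s : ℝ) / 2) hτ0.le
  have hFτ' : τ * ((1 - δ / 4) * A) ≤ B.FS ((s : ℝ) / 2) 0 - B.FS ((s : ℝ) / 2) τ :=
    (mul_le_mul_of_nonneg_left hτ hτ0.le).trans hFτ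
  have hz1 := B.Zt_pos (n := s) (Λ := B.cube (3 ^ a)) β t'
  have hz2 := B.Zt_pos (n := s) (Λ := B.cube (3 ^ a)) β τ
  have hvv : v * (Real.sqrt β ^ 3 / W ^ 3) = 1 := by
    rw [hv]; field_simp
  have q1 : Real.log (B.Zt s (B.cube (3 ^ a)) β t') ≤ v * (B.FS ((s : ℝ) / 2) t' + ε) := by
    have e := hβ1 β hb1 a (by rw [← hW]; exact hW ▸ ha1) (by rw [← hW]; exact hW ▸ ha2)
    rw [← hW] at e
    have e2 := mul_le_mul_of_nonneg_left e hvp.le
    rwa [← mul_assoc, hvv, one_mul] at e2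
  have q2 : Real.log (B.Zt s (B.cube (3 ^ a)) β τ) ≤ v * (B.FS ((s : ℝ) / 2) τ + ε) := by
    have e := hβ2 β hb2 a (by rw [← hW]; exact hW ▸ ha1) (by rw [← hW]; exact hW ▸ ha2)
    rw [← hW] at e
    have e2 := mul_le_mul_of_nonneg_left e hvp.le
    rwa [← mul_assoc, hvv, one_mul] at e2
  have q3 := log_bound (W := s * W ^ 3) hvp (by positivity) hsg hq hs0 hFt hFτ' hz1 hz2 q1 q2
  have q4 := hβ3 β hb3 h hh0 hh
  have q5 : v * (B.FS ((s : ℝ) / 2) 0 - ε) ≤ W ^ 3 * B.gRed s β h := by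
    have e := mul_le_mul_of_nonneg_left q4 hvp.le
    have e2 : v * (Real.sqrt β ^ 3 * B.gRed s β h) = W ^ 3 * B.gRed s β h := by
      rw [hv]; field_simp
    rwa [e2] at e
  rw [hcast, ← hlaw G] at hX
  have hGi : ∀ i, G.eval ((r i : ℝ) * (((cubeS n s x (3 ^ a)).card : ℝ) - r i + 1)) =
      (if (r i : ℝ) < q then sg else 0) - t' * r i := by
    intro i
    have := hG (r i) (by have := hr i; rwa [hcard] at this)
    rw [hcard]
    exact this
  have hcore := core μ r (g := fun i =>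
    G.eval ((r i : ℝ) * (((cubeS n s x (3 ^ a)).card : ℝ) - r i + 1))) ht'p.le hGi
    hX hmean'
  have q6 : Real.log (2 * (s * W ^ 3 + 1)) ≤ s0 * δ / 8 * v :=
    num_logS hsR hβ1' hd1 hWp (hW ▸ ha1) (hW ▸ ha2) hv hc k1
  have q7 : ∑ i, μ i * P.eval ((r i : ℝ) * (((cubeS n s x (3 ^ a)).card : ℝ) - r i + 1)) ≤
      ∑ i, (if (r i : ℝ) < q then μ i else 0) := by
    refine Finset.sum_le_sum fun i _ => ?_
    have e := mul_le_mul_of_nonneg_left (hP (r i) (hr i)) (hμ0 i)
    refine e.trans (le_of_eq ?_)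
    split_ifs <;> ring
  refine q7.trans ?_
  have q8 : s0 * v * ∑ i, (if (r i : ℝ) < q then μ i else 0) ≤ s0 * v * δ := by
    refine le_trans (le_trans (le_of_eq (by rw [hsg])) hcore) ?_
    exact num_fin hC8p ht' hε q3 q5 q6 hvp (by positivity)
  exact le_of_mul_le_mul_left q8 (by positivity)

end Vale.Agent.P361.LRO.S3ST
end

section

/-!
P361, stage 3, all spins: the partition function `Zt s Λ β τ` of the free region `Λ ⊂ ℤ³` with spin
`s / 2` as a symmetrised trace over `s` copies of spin `1 / 2`, and as the limit `M → ∞` of the traces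
with `M`-fold coupling inside the sites.
-/

namespace Vale.Agent.P361.LRO.S3S

open Finset Matrix Filter Topology
open Vale.Agent.P361.LRO Vale.Agent.P361.LRO.GenS Vale.Agent.P361.LRO.S3

noncomputable section

variable {s : ℕ} {Λ : Finset Site}

theorem ham_interL_zero (β τ : ℝ) : cM (-(β / 2) • ham (interL (nnL Λ) s) 0 -
      τ • TwJ.Dn (univ : Finset (Λ × Fin s))) =
    -((β : ℂ) • ((1 / 2 : ℂ) • ∑ x : Λ, ∑ y : Λ,
        if IsNN x.1 y.1 then (((s : ℂ) / 2) ^ 2) • (1 : Matrix _ _ ℂ) -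
          ∑ a : Fin 3, tot s a x * tot s a y else 0) +
      (τ : ℂ) • ∑ x : Λ, (((s : ℂ) / 2) • (1 : Matrix _ _ ℂ) - tot s 2 x)) := by
  have h1 : cM (ham (interL (nnL Λ) s) 0) = ∑ x : Λ, ∑ y : Λ,
      if IsNN x.1 y.1 then (((s : ℂ) / 2) ^ 2) • (1 : Matrix (Λ × Fin s → Fin 2)
        (Λ × Fin s → Fin 2) ℂ) - ∑ a : Fin 3, tot s a x * tot s a y else 0 := by
    have e1 : ham (interL (nnL Λ) s) (0 : Λ × Fin s → ℝ) =
        ∑ e ∈ (univ : Finset (Λ × Λ)).filter (fun e => IsNN e.1.1 e.2.1),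
          ∑ ab : Fin s × Fin s, hM (e.1, ab.1) (e.2, ab.2) := by
      rw [ham, sum_interL, nnL, Finset.sum_map_toList]
      simp
    rw [e1, cM_sum, Finset.sum_filter, Fintype.sum_prod_type]
    refine Finset.sum_congr rfl fun x _ => Finset.sum_congr rfl fun y _ => ?_
    by_cases h : IsNN x.1 y.1
    · rw [if_pos h, if_pos h]
      have hxy : x ≠ y := H.isNN_ne h
      have h3 : ((s : ℂ) / 2) ^ 2 = (s : ℂ) ^ 2 * (1 / 4) := by ring
      rw [tot_mul_tot x y hxy, h3, sub_sub_cancel]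
    · rw [if_neg h, if_neg h]
  have h2 : cM (TwJ.Dn (univ : Finset (Λ × Fin s))) =
      ∑ x : Λ, (((s : ℂ) / 2) • (1 : Matrix (Λ × Fin s → Fin 2)
        (Λ × Fin s → Fin 2) ℂ) - tot s 2 x) := by
    rw [TwJ.Dn, cM_sum, Fintype.sum_prod_type]
    refine Finset.sum_congr rfl fun x _ => ?_
    rw [tot_z, cM_sum]
    have : ∀ i : Fin s, cM ((1 / 2 : ℝ) • (1 - szM ((x, i) : Λ × Fin s))) =
        ((1 / 2 : ℝ) : ℂ) • (1 : Matrix (Λ × Fin s → Fin 2) (Λ × Fin s → Fin 2) ℂ) -
          cM ((1 / 2 : ℝ) • szM ((x, i) : Λ × Fin s)) := by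
      intro i
      rw [cM_smul, cM_sub, cM_one, cM_smul, smul_sub]
    rw [Finset.sum_congr rfl fun i _ => this i, Finset.sum_sub_distrib, Finset.sum_const,
      Finset.card_univ, Fintype.card_fin, ← Nat.cast_smul_eq_nsmul ℂ, smul_smul]
    congr 2
    push_cast
    ring
  rw [cM_sub, cM_smul, cM_smul, h1, h2]
  push_cast
  module

theorem siteOp_eq_V (x : Λ) (A : Matrix (Fin (s + 1)) (Fin (s + 1)) ℂ) :
    (siteOp x A : Matrix (Λ → Fin (s + 1)) (Λ → Fin (s + 1)) ℂ) = siteOpV x A := rfl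

theorem spin_eq_model (a : Fin 3) : Vale.Agent.P361.spin s a = Model.spin s a := rfl

theorem tot_mul_siteOp (a : Fin 3) (x : Λ) :
    tot s a x * WV s Λ = WV s Λ * siteOp x (Vale.Agent.P361.spin s a) := by
  rw [siteOp_eq_V, spin_eq_model, tot_mul]

theorem oZ_eq_spin (x : Λ) : H.oZ s x = siteOp x (Vale.Agent.P361.spin s 2) := rfl

theorem oZ_mul (x : Λ) : tot s 2 x * WV s Λ = WV s Λ * H.oZ s x := by
  rw [oZ_eq_spin, tot_mul_siteOp]

theorem dot_mul (x y : Λ) : (∑ a : Fin 3, tot s a x * tot s a y) * WV s Λ =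
    WV s Λ * H.dotOp s x y := by
  rw [H.dotOp, Matrix.sum_mul, Matrix.mul_sum]
  refine Finset.sum_congr rfl fun a _ => ?_
  rw [Matrix.mul_assoc, tot_mul_siteOp, ← Matrix.mul_assoc, tot_mul_siteOp, Matrix.mul_assoc]

theorem hT_mul : ((1 / 2 : ℂ) • ∑ x : Λ, ∑ y : Λ,
      if IsNN x.1 y.1 then (((s : ℂ) / 2) ^ 2) • (1 : Matrix _ _ ℂ) -
        ∑ a : Fin 3, tot s a x * tot s a y else 0) * WV s Λ = WV s Λ * B.hT s Λ := by
  rw [B.hT, Matrix.smul_mul, Matrix.mul_smul, Matrix.sum_mul, Matrix.mul_sum]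
  congr 1
  refine Finset.sum_congr rfl fun x _ => ?_
  rw [Matrix.sum_mul, Matrix.mul_sum]
  refine Finset.sum_congr rfl fun y _ => ?_
  split_ifs
  · rw [Matrix.sub_mul, Matrix.mul_sub, Matrix.smul_mul, Matrix.mul_smul, Matrix.one_mul,
      Matrix.mul_one, dot_mul]
  · simp

theorem numOp_mul : (∑ x : Λ, (((s : ℂ) / 2) • (1 : Matrix _ _ ℂ) - tot s 2 x)) * WV s Λ =
    WV s Λ * B.numOp s Λ := by
  rw [B.numOp, Matrix.sum_mul, Matrix.mul_sum]
  refine Finset.sum_congr rfl fun x _ => ?_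
  rw [Matrix.sub_mul, Matrix.mul_sub, Matrix.smul_mul, Matrix.mul_smul, Matrix.one_mul,
    Matrix.mul_one, oZ_mul]

theorem ham_mul_WV (β τ : ℝ) : cM (-(β / 2) • ham (interL (nnL Λ) s) 0 -
      τ • TwJ.Dn (univ : Finset (Λ × Fin s))) * WV s Λ =
    WV s Λ * -((β : ℂ) • B.hT s Λ + (τ : ℂ) • B.numOp s Λ) := by
  rw [ham_interL_zero, Matrix.neg_mul, Matrix.mul_neg, Matrix.add_mul, Matrix.mul_add,
    Matrix.smul_mul (β : ℂ), Matrix.smul_mul (τ : ℂ), hT_mul, numOp_mul,
    Matrix.mul_smul, Matrix.mul_smul]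

/-- **Spin `s / 2` on a free region as a symmetrised trace over the copies.** -/
theorem Zt_spin (s : ℕ) [NeZero s] (Λ : Finset Site) (β τ : ℝ) :
    B.Zt s Λ β τ = trace (symProd Λ s * NormedSpace.exp (-(β / 2) • ham (interL (nnL Λ) s) 0 -
      τ • TwJ.Dn (univ : Finset (Λ × Fin s)))) := by
  have h1 := trace_exp_bridge (ham_mul_WV (Λ := Λ) (s := s) β τ) (WV_conj_mul s)
  rw [WV_mul_conj, symV_eq, exp_cM, ← cM_mul, trace_cM] at h1
  rw [B.Zt, h1, Complex.ofReal_re, Matrix.trace_mul_comm]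

end

end Vale.Agent.P361.LRO.S3S
end

section

/-!
P361, stage 3, all spins: (LT0S) and the limit `M → ∞` of the block partition functions.
-/

namespace Vale.Agent.P361.LRO.S3S

open Matrix Finset Filter Topology
open Vale.Agent.P361.LRO.TwJ Vale.Agent.P361.LRO.GenS Vale.Agent.P361.LRO.S3

noncomputable section

theorem lt0S (s : ℕ) (hs : 1 ≤ s) (Λ : Finset Site) {β : ℝ} (hβ : 0 < β) {G : Polynomial ℝ}
    {τ1 τ2 c1 c2 : ℝ} (h1 : 0 < τ1) (h2 : 0 < τ2) (hc1 : 0 ≤ c1) (hc2 : 0 ≤ c2)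
    (hG : ∀ r : ℕ, 2 * r ≤ s * Λ.card →
      Real.exp (G.eval ((r : ℝ) * ((s : ℝ) * Λ.card - r + 1))) ≤
        c1 * Real.exp (-(τ1 * r)) + c2 * Real.exp (-(τ2 * r)))
    {ε : ℝ} (hε : 0 < ε) :
    ∃ M0 : ℕ, ∀ M, M0 ≤ M →
      Real.log (trace (NormedSpace.exp (-(β / 2) • ham (Lm (nnL Λ) s (2 * M)) 0 +
        Polynomial.aeval (Om (univ : Finset (Λ × Fin s))) G))) ≤
      Real.log (((s : ℝ) * Λ.card + 1) * (c1 * B.Zt s Λ β τ1 + c2 * B.Zt s Λ β τ2)) + ε := by
  haveI : NeZero s := ⟨by omega⟩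
  exact lt0S_of hs Λ hβ (fun τ => Zt_spin s Λ β τ) h1 h2 hc1 hc2 hG hε

end

end Vale.Agent.P361.LRO.S3S
end

section

/-!
P361, stage 3, all spins, block (T), leaf (T1_S): Peierls–Bogoliubov on the torus with decoupled
blocks for the graph `edgesS n s M`, uniformly in `M`.
-/

namespace Vale.Agent.P361.LRO.S3S

open Matrix Finset Filter Topology
open Vale.Agent.P361.LRO.GenS
open Vale.Agent.P361.LRO.S3 (CM)
open Vale.Agent.P361.LRO.Energy (Cfg ex cpx)
open Vale.Agent.P361.LRO.Loc3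
open scoped ComplexOrder

noncomputable section

namespace LT1S

open S3.LT1 (bl tl tl_inj tl_adj psd_sub nlt_sum aeval_emb)

/-! ### The abstract inequality -/

theorem pb_blocks {U V κ : Type} [Fintype U] [DecidableEq U] [Fintype V] [DecidableEq V]
    [Fintype κ] (L : List (V × V)) (β : ℝ) (h : V → ℝ) (e : κ → U → V)
    (he : ∀ y y' u u', e y u = e y' u' → y = y' ∧ u = u')
    {HB w0 : Matrix (Cfg U) (Cfg U) ℂ} (hH : HB.IsHermitian) (hw : w0.IsHermitian) (K : ℝ)
    (hdec : (((K : ℂ) • (1 : Matrix (Cfg V) (Cfg V) ℂ) - (β : ℂ) • ∑ y, emb (e y) HB) -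
      cpx (-β • ham L h)).PosSemidef) :
    ∑ y, Vale.Agent.P361.LRO.Energy.ex (cpx (-β • ham L h)) (emb (e y) w0) ≤
      Fintype.card κ * (Real.log (trace (NormedSpace.exp (-((β : ℂ) • HB) + w0))).re -
        Fintype.card U * Real.log 2) + Fintype.card V * Real.log 2 + K -
        Real.log (trace (NormedSpace.exp (-β • ham L h))) := by
  set A : Matrix (Cfg U) (Cfg U) ℂ := -((β : ℂ) • HB) + w0 with hA
  have hAh : A.IsHermitian := (Energy.smul_real_isHermitian hH β).neg.add hw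
  set X := cpx (-β • ham L h) with hX
  have hXh : X.IsHermitian := by
    rw [hX, Energy.cpx_ham]
    exact Energy.gibX_isHermitian _ _ _ _ _
  set Y : Matrix (Cfg V) (Cfg V) ℂ := ∑ y, emb (e y) w0 with hY
  have hYh : Y.IsHermitian := Energy.sum_isHermitian _ fun y _ => emb_isHermitian _ hw
  have hPB := Vale.Agent.P361.peierls_bogoliubov hXh hYh
  have h1 : (trace (NormedSpace.exp X * Y)).re / (trace (NormedSpace.exp X)).re =
      ∑ y, Vale.Agent.P361.LRO.Energy.ex X (emb (e y) w0) := by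
    have h2 : Vale.Agent.P361.LRO.Energy.ex X Y = ∑ y, Vale.Agent.P361.LRO.Energy.ex X (emb (e y) w0) := Energy.ex_sum X Finset.univ _
    rw [← h2]
    rfl
  set D : Matrix (Cfg V) (Cfg V) ℂ := (K : ℂ) • (1 : Matrix (Cfg V) (Cfg V) ℂ) -
    (β : ℂ) • ∑ y, emb (e y) HB with hD
  have hdec' : D + Y = ∑ y, emb (e y) A + (K : ℂ) • (1 : Matrix (Cfg V) (Cfg V) ℂ) := by
    rw [hD, hY, hA]
    simp only [emb_add, emb_neg, emb_smul, Finset.sum_add_distrib, Finset.sum_neg_distrib,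
      ← Finset.smul_sum]
    abel
  have hSh : (∑ y, emb (e y) A).IsHermitian :=
    Energy.sum_isHermitian _ fun y _ => emb_isHermitian _ hAh
  have hdh : (D + Y).IsHermitian := by
    rw [hdec']
    exact hSh.add (Energy.smul_real_isHermitian Matrix.isHermitian_one _)
  have hup : (trace (NormedSpace.exp (X + Y))).re ≤ (trace (NormedSpace.exp (D + Y))).re := by
    refine trace_exp_mono (hXh.add hYh) hdh ?_
    have e1 : D + Y - (X + Y) = D - X := by abel
    rw [e1]
    exact hdec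
  have h6 := Real.log_le_log (trace_exp_pos (hXh.add hYh)) hup
  have h7 : Real.log (trace (NormedSpace.exp (D + Y))).re =
      K + (Fintype.card κ * (Real.log (trace (NormedSpace.exp A)).re -
        Fintype.card U * Real.log 2) + Fintype.card V * Real.log 2) := by
    rw [hdec', trace_exp_add_smul_one, Real.log_mul (Real.exp_pos _).ne' (trace_exp_pos hSh).ne',
      Real.log_exp]
    congr 1
    have h8 := nlt_sum (Finset.univ : Finset κ) e
      (fun y _ a b hab => (he _ _ _ _ hab).2)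
      (fun y _ y' _ hne u u' h' => hne (he _ _ _ _ h').1) hAh
    unfold nlt at h8
    rw [Finset.card_univ] at h8
    linarith
  have h9 : Real.log (trace (NormedSpace.exp X)).re =
      Real.log (trace (NormedSpace.exp (-β • ham L h))) := by
    rw [hX, ← Energy.cpx_exp, Energy.cpx_trace]
  rw [h1] at hPB
  linarith

theorem cpx_CM_image {U V : Type} [Fintype U] [DecidableEq U] [Fintype V] [DecidableEq V]
    {e : U → V} (he : Function.Injective e) :
    cpx (CM (univ.image e)) = emb e (cpx (CM (univ : Finset U))) := by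
  rw [CM, CM, Finset.sum_image fun a _ b _ h => he h, Energy.cpx_sum, Energy.cpx_sum, emb_sum]
  refine Finset.sum_congr rfl fun u _ => ?_
  rw [Finset.sum_image fun a _ b _ h => he h, Energy.cpx_sum, Energy.cpx_sum, emb_sum]
  refine Finset.sum_congr rfl fun v _ => ?_
  rw [Energy.cpx_hM, Energy.cpx_hM, emb_hM he]

theorem cpx_aeval_CM_image {U V : Type} [Fintype U] [DecidableEq U] [Fintype V] [DecidableEq V]
    {e : U → V} (he : Function.Injective e) (G : Polynomial ℝ) :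
    cpx (Polynomial.aeval (CM (univ.image e)) G) =
      emb e (cpx (Polynomial.aeval (CM (univ : Finset U)) G)) := by
  rw [S3.LT1.cpx_aeval, cpx_CM_image he, aeval_emb he, ← S3.LT1.cpx_aeval]

/-! ### Blocks of copies -/

/-- The block of copies over `x + [0,R)³`. -/
def blS (n R s : ℕ) (x : Tor n) (z : B.cube R × Fin s) : Tor n × Fin s := (bl n R x z.1, z.2)

theorem blS_injective {n R s : ℕ} (hR : R ≤ n) (x : Tor n) : Function.Injective (blS n R s x) := by
  rintro ⟨u, i⟩ ⟨v, j⟩ h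
  obtain ⟨h1, h2⟩ := Prod.mk.inj h
  exact Prod.ext (S3.LT1.bl_injective hR x h1) h2

theorem cubeS_eq (n R s : ℕ) [NeZero n] (x : Tor n) :
    cubeS n s x R = univ.image (blS n R s x) := by
  ext ⟨y, i⟩
  rw [cubeS, Finset.mem_product, S3.LT1.cube_eq_bl, Finset.mem_image, Finset.mem_image]
  constructor
  · rintro ⟨⟨u, _, hu⟩, _⟩
    exact ⟨(u, i), Finset.mem_univ _, Prod.ext hu rfl⟩
  · rintro ⟨⟨u, j⟩, _, hu⟩
    obtain ⟨h1, h2⟩ := Prod.mk.inj hu
    exact ⟨⟨u, Finset.mem_univ _, h1⟩, Finset.mem_univ _⟩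

/-- The tiling. -/
def tlS (n R m s : ℕ) (y : Fin 3 → Fin m) : B.cube R × Fin s → Tor n × Fin s :=
  blS n R s fun i => (((R * (y i : ℕ) : ℕ) : ℤ) : ZMod n)

theorem tlS_apply (n R m s : ℕ) (y : Fin 3 → Fin m) (z : B.cube R × Fin s) :
    tlS n R m s y z = (tl n R m y z.1, z.2) := rfl

theorem tlS_inj {n R m s : ℕ} (hm : R * m ≤ n) (y y' : Fin 3 → Fin m) (u u' : B.cube R × Fin s)
    (h : tlS n R m s y u = tlS n R m s y' u') : y = y' ∧ u = u' := by
  obtain ⟨h1, h2⟩ := Prod.mk.inj h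
  obtain ⟨h3, h4⟩ := tl_inj hm h1
  exact ⟨h3, Prod.ext h4 h2⟩

/-! ### Translation invariance -/

theorem CM_sub {V : Type} [Fintype V] [DecidableEq V] (e : V ≃ V) (b : Finset V) :
    (CM b).submatrix (Trans.EE' e) (Trans.EE' e) = CM (b.image e) := by
  unfold CM
  rw [Finset.sum_image fun a _ b _ h => e.injective h, Bs.subm_sum]
  refine Finset.sum_congr rfl fun x _ => ?_
  rw [Finset.sum_image fun a _ b _ h => e.injective h, Bs.subm_sum]
  refine Finset.sum_congr rfl fun y _ => ?_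
  exact Trans.hM_sub e x y

theorem gib_sub {V : Type} [Fintype V] [DecidableEq V] (e : V ≃ V) (L : List (V × V)) (β : ℝ)
    (h : V → ℝ) (hh : ∀ x, h (e x) = h x)
    (hL : (L.map fun z => LRO.hM (e z.1) (e z.2)).sum = (L.map fun z => LRO.hM z.1 z.2).sum)
    (A : Matrix (V → Fin 2) (V → Fin 2) ℝ) :
    gib L β h (A.submatrix (Trans.EE' e) (Trans.EE' e)) = gib L β h A := by
  have hH := Trans.ham_sub e L h hL
  have hfun : (fun x => h (e x)) = h := funext hh
  rw [hfun] at hH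
  have hE : (NormedSpace.exp (-β • ham L h)).submatrix (Trans.EE' e) (Trans.EE' e)
      = NormedSpace.exp (-β • ham L h) := by
    rw [← Trans.exp_submatrix, Matrix.submatrix_smul, Pi.smul_apply, Pi.smul_apply, hH]
  rw [gib, gib]
  congr 1
  conv_lhs => rw [← hE]
  rw [Matrix.submatrix_mul_equiv, Trans.trace_submatrix]

theorem gib_CM_translate {n s : ℕ} [NeZero n] (M : ℕ) (β h : ℝ) (R : ℕ) (x v : Tor n)
    (G : Polynomial ℝ) :
    gib (edgesS n s M) β (hS fun _ => h) (Polynomial.aeval (CM (cubeS n s (x + v) R)) G) =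
      gib (edgesS n s M) β (hS fun _ => h) (Polynomial.aeval (CM (cubeS n s x R)) G) := by
  have himg : (cubeS n s x R).image (TransS.gS v (Equiv.refl (Fin s))) = cubeS n s (x + v) R := by
    rw [cubeS_eq, cubeS_eq, Finset.image_image]
    congr 1
    funext z
    refine Prod.ext ?_ rfl
    show bl n R x z.1 + v = bl n R (x + v) z.1
    rw [bl, bl, add_right_comm]
  rw [← himg, ← CM_sub, ← S3.LT1.aeval_submatrix]
  refine gib_sub _ _ _ _ (fun z => rfl) ?_ _
  rw [TransS.edgesS_map_sum M (fun u w : Tor n × Fin s =>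
      LRO.hM (TransS.gS v (Equiv.refl (Fin s)) u) (TransS.gS v (Equiv.refl (Fin s)) w)),
    TransS.edgesS_map_sum M (fun u w : Tor n × Fin s => LRO.hM u w),
    TransS.interE_inv v (Equiv.refl _) (fun u w => LRO.hM u w),
    TransS.intraE_inv v (Equiv.refl _) (fun u w => LRO.hM u w) fun u w => TransS.hM_comm u w]

/-! ### The comparison -/

section Cmp

variable {n R m s : ℕ} [NeZero n]

/-- All bonds between the copies of two sites. -/
def gI (s : ℕ) (p : Tor n × Tor n) : Matrix (Cfg (Tor n × Fin s)) (Cfg (Tor n × Fin s)) ℂ :=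
  ∑ i : Fin s, ∑ j : Fin s, Energy.hM (p.1, i) (p.2, j)

/-- All bonds between the copies of a site. -/
def gA (s : ℕ) (a : Tor n) : Matrix (Cfg (Tor n × Fin s)) (Cfg (Tor n × Fin s)) ℂ :=
  ∑ q ∈ (univ : Finset (Fin s × Fin s)).filter (fun q => q.1 < q.2), Energy.hM (a, q.1) (a, q.2)

theorem gI_psd (p : Tor n × Tor n) : (gI s p).PosSemidef :=
  Matrix.posSemidef_sum _ fun _ _ => Matrix.posSemidef_sum _ fun _ _ => Energy.hM_posSemidef _ _

theorem gA_psd (a : Tor n) : (gA s a).PosSemidef :=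
  Matrix.posSemidef_sum _ fun _ _ => Energy.hM_posSemidef _ _

theorem inter_tor (hn : 3 ≤ n) :
    (∑ z : Tor n × Fin 3, gI s (z.1, z.1 + Pi.single z.2 1)) =
      (1 / 2 : ℂ) • ∑ p ∈ (Finset.univ : Finset (Tor n × Tor n)).filter
        (fun p => torusAdj n p.1 p.2), gI s p := by
  have h1 := sum_torusAdj hn (fun a b => gI (n := n) s (a, b))
  have h2 : (∑ z : (Fin 3 → ZMod n) × Fin 3, gI (n := n) s (z.1 + Pi.single z.2 1, z.1)) =
      ∑ z : (Fin 3 → ZMod n) × Fin 3, gI (n := n) s (z.1, z.1 + Pi.single z.2 1) := by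
    refine Finset.sum_congr rfl fun z _ => ?_
    unfold gI
    rw [Finset.sum_comm]
    exact Finset.sum_congr rfl fun i _ => Finset.sum_congr rfl fun j _ => S3.LT1.hM_comm _ _
  rw [h2] at h1
  have h3 : (∑ p : Tor n × Tor n, if torusAdj n p.1 p.2 then gI s p else 0) =
      ∑ x : Tor n, ∑ y : Tor n, if torusAdj n x y then gI s (x, y) else 0 :=
    Fintype.sum_prod_type _
  rw [Finset.sum_filter, h3, h1, ← two_smul ℂ, smul_smul]
  norm_num

/-- The Hamiltonian of the block of copies. -/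
def HB (R s M : ℕ) : Matrix (Cfg (B.cube R × Fin s)) (Cfg (B.cube R × Fin s)) ℂ :=
  cpx ((1 / 2 : ℝ) • ham (Lm (S3.nnL (B.cube R)) s (2 * M)) 0)

theorem HB_eq (R s M : ℕ) : HB R s M =
    (1 / 2 : ℂ) • (∑ e ∈ (univ : Finset (B.cube R × B.cube R)).filter
      (fun e => IsNN e.1.1 e.2.1), ∑ i : Fin s, ∑ j : Fin s,
        (Energy.hM (e.1, i) (e.2, j) : Matrix (Cfg (B.cube R × Fin s)) (Cfg (B.cube R × Fin s)) ℂ)) +
      (M : ℂ) • ∑ u : B.cube R, ∑ q ∈ (univ : Finset (Fin s × Fin s)).filter (fun q => q.1 < q.2),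
        Energy.hM (u, q.1) (u, q.2) := by
  have h1 : ham (interL (S3.nnL (B.cube R)) s) (0 : B.cube R × Fin s → ℝ) =
      ∑ e ∈ (univ : Finset (B.cube R × B.cube R)).filter
      (fun e => IsNN e.1.1 e.2.1), ∑ i : Fin s, ∑ j : Fin s, LRO.hM (e.1, i) (e.2, j) := by
    unfold ham interL
    rw [list_flatMap_sum]
    have e1 : (fun a : B.cube R × B.cube R => ((((univ : Finset (Fin s × Fin s)).toList).map fun ij =>
        (((a.1, ij.1), (a.2, ij.2)) : (B.cube R × Fin s) × (B.cube R × Fin s))).map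
          fun e => LRO.hM e.1 e.2).sum) =
        fun a => ∑ i : Fin s, ∑ j : Fin s, LRO.hM (a.1, i) (a.2, j) := by
      funext a
      rw [List.map_map, Finset.sum_map_toList, Fintype.sum_prod_type]
      rfl
    rw [e1, S3.nnL, Finset.sum_map_toList]
    simp
  have h2 : intraM (B.cube R) s = ∑ u : B.cube R,
      ∑ q ∈ (univ : Finset (Fin s × Fin s)).filter (fun q => q.1 < q.2),
        LRO.hM (u, q.1) (u, q.2) := by
    unfold intraM intraL
    rw [List.map_map, Finset.sum_map_toList, Finset.sum_filter, Fintype.sum_prod_type]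
    refine Finset.sum_congr rfl fun u _ => ?_
    rw [Finset.sum_filter]
    rfl
  rw [HB, ham_Lm, h1, h2, smul_add, smul_smul, Energy.cpx_add, Energy.cpx_smul, Energy.cpx_smul]
  congr 1
  · simp only [Energy.cpx_sum, Energy.cpx_hM]
    norm_num
  · simp only [Energy.cpx_sum, Energy.cpx_hM]
    congr 1
    push_cast
    ring

theorem HB_isHermitian (R s M : ℕ) : (HB R s M).IsHermitian := by
  have h1 : ((1 / 2 : ℝ) • ham (Lm (S3.nnL (B.cube R)) s (2 * M))
      (0 : B.cube R × Fin s → ℝ)).IsSymm := by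
    unfold Matrix.IsSymm
    rw [Matrix.transpose_smul, ham_symm]
  exact cM_isHermitian h1

theorem emb_HB (hm : R * m ≤ n) (M : ℕ) (y : Fin 3 → Fin m) : emb (tlS n R m s y) (HB R s M) =
    (1 / 2 : ℂ) • (∑ e ∈ (univ : Finset (B.cube R × B.cube R)).filter
      (fun e => IsNN e.1.1 e.2.1), gI s (tl n R m y e.1, tl n R m y e.2)) +
      (M : ℂ) • ∑ u : B.cube R, gA s (tl n R m y u) := by
  have hinj : Function.Injective (tlS n R m s y) := fun a b h => (tlS_inj hm _ _ _ _ h).2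
  rw [HB_eq, emb_add, emb_smul, emb_smul, emb_sum, emb_sum]
  simp only [emb_sum, emb_hM hinj]
  rfl

theorem bondsS_le (hn : 3 ≤ n) (hm : R * m ≤ n) (M : ℕ) :
    ((∑ z : Tor n × Fin 3, gI s (z.1, z.1 + Pi.single z.2 1) + (M : ℂ) • ∑ a : Tor n, gA s a) -
      ∑ y : Fin 3 → Fin m, emb (tlS n R m s y) (HB R s M)).PosSemidef := by
  have e2 : (∑ y : Fin 3 → Fin m, emb (tlS n R m s y) (HB R s M)) =
      (1 / 2 : ℂ) • (∑ q ∈ (Finset.univ : Finset ((Fin 3 → Fin m) × (B.cube R × B.cube R))).filter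
        (fun q => IsNN q.2.1.1 q.2.2.1), gI s (tl n R m q.1 q.2.1, tl n R m q.1 q.2.2)) +
      (M : ℂ) • ∑ q : (Fin 3 → Fin m) × B.cube R, gA s (tl n R m q.1 q.2) := by
    simp only [emb_HB hm]
    rw [Finset.sum_add_distrib, ← Finset.smul_sum, ← Finset.smul_sum]
    congr 2
    · rw [Finset.sum_filter, Fintype.sum_prod_type]
      refine Finset.sum_congr rfl fun y _ => ?_
      rw [Finset.sum_filter]
    · rw [Fintype.sum_prod_type]
  have e3 : (∑ z : Tor n × Fin 3, gI s (z.1, z.1 + Pi.single z.2 1) + (M : ℂ) • ∑ a : Tor n, gA s a) -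
      ∑ y : Fin 3 → Fin m, emb (tlS n R m s y) (HB R s M) =
      (1 / 2 : ℂ) • (∑ p ∈ (Finset.univ : Finset (Tor n × Tor n)).filter
        (fun p => torusAdj n p.1 p.2), gI s p -
        ∑ q ∈ (Finset.univ : Finset ((Fin 3 → Fin m) × (B.cube R × B.cube R))).filter
        (fun q => IsNN q.2.1.1 q.2.2.1), gI s (tl n R m q.1 q.2.1, tl n R m q.1 q.2.2)) +
      ((M : ℝ) : ℂ) • (∑ a : Tor n, gA s a -
        ∑ q : (Fin 3 → Fin m) × B.cube R, gA s (tl n R m q.1 q.2)) := by
    rw [e2, inter_tor hn, smul_sub, smul_sub]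
    push_cast
    abel
  rw [e3]
  refine Matrix.PosSemidef.add ?_ ?_
  · refine Matrix.PosSemidef.smul ?_ (by norm_num [Complex.le_def])
    refine psd_sub (f := fun q : (Fin 3 → Fin m) × (B.cube R × B.cube R) =>
      (tl n R m q.1 q.2.1, tl n R m q.1 q.2.2)) (g := fun p : Tor n × Tor n => gI s p)
      ?_ ?_ (fun p => gI_psd p)
    · intro q _ q' _ h
      obtain ⟨h1, h2⟩ := Prod.mk.inj h
      obtain ⟨a1, a2⟩ := tl_inj hm h1
      obtain ⟨b1, b2⟩ := tl_inj hm h2
      exact Prod.ext a1 (Prod.ext a2 b2)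
    · intro q hq
      rw [Finset.mem_filter] at hq ⊢
      exact ⟨Finset.mem_univ _, tl_adj q.1 hq.2⟩
  · refine Energy.smul_real_posSemidef ?_ (Nat.cast_nonneg M)
    refine psd_sub (s := (Finset.univ : Finset ((Fin 3 → Fin m) × B.cube R)))
      (f := fun q : (Fin 3 → Fin m) × B.cube R => tl n R m q.1 q.2)
      (g := fun a : Tor n => gA s a) ?_ (fun q _ => Finset.mem_univ _) (fun a => gA_psd a)
    intro q _ q' _ h
    obtain ⟨a1, a2⟩ := tl_inj hm h
    exact Prod.ext a1 a2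

/-- The exponent of the Gibbs state. -/
theorem cpx_expoS (M : ℕ) (β h : ℝ) :
    cpx (-β • ham (edgesS n s M) (hS fun _ => h)) =
      -((β : ℂ) • (∑ z : Tor n × Fin 3, gI s (z.1, z.1 + Pi.single z.2 1) +
        (M : ℂ) • ∑ a : Tor n, gA s a)) +
        ∑ x : Tor n × Fin s, ((β * h : ℝ) : ℂ) • Energy.szM x := by
  have h1 : ham (edgesS n s M) (hS fun _ : Tor n => h) =
      (∑ z : Tor n × Fin 3, ∑ i : Fin s, ∑ j : Fin s, LRO.hM (z.1, i) (z.1 + Pi.single z.2 1, j) +
        (M : ℝ) • ∑ a : Tor n, ∑ q ∈ (univ : Finset (Fin s × Fin s)).filter (fun q => q.1 < q.2),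
          LRO.hM (a, q.1) (a, q.2)) - ∑ x : Tor n × Fin s, (h / 2) • LRO.szM x := by
    unfold ham
    rw [TransS.edgesS_map_sum M (fun u w : Tor n × Fin s => LRO.hM u w),
      TransS.interE_map_sum (fun u w : Tor n × Fin s => LRO.hM u w),
      TransS.intraE_map_sum (fun u w : Tor n × Fin s => LRO.hM u w), Finset.sum_filter,
      Fintype.sum_prod_type (fun z : Tor n × (Fin s × Fin s) => _), ← Nat.cast_smul_eq_nsmul ℝ]
    simp only [Finset.sum_filter, hS]
  rw [h1, smul_sub, smul_add, Energy.cpx_sub, Energy.cpx_add]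
  simp only [Energy.cpx_smul, Energy.cpx_sum, Energy.cpx_szM, Energy.cpx_hM, Finset.smul_sum,
    smul_smul]
  rw [sub_eq_add_neg, ← Finset.sum_neg_distrib]
  congr 1
  · simp only [gI, gA, smul_add, smul_smul, Finset.smul_sum, neg_add, ← Finset.sum_neg_distrib,
      ← neg_smul]
    congr 1
    · refine Finset.sum_congr rfl fun z _ => Finset.sum_congr rfl fun i _ =>
        Finset.sum_congr rfl fun j _ => ?_
      push_cast
      rfl
    · refine Finset.sum_congr rfl fun z _ => Finset.sum_congr rfl fun i _ => ?_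
      congr 1
      push_cast
      ring
  · refine Finset.sum_congr rfl fun x _ => ?_
    rw [← neg_smul]
    congr 1
    push_cast
    ring

theorem decS (hn : 3 ≤ n) (hm : R * m ≤ n) (M : ℕ) {β h : ℝ} (hβ : 0 ≤ β) (hh : 0 ≤ h) :
    ((((β * h * s / 2 * (n : ℝ) ^ 3 : ℝ) : ℂ) •
      (1 : Matrix (Cfg (Tor n × Fin s)) (Cfg (Tor n × Fin s)) ℂ) -
      (β : ℂ) • ∑ y : Fin 3 → Fin m, emb (tlS n R m s y) (HB R s M)) -
      cpx (-β • ham (edgesS n s M) (hS fun _ => h))).PosSemidef := by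
  have e1 : (((β * h * s / 2 * (n : ℝ) ^ 3 : ℝ) : ℂ) •
      (1 : Matrix (Cfg (Tor n × Fin s)) (Cfg (Tor n × Fin s)) ℂ) -
      (β : ℂ) • ∑ y : Fin 3 → Fin m, emb (tlS n R m s y) (HB R s M)) -
      cpx (-β • ham (edgesS n s M) (hS fun _ => h)) =
      (β : ℂ) • ((∑ z : Tor n × Fin 3, gI s (z.1, z.1 + Pi.single z.2 1) +
        (M : ℂ) • ∑ a : Tor n, gA s a) -
        ∑ y : Fin 3 → Fin m, emb (tlS n R m s y) (HB R s M)) +
      ∑ x : Tor n × Fin s, ((β * h : ℝ) : ℂ) •
        ((1 / 2 : ℂ) • (1 : Matrix (Cfg (Tor n × Fin s)) (Cfg (Tor n × Fin s)) ℂ) -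
          Energy.szM x) := by
    rw [cpx_expoS]
    simp only [smul_sub, Finset.sum_sub_distrib, Finset.sum_const, Finset.card_univ,
      Fintype.card_prod, Fintype.card_fun, ZMod.card, Fintype.card_fin]
    rw [← Nat.cast_smul_eq_nsmul ℂ, smul_smul, smul_smul]
    push_cast
    have e2 : (β : ℂ) * h * s / 2 * (n : ℂ) ^ 3 = (n : ℂ) ^ 3 * s * (β * h * (1 / 2)) := by ring
    rw [e2]
    simp only [← mul_assoc]
    abel
  rw [e1]
  refine (Energy.smul_real_posSemidef (bondsS_le hn hm M) hβ).add ?_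
  exact Matrix.posSemidef_sum _ fun x _ =>
    Energy.smul_real_posSemidef (Energy.half_sub_szM_posSemidef x) (mul_nonneg hβ hh)

/-- The inequality in finite volume. -/
theorem fin_le (hn : 3 ≤ n) (hm : R * m ≤ n) (M : ℕ) {β h : ℝ} (hβ : 0 ≤ β)
    (hh : 0 ≤ h) (x : Tor n) (G : Polynomial ℝ) :
    (m : ℝ) ^ 3 * gib (edgesS n s M) β (hS fun _ => h) (Polynomial.aeval (CM (cubeS n s x R)) G) ≤
      (m : ℝ) ^ 3 * (Real.log (trace (NormedSpace.exp (-(β / 2) •
        ham (Lm (S3.nnL (B.cube R)) s (2 * M)) 0 +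
          Polynomial.aeval (CM (univ : Finset (B.cube R × Fin s))) G))) -
          s * (R : ℝ) ^ 3 * Real.log 2) + s * (n : ℝ) ^ 3 * Real.log 2 -
        (Real.log (trace (NormedSpace.exp (-β • ham (edgesS n s M) (hS fun _ => h)))) -
          β * h * s / 2 * (n : ℝ) ^ 3) := by
  have hCMs : ∀ P : Polynomial ℝ,
      (cpx (Polynomial.aeval (CM (univ : Finset (B.cube R × Fin s))) P)).IsHermitian := by
    intro P
    rw [S3.LT1.cpx_aeval]
    refine S3.LT1.aeval_isHermitian ?_ P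
    rw [CM, Energy.cpx_sum]
    refine Energy.sum_isHermitian _ fun x _ => ?_
    rw [Energy.cpx_sum]
    refine Energy.sum_isHermitian _ fun y _ => ?_
    rw [Energy.cpx_hM]
    exact Energy.hM_isHermitian x y
  have h1 := pb_blocks (edgesS n s M) β (hS fun _ : Tor n => h) (tlS n R m s)
    (fun y y' u u' h' => tlS_inj hm y y' u u' h') (HB_isHermitian R s M) (hCMs G)
    (β * h * s / 2 * (n : ℝ) ^ 3) (decS hn hm M hβ hh)
  have h2 : ∀ y : Fin 3 → Fin m, Vale.Agent.P361.LRO.Energy.ex (cpx (-β • ham (edgesS n s M) (hS fun _ : Tor n => h)))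
      (emb (tlS n R m s y) (cpx (Polynomial.aeval (CM (univ : Finset (B.cube R × Fin s))) G))) =
      gib (edgesS n s M) β (hS fun _ => h) (Polynomial.aeval (CM (cubeS n s x R)) G) := by
    intro y
    have hinj : Function.Injective (tlS n R m s y) := fun a b h => (tlS_inj hm _ _ _ _ h).2
    rw [← cpx_aeval_CM_image hinj, ← Energy.gib_eq]
    have h4 := gib_CM_translate (s := s) M β h R x
      ((fun i => (((R * (y i : ℕ) : ℕ) : ℤ) : ZMod n)) - x) G
    rw [add_sub_cancel, cubeS_eq] at h4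
    exact h4
  have h3 : (trace (NormedSpace.exp (-((β : ℂ) • HB R s M) +
      cpx (Polynomial.aeval (CM (univ : Finset (B.cube R × Fin s))) G)))).re =
      trace (NormedSpace.exp (-(β / 2) • ham (Lm (S3.nnL (B.cube R)) s (2 * M)) 0 +
          Polynomial.aeval (CM (univ : Finset (B.cube R × Fin s))) G)) := by
    have e1 : -((β : ℂ) • HB R s M) +
        cpx (Polynomial.aeval (CM (univ : Finset (B.cube R × Fin s))) G) =
        cpx (-(β / 2) • ham (Lm (S3.nnL (B.cube R)) s (2 * M)) 0 +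
          Polynomial.aeval (CM (univ : Finset (B.cube R × Fin s))) G) := by
      rw [Energy.cpx_add, Energy.cpx_smul, HB, Energy.cpx_smul, smul_smul, ← neg_smul]
      congr 2
      push_cast
      ring
    rw [e1, ← Energy.cpx_exp, Energy.cpx_trace]
  rw [Finset.sum_congr rfl fun y _ => h2 y, Finset.sum_const, Finset.card_univ, h3,
    nsmul_eq_mul, Fintype.card_prod, Fintype.card_prod, S3.LT1.card_cubeB, Fintype.card_fun,
    Fintype.card_fun, Fintype.card_fin, Fintype.card_fin, Fintype.card_fin, ZMod.card] at h1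
  push_cast at h1
  linarith

end Cmp

end LT1S

/-- Lower bound of the free energy of the copies by the pressure of the spin `s / 2` model,
uniformly in `M` (from `log Z_M ≥ log Z_{spin s/2}`). -/
def LogZS (s : ℕ) : Prop :=
  ∀ β h : ℝ, 0 < β → 0 ≤ h → ∀ ε : ℝ, 0 < ε → ∃ n0 : ℕ, ∀ (n : ℕ) [NeZero n], n0 ≤ n → Odd n →
    ∀ M : ℕ, (B.gRed s β h - ε) * (n : ℝ) ^ 3 ≤
      Real.log (trace (NormedSpace.exp (-β • ham (edgesS n s M) (hS fun _ => h)))) -
        β * h * s / 2 * (n : ℝ) ^ 3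

/-- **(T1_S)** -/
theorem lt1S_of {s : ℕ} (hZ : LogZS s) {β h : ℝ} (hβ : 0 < β) (hh : 0 ≤ h) {R : ℕ} (hR : 0 < R)
    {ε : ℝ} (hε : 0 < ε) :
    ∃ n0 : ℕ, ∀ (n : ℕ) [NeZero n], n0 ≤ n → Odd n → ∀ (M : ℕ) (x : Tor n) (G : Polynomial ℝ),
      gib (edgesS n s M) β (hS fun _ => h) (Polynomial.aeval (CM (cubeS n s x R)) G) ≤
        Real.log (trace (NormedSpace.exp (-(β / 2) •
          ham (Lm (S3.nnL (B.cube R)) s (2 * M)) 0 +
            Polynomial.aeval (CM (univ : Finset (B.cube R × Fin s))) G))) -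
          (R : ℝ) ^ 3 * B.gRed s β h + ε := by
  -- choice of the small constant
  set Q : ℝ := |(s : ℝ) * Real.log 2 - B.gRed s β h| + 1 with hQ
  have hQ1 : 1 ≤ Q := by rw [hQ]; linarith [abs_nonneg ((s : ℝ) * Real.log 2 - B.gRed s β h)]
  have hR3 : (0 : ℝ) < (R : ℝ) ^ 3 := by positivity
  obtain ⟨n1, hn1⟩ := hZ β h hβ hh (ε / (4 * (R : ℝ) ^ 3)) (by positivity)
  have h1 := (S3.LT1.div_tendsto hR).pow 3
  have hδ : 0 < min (ε / (4 * Q)) ((R : ℝ) ^ 3) := by
    refine lt_min (by positivity) hR3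
  obtain ⟨N0, hN0⟩ := eventually_atTop.1 ((tendsto_order.1 h1).2
    ((R : ℝ) ^ 3 + min (ε / (4 * Q)) ((R : ℝ) ^ 3)) (by linarith))
  refine ⟨max n1 (2 * N0 + 3 + R), fun n _ hn hodd M x G => ?_⟩
  have hnA : n1 ≤ n := (le_max_left _ _).trans hn
  have hnB : 2 * N0 + 3 + R ≤ n := (le_max_right _ _).trans hn
  have hZn := hn1 n hnA hodd M
  obtain ⟨N, rfl⟩ := hodd
  have h2 := hN0 N (by omega)
  have hm : R * ((2 * N + 1) / R) ≤ 2 * N + 1 := Nat.mul_div_le _ _
  have hmpos : 0 < (2 * N + 1) / R := Nat.div_pos (by omega) hR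
  have h3 := LT1S.fin_le (n := 2 * N + 1) (R := R) (m := (2 * N + 1) / R) (s := s) (by omega)
    hm M hβ.le hh x G
  have hm' : (0 : ℝ) < (((2 * N + 1) / R : ℕ) : ℝ) := by exact_mod_cast hmpos
  have hRm : (R : ℝ) * (((2 * N + 1) / R : ℕ) : ℝ) ≤ ((2 * N + 1 : ℕ) : ℝ) := by exact_mod_cast hm
  set m : ℝ := (((2 * N + 1) / R : ℕ) : ℝ) with hmdef
  set nn : ℝ := ((2 * N + 1 : ℕ) : ℝ) with hnn
  have hnn0 : 0 < nn := by rw [hnn]; positivity
  set LT := Real.log (trace (NormedSpace.exp (-(β / 2) •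
          ham (Lm (S3.nnL (B.cube R)) s (2 * M)) 0 +
            Polynomial.aeval (CM (univ : Finset (B.cube R × Fin s))) G))) with hLT
  set g := B.gRed s β h with hg
  have hm3 : 0 < m ^ 3 := by positivity
  -- `nn³ ≤ (R³ + δ) m³`, `R³ m³ ≤ nn³`
  have h5 : nn ^ 3 ≤ ((R : ℝ) ^ 3 + min (ε / (4 * Q)) ((R : ℝ) ^ 3)) * m ^ 3 := by
    have h6 := h2.le
    rw [div_pow, div_le_iff₀ hm3] at h6
    exact h6
  have h6 : (R : ℝ) ^ 3 * m ^ 3 ≤ nn ^ 3 := by
    rw [← mul_pow]
    exact pow_le_pow_left₀ (by positivity) hRm 3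
  -- the error
  have h7 : (nn ^ 3 - (R : ℝ) ^ 3 * m ^ 3) * ((s : ℝ) * Real.log 2 - g) ≤ ε / 4 * m ^ 3 := by
    have a1 : 0 ≤ nn ^ 3 - (R : ℝ) ^ 3 * m ^ 3 := by linarith
    have a2 : nn ^ 3 - (R : ℝ) ^ 3 * m ^ 3 ≤ ε / (4 * Q) * m ^ 3 := by
      have := mul_le_mul_of_nonneg_right (min_le_left (ε / (4 * Q)) ((R : ℝ) ^ 3)) hm3.le
      linarith
    have a3 : (s : ℝ) * Real.log 2 - g ≤ Q := by
      rw [hQ]; linarith [le_abs_self ((s : ℝ) * Real.log 2 - g)]
    calc (nn ^ 3 - (R : ℝ) ^ 3 * m ^ 3) * ((s : ℝ) * Real.log 2 - g)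
        ≤ (nn ^ 3 - (R : ℝ) ^ 3 * m ^ 3) * Q := mul_le_mul_of_nonneg_left a3 a1
      _ ≤ ε / (4 * Q) * m ^ 3 * Q := mul_le_mul_of_nonneg_right a2 (by linarith)
      _ = ε / 4 * m ^ 3 := by field_simp
  have h8 : ε / (4 * (R : ℝ) ^ 3) * nn ^ 3 ≤ ε / 2 * m ^ 3 := by
    have a1 : nn ^ 3 ≤ 2 * (R : ℝ) ^ 3 * m ^ 3 := by
      have := mul_le_mul_of_nonneg_right (min_le_right (ε / (4 * Q)) ((R : ℝ) ^ 3)) hm3.le
      linarith
    calc ε / (4 * (R : ℝ) ^ 3) * nn ^ 3 ≤ ε / (4 * (R : ℝ) ^ 3) * (2 * (R : ℝ) ^ 3 * m ^ 3) :=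
          mul_le_mul_of_nonneg_left a1 (by positivity)
      _ = ε / 2 * m ^ 3 := by field_simp; ring
  refine le_of_mul_le_mul_left ?_ hm3
  refine h3.trans ?_
  nlinarith [h7, h8, hZn]

end

end Vale.Agent.P361.LRO.S3S
end

section

/-!
P361, stage 3, all spins, block (T): leaf (T1_S), final form.
-/

namespace Vale.Agent.P361.LRO.S3S

open Matrix Finset Filter Topology
open Vale.Agent.P361.LRO.GenS
open Vale.Agent.P361.LRO.S3 (CM nnL)

noncomputable section

theorem logZS_holds {s : ℕ} (hs : 1 ≤ s) : LogZS s := by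
  intro β h hβ _ ε hε
  obtain ⟨n0, hn0⟩ := logZ_copies_ge hs (h := h) hβ hε
  refine ⟨n0, fun n _ hn hodd M => ?_⟩
  have h1 := hn0 n hn hodd M
  linarith

/-- **(T1_S)** Peierls–Bogoliubov on the torus with decoupled blocks, all spins, uniformly in `M`. -/
theorem lt1S {s : ℕ} (hs : 1 ≤ s) {β h : ℝ} (hβ : 0 < β) (hh : 0 ≤ h) {R : ℕ} (hR : 0 < R)
    {ε : ℝ} (hε : 0 < ε) :
    ∃ n0 : ℕ, ∀ (n : ℕ) [NeZero n], n0 ≤ n → Odd n → ∀ (M : ℕ) (x : Tor n) (G : Polynomial ℝ),
      gib (edgesS n s M) β (hS fun _ => h) (Polynomial.aeval (CM (cubeS n s x R)) G) ≤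
        Real.log (trace (NormedSpace.exp (-(β / 2) • ham (Lm (nnL (B.cube R)) s (2 * M)) 0 +
          Polynomial.aeval (TwJ.Om (univ : Finset (B.cube R × Fin s))) G))) -
          (R : ℝ) ^ 3 * B.gRed s β h + ε :=
  lt1S_of (logZS_holds hs) hβ hh hR hε

end

end Vale.Agent.P361.LRO.S3S
end

section

/-!
P361, stage 3, all spins, block (T): `tailStmt3S`.
-/

namespace Vale.Agent.P361.LRO.S3S

open Finset Matrix Filter Topology
open Vale.Agent.P361.LRO Vale.Agent.P361.LRO.S3 Vale.Agent.P361.LRO.GenS Vale.Agent.P361.LRO.S3ST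

theorem cardBS (w : ℕ) : (B.cube w).card = w ^ 3 := by
  unfold B.cube
  rw [Fintype.card_piFinset]
  simp

theorem lt01StmtS {s : ℕ} (hs : 1 ≤ s) : LT01StmtS s := by
  intro β h hβ hh w hw ε hε
  obtain ⟨n0, hn0⟩ := lt1S hs hβ hh.le hw (half_pos hε)
  refine ⟨n0, fun n _ hn hodd x G τ1 τ2 c1 c2 hτ1 hτ2 hc1 hc2 hG => ?_⟩
  obtain ⟨M0, hM0⟩ := lt0S s hs (B.cube w) hβ hτ1 hτ2 hc1 hc2 (G := G) (by
    rw [cardBS]
    intro r hr
    have := hG r hr
    push_cast at this ⊢
    exact this) (half_pos hε)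
  refine ⟨M0, fun M hM => ?_⟩
  have h1 := hn0 n hn hodd M x G
  have h2 := hM0 M hM
  rw [cardBS] at h2
  push_cast at h2
  linarith

/-- **(T)** for all spins. -/
theorem tailStmt3S_of (s : ℕ) (hs : 1 ≤ s) : BootStmt3S s → TailStmt3S s := fun hB =>
  S3ST.tailStmt3S_of hs (lt01StmtS hs) hB

end Vale.Agent.P361.LRO.S3S
end
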