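import Vale.Agent.P361.Bdl.B5
import Vale.Agent.P361.Bdl.B12
import Vale.Agent.P361.Bd4.B1
import Vale.Agent.P361.Bdl.B11
import Vale.Agent.P361.Bdl.B3
import Vale.Agent.P361.Bdl.B9
import Vale.Agent.P361.Bdl.B13
import Vale.Agent.P361.Bdl.B8
import Vale.Agent.P361.Bdl.B1
import Vale.Agent.P361.Bdl.B10

set_option linter.all false

section

/-!
P361 LRO, block (6), all spins: the structure `Low` for electrodes which contain the extra slice
over `b`.  (In the slots encoding the copies of a node of the extra slice are merged; a potential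
on the unmerged network is constant on them only if the electrode contains them.)
-/

namespace Vale.Agent.P361.LRO.Ind

open Finset Vale.Agent.P361.LRO _root_.P361.LRO

noncomputable section

/-- Lowering the field, for electrodes `E ⊇ hatb N b`. -/
structure LowE (n N : ℕ) [NeZero n] (b : Finset (Tor n)) (β h0 lam ε : ℝ)
    (c : (Tor n → ℝ) → Nd n N → Nd n N → ℝ) : Prop where
  prim : ∀ h h' : Tor n → ℝ, Fam n h0 lam h → Fam n h0 lam h' → (∀ x, h' x ≤ h x) →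
    ∀ E G : Finset (Nd n N), Disjoint E G → hatb N b ⊆ E →
    (∀ z ∈ E ∪ G, z.1 ≠ 0 → h' z.2 = h z.2) →
    ∀ S : ℝ, 1 ≤ β * S → ∑ x, (if h' x = h x then 0 else h x) ≤ S →
    ∀ A : ℝ, 0 ≤ A → LBn (c h) E G A →
      LBn (c h') E G ((β * S) ^ (-(4 * ε)) * A - 2 * ε)
  dual : 0 < h0 → h0 ≤ 1 → ∀ h' : Tor n → ℝ, Fam n h0 lam h' →
    ∀ (E : Finset (Nd n N)) (q : Nd n N → ℝ), hatb N b ⊆ E →
    (∀ z ∈ E, z.1 ≠ 0 → h' z.2 = 1) → (∀ z ∈ E, q z = 0) → (∀ x, q (0, x) = 0) →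
    (∀ z, 0 ≤ q z) → ∑ z, q z = 1 →
    ∀ R : ℝ, 0 ≤ R → RBn (c fun _ => 1) E q R →
      RBn (c h') E q (h0 ^ (-(4 * ε)) * (R + 8 * N / (β * h0) * ∑ z, (q z) ^ 2))

end

end Vale.Agent.P361.LRO.Ind
end

section

/-!
P361 LRO, stage 3, all spins: the stiffness statement `KappaStmt3S s` for the family of physical
fields `g / (s β)`, `g ∈ Fam n g0 β^{-9/2}`, from the abstract chapter `Block3E`, the local
instance `LocalStmt3S` and the lowering statement `LowStmt3S` for the slots network.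
-/

namespace Vale.Agent.P361.LRO.S3S

open Finset Filter Vale.Agent.P361.LRO _root_.P361.LRO Vale.Agent.P361.LRO.Ind
  Vale.Agent.P361.LRO.Ind3 Vale.Agent.P361.LRO.GenS

noncomputable section

/-- The slots network of a law `μ` in the scaled field `g` (physical field `g / (s β)`): one site
per node, `N s` layers, slice parameters `g / (2 N s)`. -/
def cS3 (n s : ℕ) [NeZero n] (N : ℕ) (μ : Equiv.Perm (Fin (N + 1) × (Tor n × Fin s)) → ℝ)
    (K : ℝ) (b : Finset (Tor n)) (g : Tor n → ℝ) : Nd n (N * s) → Nd n (N * s) → ℝ :=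
  mgC (slotF n s N) (Net.c0 μ (th (1 / (s : ℝ)) N (hS g) (blk K (b ×ˢ univ))))

/-- The slice parameters of the physical field `g / (s β)`. -/
theorem th_scaledS {n s : ℕ} (hs : 0 < s) {β : ℝ} (hβ : 0 < β) (N : ℕ) (g : Tor n → ℝ)
    (T : Tor n × Fin s → ℝ) :
    th β N (hS fun y => g y / (s * β)) T = th (1 / (s : ℝ)) N (hS g) T := by
  have hs' : (0 : ℝ) < s := by exact_mod_cast hs
  funext z
  unfold th hS
  split_ifs
  · rfl
  · congr 1
    field_simp

/-- The local instance: `Local3` holds for the slots network, with `c1` depending only on `s`. -/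
def LocalStmt3S (s : ℕ) : Prop :=
  ∃ c1 : ℝ, 0 < c1 ∧ ∀ C7 Lam : ℝ, 0 < C7 → 0 < Lam →
    ∃ β0 : ℝ, ∀ β : ℝ, β0 ≤ β → ∃ n0 : ℕ, ∀ (n : ℕ) [NeZero n], n0 ≤ n → ∀ M : ℕ,
    ∀ (e : ℕ) (K : ℝ) (b : Finset (Tor n)), β ^ (1 / 2 : ℝ) ≤ (3 : ℝ) ^ e →
    (3 : ℝ) ^ e ≤ 3 * β ^ (1 / 2 : ℝ) → 1 ≤ K → K ≤ Lam * β ^ (3 / 2 : ℝ) → K ≤ b.card →
    ∃ W0 : ℕ, ∀ W : ℕ, W0 ≤ W → ∀ g : Tor n → ℝ, (∀ x, 0 < g x ∧ g x ≤ 1) →
      (∀ z, rho (edgesS n s M) β (hS fun y => g y / (s * β)) z ≤ C7 * β ^ (-(3 / 2) : ℝ)) →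
      Local3 n (4 * W * s) (W * s) e K c1 b g
        (cS3 n s (4 * W) (phys (edgesS n s M) β (4 * W)) K b g)

/-- The abstract chapter with `LowE`. -/
def Block3E : Prop :=
  ∀ c1 : ℝ, 0 < c1 → ∃ (e0 : ℕ) (C5 c3 c4 : ℝ), 1 ≤ e0 ∧ 0 < C5 ∧
    0 < c3 ∧ 0 < c4 ∧ ∀ e : ℕ, e0 ≤ e → ∃ n0 : ℕ, ∀ (n N W : ℕ) [NeZero n]
    (K h0 lam ε : ℝ) (o : Tor n) (a : ℕ) (h : Tor n → ℝ)
    (c : (Tor n → ℝ) → Nd n N → Nd n N → ℝ),
    n0 ≤ n → 0 < W → N = 4 * W → e ≤ a → a ≤ 2 * e →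
    1 ≤ K → K ≤ 27 ^ (2 * e) → C5 * K ≤ 27 ^ a → C5 * K ≤ 9 ^ e * 3 ^ a →
    (n : ℝ) ^ (-(1 / 4 : ℝ)) ≤ h0 → h0 ≤ 1 → 1 / 3 ^ (10 * e) ≤ lam → 0 ≤ ε → ε * e ≤ c4 →
    (∀ g, Fam n h0 lam g → Local3 n N W e K c1 (cube n o (3 ^ a)) g (c g)) →
    LowE n N (cube n o (3 ^ a)) 1 h0 lam ε c →
    Fam n h0 lam h →
    c3 * K ≤ netK (c h) (fun z => if z ∈ hatb N (cube n o (3 ^ a)) then 1 else 0)

/-- Lowering the field in the slots network. -/
def LowStmt3S (s : ℕ) : Prop :=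
  ∀ (n N : ℕ) [NeZero n] (K h0 lam ε : ℝ) (b : Finset (Tor n))
    (μ : Equiv.Perm (Fin (N + 1) × (Tor n × Fin s)) → ℝ), 1 ≤ N → 0 ≤ K → 0 < h0 → 0 ≤ ε →
    ε ^ 2 ≤ 1 / 2 → Net.Good μ →
    (∀ g, Fam n h0 lam g → ∀ z : Fin (N + 1) × (Tor n × Fin s), z.1 ≠ 0 →
      1 - ε ^ 2 ≤ mag μ (th (1 / (s : ℝ)) N (hS g) (blk K (b ×ˢ univ))) z) →
    LowE n (N * s) b 1 h0 lam ε (cS3 n s N μ K b)

/-- `κ_b` is the energy of the indicator of the extra slice on `b` in the slots network. -/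
theorem kap_scaledS {n s : ℕ} [NeZero n] (hs : 0 < s) {β : ℝ} (hβ : 0 < β) (M N : ℕ) (K : ℝ)
    (x : Tor n) (w : ℕ) (g : Tor n → ℝ) :
    kap (edgesS n s M) β N (hS fun y => g y / (s * β)) K (cubeS n s x w) =
      netK (cS3 n s N (phys (edgesS n s M) β N) K (cube n x w) g)
        fun z => if z ∈ hatb (N * s) (cube n x w) then 1 else 0 := by
  unfold kap cS3 cubeS
  rw [netK_mgC, Net.netK_c0, th_scaledS hs hβ]
  congr 1
  funext z
  have h1 : (slotF n s N z ∈ hatb (N * s) (cube n x w)) ↔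
      z ∈ hatb N (cube n x w ×ˢ (univ : Finset (Fin s))) := by
    unfold hatb
    simp only [Finset.mem_product, Finset.mem_singleton, Finset.mem_univ, and_true]
    constructor
    · rintro ⟨h, h'⟩
      refine ⟨?_, h'⟩
      by_contra h2
      exact slotL_ne h2 z.2.2 h
    · rintro ⟨h, h'⟩
      refine ⟨?_, h'⟩
      show slotL s N z.1 z.2.2 = 0
      rw [h, slotL_zero]
  by_cases h : z ∈ hatb N (cube n x w ×ˢ (univ : Finset (Fin s)))
  · rw [if_pos h, if_pos (h1.2 h)]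
  · rw [if_neg h, if_neg fun h2 => h (h1.1 h2)]

theorem kappaStmt3S_of {s : ℕ} (hs : 0 < s) (h3 : Block3E) (hL : LocalStmt3S s)
    (hlo : LowStmt3S s) : KappaStmt3S s := by
  have hsr : (1 : ℝ) ≤ s := by exact_mod_cast hs
  obtain ⟨c1, hc1, HL⟩ := hL
  obtain ⟨e0, C5, c3, c4, he0, hC5, hc3, hc4, H3⟩ := h3 c1 hc1
  refine ⟨min 1 (1 / C5), c3, lt_min one_pos (by positivity), hc3, fun C7 Lam hC7 hLam => ?_⟩
  obtain ⟨βL, HL⟩ := HL C7 Lam hC7 hLam
  have hlim : ∀ (a : ℝ), 0 < a → ∀ B : ℝ, ∀ᶠ β : ℝ in atTop, B ≤ β ^ a := fun a ha B =>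
    (tendsto_rpow_atTop ha).eventually_ge_atTop B
  obtain ⟨M, hM⟩ : ∃ M : ℝ, M = 2 * Real.exp (Lam * C7 / 2) * Real.sqrt C7 := ⟨_, rfl⟩
  have hall : ∀ᶠ β : ℝ in atTop, βL ≤ β ∧ 1 ≤ β ∧ (3:ℝ) ^ e0 ≤ β ^ (1 / 2 : ℝ) ∧
      Lam ≤ β ^ (3 / 2 : ℝ) ∧ 2 * M ≤ β ^ (3 / 4 : ℝ) ∧ 3 * M / c4 ≤ β ^ (1 / 4 : ℝ) := by
    filter_upwards [eventually_ge_atTop βL, eventually_ge_atTop (1:ℝ),
      hlim (1 / 2) (by norm_num) ((3:ℝ) ^ e0), hlim (3 / 2) (by norm_num) Lam,
      hlim (3 / 4) (by norm_num) (2 * M), hlim (1 / 4) (by norm_num) (3 * M / c4)]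
      with β a1 a2 a3 a4 a5 a6
    exact ⟨a1, a2, a3, a4, a5, a6⟩
  obtain ⟨β0, hβ0⟩ := eventually_atTop.1 hall
  refine ⟨β0, fun β hβ => ?_⟩
  obtain ⟨b1, b2, b3, b4, b5, b6⟩ := hβ0 β hβ
  have hβp : 0 < β := by linarith
  have hsβ : 1 ≤ s * β := by nlinarith
  obtain ⟨e, he1, he2, hemin⟩ := cell_exists b2
  have hp : ∀ s : ℝ, 0 < β ^ s := fun s => Real.rpow_pos_of_pos hβp s
  have hee : e0 ≤ e := by
    have h1 : (3:ℝ) ^ e0 ≤ 3 ^ e := b3.trans he1
    exact (pow_le_pow_iff_right₀ (by norm_num : (1:ℝ) < 3)).1 h1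
  obtain ⟨n3, H3⟩ := H3 e hee
  obtain ⟨nL, HL⟩ := HL β b1
  refine ⟨max n3 (max nL (max 2 ⌈β⌉₊)), ?_⟩
  intro n _ hn _ Mm a ha1' ha2' K hK1 hKL hKc g0 hg0 hg01 hBH g hg x
  have ha1 : β ^ (1 / 2 : ℝ) ≤ (3 : ℝ) ^ a := by rw [← Real.sqrt_eq_rpow]; exact ha1'
  have ha2 : (3 : ℝ) ^ a ≤ β := by
    refine ha2'.trans ?_
    have h1 : β ^ (3 / 4 : ℝ) ≤ β ^ (1 : ℝ) := Real.rpow_le_rpow_of_exponent_le b2 (by norm_num)
    rwa [Real.rpow_one] at h1
  have hn3 : n3 ≤ n := (le_max_left _ _).trans hn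
  have hnL : nL ≤ n := (le_max_left _ _).trans ((le_max_right _ _).trans hn)
  have hn2 : 2 ≤ n := (le_max_left _ _).trans ((le_max_right _ _).trans
    ((le_max_right _ _).trans hn))
  have hnβ : β ≤ n := by
    have : ⌈β⌉₊ ≤ n := (le_max_right _ _).trans ((le_max_right _ _).trans
      ((le_max_right _ _).trans hn))
    exact (Nat.le_ceil β).trans (by exact_mod_cast this)
  have hn0 : (0 : ℝ) < n := by linarith
  have hg0p : 0 < g0 := (Real.rpow_pos_of_pos hn0 _).trans_le hg0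
  have hKp : 0 < K := by linarith
  -- scales
  have hea : e ≤ a := hemin a ha1
  obtain ⟨ha2e, hK27, hK27a, hK9, hK3a, hlam⟩ := scales b2 b4 he1 ha1 ha2 hC5 hKL hKc
  have hcard : (cube n x (3 ^ a)).card = (3 ^ a) ^ 3 := by
    refine Vale.Agent.P361.LRO.Ind.card_cube x (3 ^ a) ?_
    have : ((3 ^ a : ℕ) : ℝ) ≤ n := by push_cast; linarith
    exact_mod_cast this
  have hKcard : K ≤ (cube n x (3 ^ a)).card := by
    rw [hcard]; push_cast
    exact hK3a
  have hne : (cube n x (3 ^ a)).Nonempty := by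
    rw [← Finset.card_pos, hcard]; positivity
  have hneS : (cube n x (3 ^ a) ×ˢ (univ : Finset (Fin s))).Nonempty := by
    rw [← Finset.card_pos, Finset.card_product, hcard, Finset.card_univ, Fintype.card_fin]
    positivity
  obtain ⟨hεp, hε2, hεe, hεsq⟩ := epsilons hβp hC7 hM hc4 b5 b6 he2 hKL
  obtain ⟨lam, hlamdef⟩ : ∃ lam : ℝ, lam = β ^ (-(9 / 2) : ℝ) := ⟨_, rfl⟩
  obtain ⟨η, hηdef⟩ : ∃ η : ℝ, η = C7 * β ^ (-(3 / 2) : ℝ) := ⟨_, rfl⟩
  obtain ⟨ε, hεdef⟩ : ∃ ε : ℝ, ε = M * β ^ (-(3 / 4) : ℝ) := ⟨_, rfl⟩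
  unfold BH3S at hBH
  have hηp : 0 < η := by rw [hηdef]; exact mul_pos hC7 (hp _)
  have HL' := HL n hnL Mm e K (cube n x (3 ^ a)) he1 he2 hK1 hKL hKcard
  rw [← hlamdef] at hlam hBH hg
  rw [← hηdef] at hBH hεsq HL'
  rw [← hεdef] at hεp hε2 hεe hεsq
  obtain ⟨N0, hN0⟩ := trMag_of (K := K) (b := cube n x (3 ^ a) ×ˢ (univ : Finset (Fin s)))
    (Dict.magLim (edgesS n s Mm) hβp) hβp hneS hKp.le hηp
  obtain ⟨W0, hW0⟩ := HL'
  rw [Filter.frequently_atTop]
  intro N1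
  obtain ⟨W, hW⟩ : ∃ W : ℕ, W = N1 + N0 + W0 + ⌈β⌉₊ + 1 := ⟨_, rfl⟩
  have hWp : 0 < W := by omega
  refine ⟨4 * W, by omega, ?_⟩
  have hβN : β ≤ ((4 * W : ℕ) : ℝ) := by
    have h1 : β ≤ (⌈β⌉₊ : ℝ) := Nat.le_ceil _
    have h2 : (⌈β⌉₊ : ℝ) ≤ ((4 * W : ℕ) : ℝ) := by
      exact_mod_cast (by omega : ⌈β⌉₊ ≤ 4 * W)
    linarith
  have hmem : ∀ g : Tor n → ℝ, Fam n g0 lam g → ∀ y, 0 < g y ∧ g y ≤ 1 :=
    fun g hg y => ⟨hg0p.trans_le (hg.1 y).1, (hg.1 y).2⟩
  have hmagb : ∀ g : Tor n → ℝ, Fam n g0 lam g →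
      ∀ z : Fin (4 * W + 1) × (Tor n × Fin s), z.1 ≠ 0 →
      1 - ε ^ 2 ≤ mag (phys (edgesS n s Mm) β (4 * W))
        (th (1 / (s : ℝ)) (4 * W) (hS g) (blk K (cube n x (3 ^ a) ×ˢ univ))) z := by
    intro g hg z hz
    rw [← th_scaledS hs hβp]
    refine le_trans (by linarith) (hN0 (4 * W) (by omega) (hS fun y => g y / (s * β))
      (fun y => ?_) (fun y => hBH g hg y) z hz)
    have h1 := hmem g hg y.1
    unfold hS
    exact ⟨div_nonneg h1.1.le (by linarith), by rw [div_le_one (by linarith)]; linarith [h1.2]⟩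
  have hlow : LowE n (4 * W * s) (cube n x (3 ^ a)) 1 g0 lam ε
      (cS3 n s (4 * W) (phys (edgesS n s Mm) β (4 * W)) K (cube n x (3 ^ a))) :=
    hlo n (4 * W) K g0 lam ε (cube n x (3 ^ a)) _ (by omega) hKp.le hg0p hεp hε2
      (good_of_isLaw (Vale.Agent.P361.LRO.Ind.isLaw_phys' _ hβp.le hβN)) hmagb
  have key := H3 n (4 * W * s) (W * s) K g0 lam ε x a g
    (cS3 n s (4 * W) (phys (edgesS n s Mm) β (4 * W)) K (cube n x (3 ^ a)))
    hn3 (Nat.mul_pos hWp hs) (by ring) hea ha2e hK1 hK27 hK27a hK9 hg0 hg01 hlam hεp hεe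
    (fun g hg => hW0 W (by omega) g (hmem g hg) (fun y => hBH g hg y)) hlow hg
  rw [kap_scaledS hs hβp]
  exact key

end

end Vale.Agent.P361.LRO.S3S
end

section

/-!
P361 LRO, all spins: the slots encoding.  The copies of a physical layer are `s` slots; the copies
of a node of the extra slice are merged.
-/

namespace Vale.Agent.P361.LRO.GenS

open Finset _root_.P361.LRO Vale.Agent.P361.LRO Vale.Agent.P361.LRO.Ind Vale.Agent.P361.LRO.Net

set_option linter.unusedSectionVars false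

noncomputable section

variable {n s N : ℕ} [NeZero n] [NeZero s]

/-- A section of the slot map. -/
def secF (u : Nd n (N * s)) : Fin (N + 1) × (Tor n × Fin s) :=
  if h : u.1 = 0 then (0, (u.2, 0)) else
    (⟨((u.1 : ℕ) - 1) / s + 1, by
      have h0 : (u.1 : ℕ) ≠ 0 := fun h' => h (Fin.ext h')
      have h1 : (u.1 : ℕ) - 1 < N * s := by have := u.1.2; omega
      have h2 : ((u.1 : ℕ) - 1) / s < N :=
        (Nat.div_lt_iff_lt_mul (Nat.pos_of_ne_zero (NeZero.ne s))).mpr h1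
      omega⟩, (u.2, ⟨((u.1 : ℕ) - 1) % s, Nat.mod_lt _ (Nat.pos_of_ne_zero (NeZero.ne s))⟩))

theorem slotF_zero_iff (z : Fin (N + 1) × (Tor n × Fin s)) :
    (slotF n s N z).1 = 0 ↔ z.1 = 0 := by
  constructor
  · intro h
    by_contra h1
    exact slotL_ne h1 z.2.2 h
  · intro h
    show slotL s N z.1 z.2.2 = 0
    rw [h, slotL_zero]

theorem slotF_snd (z : Fin (N + 1) × (Tor n × Fin s)) : (slotF n s N z).2 = z.2.1 := rfl

theorem secF_snd (u : Nd n (N * s)) : (secF u : Fin (N + 1) × (Tor n × Fin s)).2.1 = u.2 := by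
  unfold secF
  split_ifs <;> rfl

theorem slotF_secF (u : Nd n (N * s)) : slotF n s N (secF u) = u := by
  refine Prod.ext ?_ (by rw [slotF_snd, secF_snd])
  by_cases h : u.1 = 0
  · unfold secF
    rw [dif_pos h, h]
    exact slotL_zero (0 : Fin s)
  · unfold secF
    rw [dif_neg h]
    apply Fin.ext
    have hk : (⟨((u.1 : ℕ) - 1) / s + 1, by
      have h0 : (u.1 : ℕ) ≠ 0 := fun h' => h (Fin.ext h')
      have h1 : (u.1 : ℕ) - 1 < N * s := by have := u.1.2; omega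
      have h2 : ((u.1 : ℕ) - 1) / s < N :=
        (Nat.div_lt_iff_lt_mul (Nat.pos_of_ne_zero (NeZero.ne s))).mpr h1
      omega⟩ : Fin (N + 1)) ≠ 0 := by
      intro h
      have := congrArg Fin.val h
      simp at this
    refine (slotL_val hk _).trans ?_
    show 1 + (((u.1 : ℕ) - 1) / s + 1 - 1) * s + ((u.1 : ℕ) - 1) % s = u.1
    rw [Nat.add_sub_cancel]
    have h4 := Nat.div_add_mod' ((u.1 : ℕ) - 1) s
    have h0 : (u.1 : ℕ) ≠ 0 := fun h' => h (Fin.ext h')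
    omega

theorem secF_slotF {z : Fin (N + 1) × (Tor n × Fin s)} (hz : z.1 ≠ 0) :
    secF (slotF n s N z) = z :=
  slotF_inj hz (slotF_secF _)

theorem secF_ne_zero {u : Nd n (N * s)} (hu : u.1 ≠ 0) :
    (secF u : Fin (N + 1) × (Tor n × Fin s)).1 ≠ 0 := by
  intro h
  have h1 := (slotF_zero_iff (secF u : Fin (N + 1) × (Tor n × Fin s))).mpr h
  rw [slotF_secF] at h1
  exact hu h1

/-- Sums over the physical slots. -/
theorem sum_slot (g : Nd n (N * s) → ℝ) (hg : ∀ x, g (0, x) = 0) :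
    ∑ z : Fin (N + 1) × (Tor n × Fin s), (if z.1 = 0 then 0 else g (slotF n s N z)) = ∑ u, g u := by
  have h1 : ∑ u, g u = ∑ u ∈ univ.filter (fun u : Nd n (N * s) => u.1 ≠ 0), g u := by
    rw [Finset.sum_filter]
    refine Finset.sum_congr rfl fun u _ => ?_
    split_ifs with h
    · rfl
    · rw [not_not] at h
      have : u = (0, u.2) := Prod.ext h rfl
      rw [this, hg]
  have h2 : ∑ z : Fin (N + 1) × (Tor n × Fin s), (if z.1 = 0 then 0 else g (slotF n s N z)) =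
      ∑ z ∈ univ.filter (fun z : Fin (N + 1) × (Tor n × Fin s) => z.1 ≠ 0), g (slotF n s N z) := by
    rw [Finset.sum_filter]
    refine Finset.sum_congr rfl fun z _ => ?_
    by_cases h : z.1 = 0 <;> simp [h]
  rw [h1, h2]
  refine Finset.sum_nbij' (fun z => slotF n s N z) (fun u => secF u) ?_ ?_ ?_ ?_ ?_
  · intro z hz
    rw [Finset.mem_filter] at hz ⊢
    exact ⟨Finset.mem_univ _, fun h => hz.2 ((slotF_zero_iff z).mp h)⟩
  · intro u hu
    rw [Finset.mem_filter] at hu ⊢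
    exact ⟨Finset.mem_univ _, secF_ne_zero hu.2⟩
  · intro z hz
    rw [Finset.mem_filter] at hz
    exact secF_slotF hz.2
  · intro u _
    exact slotF_secF u
  · intro z _
    rfl

/-- Preimage of an electrode. -/
def pre (E : Finset (Nd n (N * s))) : Finset (Fin (N + 1) × (Tor n × Fin s)) :=
  univ.filter fun z => slotF n s N z ∈ E

theorem mem_pre {E : Finset (Nd n (N * s))} {z : Fin (N + 1) × (Tor n × Fin s)} :
    z ∈ pre E ↔ slotF n s N z ∈ E := by
  unfold pre; simp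

theorem netK_cslot (M : ℕ) (β K : ℝ) (b : Finset (Tor n)) (h : Tor n → ℝ)
    (a : Nd n (N * s) → ℝ) :
    netK (cslot n s M β N K b h) a = (1 / (s : ℝ)) *
      KK (phys (edgesS n s M) β N) (th β N (hS h) (blk K (b ×ˢ univ))) (fun z => a (slotF n s N z)) := by
  unfold cslot
  rw [netK_const_mul, netK_mgC, netK_c0]

theorem th_mem' {V : Type} [Fintype V] [DecidableEq V] {β : ℝ} (hβ : 0 < β) {N : ℕ}
    (hN : β ≤ N) {K : ℝ} (hK : 0 ≤ K) (b : Finset V) {h : V → ℝ} (h0 : ∀ x, 0 ≤ h x)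
    (h1 : ∀ x, h x ≤ 1) (z : Fin (N + 1) × V) :
    0 ≤ th β N h (blk K b) z ∧ th β N h (blk K b) z ≤ 1 := by
  have hNpos : (0 : ℝ) < N := lt_of_lt_of_le hβ hN
  unfold th
  split_ifs
  · unfold blk
    split_ifs
    · refine ⟨?_, (Real.tanh_lt_one _).le⟩
      rw [Real.tanh_eq_sinh_div_cosh]
      exact div_nonneg (Real.sinh_nonneg_iff.mpr (by positivity)) (Real.cosh_pos _).le
    · exact ⟨le_rfl, zero_le_one⟩
  · have := h0 z.2
    refine ⟨by positivity, ?_⟩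
    rw [div_le_one (by positivity)]
    nlinarith [h1 z.2]

/-- A node with `θ = 0` has no conductances. -/
theorem c0_zero {X : Type} [Fintype X] [DecidableEq X] {μ : Equiv.Perm X → ℝ} (hμ : Vale.Agent.P361.LRO.Net.Good μ)
    {θ : X → ℝ} (hθ : ∀ x, 0 ≤ θ x ∧ θ x ≤ 1) {z : X} (hz : θ z = 0) (v : X) :
    c0 μ θ z v = 0 := by
  have hnn : ∀ x y, 0 ≤ c0 μ θ x y := by
    intro x y
    unfold c0
    split_ifs with hxy
    · exact le_rfl
    · exact hμ.ccnn _ hθ x y hxy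
  have h1 : ∑ v, c0 μ θ z v = vv μ θ z := netV_c0 μ θ z
  have h2 := hμ.vle θ hθ z
  have h3 := Finset.single_le_sum (f := fun v => c0 μ θ z v) (fun v _ => hnn z v)
    (Finset.mem_univ v)
  have h4 := hnn z v
  rw [h1] at h3
  linarith

theorem c0_symm {X : Type} [Fintype X] [DecidableEq X] (μ : Equiv.Perm X → ℝ)
    (θ : X → ℝ) (x y : X) : c0 μ θ x y = c0 μ θ y x := by
  unfold c0
  by_cases hxy : x = y
  · simp [hxy]
  · simp only [hxy, Ne.symm hxy, if_false]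
    exact Vale.Agent.P361.LRO.Net.cc_comm _ _ _ _

section Equiv'

variable {M : ℕ} {β K : ℝ} {b : Finset (Tor n)} {h : Tor n → ℝ}

/-- The potential on the copies may be replaced by the pull-back of a potential on the slots. -/
theorem KK_sec (hβ : 0 < β) (hN : β ≤ N) (hK : 0 ≤ K) (h0 : ∀ x, 0 ≤ h x) (h1 : ∀ x, h x ≤ 1)
    (hG : Vale.Agent.P361.LRO.Net.Good (phys (edgesS n s M) β N)) {E : Finset (Nd n (N * s))}
    (hE : hatb (N * s) b ⊆ E) {a : Fin (N + 1) × (Tor n × Fin s) → ℝ}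
    (ha : ∀ z ∈ pre E, a z = 1) :
    KK (phys (edgesS n s M) β N) (th β N (hS h) (blk K (b ×ˢ univ)))
      (fun z => a (secF (slotF n s N z))) =
    KK (phys (edgesS n s M) β N) (th β N (hS h) (blk K (b ×ˢ univ))) a := by
  have hθ : ∀ z, 0 ≤ th β N (hS (s := s) h) (blk K (b ×ˢ univ)) z ∧
      th β N (hS (s := s) h) (blk K (b ×ˢ univ)) z ≤ 1 :=
    fun z => th_mem' (h := hS (s := s) h) hβ hN hK _ (fun x => h0 x.1) (fun x => h1 x.1) z
  rw [← netK_c0, ← netK_c0]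
  refine netK_congr_zero (c0_symm _ _) fun z => ?_
  by_cases hz : z.1 = 0
  · by_cases hb : z.2.1 ∈ b
    · left
      have h2 : slotF n s N z ∈ E := by
        apply hE
        unfold hatb
        rw [Finset.mem_product]
        exact ⟨by rw [Finset.mem_singleton]; exact (slotF_zero_iff z).mpr hz, hb⟩
      rw [ha z (mem_pre.mpr h2), ha (secF (slotF n s N z)) (mem_pre.mpr (by rw [slotF_secF]; exact h2))]
    · right
      intro v
      refine c0_zero hG hθ ?_ v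
      unfold th blk
      rw [if_pos hz, if_neg]
      simpa using hb
  · left
    rw [secF_slotF hz]

theorem LBn_cslot (hβ : 0 < β) (hN : β ≤ N) (hK : 0 ≤ K) (h0 : ∀ x, 0 ≤ h x)
    (h1 : ∀ x, h x ≤ 1) (hG : Vale.Agent.P361.LRO.Net.Good (phys (edgesS n s M) β N)) {E G : Finset (Nd n (N * s))}
    (hE : hatb (N * s) b ⊆ E) (A : ℝ) :
    LBn (cslot n s M β N K b h) E G A ↔
      LB (phys (edgesS n s M) β N) (th β N (hS h) (blk K (b ×ˢ univ))) (pre E) (pre G)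
        (s * A) := by
  have hs : (0 : ℝ) < s := by exact_mod_cast Nat.pos_of_ne_zero (NeZero.ne s)
  constructor
  · intro H a haE haG
    have h2 := H (fun u => a (secF u))
      (fun u hu => haE _ (mem_pre.mpr (by rw [slotF_secF]; exact hu)))
      (fun u hu => haG _ (mem_pre.mpr (by rw [slotF_secF]; exact hu)))
    rw [netK_cslot, KK_sec hβ hN hK h0 h1 hG hE haE, one_div, ← div_eq_inv_mul,
      le_div_iff₀ hs] at h2
    linarith
  · intro H a haE haG
    rw [netK_cslot, one_div, ← div_eq_inv_mul, le_div_iff₀ hs]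
    have h2 := H (fun z => a (slotF n s N z)) (fun z hz => haE _ (mem_pre.mp hz))
      (fun z hz => haG _ (mem_pre.mp hz))
    linarith

/-- The charge on the copies. -/
def qS (q : Nd n (N * s) → ℝ) (z : Fin (N + 1) × (Tor n × Fin s)) : ℝ :=
  if z.1 = 0 then 0 else q (slotF n s N z)

theorem sum_qS {q : Nd n (N * s) → ℝ} (hq : ∀ x, q (0, x) = 0) (a : Nd n (N * s) → ℝ) :
    ∑ z : Fin (N + 1) × (Tor n × Fin s), qS q z * a (slotF n s N z) = ∑ u, q u * a u := by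
  rw [← sum_slot (fun u => q u * a u) (fun x => by simp [hq x])]
  refine Finset.sum_congr rfl fun z _ => ?_
  unfold qS
  split_ifs <;> simp

theorem sum_qS_sec {q : Nd n (N * s) → ℝ} (hq : ∀ x, q (0, x) = 0)
    (a : Fin (N + 1) × (Tor n × Fin s) → ℝ) :
    ∑ u, q u * a (secF u) = ∑ z : Fin (N + 1) × (Tor n × Fin s), qS q z * a z := by
  rw [← sum_qS hq (fun u => a (secF u))]
  refine Finset.sum_congr rfl fun z _ => ?_
  by_cases hz : z.1 = 0
  · unfold qS; simp [hz]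
  · rw [secF_slotF hz]

theorem RBn_cslot (hβ : 0 < β) (hN : β ≤ N) (hK : 0 ≤ K) (h0 : ∀ x, 0 ≤ h x)
    (h1 : ∀ x, h x ≤ 1) (hG : Vale.Agent.P361.LRO.Net.Good (phys (edgesS n s M) β N)) {E : Finset (Nd n (N * s))}
    (hE : hatb (N * s) b ⊆ E) {q : Nd n (N * s) → ℝ} (hq : ∀ x, q (0, x) = 0) (R : ℝ) :
    RBn (cslot n s M β N K b h) E q R ↔
      RB (phys (edgesS n s M) β N) (th β N (hS h) (blk K (b ×ˢ univ))) (pre E) (qS q)
        (R / s) := by
  have hs : (0 : ℝ) < s := by exact_mod_cast Nat.pos_of_ne_zero (NeZero.ne s)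
  constructor
  · intro H a haE
    have h2 := H (fun u => a (secF u))
      (fun u hu => haE _ (mem_pre.mpr (by rw [slotF_secF]; exact hu)))
    rw [netK_cslot, KK_sec hβ hN hK h0 h1 hG hE haE, sum_qS_sec hq] at h2
    refine h2.trans (le_of_eq ?_)
    ring
  · intro H a haE
    have h2 := H (fun z => a (slotF n s N z)) (fun z hz => haE _ (mem_pre.mp hz))
    rw [sum_qS hq] at h2
    rw [netK_cslot]
    refine h2.trans (le_of_eq ?_)
    ring

end Equiv'

theorem sum_loweredS {β : ℝ} (hβ : 0 < β) {N : ℕ} (hN : β ≤ N) (T : Tor n × Fin s → ℝ)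
    {h h' : Tor n → ℝ} (hle : ∀ x, h' x ≤ h x) :
    ∑ z : Fin (N + 1) × (Tor n × Fin s), (if th β N (hS h') T z < th β N (hS h) T z then
        th β N (hS h) T z else 0) =
      s * (β / 2 * ∑ x, (if h' x = h x then 0 else h x)) := by
  have hNpos : (0 : ℝ) < N := lt_of_lt_of_le hβ hN
  rw [Fintype.sum_prod_type, Fin.sum_univ_succ]
  have h1 : ∑ x : Tor n × Fin s, (if th β N (hS h') T ((0 : Fin (N + 1)), x) <
      th β N (hS h) T ((0 : Fin (N + 1)), x) then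
        th β N (hS h) T ((0 : Fin (N + 1)), x) else 0) = 0 := by
    refine Finset.sum_eq_zero fun x _ => ?_
    simp [th]
  have h2 : ∀ i : Fin N, ∑ x : Tor n × Fin s, (if th β N (hS h') T (i.succ, x) <
      th β N (hS h) T (i.succ, x) then th β N (hS h) T (i.succ, x) else 0) =
      β / (2 * N) * (s * ∑ x, (if h' x = h x then 0 else h x)) := by
    intro i
    rw [Fintype.sum_prod_type, Finset.mul_sum, Finset.mul_sum]
    refine Finset.sum_congr rfl fun x _ => ?_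
    have hi : i.succ ≠ 0 := Fin.succ_ne_zero i
    simp only [th, hi, if_false, hS]
    rw [Finset.sum_const, Finset.card_univ, Fintype.card_fin, nsmul_eq_mul]
    have hc : 0 < β / (2 * N) := by positivity
    have e1 : β * h' x / (2 * N) = β / (2 * N) * h' x := by ring
    have e2 : β * h x / (2 * N) = β / (2 * N) * h x := by ring
    rw [e1, e2]
    by_cases hx : h' x = h x
    · simp [hx]
    · have hlt : h' x < h x := lt_of_le_of_ne (hle x) hx
      rw [if_pos (by exact mul_lt_mul_of_pos_left hlt hc), if_neg hx]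
      ring
  rw [h1, zero_add, Finset.sum_congr rfl fun i _ => h2 i, Finset.sum_const, Finset.card_univ,
    Fintype.card_fin, nsmul_eq_mul]
  field_simp

end

end Vale.Agent.P361.LRO.GenS
end

section

/-!
P361 LRO, all spins: `LowE` for the slots network.
-/

namespace Vale.Agent.P361.LRO.GenS

open Finset _root_.P361.LRO Vale.Agent.P361.LRO Vale.Agent.P361.LRO.Ind Vale.Agent.P361.LRO.Net

set_option linter.unusedSectionVars false

noncomputable section

variable {n s : ℕ} [NeZero n] [NeZero s]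

theorem blk_mem' {V : Type} [Fintype V] [DecidableEq V] {K : ℝ} (hK : 0 ≤ K) {b : Finset V}
    (x : V) : 0 ≤ blk K b x ∧ blk K b x ≤ 1 := by
  unfold blk
  split_ifs
  · refine ⟨?_, (Real.tanh_lt_one _).le⟩
    rw [Real.tanh_eq_sinh_div_cosh]
    exact div_nonneg (Real.sinh_nonneg_iff.mpr (by positivity)) (Real.cosh_pos _).le
  · exact ⟨le_rfl, zero_le_one⟩

theorem path_thS {β : ℝ} {N : ℕ} (hN : 0 < N) (hβ : 0 < β)
    {T : Tor n × Fin s → ℝ} (hT : ∀ z, 0 ≤ T z) (h h' : Tor n → ℝ) {t : ℝ} (ht : 0 ≤ t) :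
    path (th β N (hS h) T) (th β N (hS h') T) t =
      th β N (hS fun x => max (h' x) (Real.exp (-t) * h x)) T := by
  have hNpos : (0 : ℝ) < N := by exact_mod_cast hN
  have he : Real.exp (-t) ≤ 1 := Real.exp_le_one_iff.mpr (by linarith)
  funext z
  unfold path th
  by_cases hz : z.1 = 0
  · simp only [hz, if_true]
    refine max_eq_left ?_
    nlinarith [hT z.2]
  · simp only [hz, if_false, hS]
    have hc : 0 ≤ β / (2 * N) := by positivity
    have e1 : β * h' z.2.1 / (2 * N) = β / (2 * N) * h' z.2.1 := by ring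
    have e2 : Real.exp (-t) * (β * h z.2.1 / (2 * N)) = β / (2 * N) * (Real.exp (-t) * h z.2.1) := by
      ring
    have e3 : β * max (h' z.2.1) (Real.exp (-t) * h z.2.1) / (2 * N) =
        β / (2 * N) * max (h' z.2.1) (Real.exp (-t) * h z.2.1) := by ring
    rw [e1, e2, e3, mul_max_of_nonneg _ _ hc]

/-- **`LowE` for the slots network.** -/
theorem lowE_slots {M : ℕ} {β : ℝ} (hβ : 0 < β) {N : ℕ} (hN : β ≤ N) {K : ℝ} (hK : 0 ≤ K)
    (b : Finset (Tor n)) {h0 lam ε : ℝ} (hh0 : 0 < h0) (hε : 0 ≤ ε) (hε1 : ε ^ 2 ≤ 1 / 2)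
    (hG : Vale.Agent.P361.LRO.Net.Good (phys (edgesS n s M) β N))
    (hmag : ∀ h, Fam n h0 lam h → ∀ z : Fin (N + 1) × (Tor n × Fin s), z.1 ≠ 0 →
      1 - ε ^ 2 ≤ mag (phys (edgesS n s M) β N) (th β N (hS h) (blk K (b ×ˢ univ))) z) :
    LowE n (N * s) b β h0 lam ε (cslot n s M β N K b) := by
  have hNpos : (0 : ℝ) < N := lt_of_lt_of_le hβ hN
  have hNn : 0 < N := by exact_mod_cast hNpos
  have hsn : 0 < s := Nat.pos_of_ne_zero (NeZero.ne s)
  have hs : (0 : ℝ) < s := by exact_mod_cast hsn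
  set T : Tor n × Fin s → ℝ := blk K (b ×ˢ univ) with hT
  have hT0 : ∀ z, 0 ≤ T z := fun z => (blk_mem' hK z).1
  have hfpos : ∀ {h : Tor n → ℝ}, Fam n h0 lam h → ∀ x, 0 < h x :=
    fun hf x => hh0.trans_le (hf.1 x).1
  have hmem : ∀ {h : Tor n → ℝ}, Fam n h0 lam h → ∀ z : Fin (N + 1) × (Tor n × Fin s),
      0 ≤ th β N (hS h) T z ∧ th β N (hS h) T z ≤ 1 := fun {h} hf z =>
    th_mem' (h := hS (s := s) h) hβ hN hK _ (fun x => (hfpos hf x.1).le)
      (fun x => (hf.1 x.1).2) z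
  have hmono : ∀ {h h' : Tor n → ℝ}, (∀ x, h' x ≤ h x) →
      ∀ z : Fin (N + 1) × (Tor n × Fin s),
      th β N (hS h') T z ≤ th β N (hS h) T z := by
    intro h h' hle z
    unfold th hS
    split_ifs
    · exact le_rfl
    · have := hle z.2.1
      gcongr
  have hlt : ∀ {h h' : Tor n → ℝ} (z : Fin (N + 1) × (Tor n × Fin s)),
      th β N (hS h') T z < th β N (hS h) T z → z.1 ≠ 0 := by
    intro h h' z hz h0
    unfold th at hz
    simp [h0] at hz
  have hfix : ∀ {h h' : Tor n → ℝ} (z : Fin (N + 1) × (Tor n × Fin s)),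
      (z.1 ≠ 0 → h' z.2.1 = h z.2.1) →
      th β N (hS h') T z = th β N (hS h) T z := by
    intro h h' z hz
    unfold th hS
    split_ifs with h1
    · rfl
    · rw [hz h1]
  have hpos : ∀ {h h' : Tor n → ℝ}, Fam n h0 lam h' → ∀ z : Fin (N + 1) × (Tor n × Fin s),
      th β N (hS h') T z < th β N (hS h) T z → 0 < th β N (hS h') T z := by
    intro h h' hf z hz
    have h1 := hlt z hz
    unfold th
    rw [if_neg h1]
    have := hfpos hf z.2.1
    unfold hS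
    positivity
  have hm : ∀ {h h' : Tor n → ℝ}, Fam n h0 lam h → Fam n h0 lam h' → ∀ t : ℝ, 0 ≤ t →
      ∀ z : Fin (N + 1) × (Tor n × Fin s), th β N (hS h') T z < th β N (hS h) T z →
      1 - ε ^ 2 ≤ mag (phys (edgesS n s M) β N)
        (path (th β N (hS h) T) (th β N (hS h') T) t) z := by
    intro h h' hf hf' t ht z hz
    rw [path_thS hNn hβ hT0 h h' ht]
    exact hmag _ (Fam.lower hh0.le hf hf' ht) z (hlt z hz)
  refine ⟨?_, ?_⟩
  · intro h h' hf hf' hle E G hEG hbE hfixEG S hS1 hsum A hA hLB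
    rw [LBn_cslot hβ hN hK (fun x => (hfpos hf x).le) (fun x => (hf.1 x).2) hG hbE] at hLB
    rw [LBn_cslot hβ hN hK (fun x => (hfpos hf' x).le) (fun x => (hf'.1 x).2) hG hbE]
    have hE : ∀ z ∈ pre E, th β N (hS h') T z = th β N (hS h) T z := fun z hz =>
      hfix z fun h1 => hfixEG _ (Finset.mem_union_left _ (mem_pre.mp hz))
        (fun h2 => h1 ((slotF_zero_iff z).mp h2))
    have hG' : ∀ z ∈ pre G, th β N (hS h') T z = th β N (hS h) T z := fun z hz =>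
      hfix z fun h1 => hfixEG _ (Finset.mem_union_right _ (mem_pre.mp hz))
        (fun h2 => h1 ((slotF_zero_iff z).mp h2))
    have hpre : Disjoint (pre (s := s) (N := N) E) (pre G) := by
      rw [Finset.disjoint_left] at hEG ⊢
      intro z hz hz'
      exact hEG (mem_pre.mp hz) (mem_pre.mp hz')
    have key := LB_lower hG hε (fun z => (hmem hf' z).1) (hmono hle) (fun z => (hmem hf z).2)
      hE hG' hpre (hpos hf') (hm hf hf') (Real.log_nonneg hS1)
      (B := s * (β * S / 2)) (by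
        rw [sum_loweredS hβ hN T hle]
        have := mul_le_mul_of_nonneg_left hsum (by positivity : (0 : ℝ) ≤ s * (β / 2))
        linarith) hLB
    intro a haE haG
    refine le_trans ?_ (key a haE haG)
    have hSpos : 0 < β * S := by linarith
    have e1 : Real.exp (-(4 * ε * Real.log (β * S))) = (β * S) ^ (-(4 * ε)) := by
      rw [Real.rpow_def_of_pos hSpos]
      congr 1
      ring
    rw [e1, Real.exp_neg, Real.exp_log hSpos]
    have e2 : 2 * ε * (s * (β * S / 2)) * (β * S)⁻¹ = s * ε := by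
      have h5 : (β * S) * (β * S)⁻¹ = 1 := mul_inv_cancel₀ hSpos.ne'
      linear_combination (s * ε) * h5
    rw [e2]
    have h6 : 0 ≤ s * ε := by positivity
    nlinarith
  · intro _ hh1 h' hf' E q hbE hfixE hqE hq0 hqnn hq1 R hR hRB
    have hlam : 1 ≤ Real.exp lam := by
      have h1 := hf'.2 0 0
      have h2 := hfpos hf' 0
      have h3 : h' 0 ≤ Real.exp lam * (Real.exp lam * h' 0) :=
        h1.1.trans (mul_le_mul_of_nonneg_left h1.2 (Real.exp_pos _).le)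
      by_contra hcon
      have h4 : Real.exp lam < 1 := not_le.mp hcon
      have h5 := Real.exp_pos lam
      nlinarith [mul_pos h5 h2, mul_pos (sub_pos.mpr h4) h2,
        mul_pos (mul_pos h5 h2) (sub_pos.mpr h4)]
    have hf : Fam n h0 lam fun _ => (1 : ℝ) :=
      ⟨fun x => ⟨hh1, le_rfl⟩, fun x i => ⟨by linarith, by linarith⟩⟩
    rw [RBn_cslot hβ hN hK (fun x => (hfpos hf x).le) (fun x => (hf.1 x).2) hG hbE hq0] at hRB
    rw [RBn_cslot hβ hN hK (fun x => (hfpos hf' x).le) (fun x => (hf'.1 x).2) hG hbE hq0]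
    have hle : ∀ x, h' x ≤ (fun _ : Tor n => (1 : ℝ)) x := fun x => (hf'.1 x).2
    have hE : ∀ z ∈ pre E, th β N (hS h') T z = th β N (hS fun _ => 1) T z := fun z hz =>
      hfix z fun h1 => hfixE _ (mem_pre.mp hz) (fun h2 => h1 ((slotF_zero_iff z).mp h2))
    have hlog : 0 ≤ Real.log (1 / h0) := Real.log_nonneg (by rw [le_div_iff₀ hh0]; linarith)
    have hqS1 : ∑ z : Fin (N + 1) × (Tor n × Fin s), qS q z = 1 := by
      have h1 := sum_qS (s := s) (N := N) hq0 (fun _ => 1)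
      simp only [mul_one] at h1
      rw [h1, hq1]
    have key := ode_RB hG (fun z => (hmem hf' z).1) (hmono hle) (fun z => (hmem hf z).2)
      hE hqS1 (τ := 2 * ε) (by positivity)
      (fun t ht z hz => by
        have h1 := hm hf hf' t ht z hz
        refine ⟨sqrt_mag_le hε h1, ?_⟩
        have h2 : 1 / 2 ≤ 1 - ε ^ 2 := by linarith
        exact h2.trans h1)
      (div_nonneg hR hs.le) hRB hlog (fun z => by
        rw [Real.exp_log (by positivity)]
        unfold th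
        by_cases hz : z.1 = 0
        · simp only [hz, if_true]
          have h1 := hT0 z.2
          have h2 : 1 ≤ 1 / h0 := by rw [le_div_iff₀ hh0]; linarith
          nlinarith
        · simp only [hz, if_false, hS]
          have h2 := (hf'.1 z.2.1).1
          have h3 : (1 : ℝ) ≤ 1 / h0 * h' z.2.1 := by
            rw [one_div, inv_mul_eq_div, le_div_iff₀ hh0]
            linarith
          have hc : 0 ≤ β / (2 * N) := by positivity
          calc β * 1 / (2 * N) = β / (2 * N) * 1 := by ring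
            _ ≤ β / (2 * N) * (1 / h0 * h' z.2.1) := mul_le_mul_of_nonneg_left h3 hc
            _ = 1 / h0 * (β * h' z.2.1 / (2 * N)) := by ring)
    intro a ha
    refine (key a ha).trans ?_
    have hKK : 0 ≤ KK (phys (edgesS n s M) β N) (th β N (hS h') T) a := by
      rw [← netK_c0]
      refine P361.LRO.netK_nonneg (fun x y => ?_) a
      unfold c0
      split_ifs with hxy
      · exact le_rfl
      · exact hG.ccnn _ (hmem hf') x y hxy
    refine mul_le_mul_of_nonneg_right ?_ hKK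
    have e1 : Real.exp (2 * (2 * ε) * Real.log (1 / h0)) = h0 ^ (-(4 * ε)) := by
      rw [Real.rpow_def_of_pos hh0, one_div, Real.log_inv]
      congr 1
      ring
    rw [e1, mul_div_assoc]
    refine mul_le_mul_of_nonneg_left ?_ (Real.rpow_nonneg hh0.le _)
    rw [add_div]
    refine add_le_add le_rfl ?_
    rw [Real.exp_log (by positivity)]
    have hq2 : ∑ z : Fin (N + 1) × (Tor n × Fin s), qS q z ^ 2 = ∑ u, q u ^ 2 := by
      have h1 := sum_slot (s := s) (N := N) (fun u => q u ^ 2) (fun x => by simp [hq0 x])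
      rw [← h1]
      refine Finset.sum_congr rfl fun z _ => ?_
      unfold qS
      split_ifs <;> simp
    have h5 : ∑ z ∈ univ.filter (fun z : Fin (N + 1) × (Tor n × Fin s) =>
        th β N (hS h') T z < th β N (hS fun _ => 1) T z),
        qS q z ^ 2 / th β N (hS fun _ => 1) T z ≤ 2 * N / β * ∑ u, q u ^ 2 := by
      rw [← hq2, Finset.mul_sum, Finset.sum_filter]
      refine Finset.sum_le_sum fun z _ => ?_
      split_ifs with h1
      · have hz := hlt z h1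
        unfold th hS
        rw [if_neg hz]
        apply le_of_eq
        field_simp
      · positivity
    have h6 : 0 ≤ ∑ z ∈ univ.filter (fun z : Fin (N + 1) × (Tor n × Fin s) =>
        th β N (hS h') T z < th β N (hS fun _ => 1) T z),
        qS q z ^ 2 / th β N (hS fun _ => 1) T z :=
      Finset.sum_nonneg fun z _ => div_nonneg (sq_nonneg _) (hmem hf z).1
    have h7 : 1 / h0 - 1 ≤ 1 / h0 := by linarith
    have h8 : 0 ≤ 1 / h0 := by positivity
    calc 4 * (1 / h0 - 1) * ∑ z ∈ univ.filter (fun z : Fin (N + 1) × (Tor n × Fin s) =>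
        th β N (hS h') T z < th β N (hS fun _ => 1) T z),
        qS q z ^ 2 / th β N (hS fun _ => 1) T z
        ≤ 4 * (1 / h0) * (2 * N / β * ∑ u, q u ^ 2) := by
          apply mul_le_mul _ h5 h6 (by positivity)
          linarith
      _ = 8 * ((N * s : ℕ) : ℝ) / (β * h0) * (∑ u, q u ^ 2) / s := by
          push_cast
          field_simp
          ring

end

end Vale.Agent.P361.LRO.GenS
end

section

/-!
P361 LRO, stage 3, network chapter, all spins (`LowE`): the top of the ladder (helper494, from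
helper972's Ind3/LadTop.lean).
-/

namespace Vale.Agent.P361.LRO.Ind3

open Finset Vale.Agent.P361.LRO _root_.P361.LRO Vale.Agent.P361.LRO.Ind

private theorem lt3e_card_GG {n N : ℕ} [NeZero n] (o : Tor n) (s : ℕ) (hs : s ≤ n) :
    ((GG6 n N o s).card : ℝ) = N * (s : ℝ) ^ 3 := by
  unfold GG6
  rw [Finset.card_product, Vale.Agent.P361.LRO.Ind.card_cube _ _ hs]
  have h1 : (univ.filter fun k : Fin (N + 1) => k ≠ 0).card = N := by
    rw [Finset.filter_ne', Finset.card_erase_of_mem (Finset.mem_univ _), Finset.card_univ,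
      Fintype.card_fin]
    rfl
  rw [h1]
  push_cast
  rfl

private theorem lt3e_sum_q {n N : ℕ} [NeZero n] (o : Tor n) (s : ℕ) (hs : s ≤ n) (t : ℝ) :
    ∑ z : Nd n N, (if z ∈ GG6 n N o s then t else 0) = N * (s : ℝ) ^ 3 * t := by
  rw [Finset.sum_ite_mem, Finset.univ_inter, Finset.sum_const, nsmul_eq_mul, lt3e_card_GG o s hs]

private theorem lt3e_LBn_mono {X : Type} [Fintype X] {c : X → X → ℝ} {E G : Finset X} {A B : ℝ}
    (hAB : B ≤ A) (h : LBn c E G A) : LBn c E G B := fun a h1 h2 => hAB.trans (h a h1 h2)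

/-- The numbers. -/
private theorem lt3e_num {C ρ h0 ε : ℝ} {e : ℕ} (hC : 0 < C) (he : C + 8 ≤ 3 ^ e)
    (hρ : 3 ^ (100 * e) ≤ ρ) (hh0 : 0 < h0) (hh : h0⁻¹ ≤ ρ ^ (5 / 2 : ℝ)) (hε : 0 ≤ ε)
    (hε1 : ε ≤ 1 / 1000) :
    0 < h0 ^ (-(4 * ε)) * (C / (9 ^ e * ρ) + 8 / (h0 * ρ ^ 3)) ∧
    ρ ^ (1 / 3 : ℝ) ≤ 1 / (h0 ^ (-(4 * ε)) * (C / (9 ^ e * ρ) + 8 / (h0 * ρ ^ 3))) := by
  have h31 : (1 : ℝ) ≤ 3 ^ (100 * e) := one_le_pow₀ (by norm_num)
  have hρ1 : 1 ≤ ρ := h31.trans hρ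
  have hρ0 : 0 < ρ := by linarith
  have h9 : (1 : ℝ) ≤ 9 ^ e := one_le_pow₀ (by norm_num)
  have h90 : (0 : ℝ) < 9 ^ e := by positivity
  have hpos : 0 < h0 ^ (-(4 * ε)) * (C / (9 ^ e * ρ) + 8 / (h0 * ρ ^ 3)) := by positivity
  refine ⟨hpos, ?_⟩
  rw [le_div_iff₀ hpos]
  have e1 : h0 ^ (-(4 * ε)) ≤ ρ ^ (1 / 100 : ℝ) := by
    rw [Real.rpow_neg hh0.le, ← Real.inv_rpow hh0.le]
    calc (h0⁻¹) ^ (4 * ε) ≤ (ρ ^ (5 / 2 : ℝ)) ^ (4 * ε) :=
          Real.rpow_le_rpow (by positivity) hh (by positivity)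
      _ = ρ ^ ((5 / 2 : ℝ) * (4 * ε)) := by rw [← Real.rpow_mul hρ0.le]
      _ ≤ ρ ^ (1 / 100 : ℝ) := Real.rpow_le_rpow_of_exponent_le hρ1 (by linarith)
  have e2 : C / (9 ^ e * ρ) + 8 / (h0 * ρ ^ 3) ≤ (C + 8) * ρ ^ (-(1 / 2) : ℝ) := by
    have f1 : C / (9 ^ e * ρ) ≤ C * ρ ^ (-(1 / 2) : ℝ) := by
      have g1 : C / (9 ^ e * ρ) ≤ C * ρ ^ (-1 : ℝ) := by
        rw [Real.rpow_neg_one, ← div_eq_mul_inv]
        refine div_le_div_of_nonneg_left hC.le hρ0 ?_
        exact le_mul_of_one_le_left hρ0.le h9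
      refine g1.trans ?_
      have := Real.rpow_le_rpow_of_exponent_le hρ1 (show (-1 : ℝ) ≤ -(1 / 2) by norm_num)
      gcongr
    have f2 : 8 / (h0 * ρ ^ 3) ≤ 8 * ρ ^ (-(1 / 2) : ℝ) := by
      have g1 : 8 / (h0 * ρ ^ 3) = 8 * (h0⁻¹ * ρ ^ (-3 : ℝ)) := by
        rw [Real.rpow_neg hρ0.le, show (3 : ℝ) = ((3 : ℕ) : ℝ) by norm_num, Real.rpow_natCast]
        field_simp
      have g2 : h0⁻¹ * ρ ^ (-3 : ℝ) ≤ ρ ^ (5 / 2 : ℝ) * ρ ^ (-3 : ℝ) := by gcongr
      have g3 : ρ ^ (5 / 2 : ℝ) * ρ ^ (-3 : ℝ) = ρ ^ (-(1 / 2) : ℝ) := by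
        rw [← Real.rpow_add hρ0]; norm_num
      rw [g3] at g2
      rw [g1]
      gcongr
    have f3 : (C + 8) * ρ ^ (-(1 / 2) : ℝ) =
        C * ρ ^ (-(1 / 2) : ℝ) + 8 * ρ ^ (-(1 / 2) : ℝ) := by ring
    rw [f3]
    exact add_le_add f1 f2
  have e3 : C + 8 ≤ ρ ^ (47 / 300 : ℝ) := by
    calc C + 8 ≤ (3 : ℝ) ^ e := he
      _ = (3 : ℝ) ^ (e : ℝ) := (Real.rpow_natCast 3 e).symm
      _ ≤ (3 : ℝ) ^ (((100 * e : ℕ) : ℝ) * (47 / 300)) := by
          refine Real.rpow_le_rpow_of_exponent_le (by norm_num) ?_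
          push_cast
          have : (0 : ℝ) ≤ e := Nat.cast_nonneg e
          linarith
      _ = ((3 : ℝ) ^ (100 * e)) ^ (47 / 300 : ℝ) := by
          rw [Real.rpow_mul (by norm_num), Real.rpow_natCast]
      _ ≤ ρ ^ (47 / 300 : ℝ) := Real.rpow_le_rpow (by positivity) hρ (by norm_num)
  calc ρ ^ (1 / 3 : ℝ) * (h0 ^ (-(4 * ε)) * (C / (9 ^ e * ρ) + 8 / (h0 * ρ ^ 3)))
      ≤ ρ ^ (1 / 3 : ℝ) * (ρ ^ (1 / 100 : ℝ) * (ρ ^ (47 / 300 : ℝ) * ρ ^ (-(1 / 2) : ℝ))) := by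
        have e4 : C / (9 ^ e * ρ) + 8 / (h0 * ρ ^ 3) ≤
            ρ ^ (47 / 300 : ℝ) * ρ ^ (-(1 / 2) : ℝ) := by
          refine e2.trans ?_
          gcongr
        have : (0 : ℝ) ≤ C / (9 ^ e * ρ) + 8 / (h0 * ρ ^ 3) := by positivity
        gcongr
    _ = (ρ ^ (1 / 3 : ℝ) * ρ ^ (1 / 100 : ℝ)) * (ρ ^ (47 / 300 : ℝ) * ρ ^ (-(1 / 2) : ℝ)) := by
        ring
    _ = 1 := by
        rw [← Real.rpow_add hρ0, ← Real.rpow_add hρ0, ← Real.rpow_add hρ0]
        norm_num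

/-- The top of the ladder, from the statement of `step_top3`. `Low` is used with `β = 1`
(scaled fields). -/
theorem lad_top3E_of (c1 : ℝ)
    (hs3 : ∃ C : ℝ, 0 < C ∧ ∀ (n N W e : ℕ) [NeZero n]
    (K : ℝ) (o : Tor n) (b : Finset (Tor n)) (c : Nd n N → Nd n N → ℝ) (s : ℕ),
    0 < W → N = 4 * W → e ≤ s → 8 * 3 ^ s < n →
    Local3 n N W e K c1 b (fun _ => 1) c →
    RBn c (EE6 n N o b (3 ^ s))
      (fun z => if z ∈ GG6 n N o (3 ^ s) then 1 / ((N : ℝ) * (3 ^ s) ^ 3) else 0)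
      (C / (9 ^ e * 3 ^ s))) :
    ∃ e0 : ℕ, 1 ≤ e0 ∧ ∀ (n N W e : ℕ) [NeZero n]
    (K h0 lam ε : ℝ) (o : Tor n) (b : Finset (Tor n)) (h : Tor n → ℝ)
    (c : (Tor n → ℝ) → Nd n N → Nd n N → ℝ) (s : ℕ),
    e0 ≤ e → 0 < W → N = 4 * W → 8 * 3 ^ s < n →
    0 < h0 → h0 ≤ 1 → 1 / 3 ^ (10 * e) ≤ lam → 0 ≤ ε → ε ≤ 1 / 1000 →
    100 * e ≤ s → h0⁻¹ ≤ ((3 : ℝ) ^ s) ^ (5 / 2 : ℝ) →
    (∀ g, Fam n h0 lam g → Local3 n N W e K c1 b g (c g)) → LowE n N b 1 h0 lam ε c →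
    Fam n h0 lam h →
    LBn (c (HH n lam o (3 ^ s) h)) (EE6 n N o b (3 ^ s)) (GG6 n N o (3 ^ s))
      (((3 : ℝ) ^ s) ^ (1 / 3 : ℝ)) := by
  obtain ⟨C, hC, hstep⟩ := hs3
  obtain ⟨e0, he0⟩ := pow_unbounded_of_one_lt (C + 8) (show (1 : ℝ) < 3 by norm_num)
  refine ⟨max 1 e0, le_max_left _ _, ?_⟩
  intro n N W e _ K h0 lam ε o b h c s he hW hN hn hh0 hh1 hlam hε hε1 hs hh0s hLoc hLow hh
  have heC : C + 8 ≤ (3 : ℝ) ^ e :=
    he0.le.trans (pow_le_pow_right₀ (by norm_num) ((le_max_right _ _).trans he))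
  have hlam0 : 0 ≤ lam := le_trans (by positivity) hlam
  have h3s : 0 < 3 ^ s := by positivity
  have hsn : 3 ^ s ≤ n := by omega
  have hN0 : 0 < N := by omega
  have hN0' : (0 : ℝ) < N := by exact_mod_cast hN0
  have h3s' : (0 : ℝ) < (3 : ℝ) ^ s := by positivity
  have e3 : ((3 ^ s : ℕ) : ℝ) = (3 : ℝ) ^ s := by push_cast; rfl
  have hH := Fam_HH (h := h) hlam0 o h3s hh
  have h1 := Fam_one (n := n) (h0 := h0) (lam := lam) hh1 hlam0
  have hR := hstep n N W e K o b (c fun _ => 1) s hW hN (by omega) hn (hLoc _ h1)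
  set q : Nd n N → ℝ :=
    fun z => if z ∈ GG6 n N o (3 ^ s) then 1 / ((N : ℝ) * ((3 : ℝ) ^ s) ^ 3) else 0 with hq
  have hdisj := disj_EG (N := N) o b (le_refl (3 ^ s)) (by omega : 8 * 3 ^ s ≤ n)
  have hq1 : ∑ z, q z = 1 := by
    rw [hq, lt3e_sum_q o (3 ^ s) hsn, e3]
    field_simp
  have hq2 : ∑ z, q z ^ 2 = 1 / ((N : ℝ) * ((3 : ℝ) ^ s) ^ 3) := by
    have e : ∀ z, q z ^ 2 =
        if z ∈ GG6 n N o (3 ^ s) then (1 / ((N : ℝ) * ((3 : ℝ) ^ s) ^ 3)) ^ 2 else 0 := by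
      intro z
      rw [hq]
      dsimp only
      split_ifs <;> simp
    rw [Finset.sum_congr rfl fun z _ => e z, lt3e_sum_q o (3 ^ s) hsn, e3]
    field_simp
  have hdual := hLow.dual hh0 hh1 (HH n lam o (3 ^ s) h) hH (EE6 n N o b (3 ^ s)) q
    Finset.subset_union_left
    (by
      intro z hz hz0
      unfold EE6 at hz
      rw [Finset.mem_union] at hz
      rcases hz with hz | hz
      · unfold hatb at hz
        rw [Finset.mem_product, Finset.mem_singleton] at hz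
        exact absurd hz.1 hz0
      · rw [Finset.mem_product] at hz
        exact HH_one hlam0 o hsn hh hz.2)
    (by
      intro z hz
      have := Finset.disjoint_left.1 hdisj hz
      rw [hq]
      dsimp only
      rw [if_neg this])
    (by
      intro x
      rw [hq]
      dsimp only
      rw [if_neg]
      unfold GG6
      rw [Finset.mem_product, Finset.mem_filter]
      rintro ⟨⟨_, h0⟩, _⟩
      exact h0 rfl)
    (by
      intro z
      rw [hq]
      dsimp only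
      split_ifs <;> positivity)
    hq1 (C / (9 ^ e * 3 ^ s)) (by positivity) hR
  rw [hq2] at hdual
  have hnum := lt3e_num (ρ := (3 : ℝ) ^ s) (e := e) hC heC
    (pow_le_pow_right₀ (by norm_num) hs) hh0 hh0s hε hε1
  have e4 : 8 * (N : ℝ) / (1 * h0) * (1 / ((N : ℝ) * ((3 : ℝ) ^ s) ^ 3)) =
      8 / (h0 * ((3 : ℝ) ^ s) ^ 3) := by
    field_simp
  rw [e4] at hdual
  refine lt3e_LBn_mono hnum.2 (LBn_of_RBn hnum.1 ?_ hdual)
  intro x hx
  rw [hq]
  dsimp only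
  rw [if_neg hx]

end Vale.Agent.P361.LRO.Ind3
end

section

/-!
# P361 LRO, stage 3, network chapter, all spins (`LowE`): one rung of the ladder (helper494, from
helper487's Ind3/LadMid.lean)
-/

namespace Vale.Agent.P361.LRO.Ind3

open Finset Vale.Agent.P361.LRO _root_.P361.LRO Vale.Agent.P361.LRO.Ind

private theorem lm3e_num_a {C X κ μ : ℝ} (hC : 0 < C) (hX1 : 1 ≤ X) (hκ : 1 ≤ κ) (hμ : 1 ≤ μ) :
    C * (X ^ (4 / 9 : ℝ) / (1 + C)) ≤ κ * X ∧
    C * (X ^ (4 / 9 : ℝ) / (1 + C)) ≤ X ^ (4 / 3 : ℝ) ∧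
    C * (X ^ (4 / 9 : ℝ) / (1 + C)) ^ 3 ≤ X ^ (4 / 3 : ℝ) * μ ^ 2 := by
  have hX0 : 0 < X := by linarith
  have hC1 : C / (1 + C) ≤ 1 := by rw [div_le_one (by positivity)]; linarith
  have hC0 : 0 ≤ C / (1 + C) := by positivity
  have hmain : C * (X ^ (4 / 9 : ℝ) / (1 + C)) ≤ X ^ (4 / 9 : ℝ) := by
    calc C * (X ^ (4 / 9 : ℝ) / (1 + C)) = C / (1 + C) * X ^ (4 / 9 : ℝ) := by ring
      _ ≤ 1 * X ^ (4 / 9 : ℝ) := mul_le_mul_of_nonneg_right hC1 (by positivity)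
      _ = _ := one_mul _
  refine ⟨?_, ?_, ?_⟩
  · have h1 : X ^ (4 / 9 : ℝ) ≤ X := by
      conv_rhs => rw [← Real.rpow_one X]
      exact Real.rpow_le_rpow_of_exponent_le hX1 (by norm_num)
    nlinarith
  · exact hmain.trans (Real.rpow_le_rpow_of_exponent_le hX1 (by norm_num))
  · have h6 : (X ^ (4 / 9 : ℝ)) ^ 3 = X ^ (4 / 3 : ℝ) := by
      rw [← Real.rpow_natCast, ← Real.rpow_mul hX0.le]; norm_num
    have h7 : C / (1 + C) ^ 3 ≤ 1 := by
      rw [div_le_one (by positivity)]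
      nlinarith [sq_nonneg C, pow_pos hC 3]
    have h8 : 1 ≤ μ ^ 2 := one_le_pow₀ hμ
    calc C * (X ^ (4 / 9 : ℝ) / (1 + C)) ^ 3
        = C / (1 + C) ^ 3 * (X ^ (4 / 9 : ℝ)) ^ 3 := by
          rw [div_pow]; field_simp
      _ = C / (1 + C) ^ 3 * X ^ (4 / 3 : ℝ) := by rw [h6]
      _ ≤ 1 * X ^ (4 / 3 : ℝ) := mul_le_mul_of_nonneg_right h7 (by positivity)
      _ = X ^ (4 / 3 : ℝ) * 1 := by ring
      _ ≤ X ^ (4 / 3 : ℝ) * μ ^ 2 := mul_le_mul_of_nonneg_left h8 (by positivity)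

private theorem lm3e_num_b {C X lam ε : ℝ} (hC : 0 < C) (hX8 : 8 ≤ X)
    (hXC : 2 * (1 + C) ≤ X ^ (1 / 20 : ℝ)) (hlam0 : 0 < lam)
    (h2l : 2 / lam ≤ X ^ 4) (hε : 0 ≤ ε) (hε1 : ε ≤ 1 / 1000) :
    X ^ (1 / 3 : ℝ) ≤
      (1 * (X ^ 4 + 2 / lam) ^ 3) ^ (-(4 * ε)) * (X ^ (4 / 9 : ℝ) / (1 + C)) - 2 * ε := by
  have hX1 : 1 ≤ X := by linarith
  have hX0 : 0 < X := by linarith
  have hpos : 0 < 1 * (X ^ 4 + 2 / lam) ^ 3 := by positivity
  have hle : 1 * (X ^ 4 + 2 / lam) ^ 3 ≤ X ^ 13 := by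
    calc 1 * (X ^ 4 + 2 / lam) ^ 3 ≤ 1 * (2 * X ^ 4) ^ 3 := by
          gcongr
          linarith
      _ = 8 * X ^ 12 := by ring
      _ ≤ X * X ^ 12 := by gcongr
      _ = X ^ 13 := by ring
  have h1 : X ^ (-(52 / 1000) : ℝ) ≤ (1 * (X ^ 4 + 2 / lam) ^ 3) ^ (-(4 * ε)) := by
    calc X ^ (-(52 / 1000) : ℝ) ≤ X ^ (-(52 * ε)) :=
          Real.rpow_le_rpow_of_exponent_le hX1 (by linarith)
      _ = (X ^ 13) ^ (-(4 * ε)) := by
          rw [← Real.rpow_natCast X 13, ← Real.rpow_mul hX0.le]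
          congr 1
          push_cast
          ring
      _ ≤ _ := Real.rpow_le_rpow_of_nonpos hpos hle (by linarith)
  have h6 : 2 * X ^ (1 / 3 : ℝ) ≤
      X ^ (-(52 / 1000) : ℝ) * (X ^ (4 / 9 : ℝ) / (1 + C)) := by
    have h7 : X ^ (1 / 3 : ℝ) * X ^ (1 / 20 : ℝ) ≤ X ^ (-(52 / 1000) : ℝ) * X ^ (4 / 9 : ℝ) := by
      rw [← Real.rpow_add hX0, ← Real.rpow_add hX0]
      exact Real.rpow_le_rpow_of_exponent_le hX1 (by norm_num)
    have h8 : 2 * (1 + C) * X ^ (1 / 3 : ℝ) ≤ X ^ (-(52 / 1000) : ℝ) * X ^ (4 / 9 : ℝ) := by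
      calc 2 * (1 + C) * X ^ (1 / 3 : ℝ) ≤ X ^ (1 / 20 : ℝ) * X ^ (1 / 3 : ℝ) :=
            mul_le_mul_of_nonneg_right hXC (by positivity)
        _ = X ^ (1 / 3 : ℝ) * X ^ (1 / 20 : ℝ) := mul_comm _ _
        _ ≤ _ := h7
    have e1 : X ^ (-(52 / 1000) : ℝ) * (X ^ (4 / 9 : ℝ) / (1 + C)) =
        (X ^ (-(52 / 1000) : ℝ) * X ^ (4 / 9 : ℝ)) / (1 + C) := by ring
    rw [e1, le_div_iff₀ (by positivity)]
    calc 2 * X ^ (1 / 3 : ℝ) * (1 + C) = 2 * (1 + C) * X ^ (1 / 3 : ℝ) := by ring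
      _ ≤ _ := h8
  have h9 : X ^ (-(52 / 1000) : ℝ) * (X ^ (4 / 9 : ℝ) / (1 + C)) ≤
      (1 * (X ^ 4 + 2 / lam) ^ 3) ^ (-(4 * ε)) * (X ^ (4 / 9 : ℝ) / (1 + C)) :=
    mul_le_mul_of_nonneg_right h1 (by positivity)
  have h10 : 1 ≤ X ^ (1 / 3 : ℝ) := Real.one_le_rpow hX1 (by norm_num)
  linarith

/-- One rung of the ladder. -/
theorem lad_mid3E (c1 : ℝ) (hc1 : 0 < c1) : ∃ e0 : ℕ, 1 ≤ e0 ∧ ∀ (n N W e : ℕ) [NeZero n]
    (K h0 lam ε : ℝ) (o : Tor n) (b : Finset (Tor n)) (h : Tor n → ℝ)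
    (c : (Tor n → ℝ) → Nd n N → Nd n N → ℝ) (r S : ℕ),
    e0 ≤ e → 0 < W → N = 4 * W → 4 * r ≤ S → 8 * 3 ^ S < n →
    0 < h0 → h0 ≤ 1 → 1 / 3 ^ (10 * e) ≤ lam → 0 ≤ ε → ε ≤ 1 / 1000 →
    100 * e ≤ r → h0⁻¹ ≤ ((3 : ℝ) ^ S) ^ (5 / 2 : ℝ) →
    (∀ g, Fam n h0 lam g → Local3 n N W e K c1 b g (c g)) → LowE n N b 1 h0 lam ε c →
    Fam n h0 lam h →
    LBn (c (HH n lam o (3 ^ (4 * r)) h)) (EE6 n N o b (3 ^ (4 * r))) (GG6 n N o (3 ^ S))
      (((3 : ℝ) ^ (4 * r)) ^ (1 / 3 : ℝ)) →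
    LBn (c (HH n lam o (3 ^ r) h)) (EE6 n N o b (3 ^ r)) (GG6 n N o (3 ^ S))
      (((3 : ℝ) ^ r) ^ (1 / 3 : ℝ)) := by
  obtain ⟨C, hC, hstep⟩ := step_mid3 c1 hc1
  obtain ⟨eg, heg, hground⟩ := num_ground3
  obtain ⟨e1, he1⟩ := pow_unbounded_of_one_lt (2 * (1 + C)) (show (1 : ℝ) < 3 by norm_num)
  refine ⟨max eg e1, heg.trans (le_max_left _ _), ?_⟩
  intro n N W e _ K h0 lam ε o b h c r S he hW hN hrS hSn hh0 hh01 hlam hε hε1
    hr hS hloc hlow hfam hLB
  have heg' : eg ≤ e := (le_max_left _ _).trans he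
  have he1' : e1 ≤ e := (le_max_right _ _).trans he
  have he0 : 1 ≤ e := heg.trans heg'
  have hlam0 : 0 < lam := lt_of_lt_of_le (by positivity) hlam
  have h4rS : (3 : ℕ) ^ (4 * r) ≤ 3 ^ S := Nat.pow_le_pow_right (by norm_num) hrS
  have hrr : (3 : ℕ) ^ r ≤ 3 ^ (4 * r) := Nat.pow_le_pow_right (by norm_num) (by omega)
  have h8 : (3 : ℕ) ^ S ≤ 8 * 3 ^ S := by omega
  have h4rn : (3 : ℕ) ^ (4 * r) < n := by omega
  have hrn : (3 : ℕ) ^ r ≤ n := by omega
  have hfam4 : Fam n h0 lam (HH n lam o (3 ^ (4 * r)) h) := Fam_HH hlam0.le o (by positivity) hfam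
  have hfam1 : Fam n h0 lam (HH n lam o (3 ^ r) h) := Fam_HH hlam0.le o (by positivity) hfam
  have hXe : ((3 : ℝ) ^ (4 * r)) ^ (1 / 3 : ℝ) = ((3 : ℝ) ^ r) ^ (4 / 3 : ℝ) := by
    rw [mul_comm 4 r, pow_mul, ← Real.rpow_natCast ((3 : ℝ) ^ r) 4,
      ← Real.rpow_mul (by positivity)]
    norm_num
  have hX1 : (1 : ℝ) ≤ (3 : ℝ) ^ r := one_le_pow₀ (by norm_num)
  obtain ⟨hB1, hB2, hB3⟩ := lm3e_num_a (κ := 9 ^ e) (μ := 27 ^ e) hC hX1
    (one_le_pow₀ (by norm_num)) (one_le_pow₀ (by norm_num))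
  rw [hXe] at hLB
  have hstep1 := hstep n N W e K o b (HH n lam o (3 ^ (4 * r)) h)
    (c (HH n lam o (3 ^ (4 * r)) h)) r (4 * r) (GG6 n N o (3 ^ S))
    (((3 : ℝ) ^ r) ^ (4 / 3 : ℝ)) (((3 : ℝ) ^ r) ^ (4 / 9 : ℝ) / (1 + C))
    hW hN (by omega) (by omega) h4rn
    (fun x => (hfam4.1 x).2) (fun x hx => HH_one hlam0.le o h4rn.le hfam hx) (hloc _ hfam4)
    (disj_EG o _ h4rS hSn.le) hLB (by positivity) hB1 hB2 hB3
  have hsm := hground h0 lam e S heg' hh0 hlam (by omega) hS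
  have hlow1 := hlow.prim (HH n lam o (3 ^ (4 * r)) h) (HH n lam o (3 ^ r) h) hfam4 hfam1
    (fun x => HH_mono hlam0.le o hrr h x)
    (EE6 n N o b (3 ^ r)) (GG6 n N o (3 ^ S)) (disj_EG o _ (hrr.trans h4rS) hSn.le)
    Finset.subset_union_left (by
      intro z hz hz0
      rcases mem_union.1 hz with hz | hz
      · unfold EE6 at hz
        rcases mem_union.1 hz with hz | hz
        · exfalso
          apply hz0
          unfold hatb at hz
          exact mem_singleton.1 (mem_product.1 hz).1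
        · have hx := (mem_product.1 hz).2
          rw [HH_one hlam0.le o hrn hfam hx]
          have hx4 : z.2 ∈ cube n o (3 ^ (4 * r)) := by
            unfold cube at hx ⊢
            rw [mem_image] at hx ⊢
            obtain ⟨y, -, hy⟩ := hx
            exact ⟨fun i => ⟨(y i : ℕ), lt_of_lt_of_le (y i).2 hrr⟩, mem_univ _, hy⟩
          rw [HH_one hlam0.le o h4rn.le hfam hx4]
      · unfold GG6 at hz
        have hx := (mem_product.1 hz).2
        rw [HH_ground hlam0.le o (hrr.trans h4rS) hSn.le hfam (by push_cast; exact hsm) hx,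
          HH_ground hlam0.le o h4rS hSn.le hfam (by push_cast; exact hsm) hx])
    (((3 ^ (4 * r) : ℕ) + 2 / lam) ^ 3) (by
      have h1r : (1 : ℝ) ≤ ((3 ^ (4 * r) : ℕ) : ℝ) := by
        push_cast; exact one_le_pow₀ (by norm_num)
      have h2 : (1 : ℝ) ≤ ((3 ^ (4 * r) : ℕ) : ℝ) + 2 / lam := by
        have : 0 ≤ 2 / lam := by positivity
        linarith
      have h3 : (1 : ℝ) ≤ (((3 ^ (4 * r) : ℕ) : ℝ) + 2 / lam) ^ 3 := one_le_pow₀ h2
      linarith)
    (sum_lowered hlam0 o hrr h) (((3 : ℝ) ^ r) ^ (4 / 9 : ℝ) / (1 + C)) (by positivity)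
    hstep1
  have hX8 : (8 : ℝ) ≤ (3 : ℝ) ^ r := by
    calc (8 : ℝ) ≤ 3 ^ 2 := by norm_num
      _ ≤ 3 ^ r := pow_le_pow_right₀ (by norm_num) (by omega)
  have hXC : 2 * (1 + C) ≤ ((3 : ℝ) ^ r) ^ (1 / 20 : ℝ) := by
    calc 2 * (1 + C) ≤ (3 : ℝ) ^ e1 := he1.le
      _ ≤ (3 : ℝ) ^ e := pow_le_pow_right₀ (by norm_num) he1'
      _ = (3 : ℝ) ^ (e : ℝ) := (Real.rpow_natCast _ _).symm
      _ ≤ (3 : ℝ) ^ ((r : ℝ) * (1 / 20)) := by
          apply Real.rpow_le_rpow_of_exponent_le (by norm_num)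
          have : (100 * e : ℝ) ≤ r := by exact_mod_cast hr
          have h0e : (0 : ℝ) ≤ e := Nat.cast_nonneg _
          linarith
      _ = ((3 : ℝ) ^ r) ^ (1 / 20 : ℝ) := by
          rw [Real.rpow_mul (by norm_num), Real.rpow_natCast]
  have h2l : 2 / lam ≤ ((3 : ℝ) ^ r) ^ 4 := by
    have h1 : 2 / lam ≤ 2 * 3 ^ (10 * e) := by
      rw [div_le_iff₀ hlam0]
      have h3 := mul_le_mul_of_nonneg_left hlam (show (0 : ℝ) ≤ 2 * 3 ^ (10 * e) by positivity)
      have e2 : (2 : ℝ) * 3 ^ (10 * e) * (1 / 3 ^ (10 * e)) = 2 := by field_simp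
      linarith
    have h2 : (2 : ℝ) * 3 ^ (10 * e) ≤ ((3 : ℝ) ^ r) ^ 4 := by
      calc (2 : ℝ) * 3 ^ (10 * e) ≤ 3 ^ 1 * 3 ^ (10 * e) := by
            apply mul_le_mul_of_nonneg_right (by norm_num) (by positivity)
        _ = 3 ^ (1 + 10 * e) := (pow_add _ _ _).symm
        _ ≤ 3 ^ (r * 4) := pow_le_pow_right₀ (by norm_num) (by omega)
        _ = _ := pow_mul _ _ _
    exact h1.trans h2
  have hnum := lm3e_num_b hC hX8 hXC hlam0 h2l hε hε1
  intro f hf hg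
  refine le_trans hnum ?_
  have h5 := hlow1 f hf hg
  have e3 : ((3 ^ (4 * r) : ℕ) : ℝ) = ((3 : ℝ) ^ r) ^ 4 := by
    push_cast
    rw [mul_comm 4 r, pow_mul]
  rw [e3] at h5
  exact h5

end Vale.Agent.P361.LRO.Ind3
end

section

/-!
# P361 LRO, stage 3, network chapter, all spins (`LowE`): the last rung of the ladder (helper494,
from helper808's Ind3/LadLast0.lean)
-/

namespace Vale.Agent.P361.LRO.Ind3

open Finset Vale.Agent.P361.LRO _root_.P361.LRO Vale.Agent.P361.LRO.Ind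

/-- `3 ^ (33 e) ≤ (3 ^ (100 e)) ^ (1/3)`. -/
private theorem ladlast3e_A (e : ℕ) : (3 : ℝ) ^ (33 * e) ≤ ((3 : ℝ) ^ (100 * e)) ^ (1 / 3 : ℝ) := by
  have h1 : (3 : ℝ) ^ (33 * e) = ((3 : ℝ) ^ (99 * e)) ^ (1 / 3 : ℝ) := by
    rw [← Real.rpow_natCast, ← Real.rpow_natCast, ← Real.rpow_mul (by norm_num)]
    congr 1
    push_cast
    ring
  rw [h1]
  exact Real.rpow_le_rpow (by positivity) (pow_le_pow_right₀ (by norm_num) (by omega))
    (by norm_num)

private theorem ladlast3e_num_a {C K : ℝ} {e : ℕ} (hC : 0 < C) (hCe : C ≤ 3 ^ e)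
    (hK : 0 ≤ K) (hKe : K ≤ 27 ^ (2 * e)) :
    C * K ≤ ((3 : ℝ) ^ (100 * e)) ^ (1 / 3 : ℝ) ∧
    C * K ^ 3 ≤ ((3 : ℝ) ^ (100 * e)) ^ (1 / 3 : ℝ) * (27 ^ e) ^ 2 := by
  have hK' : K ≤ 3 ^ (6 * e) := by
    refine hKe.trans_eq ?_
    rw [show (27 : ℝ) = 3 ^ 3 by norm_num, ← pow_mul]
    congr 1
    ring
  have hA := ladlast3e_A e
  have h27 : (27 : ℝ) ^ e = 3 ^ (3 * e) := by
    rw [show (27 : ℝ) = 3 ^ 3 by norm_num, ← pow_mul]
  constructor
  · calc C * K ≤ 3 ^ e * 3 ^ (6 * e) := mul_le_mul hCe hK' hK (by positivity)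
      _ = 3 ^ (7 * e) := by rw [← pow_add]; congr 1; ring
      _ ≤ 3 ^ (33 * e) := pow_le_pow_right₀ (by norm_num) (by omega)
      _ ≤ _ := hA
  · calc C * K ^ 3 ≤ 3 ^ e * (3 ^ (6 * e)) ^ 3 :=
          mul_le_mul hCe (pow_le_pow_left₀ hK hK' 3) (by positivity) (by positivity)
      _ = 3 ^ (19 * e) := by rw [← pow_mul, ← pow_add]; congr 1; ring
      _ ≤ 3 ^ (39 * e) := pow_le_pow_right₀ (by norm_num) (by omega)
      _ = 3 ^ (33 * e) * (27 ^ e) ^ 2 := by rw [h27, ← pow_mul, ← pow_add]; congr 1; ring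
      _ ≤ _ := mul_le_mul_of_nonneg_right hA (by positivity)

private theorem ladlast3e_num_b {lam ε : ℝ} {e : ℕ} (he : 1 ≤ e) (hlam : 1 / 3 ^ (10 * e) ≤ lam)
    (hε : 0 ≤ ε) (hεe : ε * e ≤ 1 / 5000) :
    1 / 2 ≤ (1 * ((3 : ℝ) ^ (100 * e) + 2 / lam) ^ 3) ^ (-(4 * ε)) := by
  have hlam0 : 0 < lam := lt_of_lt_of_le (by positivity) hlam
  have h2 : 2 / lam ≤ 2 * 3 ^ (10 * e) := by
    rw [div_le_iff₀ hlam0]
    have := mul_le_mul_of_nonneg_left hlam (show (0 : ℝ) ≤ 2 * 3 ^ (10 * e) by positivity)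
    refine le_trans ?_ this
    rw [mul_one_div, mul_div_assoc, div_self (by positivity), mul_one]
  have h3 : (3 : ℝ) ^ (10 * e) ≤ 3 ^ (100 * e) := pow_le_pow_right₀ (by norm_num) (by omega)
  have h4 : (3 : ℝ) ^ (100 * e) + 2 / lam ≤ 3 ^ (101 * e) := by
    calc (3 : ℝ) ^ (100 * e) + 2 / lam ≤ 3 * 3 ^ (100 * e) := by linarith
      _ = 3 ^ (100 * e + 1) := by rw [pow_succ]; ring
      _ ≤ 3 ^ (101 * e) := pow_le_pow_right₀ (by norm_num) (by omega)
  have hpos : 0 < (3 : ℝ) ^ (100 * e) + 2 / lam := by positivity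
  have h6 : 1 * ((3 : ℝ) ^ (100 * e) + 2 / lam) ^ 3 ≤ 3 ^ (303 * e) := by
    calc 1 * ((3 : ℝ) ^ (100 * e) + 2 / lam) ^ 3 ≤ (3 ^ (101 * e)) ^ 3 := by
          rw [one_mul]; exact pow_le_pow_left₀ hpos.le h4 3
      _ = _ := by rw [← pow_mul]; congr 1; ring
  have hpos2 : 0 < 1 * ((3 : ℝ) ^ (100 * e) + 2 / lam) ^ 3 := by positivity
  have h7 : Real.log (1 * ((3 : ℝ) ^ (100 * e) + 2 / lam) ^ 3) ≤ 606 * e := by
    have h71 := Real.log_le_log hpos2 h6
    rw [Real.log_pow] at h71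
    push_cast at h71
    have h72 : Real.log 3 ≤ 2 := by
      have := Real.log_le_sub_one_of_pos (show (0 : ℝ) < 3 by norm_num)
      linarith
    have h73 : 303 * (e : ℝ) * Real.log 3 ≤ 303 * e * 2 :=
      mul_le_mul_of_nonneg_left h72 (by positivity)
    linarith
  rw [Real.rpow_def_of_pos hpos2]
  have h8 : -(1 / 2 : ℝ) ≤
      Real.log (1 * ((3 : ℝ) ^ (100 * e) + 2 / lam) ^ 3) * -(4 * ε) := by
    have h9 := mul_le_mul_of_nonneg_right h7 hε
    nlinarith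
  have h10 := Real.add_one_le_exp
    (Real.log (1 * ((3 : ℝ) ^ (100 * e) + 2 / lam) ^ 3) * -(4 * ε))
  linarith

/-- The last rung, from `step_last3`. -/
theorem lad_last3E_of (c1 : ℝ) (hstep3 : ∃ C : ℝ, 0 < C ∧ ∀ (n N W e : ℕ) [NeZero n]
    (K : ℝ) (o : Tor n) (a : ℕ) (h : Tor n → ℝ) (c : Nd n N → Nd n N → ℝ)
    (s : ℕ) (G : Finset (Nd n N)) (A : ℝ),
    0 < W → N = 4 * W → e ≤ a → a ≤ s → 3 ^ s < n →
    0 < K → C * K ≤ 27 ^ a → C * K ≤ 9 ^ e * 3 ^ a →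
    (∀ x, h x ≤ 1) → (∀ x ∈ cube n o (3 ^ s), h x = 1) →
    Local3 n N W e K c1 (cube n o (3 ^ a)) h c →
    Disjoint (EE6 n N o (cube n o (3 ^ a)) (3 ^ s)) G →
    LBn c (EE6 n N o (cube n o (3 ^ a)) (3 ^ s)) G A →
    C * K ≤ A → C * K ^ 3 ≤ A * (27 ^ e) ^ 2 →
    LBn c (hatb N (cube n o (3 ^ a))) G (K / C)) :
    ∃ (e0 : ℕ) (C5 c3 c4 : ℝ), 1 ≤ e0 ∧ 0 < C5 ∧
    0 < c3 ∧ 0 < c4 ∧ ∀ (n N W e : ℕ) [NeZero n]
    (K h0 lam ε : ℝ) (o : Tor n) (a : ℕ) (h : Tor n → ℝ)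
    (c : (Tor n → ℝ) → Nd n N → Nd n N → ℝ) (S : ℕ),
    e0 ≤ e → 0 < W → N = 4 * W → 100 * e ≤ S → 8 * 3 ^ S < n →
    e ≤ a → a ≤ 2 * e → 1 ≤ K → K ≤ 27 ^ (2 * e) → C5 * K ≤ 27 ^ a → C5 * K ≤ 9 ^ e * 3 ^ a →
    0 < h0 → h0 ≤ 1 → 1 / 3 ^ (10 * e) ≤ lam → 0 ≤ ε → ε * e ≤ c4 →
    h0⁻¹ ≤ ((3 : ℝ) ^ S) ^ (5 / 2 : ℝ) →
    (∀ g, Fam n h0 lam g → Local3 n N W e K c1 (cube n o (3 ^ a)) g (c g)) →
    LowE n N (cube n o (3 ^ a)) 1 h0 lam ε c →
    Fam n h0 lam h →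
    LBn (c (HH n lam o (3 ^ (100 * e)) h)) (EE6 n N o (cube n o (3 ^ a)) (3 ^ (100 * e)))
      (GG6 n N o (3 ^ S)) (((3 : ℝ) ^ (100 * e)) ^ (1 / 3 : ℝ)) →
    LBn (c h) (hatb N (cube n o (3 ^ a))) (GG6 n N o (3 ^ S)) (c3 * K) := by
  obtain ⟨C, hC, hstep⟩ := hstep3
  obtain ⟨e1, he1, hground⟩ := num_ground3
  obtain ⟨e2, he2⟩ := pow_unbounded_of_one_lt C (show (1 : ℝ) < 3 by norm_num)
  refine ⟨max e1 e2, C, 1 / (4 * C), min (1 / 5000) (1 / (8 * C)), he1.trans (le_max_left _ _),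
    hC, by positivity, by positivity, ?_⟩
  intro n N W e _ K h0 lam ε o a h c S he hW hN hrS hSn hea ha2 hK hKe hCK hCK2 hh0 hh01 hlam hε
    hεe hS hloc hlow hfam hLB
  have he1' : e1 ≤ e := (le_max_left _ _).trans he
  have he2' : e2 ≤ e := (le_max_right _ _).trans he
  have he0 : 1 ≤ e := he1.trans he1'
  have hCe : C ≤ 3 ^ e := he2.le.trans (pow_le_pow_right₀ (by norm_num) he2')
  have hlam0 : 0 < lam := lt_of_lt_of_le (by positivity) hlam
  have hK0 : 0 < K := by linarith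
  have h3rS : (3 : ℕ) ^ (100 * e) ≤ 3 ^ S := Nat.pow_le_pow_right (by norm_num) hrS
  have h3rn : (3 : ℕ) ^ (100 * e) < n := by
    have : (3 : ℕ) ^ S ≤ 8 * 3 ^ S := by omega
    omega
  have hfamH : Fam n h0 lam (HH n lam o (3 ^ (100 * e)) h) :=
    Fam_HH hlam0.le o (by positivity) hfam
  obtain ⟨hA1, hA2⟩ := ladlast3e_num_a hC hCe hK0.le hKe
  have hstep1 := hstep n N W e K o a (HH n lam o (3 ^ (100 * e)) h)
    (c (HH n lam o (3 ^ (100 * e)) h)) (100 * e)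
    (GG6 n N o (3 ^ S)) (((3 : ℝ) ^ (100 * e)) ^ (1 / 3 : ℝ)) hW hN hea (by omega) h3rn hK0
    hCK hCK2
    (fun x => (hfamH.1 x).2) (fun x hx => HH_one hlam0.le o h3rn.le hfam hx) (hloc _ hfamH)
    (disj_EG o _ h3rS hSn.le) hLB hA1 hA2
  have hsm := hground h0 lam e S he1' hh0 hlam hrS hS
  have hlow1 := hlow.prim (HH n lam o (3 ^ (100 * e)) h) h hfamH hfam (fun x => le_max_left _ _)
    (hatb N (cube n o (3 ^ a))) (GG6 n N o (3 ^ S)) (disj_hat o _ _) (Finset.Subset.refl _) (by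
      intro z hz hz0
      rcases mem_union.1 hz with hz | hz
      · exfalso
        apply hz0
        unfold hatb at hz
        exact mem_singleton.1 (mem_product.1 hz).1
      · unfold GG6 at hz
        symm
        exact HH_ground hlam0.le o h3rS hSn.le hfam (by push_cast; exact hsm)
          (mem_product.1 hz).2)
    (((3 ^ (100 * e) : ℕ) + 2 / lam) ^ 3) (by
      have h1r : (1 : ℝ) ≤ ((3 ^ (100 * e) : ℕ) : ℝ) := by
        push_cast; exact one_le_pow₀ (by norm_num)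
      have h2 : (1 : ℝ) ≤ ((3 ^ (100 * e) : ℕ) : ℝ) + 2 / lam := by
        have : 0 ≤ 2 / lam := by positivity
        linarith
      have h3 : (1 : ℝ) ≤ (((3 ^ (100 * e) : ℕ) : ℝ) + 2 / lam) ^ 3 := one_le_pow₀ h2
      linarith)
    (sum_lowered' hlam0 o (3 ^ (100 * e)) h) (K / C) (by positivity) hstep1
  have hhalf := ladlast3e_num_b he0 hlam hε (hεe.trans (min_le_left _ _))
  intro f hf hg
  refine le_trans ?_ (hlow1 f hf hg)
  push_cast
  have hε1 : ε ≤ 1 / (8 * C) := by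
    have h0 : (1 : ℝ) ≤ e := by exact_mod_cast he0
    have h1 : ε * 1 ≤ ε * e := mul_le_mul_of_nonneg_left h0 hε
    have h2 := hεe.trans (min_le_right _ _)
    linarith
  have h1 : 1 / 2 * (K / C) ≤
      (1 * ((3 : ℝ) ^ (100 * e) + 2 / lam) ^ 3) ^ (-(4 * ε)) * (K / C) :=
    mul_le_mul_of_nonneg_right hhalf (by positivity)
  have h2 : 2 * ε ≤ K / (4 * C) := by
    calc 2 * ε ≤ 2 * (1 / (8 * C)) := by linarith
      _ = 1 / (4 * C) := by field_simp; norm_num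
      _ ≤ K / (4 * C) := by gcongr
  have h3 : 1 / (4 * C) * K = 1 / 2 * (K / C) - K / (4 * C) := by field_simp; norm_num
  linarith

end Vale.Agent.P361.LRO.Ind3
end

section

/-!
# P361 LRO, stage 3, network chapter for all spins: `block3E` (`LowE` instead of `Low`)

(helper494, from helper678's Ind3/Final0.lean)
-/

namespace Vale.Agent.P361.LRO.Ind3

open Finset Vale.Agent.P361.LRO _root_.P361.LRO Vale.Agent.P361.LRO.Ind

/-- The top of the ladder (`LowE`). -/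
theorem lad_top3E (c1 : ℝ) (hc1 : 0 < c1) : ∃ e0 : ℕ, 1 ≤ e0 ∧ ∀ (n N W e : ℕ) [NeZero n]
    (K h0 lam ε : ℝ) (o : Tor n) (b : Finset (Tor n)) (h : Tor n → ℝ)
    (c : (Tor n → ℝ) → Nd n N → Nd n N → ℝ) (s : ℕ),
    e0 ≤ e → 0 < W → N = 4 * W → 8 * 3 ^ s < n →
    0 < h0 → h0 ≤ 1 → 1 / 3 ^ (10 * e) ≤ lam → 0 ≤ ε → ε ≤ 1 / 1000 →
    100 * e ≤ s → h0⁻¹ ≤ ((3 : ℝ) ^ s) ^ (5 / 2 : ℝ) →
    (∀ g, Fam n h0 lam g → Local3 n N W e K c1 b g (c g)) → LowE n N b 1 h0 lam ε c →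
    Fam n h0 lam h →
    LBn (c (HH n lam o (3 ^ s) h)) (EE6 n N o b (3 ^ s)) (GG6 n N o (3 ^ s))
      (((3 : ℝ) ^ s) ^ (1 / 3 : ℝ)) :=
  lad_top3E_of c1 (step_top3 c1 hc1)

/-- The last rung (`LowE`). -/
theorem lad_last3E (c1 : ℝ) (hc1 : 0 < c1) : ∃ (e0 : ℕ) (C5 c3 c4 : ℝ), 1 ≤ e0 ∧ 0 < C5 ∧
    0 < c3 ∧ 0 < c4 ∧ ∀ (n N W e : ℕ) [NeZero n]
    (K h0 lam ε : ℝ) (o : Tor n) (a : ℕ) (h : Tor n → ℝ)
    (c : (Tor n → ℝ) → Nd n N → Nd n N → ℝ) (S : ℕ),
    e0 ≤ e → 0 < W → N = 4 * W → 100 * e ≤ S → 8 * 3 ^ S < n →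
    e ≤ a → a ≤ 2 * e → 1 ≤ K → K ≤ 27 ^ (2 * e) → C5 * K ≤ 27 ^ a → C5 * K ≤ 9 ^ e * 3 ^ a →
    0 < h0 → h0 ≤ 1 → 1 / 3 ^ (10 * e) ≤ lam → 0 ≤ ε → ε * e ≤ c4 →
    h0⁻¹ ≤ ((3 : ℝ) ^ S) ^ (5 / 2 : ℝ) →
    (∀ g, Fam n h0 lam g → Local3 n N W e K c1 (cube n o (3 ^ a)) g (c g)) →
    LowE n N (cube n o (3 ^ a)) 1 h0 lam ε c →
    Fam n h0 lam h →
    LBn (c (HH n lam o (3 ^ (100 * e)) h)) (EE6 n N o (cube n o (3 ^ a)) (3 ^ (100 * e)))
      (GG6 n N o (3 ^ S)) (((3 : ℝ) ^ (100 * e)) ^ (1 / 3 : ℝ)) →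
    LBn (c h) (hatb N (cube n o (3 ^ a))) (GG6 n N o (3 ^ S)) (c3 * K) :=
  lad_last3E_of c1 (step_last3 c1 hc1)

/-- **STAGE 3 NETWORK CHAPTER, all spins.** `c3, C5` absolute (do not depend on `K`). -/
theorem block3E (c1 : ℝ) (hc1 : 0 < c1) : ∃ (e0 : ℕ) (C5 c3 c4 : ℝ), 1 ≤ e0 ∧ 0 < C5 ∧
    0 < c3 ∧ 0 < c4 ∧ ∀ e : ℕ, e0 ≤ e → ∃ n0 : ℕ, ∀ (n N W : ℕ) [NeZero n]
    (K h0 lam ε : ℝ) (o : Tor n) (a : ℕ) (h : Tor n → ℝ)
    (c : (Tor n → ℝ) → Nd n N → Nd n N → ℝ),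
    n0 ≤ n → 0 < W → N = 4 * W → e ≤ a → a ≤ 2 * e →
    1 ≤ K → K ≤ 27 ^ (2 * e) → C5 * K ≤ 27 ^ a → C5 * K ≤ 9 ^ e * 3 ^ a →
    (n : ℝ) ^ (-(1 / 4 : ℝ)) ≤ h0 → h0 ≤ 1 → 1 / 3 ^ (10 * e) ≤ lam → 0 ≤ ε → ε * e ≤ c4 →
    (∀ g, Fam n h0 lam g → Local3 n N W e K c1 (cube n o (3 ^ a)) g (c g)) →
    LowE n N (cube n o (3 ^ a)) 1 h0 lam ε c →
    Fam n h0 lam h →
    c3 * K ≤ netK (c h) (fun z => if z ∈ hatb N (cube n o (3 ^ a)) then 1 else 0) := by
  obtain ⟨b1, hb1, H1⟩ := lad_top3E c1 hc1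
  obtain ⟨b2, hb2, H2⟩ := lad_mid3E c1 hc1
  obtain ⟨b3, C5, c3, c4, hb3, hC5, hc3, hc4, H3⟩ := lad_last3E c1 hc1
  refine ⟨max b1 (max b2 b3), C5, c3, min c4 (1 / 1000), le_max_of_le_left hb1, hC5, hc3,
    lt_min hc4 (by norm_num), ?_⟩
  intro e he
  have he1 : b1 ≤ e := le_trans (le_max_left _ _) he
  have he2 : b2 ≤ e := le_trans (le_trans (le_max_left _ _) (le_max_right _ _)) he
  have he3 : b3 ≤ e := le_trans (le_trans (le_max_right _ _) (le_max_right _ _)) he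
  have hepos : 1 ≤ e := hb1.trans he1
  obtain ⟨n0, hn0⟩ := num_ladder3 e hepos
  refine ⟨n0, ?_⟩
  intro n N W _ K h0 lam ε o a h c hn hW hN hea ha2 hK hK2 hK3 hK4 hh0 hh1 hlam hε hεl hloc hlow
    hfam
  have hnpos : (0 : ℝ) < n := by exact_mod_cast Nat.pos_of_ne_zero (NeZero.ne n)
  have hh0pos : 0 < h0 := lt_of_lt_of_le (Real.rpow_pos_of_pos hnpos _) hh0
  have he1' : (1 : ℝ) ≤ e := by exact_mod_cast hepos
  have hε1 : ε ≤ 1 / 1000 := by
    have h1 : ε * e ≤ 1 / 1000 := le_trans hεl (min_le_right _ _)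
    nlinarith
  have hε4 : ε * e ≤ c4 := le_trans hεl (min_le_left _ _)
  obtain ⟨I, hI, hIn⟩ := hn0 n h0 hn hh0 hh1
  have hpow : ∀ i : ℕ, 100 * e ≤ 4 ^ i * (100 * e) := fun i =>
    Nat.le_mul_of_pos_left _ (by positivity)
  -- downward induction
  have key : ∀ k i : ℕ, i + k = I →
      LBn (c (HH n lam o (3 ^ (4 ^ i * (100 * e))) h))
        (EE6 n N o (cube n o (3 ^ a)) (3 ^ (4 ^ i * (100 * e))))
        (GG6 n N o (3 ^ (4 ^ I * (100 * e)))) (((3 : ℝ) ^ (4 ^ i * (100 * e))) ^ (1 / 3 : ℝ)) := by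
    intro k
    induction k with
    | zero =>
      intro i hi
      have : i = I := by omega
      subst this
      exact H1 n N W e K h0 lam ε o _ h c _ he1 hW hN hIn hh0pos hh1 hlam hε hε1
        (hpow _) hI hloc hlow hfam
    | succ k ih =>
      intro i hi
      have h1 := ih (i + 1) (by omega)
      have e' : 4 ^ (i + 1) * (100 * e) = 4 * (4 ^ i * (100 * e)) := by ring
      rw [e'] at h1
      have hle : 4 * (4 ^ i * (100 * e)) ≤ 4 ^ I * (100 * e) := by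
        rw [← e']
        exact Nat.mul_le_mul_right _ (Nat.pow_le_pow_right (by norm_num) (by omega))
      exact H2 n N W e K h0 lam ε o _ h c _ _ he2 hW hN hle hIn hh0pos hh1 hlam hε hε1
        (hpow _) hI hloc hlow hfam h1
  have h0' := key I 0 (by omega)
  simp only [pow_zero, one_mul] at h0'
  have hfin := H3 n N W e K h0 lam ε o a h c (4 ^ I * (100 * e)) he3 hW hN (hpow I) hIn hea ha2
    hK hK2 hK3 hK4 hh0pos hh1 hlam hε hε4 hI hloc hlow hfam h0'
  apply hfin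
  · intro x hx
    simp [hx]
  · intro x hx
    have hx0 : x.1 ≠ 0 := by
      simp only [GG6, mem_product, mem_filter, mem_univ, true_and] at hx
      exact hx.1
    have : x ∉ hatb N (cube n o (3 ^ a)) := by
      intro h
      simp only [hatb, mem_product, mem_singleton] at h
      exact hx0 h.1
    simp [this]

end Vale.Agent.P361.LRO.Ind3
end

section

/-!
P361, stage 3, all spins, block (E): the numbers (helper683).  Inputs: the geometry half `GeoE` and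
the limit `M → ∞` on the free box `BoxE`.
-/

namespace Vale.Agent.P361.LRO.S3S

open Finset Matrix Filter Topology Vale.Agent.P361.LRO.GenS Vale.Agent.P361.LRO.S3

noncomputable section

/-- Partition function of the free box with `2 M`-fold coupling inside the sites. -/
def ZbE (s l M : ℕ) (β : ℝ) : ℝ :=
  trace (NormedSpace.exp (-(β / 4) • ham (Lm (nnL (B.cube l)) s (2 * M)) 0))

/-- Geometry half. -/
def GeoE (s : ℕ) : Prop :=
  ∀ (n M : ℕ) [NeZero n] (β : ℝ) (h : Tor n → ℝ) (x : Tor n) (w m : ℕ), 0 < β →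
    (∀ x, 0 ≤ h x) → 1 ≤ w → 1 ≤ m → w * m + 2 ≤ n →
    (∑ y : Fin 3 → Fin m, yb (edgesS n s M) β (hS h)
      (cubeS n s (x + fun i => ((w * (y i : ℕ) : ℕ) : ZMod n)) w)) / (m : ℝ) ^ 3 ≤
      (40 * s + 64) / ((s : ℝ) ^ 2 * β * w * (m : ℝ) ^ 3) *
        (2 * (Real.log (ZbE s (w * m + 2) M β) + 6 * (s : ℝ) ^ 2 * β * ((w * m + 2 : ℕ) : ℝ) ^ 2))

/-- Free box, `M → ∞`. -/
def BoxE (s : ℕ) : Prop :=
  ∀ (l : ℕ) (β : ℝ), 0 < β →
    Tendsto (fun M : ℕ => ZbE s l M β) atTop (𝓝 (B.Zt s (B.cube l) (β / 2) 0))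

/-- `M0` uniform in the finitely many boxes. -/
theorem energy_M0 {s : ℕ} (hZ : BoxE s) {β : ℝ} (hβ : 0 < β) (K : ℕ) :
    ∃ M0 : ℕ, ∀ M : ℕ, M0 ≤ M → ∀ l : ℕ, l ≤ K →
      Real.log (ZbE s l M β) ≤ Real.log (B.Zt s (B.cube l) (β / 2) 0) + 1 := by
  have h1 : ∀ l : ℕ, ∀ᶠ M : ℕ in atTop,
      Real.log (ZbE s l M β) ≤ Real.log (B.Zt s (B.cube l) (β / 2) 0) + 1 := by
    intro l
    have hpos : 0 < B.Zt s (B.cube l) (β / 2) 0 := B.Zt_pos _ _
    have h2 := (hZ l β hβ).log hpos.ne'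
    exact (h2.eventually (Iio_mem_nhds (lt_add_one _))).mono fun M hM => le_of_lt hM
  have h2 : ∀ᶠ M : ℕ in atTop, ∀ l ∈ Finset.range (K + 1),
      Real.log (ZbE s l M β) ≤ Real.log (B.Zt s (B.cube l) (β / 2) 0) + 1 :=
    (Filter.eventually_all_finset _).2 fun l _ => h1 l
  obtain ⟨M0, hM0⟩ := Filter.eventually_atTop.1 h2
  exact ⟨M0, fun M hM l hl => hM0 M hM l (Finset.mem_range.2 (by omega))⟩

/-- The arithmetic. -/
theorem energy_num {A C β w m l E : ℝ} (hA : 0 ≤ A) (hC : 0 ≤ C) (hβ : 1 ≤ β) (hw : 1 ≤ w)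
    (hm : 0 < m) (hw3 : w ≤ 3 * Real.sqrt β) (h1 : β ^ (3 : ℝ) ≤ w * m) (h2 : 2 ≤ w * m)
    (hl : l = w * m + 2) (hE : E ≤ C * l ^ 3 * β ^ (-(3 / 2) : ℝ) + C * β * l ^ 2) :
    A / (β * w * m ^ 3) * E ≤ 9 * A * (12 * C) * β ^ (-(3 / 2) : ℝ) := by
  have hβ0 : 0 < β := by linarith
  have hw0 : 0 < w := by linarith
  have hr : 0 < β ^ (-(3 / 2) : ℝ) := Real.rpow_pos_of_pos hβ0 _
  set r : ℝ := β ^ (-(3 / 2) : ℝ) with hrdef
  set q : ℝ := w * m with hq
  have hq0 : 0 < q := mul_pos hw0 hm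
  have hl2 : l ≤ 2 * q := by rw [hl]; linarith
  have hl0 : 0 ≤ l := by rw [hl]; linarith
  have e3 : β ^ (3 : ℝ) = β ^ 3 := by
    rw [← Real.rpow_natCast]; norm_num
  rw [e3] at h1
  have hw2 : w ^ 2 ≤ 9 * β := by
    have h3 : w ^ 2 ≤ (3 * Real.sqrt β) ^ 2 := pow_le_pow_left₀ hw0.le hw3 2
    rw [mul_pow, Real.sq_sqrt hβ0.le] at h3
    linarith
  -- r ≥ β^{-2}
  have hr2 : 1 / β ^ 2 ≤ r := by
    have h4 : β ^ (-(2 : ℝ)) ≤ β ^ (-(3 / 2) : ℝ) :=
      Real.rpow_le_rpow_of_exponent_le hβ (by norm_num)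
    have h5 : β ^ (-(2 : ℝ)) = 1 / β ^ 2 := by
      rw [Real.rpow_neg hβ0.le, one_div]
      congr 1
      rw [← Real.rpow_natCast]; norm_num
    rw [← h5]; exact h4
  have hE1 : E ≤ 8 * C * q ^ 3 * r + 4 * C * β * q ^ 2 := by
    have h3 : l ^ 3 ≤ (2 * q) ^ 3 := pow_le_pow_left₀ hl0 hl2 3
    have h4 : l ^ 2 ≤ (2 * q) ^ 2 := pow_le_pow_left₀ hl0 hl2 2
    have h5 : C * l ^ 3 * r ≤ C * (2 * q) ^ 3 * r := by gcongr
    have h6 : C * β * l ^ 2 ≤ C * β * (2 * q) ^ 2 := by gcongr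
    nlinarith
  have hpos : 0 < β * w * m ^ 3 := by positivity
  have hid : A / (β * w * m ^ 3) * (8 * C * q ^ 3 * r + 4 * C * β * q ^ 2) =
      8 * A * C * r * (w ^ 2 / β) + 4 * A * C * (w ^ 2 / q) := by
    rw [hq]
    field_simp
  have h7 : w ^ 2 / β ≤ 9 := by
    rw [div_le_iff₀ hβ0]; linarith
  have h8 : w ^ 2 / q ≤ 9 * r := by
    have h9 : w ^ 2 / q ≤ 9 * β / β ^ 3 := by
      apply div_le_div₀ (by positivity) hw2 (by positivity) h1
    refine h9.trans ?_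
    have h10 : 9 * β / β ^ 3 = 9 * (1 / β ^ 2) := by
      field_simp
    rw [h10]
    exact mul_le_mul_of_nonneg_left hr2 (by norm_num)
  calc A / (β * w * m ^ 3) * E ≤ A / (β * w * m ^ 3) * (8 * C * q ^ 3 * r + 4 * C * β * q ^ 2) :=
        mul_le_mul_of_nonneg_left hE1 (by positivity)
    _ = 8 * A * C * r * (w ^ 2 / β) + 4 * A * C * (w ^ 2 / q) := hid
    _ ≤ 8 * A * C * r * 9 + 4 * A * C * (9 * r) := by
        gcongr
    _ = _ := by ring

/-- **(E) for all spins** from the two inputs. -/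
theorem energyStmt3S_of {s : ℕ} (hs : 1 ≤ s) (hG : GeoE s) (hZ : BoxE s) : EnergyStmt3S s := by
  obtain ⟨C0, b0, hC0, hb0, hlog⟩ := B.log_Zt_zero' (n := s) hs
  have hs' : (0 : ℝ) < s := by exact_mod_cast hs
  set A : ℝ := 2 * (40 * s + 64) / (s : ℝ) ^ 2 with hA
  set C : ℝ := 8 * C0 + 6 * (s : ℝ) ^ 2 + 1 with hC
  refine ⟨9 * A * (12 * C), max (4 * b0) 2, ?_⟩
  intro β hβ
  have hβb : 4 * b0 ≤ β := (le_max_left _ _).trans hβ
  have hβ2 : 2 ≤ β := (le_max_right _ _).trans hβ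
  have hβ0 : 0 < β := by linarith
  refine ⟨⌈2 * β ^ (3 : ℝ)⌉₊ + 2, ?_⟩
  intro n _ hn
  obtain ⟨M0, hM0⟩ := energy_M0 hZ hβ0 n
  refine ⟨M0, ?_⟩
  intro M hM g hg x w m hw hw3 h1 h2
  have e3 : β ^ (3 : ℝ) = β ^ 3 := by
    rw [← Real.rpow_natCast]; norm_num
  have hβ3 : 2 ≤ β ^ (3 : ℝ) := by
    rw [e3]
    nlinarith [sq_nonneg (β - 1), sq_nonneg β]
  have hwm : w * m + 2 ≤ n := by
    have h3 : ((w * m : ℕ) : ℝ) ≤ ((⌈2 * β ^ (3 : ℝ)⌉₊ : ℕ) : ℝ) := by
      push_cast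
      exact h2.trans (Nat.le_ceil _)
    have h4 : w * m ≤ ⌈2 * β ^ (3 : ℝ)⌉₊ := by exact_mod_cast h3
    omega
  have hm0 : 1 ≤ m := by
    rcases Nat.eq_zero_or_pos m with rfl | h
    · exfalso
      rw [Nat.cast_zero, mul_zero] at h1
      linarith
    · exact h
  have hw' : (1 : ℝ) ≤ w := by exact_mod_cast hw
  have hm' : (0 : ℝ) < m := by exact_mod_cast hm0
  have h5 := hG n M β (fun z => g z / (s * β)) x w m hβ0
    (fun z => (div_pos (hg z).1 (by positivity)).le) hw hm0 hwm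
  refine h5.trans ?_
  have h6 := hM0 M hM (w * m + 2) hwm
  have h7 := hlog (β / 4) (by linarith) (w * m + 2)
  have e1 : 2 * (β / 4) = β / 2 := by ring
  rw [e1] at h7
  set l : ℝ := ((w * m + 2 : ℕ) : ℝ) with hl
  have hl' : l = w * m + 2 := by rw [hl]; push_cast; ring
  have e2 : (β / 4) ^ (-(3 / 2) : ℝ) = 8 * β ^ (-(3 / 2) : ℝ) := by
    rw [Real.div_rpow hβ0.le (by norm_num)]
    have : (4 : ℝ) ^ (-(3 / 2) : ℝ) = 1 / 8 := by
      rw [show (4 : ℝ) = 2 ^ (2 : ℝ) by norm_num, ← Real.rpow_mul (by norm_num),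
        show (2 : ℝ) * (-(3 / 2)) = -(3 : ℝ) by norm_num, Real.rpow_neg (by norm_num)]
      norm_num
    rw [this]
    ring
  have e4 : (β / 4) ^ (0.51 : ℝ) ≤ β := by
    have h8 : (β / 4) ^ (0.51 : ℝ) ≤ β ^ (0.51 : ℝ) :=
      Real.rpow_le_rpow (by positivity) (by linarith) (by norm_num)
    have h9 : β ^ (0.51 : ℝ) ≤ β ^ (1 : ℝ) :=
      Real.rpow_le_rpow_of_exponent_le (by linarith) (by norm_num)
    rw [Real.rpow_one] at h9
    exact h8.trans h9
  rw [e2] at h7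
  have hr : 0 < β ^ (-(3 / 2) : ℝ) := Real.rpow_pos_of_pos hβ0 _
  have hl1 : 1 ≤ l := by
    rw [hl']
    have : 0 ≤ (w : ℝ) * m := by positivity
    linarith
  have h10 : Real.log (ZbE s (w * m + 2) M β) + 6 * (s : ℝ) ^ 2 * β * l ^ 2 ≤
      C * l ^ 3 * β ^ (-(3 / 2) : ℝ) + C * β * l ^ 2 := by
    have a1 : C0 * (β / 4) ^ (0.51 : ℝ) * l ^ 2 ≤ C0 * β * l ^ 2 := by gcongr
    have a2 : (1 : ℝ) ≤ β * l ^ 2 := by nlinarith
    have a3 : 0 ≤ (6 * (s : ℝ) ^ 2 + 1) * l ^ 3 * β ^ (-(3 / 2) : ℝ) := by positivity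
    have a4 : 0 ≤ C0 * β * l ^ 2 := by positivity
    have a5 : C * l ^ 3 * β ^ (-(3 / 2) : ℝ) + C * β * l ^ 2 =
        (8 * C0 * l ^ 3 * β ^ (-(3 / 2) : ℝ) + (6 * (s : ℝ) ^ 2 + 1) * l ^ 3 * β ^ (-(3 / 2) : ℝ)) +
          (8 * (C0 * β * l ^ 2) + 6 * (s : ℝ) ^ 2 * β * l ^ 2 + β * l ^ 2) := by
      rw [hC]; ring
    have a6 : C0 * l ^ 3 * (8 * β ^ (-(3 / 2) : ℝ)) = 8 * C0 * l ^ 3 * β ^ (-(3 / 2) : ℝ) := by ring
    rw [a5]
    rw [a6] at h7
    linarith
  have hq2 : (2 : ℝ) ≤ w * m := hβ3.trans h1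
  have h11 := energy_num (A := A) (C := C) (β := β) (w := w) (m := m) (l := l)
    (E := Real.log (ZbE s (w * m + 2) M β) + 6 * (s : ℝ) ^ 2 * β * l ^ 2)
    (by rw [hA]; positivity) (by rw [hC]; positivity) (by linarith) hw' hm' hw3 h1 hq2 hl' h10
  refine le_trans (le_of_eq ?_) h11
  rw [hA]
  field_simp

end

end Vale.Agent.P361.LRO.S3S
end

section

set_option linter.unusedSectionVars false

/-!
P361, stage 3, (V) of note 10606: the Berezin-Lieb inequality for hard-core (occupation at most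
`n`) bosons and a general one-particle matrix.
-/

namespace Vale.Agent.P361.LRO.S3.HC

open Finset Matrix Vale.Agent.P361.B

variable {V : Type*} [Fintype V] [DecidableEq V] {n : ℕ}

/-- Occupation numbers of a configuration. -/
def valC (σ : V → Fin (n + 1)) (x : V) : ℕ := (σ x : ℕ)

/-- The annihilation operator at `y` (occupation at most `n`). -/
noncomputable def bM (n : ℕ) (y : V) : Matrix (V → Fin (n + 1)) (V → Fin (n + 1)) ℝ :=
  Matrix.of fun ρ σ => if valC σ = valC ρ + Pi.single y 1 then Real.sqrt ((valC ρ y : ℝ) + 1) else 0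

/-- Second quantisation of the one-particle matrix `M`. -/
noncomputable def GamM (n : ℕ) (M : Matrix V V ℝ) : Matrix (V → Fin (n + 1)) (V → Fin (n + 1)) ℝ :=
  ∑ x, ∑ y, M x y • ((bM n x)ᵀ * bM n y)

lemma valC_inj {σ τ : V → Fin (n + 1)} (h : valC σ = valC τ) : σ = τ := by
  funext x
  exact Fin.ext (congrFun h x)

/-- Extension by zero of the `N`-particle part. -/
noncomputable def extN (N : ℕ) (f : (V → Fin (n + 1)) → ℝ) (ζ : V → ℕ) : ℝ :=
  if h : (∀ x, ζ x ≤ n) ∧ ∑ x, ζ x = N then f (fun x => ⟨ζ x, Nat.lt_succ_of_le (h.1 x)⟩) else 0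

lemma extN_out (N : ℕ) (f : (V → Fin (n + 1)) → ℝ) (ζ : V → ℕ) (h : ζ ∉ occBox V n) :
    extN N f ζ = 0 := by
  unfold extN
  rw [mem_occBox] at h
  rw [dif_neg fun h' => h h'.1]

lemma extN_sect (N : ℕ) (f : (V → Fin (n + 1)) → ℝ) (ζ : V → ℕ) (h : ∑ x, ζ x ≠ N) :
    extN N f ζ = 0 := by
  unfold extN
  rw [dif_neg fun h' => h h'.2]

lemma extN_valC (N : ℕ) (f : (V → Fin (n + 1)) → ℝ) (σ : V → Fin (n + 1)) :
    extN N f (valC σ) = if ∑ x, valC σ x = N then f σ else 0 := by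
  unfold extN
  by_cases h : ∑ x, valC σ x = N
  · have h1 : ∀ x, valC σ x ≤ n := fun x => Nat.lt_succ_iff.1 (σ x).2
    rw [dif_pos ⟨h1, h⟩, if_pos h]
    rfl
  · rw [dif_neg fun h' => h h'.2, if_neg h]

lemma sum_occBoxC (G : (V → ℕ) → ℝ) :
    ∑ ζ ∈ occBox V n, G ζ = ∑ σ : V → Fin (n + 1), G (valC σ) := by
  symm
  refine Finset.sum_bij' (fun σ _ => valC σ)
    (fun ζ hζ => fun x => ⟨ζ x, Nat.lt_succ_of_le (mem_occBox.1 hζ x)⟩) ?_ ?_ ?_ ?_ ?_
  · intro σ _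
    rw [mem_occBox]
    exact fun x => Nat.lt_succ_iff.1 (σ x).2
  · intro ζ _; exact Finset.mem_univ _
  · intro σ _; rfl
  · intro ζ _; rfl
  · intro σ _; rfl

lemma sum_valC_le (σ : V → Fin (n + 1)) : ∑ x, valC σ x ≤ n * Fintype.card V := by
  calc ∑ x, valC σ x ≤ ∑ _x : V, n := Finset.sum_le_sum fun x _ => Nat.lt_succ_iff.1 (σ x).2
    _ = n * Fintype.card V := by rw [Finset.sum_const, Finset.card_univ, smul_eq_mul, mul_comm]

/-- inner product of the `N`-particle parts -/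
lemma wf_extN (N : ℕ) (f g : (V → Fin (n + 1)) → ℝ) :
    ∑ x, wf N (extN N f) x * wf N (extN N g) x =
      ∑ σ, if ∑ x, valC σ x = N then f σ * g σ else 0 := by
  rw [wf_inner (n := n) (extN_out N f) (extN_sect N f), sum_occBoxC]
  refine Finset.sum_congr rfl fun σ _ => ?_
  rw [extN_valC, extN_valC]
  split_ifs <;> simp

lemma sum_wf_extN (f g : (V → Fin (n + 1)) → ℝ) :
    ∑ N ∈ range (n * Fintype.card V + 1), ∑ x, wf N (extN N f) x * wf N (extN N g) x =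
      ∑ σ, f σ * g σ := by
  simp only [wf_extN]
  rw [Finset.sum_comm]
  refine Finset.sum_congr rfl fun σ _ => ?_
  rw [Finset.sum_ite_eq, if_pos]
  rw [Finset.mem_range]
  exact Nat.lt_succ_of_le (sum_valC_le σ)

/-- The form of one hop in labelled particles. -/
lemma hop_prod (N : ℕ) (ψ : (V → ℕ) → ℝ) (h1 : ∀ ζ, ζ ∉ occBox V n → ψ ζ = 0)
    (h2 : ∀ ζ, ∑ v, ζ v ≠ N + 1 → ψ ζ = 0) (v w : V) :
    ∑ σ ∈ occBox V n, (Real.sqrt ((σ v : ℝ) + 1) * ψ (σ + Pi.single v 1)) *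
      (Real.sqrt ((σ w : ℝ) + 1) * ψ (σ + Pi.single w 1)) =
    (N + 1 : ℝ) * ∑ x : Fin N → V, wf (N + 1) ψ (Fin.cons v x) *
      wf (N + 1) ψ (Fin.cons w x) := by
  have hout : ∀ ζ : V → ℕ, ζ ∉ occBox V n → ∀ v, ψ (ζ + Pi.single v 1) = 0 := by
    intro ζ hζ v
    apply h1
    rw [mem_occBox] at hζ ⊢
    push Not at hζ ⊢
    obtain ⟨x, hx⟩ := hζ
    refine ⟨x, ?_⟩
    rw [Pi.add_apply]; omega
  have hsec : ∀ ζ : V → ℕ, ∑ u, ζ u ≠ N → ∀ v, ψ (ζ + Pi.single v 1) = 0 := by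
    intro ζ hζ v
    apply h2
    simp only [Pi.add_apply, Finset.sum_add_distrib]
    rw [Finset.sum_pi_single']
    simp [hζ]
  refine (fiber_sum n N (fun σ => (Real.sqrt ((σ v : ℝ) + 1) * ψ (σ + Pi.single v 1)) *
      (Real.sqrt ((σ w : ℝ) + 1) * ψ (σ + Pi.single w 1)))
      (fun ζ hζ => by simp only [hout ζ hζ]; simp)
      (fun ζ hζ => by simp only [hsec ζ hζ]; simp)).symm.trans ?_
  rw [Finset.mul_sum]
  refine Finset.sum_congr rfl fun x _ => ?_
  have hc := cnt_occ_pos x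
  have hwf : ∀ u, Real.sqrt (N + 1 : ℝ) * wf (N + 1) ψ (Fin.cons u x) =
      Real.sqrt ((occ x u : ℝ) + 1) * ψ (occ x + Pi.single u 1) / Real.sqrt (cnt N (occ x)) := by
    intro u
    rw [wf, occ_cons]
    have hc2 : (0 : ℝ) < cnt (N + 1) (occ x + Pi.single u 1) := by
      rw [← occ_cons]; exact cnt_occ_pos _
    have h3 : (cnt (N + 1) (occ x + Pi.single u 1) : ℝ) * ((occ x u : ℝ) + 1) =
        ((N : ℝ) + 1) * cnt N (occ x) := by exact_mod_cast cnt_succ N (occ x) u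
    have h4 : Real.sqrt (cnt (N + 1) (occ x + Pi.single u 1)) * Real.sqrt ((occ x u : ℝ) + 1) =
        Real.sqrt ((N : ℝ) + 1) * Real.sqrt (cnt N (occ x)) := by
      rw [← Real.sqrt_mul hc2.le, h3, Real.sqrt_mul (by positivity)]
    have h5 : 0 < Real.sqrt (cnt (N + 1) (occ x + Pi.single u 1)) := Real.sqrt_pos.2 hc2
    have h6 : 0 < Real.sqrt (cnt N (occ x)) := Real.sqrt_pos.2 hc
    rw [mul_div_assoc', div_eq_div_iff h5.ne' h6.ne']
    calc _ = (Real.sqrt ((N : ℝ) + 1) * Real.sqrt (cnt N (occ x))) * ψ (occ x + Pi.single u 1) := by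
          ring
      _ = _ := by rw [← h4]; ring
  have h7 : (N + 1 : ℝ) * (wf (N + 1) ψ (Fin.cons v x) * wf (N + 1) ψ (Fin.cons w x)) =
      (Real.sqrt (N + 1 : ℝ) * wf (N + 1) ψ (Fin.cons v x)) *
        (Real.sqrt (N + 1 : ℝ) * wf (N + 1) ψ (Fin.cons w x)) := by
    have h8 : Real.sqrt (N + 1 : ℝ) * Real.sqrt (N + 1 : ℝ) = N + 1 :=
      Real.mul_self_sqrt (by positivity)
    calc _ = (Real.sqrt (N + 1 : ℝ) * Real.sqrt (N + 1 : ℝ)) *
          (wf (N + 1) ψ (Fin.cons v x) * wf (N + 1) ψ (Fin.cons w x)) := by rw [h8]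
      _ = _ := by ring
  rw [h7, hwf, hwf]
  have h9 : Real.sqrt (cnt N (occ x)) * Real.sqrt (cnt N (occ x)) = cnt N (occ x) :=
    Real.mul_self_sqrt hc.le
  rw [div_mul_div_comm, h9]

/-- An orthonormal basis is a `Spec` for the empty graph. -/
lemma spec_of {e : V → V → ℝ} (hc : ∀ x y, ∑ k, e k x * e k y = if x = y then 1 else 0)
    (ho : ∀ k l, ∑ x, e k x * e l x = if k = l then 1 else 0) :
    Spec (fun _ _ : V => False) e 0 where
  eig := fun k x => by simp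
  compl := hc
  orth := ho

/-- The one-particle form on labelled particles. -/
lemma form_succ {e : V → V → ℝ} (hc : ∀ x y, ∑ k, e k x * e k y = if x = y then 1 else 0)
    (ho : ∀ k l, ∑ x, e k x * e l x = if k = l then 1 else 0) {xe : V → ℝ} {M : Matrix V V ℝ}
    (hM : ∀ a b, M a b = ∑ k, xe k * e k a * e k b) (N : ℕ) (ψ : (V → ℕ) → ℝ) :
    (N + 1 : ℝ) * ∑ v, ∑ w, M v w * ∑ x : Fin N → V, wf (N + 1) ψ (Fin.cons v x) *
      wf (N + 1) ψ (Fin.cons w x) =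
    ∑ k : Fin (N + 1) → V, (∑ i, xe (k i)) * four e (wf (N + 1) ψ) k ^ 2 := by
  have hS := spec_of hc ho
  have h1 : ∑ v, ∑ w, M v w * ∑ x : Fin N → V, wf (N + 1) ψ (Fin.cons v x) *
      wf (N + 1) ψ (Fin.cons w x) =
      ∑ k, xe k * ∑ x : Fin N → V, (∑ v, e k v * wf (N + 1) ψ (Fin.cons v x)) ^ 2 := by
    have e1 : ∀ v w, M v w * ∑ x : Fin N → V, wf (N + 1) ψ (Fin.cons v x) *
        wf (N + 1) ψ (Fin.cons w x) = ∑ k, ∑ x : Fin N → V, xe k *
          ((e k v * wf (N + 1) ψ (Fin.cons v x)) * (e k w * wf (N + 1) ψ (Fin.cons w x))) := by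
      intro v w
      rw [hM, Finset.sum_mul]
      refine Finset.sum_congr rfl fun k _ => ?_
      rw [Finset.mul_sum]
      exact Finset.sum_congr rfl fun x _ => by ring
    simp only [e1]
    rw [Finset.sum_congr rfl fun v _ => Finset.sum_comm]
    rw [Finset.sum_comm]
    refine Finset.sum_congr rfl fun k _ => ?_
    rw [Finset.mul_sum]
    rw [Finset.sum_congr rfl fun v _ => Finset.sum_comm]
    rw [Finset.sum_comm]
    refine Finset.sum_congr rfl fun x _ => ?_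
    rw [sq, Finset.sum_mul_sum, Finset.mul_sum]
    refine Finset.sum_congr rfl fun v _ => ?_
    rw [Finset.mul_sum]
  have h2 : ∀ k : V, ∑ x : Fin N → V, (∑ v, e k v * wf (N + 1) ψ (Fin.cons v x)) ^ 2 =
      ∑ l : Fin N → V, four e (wf (N + 1) ψ) (Fin.cons k l) ^ 2 := by
    intro k
    rw [← parseval hS (fun x : Fin N → V => ∑ v, e k v * wf (N + 1) ψ (Fin.cons v x))]
    exact Finset.sum_congr rfl fun l _ => by rw [four_cons]
  rw [h1]
  simp only [h2]
  have h3 : ∑ k, xe k * ∑ l : Fin N → V, four e (wf (N + 1) ψ) (Fin.cons k l) ^ 2 =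
      ∑ k : Fin (N + 1) → V, xe (k 0) * four e (wf (N + 1) ψ) k ^ 2 := by
    rw [← (Fin.consEquiv fun _ => V).sum_comp, Fintype.sum_prod_type]
    refine Finset.sum_congr rfl fun k _ => ?_
    rw [Finset.mul_sum]
    rfl
  rw [h3]
  have h4 : ∀ i : Fin (N + 1), ∑ k : Fin (N + 1) → V, xe (k i) * four e (wf (N + 1) ψ) k ^ 2 =
      ∑ k : Fin (N + 1) → V, xe (k 0) * four e (wf (N + 1) ψ) k ^ 2 := by
    intro i
    rw [← (Equiv.arrowCongr (Equiv.swap 0 i) (Equiv.refl V)).sum_comp]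
    refine Finset.sum_congr rfl fun k _ => ?_
    have e1 : (Equiv.arrowCongr (Equiv.swap 0 i) (Equiv.refl V)) k = k ∘ Equiv.swap 0 i := by
      ext j; simp [Equiv.arrowCongr]
    rw [e1, four_perm hS _ (wf_perm ψ)]
    simp
  have h5 : ∑ k : Fin (N + 1) → V, (∑ i, xe (k i)) * four e (wf (N + 1) ψ) k ^ 2 =
      ∑ i : Fin (N + 1), ∑ k : Fin (N + 1) → V, xe (k i) * four e (wf (N + 1) ψ) k ^ 2 := by
    rw [Finset.sum_comm]
    exact Finset.sum_congr rfl fun k _ => by rw [Finset.sum_mul]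
  rw [h5]
  simp only [h4]
  rw [Finset.sum_const, Finset.card_univ, Fintype.card_fin, nsmul_eq_mul]
  push_cast
  ring

lemma extN_eq_sum (N : ℕ) (f : (V → Fin (n + 1)) → ℝ) (ζ : V → ℕ) (hζ : ∑ x, ζ x = N) :
    extN N f ζ = ∑ σ, if valC σ = ζ then f σ else 0 := by
  by_cases h : ∀ x, ζ x ≤ n
  · set σ0 : V → Fin (n + 1) := fun x => ⟨ζ x, Nat.lt_succ_of_le (h x)⟩ with hσ0
    have hv : valC σ0 = ζ := rfl
    rw [Finset.sum_eq_single σ0]
    · rw [if_pos hv, ← hv, extN_valC, if_pos (by rw [hv]; exact hζ)]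
    · intro σ _ hσ
      rw [if_neg fun h' => hσ (valC_inj (h'.trans hv.symm))]
    · intro h'; exact absurd (Finset.mem_univ _) h'
  · rw [extN_out N f ζ (by rw [mem_occBox]; exact h)]
    symm
    refine Finset.sum_eq_zero fun σ _ => ?_
    rw [if_neg]
    intro h'
    apply h
    intro x
    rw [← h']
    exact Nat.lt_succ_iff.1 (σ x).2

lemma sum_add_single (ζ : V → ℕ) (y : V) : ∑ x, (ζ + Pi.single y 1 : V → ℕ) x = ∑ x, ζ x + 1 := by
  simp only [Pi.add_apply, Finset.sum_add_distrib]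
  rw [Finset.sum_pi_single']
  simp

lemma bM_mulVec (y : V) (ψ : (V → Fin (n + 1)) → ℝ) (ρ : V → Fin (n + 1)) :
    (bM n y *ᵥ ψ) ρ = Real.sqrt ((valC ρ y : ℝ) + 1) *
      extN (∑ x, valC ρ x + 1) ψ (valC ρ + Pi.single y 1) := by
  rw [extN_eq_sum _ _ _ (sum_add_single _ _), Matrix.mulVec, dotProduct, Finset.mul_sum]
  refine Finset.sum_congr rfl fun σ _ => ?_
  simp only [bM, Matrix.of_apply]
  split_ifs <;> ring

lemma form_GamM (M : Matrix V V ℝ) (ψ : (V → Fin (n + 1)) → ℝ) :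
    ψ ⬝ᵥ (GamM n M *ᵥ ψ) = ∑ x, ∑ y, M x y * ∑ ρ, (bM n x *ᵥ ψ) ρ * (bM n y *ᵥ ψ) ρ := by
  unfold GamM
  rw [Matrix.sum_mulVec, dotProduct_sum]
  refine Finset.sum_congr rfl fun x _ => ?_
  rw [Matrix.sum_mulVec, dotProduct_sum]
  refine Finset.sum_congr rfl fun y _ => ?_
  rw [Matrix.smul_mulVec, dotProduct_smul, smul_eq_mul]
  congr 1
  rw [← Matrix.mulVec_mulVec, Matrix.dotProduct_mulVec, Matrix.vecMul_transpose]
  rfl

/-- The form of `dΓ(M)` in the eigenbasis of `M`. -/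
theorem form_eq {e : V → V → ℝ} (hc : ∀ x y, ∑ k, e k x * e k y = if x = y then 1 else 0)
    (ho : ∀ k l, ∑ x, e k x * e l x = if k = l then 1 else 0) {xe : V → ℝ} {M : Matrix V V ℝ}
    (hM : ∀ a b, M a b = ∑ k, xe k * e k a * e k b) (ψ : (V → Fin (n + 1)) → ℝ) {R : ℕ}
    (hR : n * Fintype.card V < R) :
    ψ ⬝ᵥ (GamM n M *ᵥ ψ) = ∑ N ∈ range (R + 1), ∑ k : Fin N → V,
      (∑ i, xe (k i)) * four e (wf N (extN N ψ)) k ^ 2 := by
  rw [Finset.sum_range_succ', form_GamM]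
  have h0 : ∑ k : Fin 0 → V, (∑ i, xe (k i)) * four e (wf 0 (extN 0 ψ)) k ^ 2 = 0 := by
    refine Finset.sum_eq_zero fun k _ => ?_
    simp
  rw [h0, add_zero]
  have h1 : ∀ N : ℕ, ∑ k : Fin (N + 1) → V,
      (∑ i, xe (k i)) * four e (wf (N + 1) (extN (N + 1) ψ)) k ^ 2 =
      ∑ x, ∑ y, M x y * ∑ ρ : V → Fin (n + 1), if ∑ v, valC ρ v = N then
        (bM n x *ᵥ ψ) ρ * (bM n y *ᵥ ψ) ρ else 0 := by
    intro N
    rw [← form_succ hc ho hM N (extN (N + 1) ψ), Finset.mul_sum]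
    refine Finset.sum_congr rfl fun x _ => ?_
    rw [Finset.mul_sum]
    refine Finset.sum_congr rfl fun y _ => ?_
    have h2 := hop_prod (n := n) N (extN (N + 1) ψ) (extN_out _ ψ) (extN_sect _ ψ) x y
    rw [mul_left_comm, ← h2, sum_occBoxC]
    congr 1
    refine Finset.sum_congr rfl fun ρ _ => ?_
    split_ifs with h
    · rw [bM_mulVec, bM_mulVec, h]
    · rw [extN_sect (N + 1) ψ (valC ρ + Pi.single x 1)]
      · ring
      · rw [sum_add_single]; omega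
  simp only [h1]
  symm
  rw [Finset.sum_comm]
  refine Finset.sum_congr rfl fun x _ => ?_
  rw [Finset.sum_comm]
  refine Finset.sum_congr rfl fun y _ => ?_
  rw [← Finset.mul_sum, Finset.sum_comm]
  congr 1
  refine Finset.sum_congr rfl fun ρ _ => ?_
  rw [Finset.sum_ite_eq, if_pos]
  rw [Finset.mem_range]
  exact lt_of_le_of_lt (sum_valC_le ρ) hR

/-- Total norm in the labelled picture. -/
theorem norm_eq {e : V → V → ℝ} (hc : ∀ x y, ∑ k, e k x * e k y = if x = y then 1 else 0)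
    (ho : ∀ k l, ∑ x, e k x * e l x = if k = l then 1 else 0) (ψ : (V → Fin (n + 1)) → ℝ) {R : ℕ}
    (hR : n * Fintype.card V < R) :
    ∑ N ∈ range R, ∑ k : Fin N → V, four e (wf N (extN N ψ)) k ^ 2 = ∑ σ, ψ σ ^ 2 := by
  have hS := spec_of hc ho
  have h1 : ∀ N : ℕ, ∑ k : Fin N → V, four e (wf N (extN N ψ)) k ^ 2 =
      ∑ σ, if ∑ x, valC σ x = N then ψ σ * ψ σ else 0 := by
    intro N
    rw [parseval hS, ← wf_extN]
    exact Finset.sum_congr rfl fun x _ => by ring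
  rw [Finset.sum_congr rfl fun N _ => h1 N, Finset.sum_comm]
  refine Finset.sum_congr rfl fun σ _ => ?_
  rw [Finset.sum_ite_eq, if_pos]
  · ring
  · rw [Finset.mem_range]
    exact lt_of_le_of_lt (sum_valC_le σ) hR

/-- Bessel's inequality for the embedding of the hard-core space. -/
lemma bessel_emb {ι : Type*} (I : Finset ι) (ψ : ι → (V → Fin (n + 1)) → ℝ)
    (h1 : ∀ i ∈ I, ∑ σ, ψ i σ ^ 2 = 1)
    (h2 : ∀ i ∈ I, ∀ j ∈ I, i ≠ j → ∑ σ, ψ i σ * ψ j σ = 0) (N : ℕ) (Φ : (Fin N → V) → ℝ) :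
    ∑ i ∈ I, (∑ x, Φ x * wf N (extN N (ψ i)) x) ^ 2 ≤ ∑ x, Φ x ^ 2 := by
  classical
  set χ : (V → Fin (n + 1)) → ℝ := fun σ =>
    ∑ x : Fin N → V, if valC σ = occ x then Φ x / Real.sqrt (cnt N (occ x)) else 0 with hχ
  have hL : ∀ f : (V → Fin (n + 1)) → ℝ, ∑ x, Φ x * wf N (extN N f) x = ∑ σ, χ σ * f σ := by
    intro f
    simp only [hχ, Finset.sum_mul]
    rw [Finset.sum_comm]
    refine Finset.sum_congr rfl fun x _ => ?_
    rw [wf, extN_eq_sum N f (occ x) (sum_occ x), Finset.sum_div, Finset.mul_sum]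
    refine Finset.sum_congr rfl fun σ _ => ?_
    split_ifs
    · ring
    · ring
  have hb := bessel I ψ χ h1 h2
  simp only [hL]
  refine hb.trans ?_
  set X := ∑ σ, χ σ ^ 2 with hX
  have hX0 : 0 ≤ X := Finset.sum_nonneg fun _ _ => sq_nonneg _
  have e1 : X = ∑ x, Φ x * wf N (extN N χ) x := by
    rw [hL, hX]
    exact Finset.sum_congr rfl fun σ _ => by ring
  have e2 : X ^ 2 ≤ (∑ x, Φ x ^ 2) * ∑ x, wf N (extN N χ) x ^ 2 := by
    rw [e1]
    exact Finset.sum_mul_sq_le_sq_mul_sq _ _ _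
  have e3 : ∑ x, wf N (extN N χ) x ^ 2 ≤ X := by
    have : ∑ x, wf N (extN N χ) x ^ 2 = ∑ x, wf N (extN N χ) x * wf N (extN N χ) x :=
      Finset.sum_congr rfl fun x _ => by ring
    rw [this, wf_extN, hX]
    refine Finset.sum_le_sum fun σ _ => ?_
    split_ifs
    · exact le_of_eq (by ring)
    · positivity
  have hΦ0 : 0 ≤ ∑ x, Φ x ^ 2 := Finset.sum_nonneg fun _ _ => sq_nonneg _
  by_contra hcon
  push Not at hcon
  have hXpos : 0 < X := lt_of_le_of_lt hΦ0 hcon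
  have : X ^ 2 ≤ (∑ x, Φ x ^ 2) * X := e2.trans (mul_le_mul_of_nonneg_left e3 hΦ0)
  nlinarith

/-- `∑_m e^{-x·m} ≤ ∏ (1 - e^{-x_k})⁻¹`. -/
lemma sum_occ_le {xe : V → ℝ} (hx : ∀ k, 0 < xe k) (R : ℕ) :
    ∑ N ∈ range R, ∑ m ∈ occImg V N, Real.exp (-∑ k, xe k * (m k : ℝ)) ≤
      ∏ k, (1 - Real.exp (-xe k))⁻¹ := by
  classical
  have hdisj : Set.PairwiseDisjoint (↑(range R)) (fun N => occImg V N) := by
    intro N _ N' _ hne
    rw [Function.onFun, Finset.disjoint_left]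
    intro m hm hm'
    obtain ⟨k, _, hk⟩ := Finset.mem_image.1 hm
    obtain ⟨k', _, hk'⟩ := Finset.mem_image.1 hm'
    apply hne
    rw [← sum_occ k, ← sum_occ k', hk, hk']
  rw [← Finset.sum_biUnion hdisj]
  have hsub : (range R).biUnion (fun N => occImg V N) ⊆
      Fintype.piFinset fun _ : V => range (R + 1) := by
    intro m hm
    obtain ⟨N, hN, hm⟩ := Finset.mem_biUnion.1 hm
    obtain ⟨k, _, hk⟩ := Finset.mem_image.1 hm
    rw [Fintype.mem_piFinset]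
    intro v
    rw [Finset.mem_range]
    have h1 : m v ≤ ∑ w, m w := Finset.single_le_sum (fun _ _ => Nat.zero_le _) (Finset.mem_univ v)
    have h2 : ∑ w, m w = N := by rw [← hk, sum_occ]
    have h3 := Finset.mem_range.1 hN
    omega
  calc ∑ m ∈ (range R).biUnion (fun N => occImg V N), Real.exp (-∑ k, xe k * (m k : ℝ))
      ≤ ∑ m ∈ Fintype.piFinset fun _ : V => range (R + 1), Real.exp (-∑ k, xe k * (m k : ℝ)) :=
        Finset.sum_le_sum_of_subset_of_nonneg hsub fun _ _ _ => (Real.exp_pos _).le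
    _ = ∑ m ∈ Fintype.piFinset fun _ : V => range (R + 1), ∏ k, Real.exp (-xe k) ^ (m k) := by
        refine Finset.sum_congr rfl fun m _ => ?_
        rw [← Finset.sum_neg_distrib, Real.exp_sum]
        refine Finset.prod_congr rfl fun k _ => ?_
        rw [← Real.exp_nat_mul]
        congr 1; ring
    _ = ∏ k, ∑ j ∈ range (R + 1), Real.exp (-xe k) ^ j :=
        (Finset.prod_univ_sum (fun _ : V => range (R + 1))
          (fun k j => Real.exp (-xe k) ^ j)).symm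
    _ ≤ ∏ k, (1 - Real.exp (-xe k))⁻¹ := by
        refine Finset.prod_le_prod (fun k _ => Finset.sum_nonneg fun _ _ => by positivity)
          fun k _ => ?_
        have h1 : Real.exp (-xe k) < 1 := by
          rw [Real.exp_lt_one_iff]; linarith [hx k]
        have h2 := geom_sum_eq h1.ne (R + 1)
        rw [h2, ← neg_sub 1 (Real.exp (-xe k)), ← neg_sub 1 (Real.exp (-xe k) ^ (R + 1)), neg_div_neg_eq,
          div_eq_mul_inv]
        have h3 : 0 < 1 - Real.exp (-xe k) := by linarith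
        have h4 : 1 - Real.exp (-xe k) ^ (R + 1) ≤ 1 := by
          have : 0 ≤ Real.exp (-xe k) ^ (R + 1) := by positivity
          linarith
        calc (1 - Real.exp (-xe k) ^ (R + 1)) * (1 - Real.exp (-xe k))⁻¹
            ≤ 1 * (1 - Real.exp (-xe k))⁻¹ :=
              mul_le_mul_of_nonneg_right h4 (inv_nonneg.2 h3.le)
          _ = _ := one_mul _

/-- Berezin-Lieb for a family of orthonormal vectors. -/
theorem sum_exp_le {ι : Type*} (I : Finset ι) (E : ι → ℝ) (ψ : ι → (V → Fin (n + 1)) → ℝ)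
    (h1 : ∀ i ∈ I, ∑ σ, ψ i σ ^ 2 = 1)
    (h2 : ∀ i ∈ I, ∀ j ∈ I, i ≠ j → ∑ σ, ψ i σ * ψ j σ = 0)
    {e : V → V → ℝ} (hc : ∀ x y, ∑ k, e k x * e k y = if x = y then 1 else 0)
    (ho : ∀ k l, ∑ x, e k x * e l x = if k = l then 1 else 0) {xe : V → ℝ} (hx : ∀ k, 0 < xe k)
    {M : Matrix V V ℝ} (hM : ∀ a b, M a b = ∑ k, xe k * e k a * e k b)
    (hE : ∀ i ∈ I, ψ i ⬝ᵥ (GamM n M *ᵥ ψ i) ≤ E i) :
    ∑ i ∈ I, Real.exp (-E i) ≤ ∏ k, (1 - Real.exp (-xe k))⁻¹ := by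
  classical
  have hS := spec_of hc ho
  set R : ℕ := n * Fintype.card V + 1 with hR
  set w : ι → (N : ℕ) → (V → ℕ) → ℝ := fun i N m =>
    ∑ k : Fin N → V, if occ k = m then four e (wf N (extN N (ψ i))) k ^ 2 else 0 with hw
  have hw0 : ∀ i N m, 0 ≤ w i N m := fun i N m =>
    Finset.sum_nonneg fun k _ => by split_ifs <;> positivity
  have hfib : ∀ (i : ι) (N : ℕ) (g : (V → ℕ) → ℝ), ∑ m ∈ occImg V N, g m * w i N m =
      ∑ k : Fin N → V, g (occ k) * four e (wf N (extN N (ψ i))) k ^ 2 := by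
    intro i N g
    simp only [hw, Finset.mul_sum]
    rw [Finset.sum_comm]
    refine Finset.sum_congr rfl fun k _ => ?_
    rw [Finset.sum_eq_single (occ k)]
    · rw [if_pos rfl]
    · intro m _ hm
      rw [if_neg (Ne.symm hm), mul_zero]
    · intro hk
      exact absurd (Finset.mem_image_of_mem _ (Finset.mem_univ k)) hk
  set T : Finset (Σ _ : ℕ, V → ℕ) := (range (R + 1)).sigma fun N => occImg V N with hT
  have hone : ∀ i ∈ I, ∑ p ∈ T, w i p.1 p.2 = 1 := by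
    intro i hi
    rw [hT, Finset.sum_sigma]
    have h3 : ∀ N : ℕ, ∑ m ∈ occImg V N, w i N m =
        ∑ k : Fin N → V, four e (wf N (extN N (ψ i))) k ^ 2 := by
      intro N
      have := hfib i N (fun _ => 1)
      simpa using this
    rw [Finset.sum_congr rfl fun N _ => h3 N, norm_eq hc ho (ψ i) (R := R + 1) (by omega), h1 i hi]
  have hform : ∀ i ∈ I, ψ i ⬝ᵥ (GamM n M *ᵥ ψ i) =
      ∑ p ∈ T, w i p.1 p.2 * ∑ k, xe k * (p.2 k : ℝ) := by
    intro i hi
    rw [form_eq hc ho hM (ψ i) (R := R) (by omega), hT, Finset.sum_sigma]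
    refine Finset.sum_congr rfl fun N _ => ?_
    have h3 := hfib i N (fun m => ∑ k, xe k * (m k : ℝ))
    rw [Finset.sum_congr rfl fun m _ => mul_comm (w i N m) _, h3]
    refine Finset.sum_congr rfl fun k _ => ?_
    rw [sum_lam_occ]
  have hle : ∀ p ∈ T, ∑ i ∈ I, w i p.1 p.2 ≤ 1 := by
    rintro ⟨N, m⟩ hp
    rw [hT, Finset.mem_sigma] at hp
    obtain ⟨k0, _, hk0⟩ := Finset.mem_image.1 hp.2
    change occ k0 = m at hk0
    change ∑ i ∈ I, w i N m ≤ 1
    have hcn : (0 : ℝ) < cnt N m := by rw [← hk0]; exact cnt_occ_pos k0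
    have hwm : ∀ i, w i N m = cnt N m * four e (wf N (extN N (ψ i))) k0 ^ 2 := by
      intro i
      simp only [hw]
      rw [cnt_eq_sum]
      push_cast
      rw [Finset.sum_mul]
      refine Finset.sum_congr rfl fun k _ => ?_
      split_ifs with hk
      · rw [one_mul, four_occ hS _ (wf_perm _) (hk.trans hk0.symm)]
      · rw [zero_mul]
    set Φ : (Fin N → V) → ℝ := fun x => ∑ k : Fin N → V, if occ k = m then tens e k x else 0 with hΦ
    have hΦF : ∀ i, ∑ x, Φ x * wf N (extN N (ψ i)) x = cnt N m * four e (wf N (extN N (ψ i))) k0 := by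
      intro i
      simp only [hΦ, Finset.sum_mul]
      rw [Finset.sum_comm, cnt_eq_sum]
      push_cast
      rw [Finset.sum_mul]
      refine Finset.sum_congr rfl fun k _ => ?_
      by_cases hk : occ k = m
      · simp only [if_pos hk, one_mul]
        rw [four_occ hS _ (wf_perm _) (hk0.trans hk.symm)]
        rfl
      · simp only [if_neg hk, zero_mul, Finset.sum_const_zero]
    have hΦ2 : ∑ x, Φ x ^ 2 = cnt N m := by
      have h1 : ∀ x, Φ x ^ 2 = ∑ k : Fin N → V, ∑ l : Fin N → V,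
          (if occ k = m then (1 : ℝ) else 0) * (if occ l = m then (1 : ℝ) else 0) *
            (tens e k x * tens e l x) := by
        intro x
        rw [sq]
        simp only [hΦ]
        rw [Finset.sum_mul_sum]
        refine Finset.sum_congr rfl fun k _ => Finset.sum_congr rfl fun l _ => ?_
        by_cases hk : occ k = m <;> by_cases hl : occ l = m <;> simp [hk, hl]
      simp only [h1]
      rw [Finset.sum_comm, cnt_eq_sum]
      push_cast
      refine Finset.sum_congr rfl fun k _ => ?_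
      rw [Finset.sum_comm]
      simp only [← Finset.mul_sum, tens_orth hS]
      rw [Finset.sum_eq_single k]
      · by_cases hk : occ k = m <;> simp [hk]
      · intro l _ hl
        rw [if_neg (Ne.symm hl), mul_zero]
      · simp
    have hb := bessel_emb I ψ h1 h2 N Φ
    rw [hΦ2] at hb
    simp only [hΦF] at hb
    have h4 : ∑ i ∈ I, ((cnt N m : ℝ) * four e (wf N (extN N (ψ i))) k0) ^ 2 =
        cnt N m * ∑ i ∈ I, w i N m := by
      rw [Finset.mul_sum]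
      exact Finset.sum_congr rfl fun i _ => by rw [hwm]; ring
    rw [h4] at hb
    by_contra hcon
    push Not at hcon
    have : (cnt N m : ℝ) * 1 < cnt N m * ∑ i ∈ I, w i N m := mul_lt_mul_of_pos_left hcon hcn
    linarith
  have hterm : ∀ i ∈ I, Real.exp (-E i) ≤
      ∑ p ∈ T, w i p.1 p.2 * Real.exp (-∑ k, xe k * (p.2 k : ℝ)) := by
    intro i hi
    have h3 : Real.exp (∑ p ∈ T, w i p.1 p.2 * (-∑ k, xe k * (p.2 k : ℝ))) ≤
        ∑ p ∈ T, w i p.1 p.2 * Real.exp (-∑ k, xe k * (p.2 k : ℝ)) := by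
      have := convexOn_exp.map_sum_le (t := T) (w := fun p => w i p.1 p.2)
        (p := fun p => -∑ k, xe k * (p.2 k : ℝ)) (fun p _ => hw0 i p.1 p.2) (hone i hi)
        (fun p _ => Set.mem_univ _)
      simpa [smul_eq_mul] using this
    have h5 : ∑ p ∈ T, w i p.1 p.2 * (-∑ k, xe k * (p.2 k : ℝ)) =
        -(ψ i ⬝ᵥ (GamM n M *ᵥ ψ i)) := by
      rw [hform i hi, ← Finset.sum_neg_distrib]
      exact Finset.sum_congr rfl fun p _ => by ring
    rw [h5] at h3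
    exact (Real.exp_le_exp.2 (neg_le_neg (hE i hi))).trans h3
  calc ∑ i ∈ I, Real.exp (-E i)
      ≤ ∑ i ∈ I, ∑ p ∈ T, w i p.1 p.2 * Real.exp (-∑ k, xe k * (p.2 k : ℝ)) :=
        Finset.sum_le_sum hterm
    _ = ∑ p ∈ T, (∑ i ∈ I, w i p.1 p.2) * Real.exp (-∑ k, xe k * (p.2 k : ℝ)) := by
        rw [Finset.sum_comm]
        exact Finset.sum_congr rfl fun p _ => by rw [Finset.sum_mul]
    _ ≤ ∑ p ∈ T, Real.exp (-∑ k, xe k * (p.2 k : ℝ)) := by
        refine Finset.sum_le_sum fun p hp => ?_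
        calc (∑ i ∈ I, w i p.1 p.2) * Real.exp (-∑ k, xe k * (p.2 k : ℝ))
            ≤ 1 * Real.exp (-∑ k, xe k * (p.2 k : ℝ)) :=
              mul_le_mul_of_nonneg_right (hle p hp) (Real.exp_pos _).le
          _ = _ := one_mul _
    _ = ∑ N ∈ range (R + 1), ∑ m ∈ occImg V N, Real.exp (-∑ k, xe k * (m k : ℝ)) := by
        rw [hT, Finset.sum_sigma]
    _ ≤ _ := sum_occ_le hx (R + 1)

/-- Spectral decomposition of the trace of the exponential. -/
lemma trace_exp_neg_spec {κ : Type*} [Fintype κ] [DecidableEq κ] {A : Matrix κ κ ℝ}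
    (hA : A.IsHermitian) :
    ∃ (E : κ → ℝ) (ψ : κ → κ → ℝ), (∀ i, ∑ σ, ψ i σ ^ 2 = 1) ∧
      (∀ i j, i ≠ j → ∑ σ, ψ i σ * ψ j σ = 0) ∧ (∀ i, ψ i ⬝ᵥ (A *ᵥ ψ i) = E i) ∧
      trace (NormedSpace.exp (-A)) = ∑ i, Real.exp (-E i) := by
  set U : Matrix κ κ ℝ := (hA.eigenvectorUnitary : Matrix κ κ ℝ) with hU
  have hstar : star U = Uᵀ := by
    ext i j
    rw [Matrix.star_apply, Matrix.transpose_apply]; simp
  have hUU : Uᵀ * U = 1 := by rw [← hstar]; exact Unitary.coe_star_mul_self _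
  have hUU' : U * Uᵀ = 1 := by rw [← hstar]; exact Unitary.coe_mul_star_self _
  set b : κ → ℝ := hA.eigenvalues with hb
  have hspec : A = U * diagonal b * Uᵀ := by
    have h := hA.spectral_theorem
    rw [Unitary.conjStarAlgAut_apply] at h
    rw [← hstar]
    exact h
  have hort : ∀ i j, ∑ σ, U σ i * U σ j = if i = j then 1 else 0 := by
    intro i j
    have h := congrFun (congrFun hUU i) j
    rw [Matrix.mul_apply, Matrix.one_apply] at h
    exact h
  have hcol : A * U = U * diagonal b := by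
    calc A * U = U * diagonal b * Uᵀ * U := by rw [← hspec]
      _ = U * diagonal b := by rw [Matrix.mul_assoc, hUU, Matrix.mul_one]
  refine ⟨b, fun i σ => U σ i, ?_, ?_, ?_, ?_⟩
  · intro i
    have h := hort i i
    rw [if_pos rfl] at h
    rw [← h]
    exact Finset.sum_congr rfl fun σ _ => by ring
  · intro i j hij
    have h := hort i j
    rw [if_neg hij] at h
    exact h
  · intro i
    have h : A *ᵥ (fun σ => U σ i) = fun σ => b i * U σ i := by
      funext σ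
      have h2 := congrFun (congrFun hcol σ) i
      rw [Matrix.mul_diagonal, Matrix.mul_apply] at h2
      rw [Matrix.mulVec, dotProduct, h2]
      ring
    rw [h]
    have h3 := hort i i
    rw [if_pos rfl] at h3
    calc (fun σ => U σ i) ⬝ᵥ (fun σ => b i * U σ i) = b i * ∑ σ, U σ i * U σ i := by
          rw [dotProduct, Finset.mul_sum]
          exact Finset.sum_congr rfl fun σ _ => by ring
      _ = b i := by rw [h3, mul_one]
  · have hUinv : U⁻¹ = Uᵀ := Matrix.inv_eq_right_inv hUU'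
    have hunit : IsUnit U := IsUnit.of_mul_eq_one _ hUU'
    have h1 : -A = U * diagonal (fun i => -b i) * U⁻¹ := by
      rw [hUinv]
      conv_lhs => rw [hspec]
      have : diagonal (fun i => -b i) = -diagonal b := by
        rw [← Matrix.diagonal_neg]
      rw [this, Matrix.mul_neg, Matrix.neg_mul]
    rw [h1, Matrix.exp_conj _ _ hunit, Matrix.exp_diagonal, Matrix.trace_mul_comm,
      ← Matrix.mul_assoc, hUinv, hUU, Matrix.one_mul, Matrix.trace_diagonal]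
    refine Finset.sum_congr rfl fun i _ => ?_
    rw [Pi.coe_exp, Real.exp_eq_exp_ℝ]

/-- **Berezin-Lieb**: if `A ≥ dΓ(M)` as forms on the space of occupations at most `n`, and `M` has
eigenvalues `xe k > 0`, then `Tr e^{-A} ≤ ∏ (1 - e^{-xe k})⁻¹`. -/
theorem trace_exp_le {A : Matrix (V → Fin (n + 1)) (V → Fin (n + 1)) ℝ} (hA : A.IsHermitian)
    {e : V → V → ℝ} (hc : ∀ x y, ∑ k, e k x * e k y = if x = y then 1 else 0)
    (ho : ∀ k l, ∑ x, e k x * e l x = if k = l then 1 else 0) {xe : V → ℝ} (hx : ∀ k, 0 < xe k)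
    {M : Matrix V V ℝ} (hM : ∀ a b, M a b = ∑ k, xe k * e k a * e k b)
    (hle : ∀ ψ : (V → Fin (n + 1)) → ℝ, ψ ⬝ᵥ (GamM n M *ᵥ ψ) ≤ ψ ⬝ᵥ (A *ᵥ ψ)) :
    trace (NormedSpace.exp (-A)) ≤ ∏ k, (1 - Real.exp (-xe k))⁻¹ := by
  obtain ⟨E, ψ, h1, h2, h3, h4⟩ := trace_exp_neg_spec hA
  rw [h4]
  exact sum_exp_le Finset.univ E ψ (fun i _ => h1 i) (fun i _ j _ hij => h2 i j hij) hc ho hx hM
    fun i _ => (hle (ψ i)).trans (h3 i).le

theorem log_trace_exp_le {A : Matrix (V → Fin (n + 1)) (V → Fin (n + 1)) ℝ} (hA : A.IsHermitian)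
    {e : V → V → ℝ} (hc : ∀ x y, ∑ k, e k x * e k y = if x = y then 1 else 0)
    (ho : ∀ k l, ∑ x, e k x * e l x = if k = l then 1 else 0) {xe : V → ℝ} (hx : ∀ k, 0 < xe k)
    {M : Matrix V V ℝ} (hM : ∀ a b, M a b = ∑ k, xe k * e k a * e k b)
    (hle : ∀ ψ : (V → Fin (n + 1)) → ℝ, ψ ⬝ᵥ (GamM n M *ᵥ ψ) ≤ ψ ⬝ᵥ (A *ᵥ ψ)) :
    Real.log (trace (NormedSpace.exp (-A))) ≤ ∑ k, -Real.log (1 - Real.exp (-xe k)) := by
  have h1 := trace_exp_le hA hc ho hx hM hle
  have hpos : ∀ k, 0 < 1 - Real.exp (-xe k) := fun k => by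
    have : Real.exp (-xe k) < 1 := by rw [Real.exp_lt_one_iff]; linarith [hx k]
    linarith
  have h0 : 0 < trace (NormedSpace.exp (-A)) := by
    obtain ⟨E, ψ, -, -, -, h4⟩ := trace_exp_neg_spec hA
    rw [h4]
    exact Finset.sum_pos (fun i _ => Real.exp_pos _) Finset.univ_nonempty
  refine (Real.log_le_log h0 h1).trans ?_
  rw [Real.log_prod fun k _ => (inv_pos.2 (hpos k)).ne']
  exact le_of_eq (Finset.sum_congr rfl fun k _ => Real.log_inv _)

lemma GamM_isHermitian {M : Matrix V V ℝ} (hM : M.IsHermitian) : (GamM n M).IsHermitian := by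
  have hs : ∀ x y, M x y = M y x := fun x y => by
    have := hM.apply x y
    simpa using this.symm
  unfold Matrix.IsHermitian GamM
  rw [Matrix.conjTranspose_sum]
  have h1 : ∀ x y, (M x y • ((bM n x)ᵀ * bM n y))ᴴ = M y x • ((bM n y)ᵀ * bM n x) := by
    intro x y
    ext i j
    rw [Matrix.conjTranspose_apply, star_trivial, Matrix.smul_apply, Matrix.smul_apply, hs x y,
      Matrix.mul_apply, Matrix.mul_apply]
    congr 1
    exact Finset.sum_congr rfl fun k _ => mul_comm _ _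
  have h2 : ∀ x, (∑ y, M x y • ((bM n x)ᵀ * bM n y))ᴴ = ∑ y, M y x • ((bM n y)ᵀ * bM n x) := by
    intro x
    rw [Matrix.conjTranspose_sum]
    exact Finset.sum_congr rfl fun y _ => h1 x y
  rw [Finset.sum_congr rfl fun x _ => h2 x, Finset.sum_comm]

/-- The eigenbasis of a real symmetric matrix. -/
lemma eig_data {M : Matrix V V ℝ} (hM : M.IsHermitian) :
    (∀ x y, ∑ k, (hM.eigenvectorUnitary : Matrix V V ℝ) x k *
      (hM.eigenvectorUnitary : Matrix V V ℝ) y k = if x = y then 1 else 0) ∧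
    (∀ k l, ∑ x, (hM.eigenvectorUnitary : Matrix V V ℝ) x k *
      (hM.eigenvectorUnitary : Matrix V V ℝ) x l = if k = l then 1 else 0) ∧
    (∀ a b, M a b = ∑ k, hM.eigenvalues k * (hM.eigenvectorUnitary : Matrix V V ℝ) a k *
      (hM.eigenvectorUnitary : Matrix V V ℝ) b k) := by
  set U : Matrix V V ℝ := (hM.eigenvectorUnitary : Matrix V V ℝ) with hU
  have hstar : star U = Uᵀ := by
    ext i j
    rw [Matrix.star_apply, Matrix.transpose_apply]; simp
  have hUU : Uᵀ * U = 1 := by rw [← hstar]; exact Unitary.coe_star_mul_self _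
  have hUU' : U * Uᵀ = 1 := by rw [← hstar]; exact Unitary.coe_mul_star_self _
  have hspec : M = U * diagonal hM.eigenvalues * Uᵀ := by
    have h := hM.spectral_theorem
    rw [Unitary.conjStarAlgAut_apply] at h
    rw [← hstar]
    exact h
  refine ⟨fun x y => ?_, fun k l => ?_, fun a b => ?_⟩
  · have h := congrFun (congrFun hUU' x) y
    rw [Matrix.mul_apply, Matrix.one_apply] at h
    exact h
  · have h := congrFun (congrFun hUU k) l
    rw [Matrix.mul_apply, Matrix.one_apply] at h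
    exact h
  · have h := congrFun (congrFun hspec a) b
    rw [Matrix.mul_apply] at h
    rw [h]
    refine Finset.sum_congr rfl fun k _ => ?_
    rw [Matrix.mul_diagonal, Matrix.transpose_apply]
    ring

/-- Hard-core trace bound for a positive definite one-particle matrix. -/
theorem hc_trace_le {M : Matrix V V ℝ} (hM : M.PosDef) :
    trace (NormedSpace.exp (-GamM n M)) ≤
      ∏ k, (1 - Real.exp (-hM.isHermitian.eigenvalues k))⁻¹ := by
  obtain ⟨h1, h2, h3⟩ := eig_data hM.isHermitian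
  exact trace_exp_le (GamM_isHermitian hM.isHermitian)
    (e := fun k x => (hM.isHermitian.eigenvectorUnitary : Matrix V V ℝ) x k) h1 h2
    (fun k => hM.eigenvalues_pos k) h3 fun ψ => le_rfl

theorem log_hc_trace_le {A : Matrix (V → Fin (n + 1)) (V → Fin (n + 1)) ℝ} (hA : A.IsHermitian)
    {M : Matrix V V ℝ} (hM : M.PosDef)
    (hle : ∀ ψ : (V → Fin (n + 1)) → ℝ, ψ ⬝ᵥ (GamM n M *ᵥ ψ) ≤ ψ ⬝ᵥ (A *ᵥ ψ)) :
    Real.log (trace (NormedSpace.exp (-A))) ≤
      ∑ k, -Real.log (1 - Real.exp (-hM.isHermitian.eigenvalues k)) := by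
  obtain ⟨h1, h2, h3⟩ := eig_data hM.isHermitian
  exact log_trace_exp_le hA
    (e := fun k x => (hM.isHermitian.eigenvectorUnitary : Matrix V V ℝ) x k) h1 h2
    (fun k => hM.eigenvalues_pos k) h3 hle

end Vale.Agent.P361.LRO.S3.HC
end

section

set_option linter.unusedSectionVars false

/-!
P361, stage 3, (V1): the Berezin-Lieb inequality for `hcM`.
-/

namespace Vale.Agent.P361.LRO.S3

open Finset Matrix

variable {V : Type} [Fintype V] [DecidableEq V]

theorem aM_eq_bM (x : V) : aM x = HC.bM 1 x := by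
  ext σ τ
  rw [aM_apply, HC.bM, Matrix.of_apply]
  have hiff : (σ x = 0 ∧ τ = Function.update σ x 1) ↔
      (HC.valC (n := 1) τ = HC.valC (n := 1) σ + Pi.single x 1) := by
    constructor
    · rintro ⟨h0, rfl⟩
      funext v
      rw [Pi.add_apply]
      by_cases hv : v = x
      · subst hv
        simp [HC.valC, h0]
      · simp [HC.valC, hv]
    · intro h
      have hx : (τ x : ℕ) = (σ x : ℕ) + 1 := by
        have := congrFun h x
        simpa [HC.valC] using this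
      have hτ := (τ x).2
      have h0 : σ x = 0 := by
        apply Fin.ext
        change (σ x : ℕ) = 0
        omega
      refine ⟨h0, ?_⟩
      funext v
      by_cases hv : v = x
      · subst hv
        rw [Function.update_self]
        apply Fin.ext
        change (τ v : ℕ) = 1
        rw [hx, h0]; rfl
      · rw [Function.update_of_ne hv]
        apply Fin.ext
        have := congrFun h v
        simpa [HC.valC, hv] using this
  by_cases h : σ x = 0 ∧ τ = Function.update σ x 1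
  · rw [if_pos h, if_pos (hiff.1 h)]
    have : (HC.valC (n := 1) σ x : ℝ) = 0 := by
      simp [HC.valC, h.1]
    rw [this]
    simp
  · rw [if_neg h, if_neg fun h' => h (hiff.2 h')]

theorem hcM_eq_GamM (a : V → V → ℝ) : hcM a = HC.GamM 1 (Matrix.of a) := by
  rw [hcM, HC.GamM]
  refine Finset.sum_congr rfl fun x _ => Finset.sum_congr rfl fun y _ => ?_
  rw [aM_eq_bM, aM_eq_bM, Matrix.of_apply]

/-- (V1), general form: if `A ≥ hcM a` and `a = ∑ al_k e_k e_kᵀ` with `al_k > 0`. -/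
theorem trace_exp_le_of_form {A : Matrix (V → Fin 2) (V → Fin 2) ℝ} (hA : A.IsHermitian)
    {a : V → V → ℝ} {e : V → V → ℝ} {al : V → ℝ}
    (hc : ∀ x y, ∑ k, e k x * e k y = if x = y then 1 else 0)
    (ho : ∀ k l, ∑ x, e k x * e l x = if k = l then 1 else 0) (hal : ∀ k, 0 < al k)
    (ha : ∀ x y, a x y = ∑ k, al k * (e k x * e k y))
    (hle : ∀ ψ : (V → Fin 2) → ℝ, ψ ⬝ᵥ (hcM a *ᵥ ψ) ≤ ψ ⬝ᵥ (A *ᵥ ψ)) :
    trace (NormedSpace.exp (-A)) ≤ ∏ k, (1 - Real.exp (-al k))⁻¹ := by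
  refine HC.trace_exp_le (n := 1) (M := Matrix.of a) hA hc ho hal (fun x y => ?_) fun ψ => ?_
  · rw [Matrix.of_apply, ha]
    exact Finset.sum_congr rfl fun k _ => (mul_assoc _ _ _).symm
  · rw [← hcM_eq_GamM]
    exact hle ψ

theorem log_trace_exp_le_of_form {A : Matrix (V → Fin 2) (V → Fin 2) ℝ} (hA : A.IsHermitian)
    {a : V → V → ℝ} {e : V → V → ℝ} {al : V → ℝ}
    (hc : ∀ x y, ∑ k, e k x * e k y = if x = y then 1 else 0)
    (ho : ∀ k l, ∑ x, e k x * e l x = if k = l then 1 else 0) (hal : ∀ k, 0 < al k)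
    (ha : ∀ x y, a x y = ∑ k, al k * (e k x * e k y))
    (hle : ∀ ψ : (V → Fin 2) → ℝ, ψ ⬝ᵥ (hcM a *ᵥ ψ) ≤ ψ ⬝ᵥ (A *ᵥ ψ)) :
    Real.log (trace (NormedSpace.exp (-A))) ≤ ∑ k, -Real.log (1 - Real.exp (-al k)) := by
  refine HC.log_trace_exp_le (n := 1) (M := Matrix.of a) hA hc ho hal (fun x y => ?_) fun ψ => ?_
  · rw [Matrix.of_apply, ha]
    exact Finset.sum_congr rfl fun k _ => (mul_assoc _ _ _).symm
  · rw [← hcM_eq_GamM]
    exact hle ψ

/-- `a = ∑ al_k e_k e_kᵀ` is symmetric, hence `hcM a` is Hermitian. -/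
theorem hcM_isHermitian_of {a : V → V → ℝ} {e : V → V → ℝ} {al : V → ℝ}
    (ha : ∀ x y, a x y = ∑ k, al k * (e k x * e k y)) : (hcM a).IsHermitian := by
  rw [hcM_eq_GamM]
  apply HC.GamM_isHermitian
  ext x y
  rw [Matrix.conjTranspose_apply, Matrix.of_apply, Matrix.of_apply, star_trivial, ha, ha]
  exact Finset.sum_congr rfl fun k _ => by ring

/-- **(V1)** -/
theorem hcM_trace_le {a : V → V → ℝ} {e : V → V → ℝ} {al : V → ℝ}
    (hc : ∀ x y, ∑ k, e k x * e k y = if x = y then 1 else 0)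
    (ho : ∀ k l, ∑ x, e k x * e l x = if k = l then 1 else 0) (hal : ∀ k, 0 < al k)
    (ha : ∀ x y, a x y = ∑ k, al k * (e k x * e k y)) :
    trace (NormedSpace.exp (-(hcM a))) ≤ ∏ k, (1 - Real.exp (-al k))⁻¹ :=
  trace_exp_le_of_form (hcM_isHermitian_of ha) hc ho hal ha fun _ => le_rfl

/-- **(V1)**, logarithmic form -/
theorem log_hcM_trace_le {a : V → V → ℝ} {e : V → V → ℝ} {al : V → ℝ}
    (hc : ∀ x y, ∑ k, e k x * e k y = if x = y then 1 else 0)
    (ho : ∀ k l, ∑ x, e k x * e l x = if k = l then 1 else 0) (hal : ∀ k, 0 < al k)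
    (ha : ∀ x y, a x y = ∑ k, al k * (e k x * e k y)) :
    Real.log (trace (NormedSpace.exp (-(hcM a)))) ≤ ∑ k, -Real.log (1 - Real.exp (-al k)) :=
  log_trace_exp_le_of_form (hcM_isHermitian_of ha) hc ho hal ha fun _ => le_rfl

end Vale.Agent.P361.LRO.S3
end

section

/-!
P361 stage 3, all spins: one-particle part on `Tor n × Fin s` (inter-site edges between all
copies).  Modes symmetric in the copies have energy `s * tq k`, all other modes energy `3 s`.
-/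

namespace Vale.Agent.P361.LRO.S3S

open Finset Vale.Agent.P361.LRO.S3.OB Vale.Agent.P361.LRO.GenS

noncomputable section

/-! ### An orthonormal basis of `ℝ^s` containing the constant vector -/

set_option linter.unusedSectionVars false

theorem exists_wb (s : ℕ) [NeZero s] : ∃ w : Fin s → Fin s → ℝ,
    (∀ j l, ∑ i, w j i * w l i = if j = l then 1 else 0) ∧
    (∀ i k, ∑ j, w j i * w j k = if i = k then 1 else 0) ∧
    ∀ i, w 0 i = 1 / Real.sqrt s := by
  classical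
  have hs : (0 : ℝ) < s := by exact_mod_cast Nat.pos_of_ne_zero (NeZero.ne s)
  have hsq : (0 : ℝ) < Real.sqrt s := Real.sqrt_pos.2 hs
  let v : Fin s → EuclideanSpace ℝ (Fin s) := fun _ =>
    WithLp.toLp 2 (fun _ => 1 / Real.sqrt s)
  have hv : Orthonormal ℝ (Set.domRestrict ({0} : Set (Fin s)) v) := by
    rw [orthonormal_iff_ite]
    intro a b
    have hab : a = b := by
      apply Subtype.ext
      rw [Set.mem_singleton_iff.1 a.2, Set.mem_singleton_iff.1 b.2]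
    rw [if_pos hab]
    have h0 : ∀ a : ({0} : Set (Fin s)), Set.domRestrict ({0} : Set (Fin s)) v a =
        WithLp.toLp 2 (fun _ => 1 / Real.sqrt s) := fun a => rfl
    rw [h0, h0]
    simp only [PiLp.inner_apply, RCLike.inner_apply, conj_trivial]
    rw [Finset.sum_const, Finset.card_univ, Fintype.card_fin, nsmul_eq_mul, div_mul_div_comm,
      Real.mul_self_sqrt hs.le]
    field_simp
  obtain ⟨b, hb⟩ := hv.exists_orthonormalBasis_extension_of_card_eq
    (ι := Fin s) (by simp)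
  refine ⟨fun j i => b j i, ?_, ?_, ?_⟩
  · intro j l
    have h := orthonormal_iff_ite.1 b.orthonormal l j
    simp only [PiLp.inner_apply, RCLike.inner_apply, conj_trivial] at h
    rw [h]
    by_cases hjl : j = l
    · subst hjl; simp
    · rw [if_neg hjl, if_neg fun h => hjl h.symm]
  · have hM : ∀ j l, ∑ i, b j i * b l i = if j = l then (1 : ℝ) else 0 := by
      intro j l
      have h := orthonormal_iff_ite.1 b.orthonormal l j
      simp only [PiLp.inner_apply, RCLike.inner_apply, conj_trivial] at h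
      rw [h]
      by_cases hjl : j = l
      · subst hjl; simp
      · rw [if_neg hjl, if_neg fun h => hjl h.symm]
    have h1 : (Matrix.of fun j i => b j i) * (Matrix.of fun j i => b j i).transpose =
        (1 : Matrix (Fin s) (Fin s) ℝ) := by
      ext j l
      rw [Matrix.mul_apply, Matrix.one_apply]
      exact hM j l
    have h2 := mul_eq_one_comm.1 h1
    intro i k
    have h3 := congrFun (congrFun h2 i) k
    rw [Matrix.mul_apply, Matrix.one_apply] at h3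
    exact h3
  · intro i
    have := hb 0 (Set.mem_singleton _)
    simp only [v] at this
    simp only [this]

/-- The basis of `ℝ^s`. -/
def wb {s : ℕ} [NeZero s] (j i : Fin s) : ℝ := Classical.choose (exists_wb s) j i

variable {n s : ℕ} [NeZero n] [NeZero s]

lemma wb_orth (j l : Fin s) : ∑ i, wb j i * wb l i = if j = l then 1 else 0 :=
  (Classical.choose_spec (exists_wb s)).1 j l

lemma wb_compl (i k : Fin s) : ∑ j, wb j i * wb j k = if i = k then 1 else 0 :=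
  (Classical.choose_spec (exists_wb s)).2.1 i k

lemma wb_zero (i : Fin s) : wb 0 i = 1 / Real.sqrt s :=
  (Classical.choose_spec (exists_wb s)).2.2 i

lemma sqrt_pos' : (0 : ℝ) < Real.sqrt s := by
  have hs : (0 : ℝ) < s := by exact_mod_cast Nat.pos_of_ne_zero (NeZero.ne s)
  exact Real.sqrt_pos.2 hs

lemma sum_wb (j c : Fin s) : ∑ i, wb j i = if j = 0 then s * wb j c else 0 := by
  have h1 : ∀ i, wb j i = Real.sqrt s * (wb j i * wb 0 i) := by
    intro i
    rw [wb_zero]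
    have := sqrt_pos' (s := s)
    field_simp
  rw [Finset.sum_congr rfl fun i _ => h1 i, ← Finset.mul_sum, wb_orth]
  by_cases hj : j = 0
  · subst hj
    rw [if_pos rfl, if_pos rfl, wb_zero, mul_one]
    have hs : (0 : ℝ) ≤ s := Nat.cast_nonneg s
    have h2 := sqrt_pos' (s := s)
    have h3 := Real.mul_self_sqrt hs
    field_simp
    nlinarith
  · rw [if_neg hj, if_neg hj, mul_zero]

/-! ### The basis on `Tor n × Fin s` -/

/-- The basis. -/
def hbS (k x : Tor n × Fin s) : ℝ := hb k.1 x.1 * wb k.2 x.2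

lemma hbS_orth (k l : Tor n × Fin s) : ∑ x, hbS k x * hbS l x = if k = l then 1 else 0 := by
  unfold hbS
  rw [Fintype.sum_prod_type]
  have h1 : ∀ x : Tor n, ∑ i : Fin s, hb k.1 x * wb k.2 i * (hb l.1 x * wb l.2 i) =
      hb k.1 x * hb l.1 x * (if k.2 = l.2 then 1 else 0) := by
    intro x
    rw [← wb_orth, Finset.mul_sum]
    exact Finset.sum_congr rfl fun i _ => by ring
  simp only [h1]
  rw [← Finset.sum_mul, hb_orth]
  by_cases h : k = l
  · subst h; simp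
  · rw [if_neg h]
    by_cases h2 : k.1 = l.1
    · have h3 : k.2 ≠ l.2 := fun h3 => h (Prod.ext h2 h3)
      rw [if_neg h3, mul_zero]
    · rw [if_neg h2, zero_mul]

lemma hbS_compl (x y : Tor n × Fin s) : ∑ k, hbS k x * hbS k y = if x = y then 1 else 0 := by
  unfold hbS
  rw [Fintype.sum_prod_type]
  have h1 : ∀ k : Tor n, ∑ j : Fin s, hb k x.1 * wb j x.2 * (hb k y.1 * wb j y.2) =
      hb k x.1 * hb k y.1 * (if x.2 = y.2 then 1 else 0) := by
    intro k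
    rw [← wb_compl, Finset.mul_sum]
    exact Finset.sum_congr rfl fun i _ => by ring
  simp only [h1]
  rw [← Finset.sum_mul, hb_compl]
  by_cases h : x = y
  · subst h; simp
  · rw [if_neg h]
    by_cases h2 : x.1 = y.1
    · have h3 : x.2 ≠ y.2 := fun h3 => h (Prod.ext h2 h3)
      rw [if_neg h3, mul_zero]
    · rw [if_neg h2, zero_mul]

/-- The one-particle kinetic matrix. -/
def tmatS (n s : ℕ) [NeZero n] (u v : Tor n × Fin s) : ℝ :=
  ((interE n s).map fun e => dd e.1 e.2 u v).sum / 2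

/-- Its eigenvalues. -/
def tqS (k : Tor n × Fin s) : ℝ := if k.2 = 0 then s * tq k.1 else 3 * s

lemma tmatS_eq (u v : Tor n × Fin s) :
    tmatS n s u v = (∑ j : Fin 3, ∑ z : Tor n, ∑ i : Fin s, ∑ l : Fin s,
      dd (z, i) (z + Pi.single j 1, l) u v) / 2 := by
  unfold tmatS interE edges
  congr 1
  have h0 : ∀ (l : List (Tor n × Tor n)) (g : (Tor n × Fin s) × (Tor n × Fin s) → ℝ),
      ((l.flatMap fun e => (List.finRange s).flatMap fun i => (List.finRange s).map fun j =>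
        ((e.1, i), (e.2, j))).map g).sum =
      (l.map fun e => ∑ i : Fin s, ∑ j : Fin s, g ((e.1, i), (e.2, j))).sum := by
    intro l g
    induction l with
    | nil => simp
    | cons e l ih =>
      rw [List.flatMap_cons, List.map_append, List.sum_append, ih, List.map_cons, List.sum_cons]
      congr 1
      have h3 : ∀ f : Fin s → ℝ, ((List.finRange s).map f).sum = ∑ i, f i := by
        intro f
        rw [← List.sum_ofFn, List.ofFn_eq_map]
      rw [List.map_flatMap, ← h3]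
      have h4 : ∀ (q : List (Fin s)) (F : Fin s → List ℝ),
          (q.flatMap F).sum = (q.map fun i => (F i).sum).sum := by
        intro q F
        induction q with
        | nil => simp
        | cons a q ih => rw [List.flatMap_cons, List.sum_append, ih, List.map_cons, List.sum_cons]
      rw [h4]
      congr 1
      refine List.map_congr_left fun i _ => ?_
      rw [List.map_map, ← h3]
      rfl
  rw [h0, List.map_map]
  have h1 := Finset.sum_map_toList (Finset.univ : Finset (Tor n × Fin 3))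
    (fun z => ∑ i : Fin s, ∑ j : Fin s, dd (z.1, i) (z.1 + Pi.single z.2 1, j) u v)
  have h2 : ((fun e : Tor n × Tor n => ∑ i : Fin s, ∑ j : Fin s, dd (e.1, i) (e.2, j) u v) ∘
      fun z : Tor n × Fin 3 => (z.1, z.1 + Pi.single z.2 1)) =
      fun z => ∑ i : Fin s, ∑ j : Fin s, dd (z.1, i) (z.1 + Pi.single z.2 1, j) u v := rfl
  rw [h2, h1, Fintype.sum_prod_type, Finset.sum_comm]

/-- A translated family of pairs, applied to a basis vector. -/
lemma ddS_shift (k : Tor n × Fin s) (u : Tor n × Fin s) (a b : Tor n) :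
    ∑ z, ∑ i : Fin s, ∑ l : Fin s, ∑ v, dd (z + a, i) (z + b, l) u v * hbS k v =
      2 * s * hbS k u - 2 * (chi k.1 (a - b)).re * (hb k.1 u.1 * ∑ i, wb k.2 i) := by
  simp only [dd_apply]
  obtain ⟨p, q⟩ := k
  obtain ⟨x, c⟩ := u
  have h1 : ∀ (z : Tor n) (i l : Fin s),
      ((if (x, c) = (z + a, i) then (1 : ℝ) else 0) - (if (x, c) = (z + b, l) then 1 else 0)) *
      (hbS (p, q) (z + a, i) - hbS (p, q) (z + b, l)) =
      (if i = c then (if z = x - a then hb p (z + a) * wb q i - hb p (z + b) * wb q l else 0)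
        else 0) -
      (if l = c then (if z = x - b then hb p (z + a) * wb q i - hb p (z + b) * wb q l else 0)
        else 0) := by
    intro z i l
    have e1 : ((x, c) = (z + a, i)) ↔ (i = c ∧ z = x - a) := by
      rw [Prod.mk.injEq]
      constructor
      · rintro ⟨h, h'⟩; exact ⟨h'.symm, by rw [h]; abel⟩
      · rintro ⟨h, h'⟩; exact ⟨by rw [h']; abel, h.symm⟩
    have e2 : ((x, c) = (z + b, l)) ↔ (l = c ∧ z = x - b) := by
      rw [Prod.mk.injEq]
      constructor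
      · rintro ⟨h, h'⟩; exact ⟨h'.symm, by rw [h]; abel⟩
      · rintro ⟨h, h'⟩; exact ⟨by rw [h']; abel, h.symm⟩
    simp only [e1, e2, hbS, ite_and]
    split_ifs <;> ring
  simp only [h1]
  have h2 : ∀ z : Tor n, ∑ i : Fin s, ∑ l : Fin s,
      ((if i = c then (if z = x - a then hb p (z + a) * wb q i - hb p (z + b) * wb q l else 0)
        else 0) -
      (if l = c then (if z = x - b then hb p (z + a) * wb q i - hb p (z + b) * wb q l else 0)
        else 0)) =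
      (if z = x - a then s * (hb p (z + a) * wb q c) - hb p (z + b) * ∑ l, wb q l else 0) -
      (if z = x - b then hb p (z + a) * ∑ i, wb q i - s * (hb p (z + b) * wb q c) else 0) := by
    intro z
    simp only [Finset.sum_sub_distrib]
    congr 1
    · rw [Finset.sum_comm]
      simp only [Finset.sum_ite_eq', Finset.mem_univ, if_true]
      split_ifs
      · rw [Finset.sum_sub_distrib, Finset.sum_const, Finset.card_univ, Fintype.card_fin,
          nsmul_eq_mul, ← Finset.mul_sum]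
      · simp
    · simp only [Finset.sum_ite_eq', Finset.mem_univ, if_true]
      split_ifs
      · rw [Finset.sum_sub_distrib, Finset.sum_const, Finset.card_univ, Fintype.card_fin,
          nsmul_eq_mul, ← Finset.mul_sum]
      · simp
  simp only [h2]
  rw [Finset.sum_sub_distrib, Finset.sum_ite_eq' Finset.univ, Finset.sum_ite_eq' Finset.univ,
    if_pos (Finset.mem_univ _), if_pos (Finset.mem_univ _)]
  have h3 := hb_avg p x (a - b)
  have e1 : x - a + a = x := by abel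
  have e2 : x - a + b = x - (a - b) := by abel
  have e3 : x - b + a = x + (a - b) := by abel
  have e4 : x - b + b = x := by abel
  rw [e1, e2, e3, e4]
  simp only [hbS]
  linear_combination (-(∑ i, wb q i)) * h3

lemma tmatS_hb (k u : Tor n × Fin s) : ∑ v, tmatS n s u v * hbS k v = tqS k * hbS k u := by
  simp only [tmatS_eq]
  have h1 : ∀ v, (∑ j : Fin 3, ∑ z : Tor n, ∑ i : Fin s, ∑ l : Fin s,
      dd (z, i) (z + Pi.single j 1, l) u v) / 2 * hbS k v =
      ∑ j : Fin 3, ∑ z : Tor n, ∑ i : Fin s, ∑ l : Fin s,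
        (dd (z, i) (z + Pi.single j 1, l) u v * hbS k v) / 2 := by
    intro v
    rw [div_mul_eq_mul_div, Finset.sum_mul, Finset.sum_div]
    refine Finset.sum_congr rfl fun j _ => ?_
    rw [Finset.sum_mul, Finset.sum_div]
    refine Finset.sum_congr rfl fun z _ => ?_
    rw [Finset.sum_mul, Finset.sum_div]
    refine Finset.sum_congr rfl fun i _ => ?_
    rw [Finset.sum_mul, Finset.sum_div]
  simp only [h1]
  rw [Finset.sum_comm]
  have h2 : ∀ j : Fin 3, ∑ v, ∑ z : Tor n, ∑ i : Fin s, ∑ l : Fin s,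
      (dd (z, i) (z + Pi.single j 1, l) u v * hbS k v) / 2 =
      s * hbS k u - (chi k.1 (Pi.single j 1)).re * (hb k.1 u.1 * ∑ i, wb k.2 i) := by
    intro j
    have h3 := ddS_shift k u 0 (Pi.single j 1)
    simp only [add_zero] at h3
    have h4 : (chi k.1 (0 - Pi.single j 1)).re = (chi k.1 (Pi.single j 1)).re := by
      rw [zero_sub, chi_neg, Complex.conj_re]
    rw [h4] at h3
    have h5 : ∑ v, ∑ z : Tor n, ∑ i : Fin s, ∑ l : Fin s,
        (dd (z, i) (z + Pi.single j 1, l) u v * hbS k v) / 2 =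
        (∑ z, ∑ i : Fin s, ∑ l : Fin s, ∑ v, dd (z, i) (z + Pi.single j 1, l) u v * hbS k v) / 2 := by
      rw [Finset.sum_comm, Finset.sum_div]
      refine Finset.sum_congr rfl fun z _ => ?_
      rw [Finset.sum_comm, Finset.sum_div]
      refine Finset.sum_congr rfl fun i _ => ?_
      rw [Finset.sum_comm, Finset.sum_div]
      refine Finset.sum_congr rfl fun l _ => ?_
      rw [Finset.sum_div]
    rw [h5, h3]
    ring
  rw [Finset.sum_congr rfl fun j _ => h2 j, sum_wb k.2 u.2]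
  unfold tqS tq
  simp only [hbS, Fin.sum_univ_three]
  split_ifs <;> ring

/-- The one-particle matrix of the block reward, averaged over all translates of the cube. -/
def gmatS (n s : ℕ) [NeZero n] (w : ℕ) (u v : Tor n × Fin s) : ℝ :=
  (∑ z : Tor n, ∑ a : Fin 3 → Fin w, ∑ b : Fin 3 → Fin w, ∑ i : Fin s, ∑ l : Fin s,
    dd (z + io n a, i) (z + io n b, l) u v) / (2 * ((w : ℝ) ^ 6 * s))

/-- Its eigenvalues. -/
def gqS (w : ℕ) (k : Tor n × Fin s) : ℝ := if k.2 = 0 then gq w k.1 else if w = 0 then 0 else 1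

lemma gmatS_hb (w : ℕ) (k u : Tor n × Fin s) :
    ∑ v, gmatS n s w u v * hbS k v = gqS w k * hbS k u := by
  have hs : (0 : ℝ) < s := by exact_mod_cast Nat.pos_of_ne_zero (NeZero.ne s)
  unfold gmatS
  have h1 : ∀ v, (∑ z : Tor n, ∑ a : Fin 3 → Fin w, ∑ b : Fin 3 → Fin w, ∑ i : Fin s,
      ∑ l : Fin s, dd (z + io n a, i) (z + io n b, l) u v) / (2 * ((w : ℝ) ^ 6 * s)) * hbS k v =
      (∑ z : Tor n, ∑ a : Fin 3 → Fin w, ∑ b : Fin 3 → Fin w, ∑ i : Fin s, ∑ l : Fin s,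
        dd (z + io n a, i) (z + io n b, l) u v * hbS k v) / (2 * ((w : ℝ) ^ 6 * s)) := by
    intro v
    rw [div_mul_eq_mul_div]
    congr 1
    simp only [Finset.sum_mul]
  simp only [h1]
  rw [← Finset.sum_div]
  have h2 : ∑ v, ∑ z : Tor n, ∑ a : Fin 3 → Fin w, ∑ b : Fin 3 → Fin w, ∑ i : Fin s,
      ∑ l : Fin s, dd (z + io n a, i) (z + io n b, l) u v * hbS k v =
      ∑ a : Fin 3 → Fin w, ∑ b : Fin 3 → Fin w, ∑ z : Tor n, ∑ i : Fin s, ∑ l : Fin s, ∑ v,
        dd (z + io n a, i) (z + io n b, l) u v * hbS k v := by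
    rw [Finset.sum_comm]
    have h3 : ∀ z : Tor n, ∑ v, ∑ a : Fin 3 → Fin w, ∑ b : Fin 3 → Fin w, ∑ i : Fin s,
        ∑ l : Fin s, dd (z + io n a, i) (z + io n b, l) u v * hbS k v =
        ∑ a : Fin 3 → Fin w, ∑ b : Fin 3 → Fin w, ∑ i : Fin s, ∑ l : Fin s, ∑ v,
        dd (z + io n a, i) (z + io n b, l) u v * hbS k v := by
      intro z
      rw [Finset.sum_comm]
      refine Finset.sum_congr rfl fun a _ => ?_
      rw [Finset.sum_comm]
      refine Finset.sum_congr rfl fun b _ => ?_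
      rw [Finset.sum_comm]
      refine Finset.sum_congr rfl fun i _ => ?_
      rw [Finset.sum_comm]
    rw [Finset.sum_congr rfl fun z _ => h3 z, Finset.sum_comm]
    refine Finset.sum_congr rfl fun a _ => ?_
    rw [Finset.sum_comm]
  rw [h2]
  simp only [ddS_shift]
  rw [sum_wb k.2 u.2]
  have hcard : (∑ _a : Fin 3 → Fin w, ∑ _b : Fin 3 → Fin w, (1 : ℝ)) = (w : ℝ) ^ 6 := by
    simp
    ring
  unfold gqS
  rcases Nat.eq_zero_or_pos w with hw | hw
  · subst hw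
    simp [gq]
  have hw' : (0 : ℝ) < (w : ℝ) ^ 6 := by positivity
  by_cases hk : k.2 = 0
  · rw [if_pos hk, if_pos hk]
    unfold gq
    have e1 : ∀ a b : Fin 3 → Fin w, 2 * (s : ℝ) * hbS k u - 2 * (chi k.1 (io n a - io n b)).re *
        (hb k.1 u.1 * (s * wb k.2 u.2)) =
        (1 - (chi k.1 (io n a - io n b)).re) * (2 * s * hbS k u) := by
      intro a b
      simp only [hbS]
      ring
    simp only [e1]
    simp only [← Finset.sum_mul]
    field_simp
  · rw [if_neg hk, if_neg hk, if_neg hw.ne']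
    have e1 : ∀ a b : Fin 3 → Fin w, 2 * (s : ℝ) * hbS k u - 2 * (chi k.1 (io n a - io n b)).re *
        (hb k.1 u.1 * 0) = 1 * (2 * s * hbS k u) := by
      intro a b
      ring
    simp only [e1]
    simp only [← Finset.sum_mul]
    rw [hcard]
    field_simp

lemma tqS_nonneg (k : Tor n × Fin s) : 0 ≤ tqS k := by
  unfold tqS
  split_ifs
  · exact mul_nonneg (Nat.cast_nonneg s) (tq_nonneg _)
  · positivity

lemma gqS_nonneg (w : ℕ) (k : Tor n × Fin s) : 0 ≤ gqS w k := by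
  unfold gqS
  split_ifs
  · exact gq_nonneg _ _
  · exact le_rfl
  · exact zero_le_one

lemma gqS_le_one (w : ℕ) (k : Tor n × Fin s) : gqS w k ≤ 1 := by
  unfold gqS
  split_ifs
  · exact gq_le_one _ _
  · exact zero_le_one
  · exact le_rfl

lemma gqS_le (w : ℕ) (k : Tor n × Fin s) : gqS w k ≤ 12 * (w : ℝ) ^ 2 * tqS k := by
  have hs : (1 : ℝ) ≤ s := by exact_mod_cast Nat.pos_of_ne_zero (NeZero.ne s)
  unfold gqS tqS
  split_ifs with h1 h2
  · refine (gq_le w k.1).trans ?_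
    refine mul_le_mul_of_nonneg_left ?_ (by positivity)
    exact le_mul_of_one_le_left (tq_nonneg _) hs
  · positivity
  · have hw : (1 : ℝ) ≤ w := by exact_mod_cast Nat.pos_of_ne_zero h2
    have hw2 : (1 : ℝ) ≤ (w : ℝ) ^ 2 := by nlinarith
    nlinarith

/-- The eigenvalues stay positive. -/
lemma eigS_pos {w : ℕ} {β h lam μ : ℝ} (hβ : 0 < β) (hh : 0 < h) (hlam : 0 ≤ lam)
    (hμ : 12 * lam * (w : ℝ) ^ 2 ≤ μ) (hμ1 : μ ≤ 1) (k : Tor n × Fin s) :
    β * ((1 - μ) * tqS k + h) ≤ β * (tqS k + h - lam * gqS w k) ∧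
      0 < β * ((1 - μ) * tqS k + h) := by
  have h1 := tqS_nonneg k
  have h2 := mul_le_mul_of_nonneg_left (gqS_le w k) hlam
  constructor
  · refine mul_le_mul_of_nonneg_left ?_ hβ.le
    have h3 : lam * (12 * (w : ℝ) ^ 2 * tqS k) ≤ μ * tqS k := by
      have := mul_le_mul_of_nonneg_right hμ h1
      linarith
    linarith
  · have : 0 ≤ (1 - μ) * tqS k := mul_nonneg (by linarith) h1
    positivity

/-- (S1) for `s` copies: the free gas with the block reward. -/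
theorem sum_logS_le {w : ℕ} {β h lam μ : ℝ} (hβ : 0 < β) (hh : 0 < h) (hlam : 0 ≤ lam)
    (hμ : 12 * lam * (w : ℝ) ^ 2 ≤ μ) (hμ1 : μ ≤ 1) :
    ∑ k : Tor n × Fin s, -Real.log (1 - Real.exp (-(β * (tqS k + h - lam * gqS w k)))) ≤
      ∑ k : Tor n × Fin s, -Real.log (1 - Real.exp (-(β * (tqS k + h)))) +
        β * lam * ∑ k : Tor n × Fin s, 1 / (Real.exp (β * ((1 - μ) * tqS k + h)) - 1) := by
  rw [Finset.mul_sum, ← Finset.sum_add_distrib]
  refine Finset.sum_le_sum fun k _ => ?_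
  obtain ⟨h1, h2⟩ := eigS_pos (w := w) hβ hh hlam hμ hμ1 k
  have hg0 := gqS_nonneg w k
  have hg1 := gqS_le_one w k
  have hd : 0 ≤ β * (lam * gqS w k) := mul_nonneg hβ.le (mul_nonneg hlam hg0)
  have e1 : β * (tqS k + h - lam * gqS w k) = β * (tqS k + h) - β * (lam * gqS w k) := by ring
  have h3 := neg_log_shift (x := β * (tqS k + h)) hd (by linarith)
  rw [← e1] at h3
  refine h3.trans (add_le_add le_rfl ?_)
  have h4 := bose_anti h2 h1
  have h5 : β * (lam * gqS w k) ≤ β * lam := by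
    rw [← mul_assoc]
    exact mul_le_of_le_one_right (mul_nonneg hβ.le hlam) hg1
  have h6 : 0 ≤ 1 / (Real.exp (β * ((1 - μ) * tqS k + h)) - 1) := by
    have : 1 < Real.exp (β * ((1 - μ) * tqS k + h)) := by
      rw [Real.one_lt_exp_iff]; exact h2
    exact one_div_nonneg.2 (by linarith)
  exact (mul_le_mul_of_nonneg_left h4 hd).trans (mul_le_mul_of_nonneg_right h5 h6)

/-! ### Separation of the symmetric modes -/

lemma sum_modes (F : ℝ → ℝ) :
    ∑ k : Tor n × Fin s, F (tqS k) =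
      ∑ k : Tor n, F (s * tq k) + (n : ℝ) ^ 3 * ((s : ℝ) - 1) * F (3 * s) := by
  rw [Fintype.sum_prod_type]
  have h1 : ∀ k : Tor n, ∑ j : Fin s, F (tqS (k, j)) =
      F (s * tq k) + ((s : ℝ) - 1) * F (3 * s) := by
    intro k
    rw [← Finset.add_sum_erase Finset.univ _ (Finset.mem_univ (0 : Fin s))]
    congr 1
    have h2 : ∀ j ∈ Finset.univ.erase (0 : Fin s), F (tqS (k, j)) = F (3 * s) := by
      intro j hj
      have : j ≠ 0 := Finset.ne_of_mem_erase hj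
      unfold tqS
      rw [if_neg this]
    rw [Finset.sum_congr rfl h2, Finset.sum_const, Finset.card_erase_of_mem (Finset.mem_univ _),
      Finset.card_univ, Fintype.card_fin, nsmul_eq_mul, Nat.cast_sub
        (Nat.pos_of_ne_zero (NeZero.ne s)), Nat.cast_one]
  rw [Finset.sum_congr rfl fun k _ => h1 k, Finset.sum_add_distrib, Finset.sum_const,
    Finset.card_univ, nsmul_eq_mul]
  congr 1
  have hc : (Fintype.card (Tor n) : ℝ) = (n : ℝ) ^ 3 := by
    rw [Fintype.card_fun, ZMod.card, Fintype.card_fin]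
    push_cast
    ring
  rw [hc]
  ring

lemma neg_log_le_exp {x : ℝ} (hx : 1 ≤ x) : -Real.log (1 - Real.exp (-x)) ≤ 2 * Real.exp (-x) := by
  have h1 : Real.exp (-x) ≤ 1 / 2 := by
    have h2 : Real.exp (-x) ≤ Real.exp (-1) := Real.exp_le_exp.2 (by linarith)
    have h3 : Real.exp (-1) ≤ 1 / 2 := by
      rw [Real.exp_neg, inv_eq_one_div]
      exact one_div_le_one_div_of_le (by norm_num) (by linarith [Real.add_one_le_exp (1 : ℝ)])
    linarith
  have h0 := Real.exp_pos (-x)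
  have h4 : Real.log (1 - Real.exp (-x))⁻¹ ≤ (1 - Real.exp (-x))⁻¹ - 1 :=
    Real.log_le_sub_one_of_pos (by
      have : 0 < 1 - Real.exp (-x) := by linarith
      positivity)
  rw [Real.log_inv] at h4
  refine h4.trans ?_
  have h5 : 0 < 1 - Real.exp (-x) := by linarith
  rw [inv_eq_one_div, div_sub_one h5.ne', div_le_iff₀ h5]
  nlinarith

lemma bose_le_exp {x : ℝ} (hx : 1 ≤ x) : 1 / (Real.exp x - 1) ≤ 2 * Real.exp (-x) := by
  have h1 : 2 ≤ Real.exp x := by linarith [Real.add_one_le_exp x]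
  have h2 : Real.exp x * Real.exp (-x) = 1 := by rw [← Real.exp_add]; simp
  have h0 := Real.exp_pos (-x)
  rw [div_le_iff₀ (by linarith)]
  nlinarith

/-- The free gas for `s` copies, against the symmetric modes. -/
theorem sum_logS_le_sym {β h : ℝ} (hβ : 1 ≤ β) (hh : 0 < h) :
    ∑ k : Tor n × Fin s, -Real.log (1 - Real.exp (-(β * (tqS k + h)))) ≤
      ∑ k : Tor n, -Real.log (1 - Real.exp (-(β * (s * tq k + h)))) +
        (n : ℝ) ^ 3 * (2 * s * Real.exp (-(3 * β))) := by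
  have hs : (1 : ℝ) ≤ s := by exact_mod_cast Nat.pos_of_ne_zero (NeZero.ne s)
  rw [sum_modes (n := n) (s := s) fun t => -Real.log (1 - Real.exp (-(β * (t + h))))]
  refine add_le_add le_rfl ?_
  rw [mul_assoc]
  refine mul_le_mul_of_nonneg_left ?_ (by positivity)
  have hx : 3 * β ≤ β * (3 * s + h) := by nlinarith
  have h1 := neg_log_le_exp (x := β * (3 * s + h)) (by linarith)
  have h2 : Real.exp (-(β * (3 * s + h))) ≤ Real.exp (-(3 * β)) := Real.exp_le_exp.2 (by linarith)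
  have h3 := Real.exp_pos (-(3 * β))
  have h4 := Real.exp_pos (-(β * (3 * s + h)))
  calc ((s : ℝ) - 1) * -Real.log (1 - Real.exp (-(β * (3 * s + h))))
      ≤ ((s : ℝ) - 1) * (2 * Real.exp (-(β * (3 * s + h)))) :=
        mul_le_mul_of_nonneg_left h1 (by linarith)
    _ ≤ s * (2 * Real.exp (-(3 * β))) := by
        refine mul_le_mul (by linarith) (by linarith) (by positivity) (by linarith)
    _ = _ := by ring

/-- The density for `s` copies, against the symmetric modes. -/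
theorem sum_boseS_le_sym {β h μ : ℝ} (hβ : 1 ≤ β) (hh : 0 < h) (hμ1 : μ ≤ 1 / 2) :
    ∑ k : Tor n × Fin s, 1 / (Real.exp (β * ((1 - μ) * tqS k + h)) - 1) ≤
      ∑ k : Tor n, 1 / (Real.exp (β * ((1 - μ) * (s * tq k) + h)) - 1) +
        (n : ℝ) ^ 3 * (2 * s * Real.exp (-β)) := by
  have hs : (1 : ℝ) ≤ s := by exact_mod_cast Nat.pos_of_ne_zero (NeZero.ne s)
  rw [sum_modes (n := n) (s := s) fun t => 1 / (Real.exp (β * ((1 - μ) * t + h)) - 1)]
  refine add_le_add le_rfl ?_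
  rw [mul_assoc]
  refine mul_le_mul_of_nonneg_left ?_ (by positivity)
  have hx : β ≤ β * ((1 - μ) * (3 * s) + h) := by
    have h1 : 1 ≤ (1 - μ) * (3 * s) + h := by nlinarith
    nlinarith
  have h1 := bose_le_exp (x := β * ((1 - μ) * (3 * s) + h)) (by linarith)
  have h2 : Real.exp (-(β * ((1 - μ) * (3 * s) + h))) ≤ Real.exp (-β) :=
    Real.exp_le_exp.2 (by linarith)
  have h3 := Real.exp_pos (-β)
  have h4 := Real.exp_pos (-(β * ((1 - μ) * (3 * s) + h)))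
  calc ((s : ℝ) - 1) * (1 / (Real.exp (β * ((1 - μ) * (3 * s) + h)) - 1))
      ≤ ((s : ℝ) - 1) * (2 * Real.exp (-(β * ((1 - μ) * (3 * s) + h)))) :=
        mul_le_mul_of_nonneg_left h1 (by linarith)
    _ ≤ s * (2 * Real.exp (-β)) := by
        refine mul_le_mul (by linarith) (by linarith) (by positivity) (by linarith)
    _ = _ := by ring

end

end Vale.Agent.P361.LRO.S3S
end

section

/-!
P361, stage 3, all spins, block (M), row (B): the trace of the hard core gas on `Tor n × Fin s`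
with the one-particle matrix `β (t_inter + h - lam g)` (helper979).
-/

set_option linter.unusedSectionVars false

namespace Vale.Agent.P361.LRO.S3S.MeanBS

open Finset Matrix Vale.Agent.P361.LRO.GenS Vale.Agent.P361.LRO.S3

noncomputable section

section General

variable {V : Type} [Fintype V] [DecidableEq V]

/-- A kernel with the complete orthonormal system `e` of eigenvectors. -/
theorem kernel_eq {a : V → V → ℝ} {e : V → V → ℝ} {al : V → ℝ}
    (hc : ∀ x y, ∑ k, e k x * e k y = if x = y then 1 else 0)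
    (heig : ∀ k u, ∑ v, a u v * e k v = al k * e k u) (x y : V) :
    a x y = ∑ k, al k * (e k x * e k y) := by
  have h1 : a x y = ∑ v, a x v * ∑ k, e k v * e k y := by
    simp only [hc]
    simp
  rw [h1]
  simp only [Finset.mul_sum]
  rw [Finset.sum_comm]
  refine Finset.sum_congr rfl fun k _ => ?_
  rw [← mul_assoc, ← heig k x, Finset.sum_mul]
  exact Finset.sum_congr rfl fun v _ => by ring

theorem prod_inv_eq_exp {ι : Type*} (s : Finset ι) (f : ι → ℝ) (hf : ∀ k ∈ s, 0 < f k) :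
    ∏ k ∈ s, (f k)⁻¹ = Real.exp (∑ k ∈ s, -Real.log (f k)) := by
  rw [Real.exp_sum]
  refine Finset.prod_congr rfl fun k hk => ?_
  rw [Real.exp_neg, Real.exp_log (hf k hk)]

/-- **(V1)** for a kernel given by its eigenvectors. -/
theorem trace_le_of_eig {a : V → V → ℝ} {e : V → V → ℝ} {al : V → ℝ}
    (hc : ∀ x y, ∑ k, e k x * e k y = if x = y then 1 else 0)
    (ho : ∀ k l, ∑ x, e k x * e l x = if k = l then 1 else 0) (hal : ∀ k, 0 < al k)
    (heig : ∀ k u, ∑ v, a u v * e k v = al k * e k u) :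
    trace (NormedSpace.exp (-(hcM a))) ≤
      Real.exp (∑ k, -Real.log (1 - Real.exp (-al k))) := by
  rw [← prod_inv_eq_exp]
  · exact hcM_trace_le hc ho hal (kernel_eq hc heig)
  · intro k _
    have : Real.exp (-al k) < 1 := by
      rw [Real.exp_lt_one_iff]
      linarith [hal k]
    linarith

end General

variable {n s : ℕ} [NeZero n] [NeZero s]

theorem tL_eq_tmatS (u v : Tor n × Fin s) : Mean.tL (interE n s) u v = tmatS n s u v := by
  rw [Mean.tL, tmatS, mul_comm, one_div, ← div_eq_mul_inv]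
  rfl

theorem eig_all (w : ℕ) (β h lam : ℝ) (k u : Tor n × Fin s) :
    ∑ v, (β * (Mean.tL (interE n s) u v + h * Mean.oneK u v - lam * gmatS n s w u v)) * hbS k v =
      (β * (tqS k + h - lam * gqS w k)) * hbS k u := by
  have h1 : ∀ v, (β * (Mean.tL (interE n s) u v + h * Mean.oneK u v - lam * gmatS n s w u v)) *
      hbS k v = β * (tmatS n s u v * hbS k v) + β * h * (Mean.oneK u v * hbS k v) -
        β * lam * (gmatS n s w u v * hbS k v) := by
    intro v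
    rw [tL_eq_tmatS]
    ring
  simp only [h1]
  rw [Finset.sum_sub_distrib, Finset.sum_add_distrib, ← Finset.mul_sum, ← Finset.mul_sum,
    ← Finset.mul_sum, tmatS_hb, gmatS_hb]
  have h2 : ∑ v, Mean.oneK u v * hbS k v = hbS k u := by
    simp [Mean.oneK]
  rw [h2]
  ring

theorem gmatS_symm (w : ℕ) (u v : Tor n × Fin s) : gmatS n s w u v = gmatS n s w v u := by
  rw [kernel_eq (a := gmatS n s w) hbS_compl (gmatS_hb w) u v,
    kernel_eq (a := gmatS n s w) hbS_compl (gmatS_hb w) v u]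
  exact Finset.sum_congr rfl fun k _ => by ring

/-- **Row (B)** for `s` copies. -/
theorem trace_le {β h lam μ : ℝ} {w : ℕ} (hβ : 0 < β) (hh : 0 < h) (hlam : 0 ≤ lam)
    (hμ : 12 * lam * (w : ℝ) ^ 2 ≤ μ) (hμ1 : μ ≤ 1) :
    trace (NormedSpace.exp (-(hcM fun u v : Tor n × Fin s =>
        β * (Mean.tL (interE n s) u v + h * Mean.oneK u v - lam * gmatS n s w u v)))) ≤
      Real.exp (∑ k : Tor n × Fin s, -Real.log (1 - Real.exp
        (-(β * (tqS k + h - lam * gqS w k))))) := by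
  refine trace_le_of_eig hbS_compl hbS_orth (fun k => ?_) (eig_all w β h lam)
  obtain ⟨h1, h2⟩ := eigS_pos (w := w) hβ hh hlam hμ hμ1 k
  exact lt_of_lt_of_le h2 h1

/-- (B), (S1) and the separation of the symmetric modes. -/
theorem trace_le' {β h lam μ : ℝ} {w : ℕ} (hβ : 1 ≤ β) (hh : 0 < h) (hlam : 0 ≤ lam)
    (hμ : 12 * lam * (w : ℝ) ^ 2 ≤ μ) (hμ1 : μ ≤ 1 / 2) :
    trace (NormedSpace.exp (-(hcM fun u v : Tor n × Fin s =>
        β * (Mean.tL (interE n s) u v + h * Mean.oneK u v - lam * gmatS n s w u v)))) ≤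
      Real.exp ((∑ k : Tor n, -Real.log (1 - Real.exp (-(β * (s * OB.tq k + h)))) +
          (n : ℝ) ^ 3 * (2 * s * Real.exp (-(3 * β)))) +
        β * lam * (∑ k : Tor n, 1 / (Real.exp (β * ((1 - μ) * (s * OB.tq k) + h)) - 1) +
          (n : ℝ) ^ 3 * (2 * s * Real.exp (-β)))) := by
  have hβ0 : 0 < β := by linarith
  refine (trace_le hβ0 hh hlam hμ (by linarith)).trans (Real.exp_le_exp.2 ?_)
  refine (sum_logS_le hβ0 hh hlam hμ (by linarith)).trans ?_
  exact add_le_add (sum_logS_le_sym hβ hh)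
    (mul_le_mul_of_nonneg_left (sum_boseS_le_sym hβ hh hμ1) (mul_nonneg hβ0.le hlam))

end

end Vale.Agent.P361.LRO.S3S.MeanBS
end

section

/-!
P361 LRO, all spins: the start of the bootstrap (`h ≡ 1`).
-/

namespace Vale.Agent.P361.LRO.GenS

open Finset Matrix Filter Topology

noncomputable section

theorem base_rhoS (s : ℕ) (n : ℕ) [NeZero n] (M : ℕ) {β : ℝ} (hβ : 0 < β) (z : Tor n × Fin s) :
    rho (edgesS n s M) β (hS fun _ => 1) z ≤ Real.log 2 / β := by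
  have h1 : ∀ y : Tor n × Fin s, rho (edgesS n s M) β (hS fun _ => 1) y =
      rho (edgesS n s M) β (hS fun _ => 1) z := by
    rintro ⟨y, j⟩
    obtain ⟨x, i⟩ := z
    have h2 := transStmtS s n M β (fun _ => 1) x (y - x) i j
    rw [add_sub_cancel] at h2
    exact h2.symm
  have h2 := Bs.sum_rho_le (edgesS n s M) hβ
  have h3 : (hS fun _ => 1 : Tor n × Fin s → ℝ) = fun _ => 1 := rfl
  rw [← h3] at h2
  simp only [h1, Finset.sum_const, Finset.card_univ, nsmul_eq_mul] at h2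
  have hne : Nonempty (Tor n × Fin s) := ⟨z⟩
  have hc : (0 : ℝ) < Fintype.card (Tor n × Fin s) := by exact_mod_cast Fintype.card_pos
  rw [le_div_iff₀ hβ]
  have h4 : (Fintype.card (Tor n × Fin s) : ℝ) *
      (rho (edgesS n s M) β (hS fun _ => 1) z * β) ≤
      Fintype.card (Tor n × Fin s) * Real.log 2 := by linarith
  exact le_of_mul_le_mul_left h4 hc

theorem startStmtS (s : ℕ) : StartStmtS s :=
  ⟨Real.log 2, fun n _ M _ z hβ => base_rhoS s n M hβ z⟩

end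

end Vale.Agent.P361.LRO.GenS
end
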