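import Vale.Agent.P361.Bd4.B1
import Vale.Agent.P361.Bdl.B13
import Vale.Agent.P361.Bdl.B5
import Vale.Agent.P361.Bdl.B12
import Vale.Agent.P361.Bdl.B1
import Vale.Agent.P361.Bdl.B6
import Vale.Agent.P361.Bdl.B2
import Vale.Agent.P361.ModelB
import Vale.Agent.P361.Bdl.B7
import Vale.Agent.P361.Bdl.B9
import Vale.Agent.P361.Bdl.B10
import Vale.Agent.P361.Bdl.B4

set_option linter.all false

section

/-! # Stage 3, all spins: assembly, with the theorems of the blocks as hypotheses -/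

namespace Vale.Agent.P361.LRO.S3S

open Filter Topology Vale.Agent.P361.LRO.S3

theorem bloch_of_blocksS (s : ℕ)
    (hK : KappaStmt3S s) (hD : DirStmt3) (hDS : DirSharpStmt3) (hE : EnergyStmt3S s)
    (h0 : StartStmt3S s)
    (boot : KappaStmt3S s → DirStmt3 → EnergyStmt3S s → StartStmt3S s → BootStmt3S s)
    (mean : BootStmt3S s → MeanStmt3S s)
    (tail : BootStmt3S s → TailStmt3S s)
    (fin : KappaStmt3S s → BootStmt3S s → DirSharpStmt3 → MeanStmt3S s → TailStmt3S s →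
      FinalStmt3S s)
    (lim : FinalStmt3S s →
      Tendsto (fun β : ℝ => β ^ (3 / 2 : ℝ) * ((s : ℝ) / 2 - Model.spontMag s β)) atTop
        (𝓝 (BCS s))) :
    Tendsto (fun β : ℝ => β ^ (3 / 2 : ℝ) * ((s : ℝ) / 2 - Model.spontMag s β)) atTop
      (𝓝 (BCS s)) :=
  have hB : BootStmt3S s := boot hK hD hE h0
  lim (fin hK hB hDS (mean hB) (tail hB))

/-- The statement of the hand-in for all spins `S = n / 2`. -/
theorem answerS
    (H : ∀ n : ℕ, 1 ≤ n →
      Tendsto (fun β : ℝ => β ^ (3 / 2 : ℝ) * ((n : ℝ) / 2 - Model.spontMag n β)) atTop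
        (𝓝 (BCS n))) :
    ∀ n : ℕ, 1 ≤ n →
    (∀ β : ℝ, 0 < β →
      (∀ h : ℝ, Tendsto (fun N : ℕ => Model.finPressure n N β h) atTop (𝓝 (Model.pressure n β h))) ∧
      ConvexOn ℝ Set.univ (Model.pressure n β) ∧
      HasDerivWithinAt (Model.pressure n β) (Model.spontMag n β) (Set.Ioi 0) 0 ∧
      Model.spontMag n β ≤ (n : ℝ) / 2) ∧
    (∃ β₀ : ℝ, 0 < β₀ ∧ ∀ β : ℝ, β₀ ≤ β → 0 < Model.spontMag n β) ∧
    Tendsto (fun β : ℝ => Model.spontMag n β) atTop (𝓝 ((n : ℝ) / 2)) ∧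
    Tendsto (fun β : ℝ => β ^ (3 / 2 : ℝ) * ((n : ℝ) / 2 - Model.spontMag n β)) atTop
      (𝓝 ((riemannZeta (3 / 2)).re /
        (8 * Real.pi ^ (3 / 2 : ℝ) * ((n : ℝ) / 2) ^ (3 / 2 : ℝ)))) :=
  fun _ hn => answer_bloch hn (H _ hn)

end Vale.Agent.P361.LRO.S3S
end

section

/-!
# P361 LRO, stage 3 for all spins: the slots encoding for cells x whole circle (helper494)

A network on the nodes with copies `(k, (x, i))`, `i : Fin s`, becomes a network on the nodes of the
slots, `N s` physical layers, one site per node; the copies of a node of the extra slice are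
merged.  Long-window information on the first gives `Ind3.Local3` for the second.
-/

namespace Vale.Agent.P361.LRO.GenS

open Finset Vale.Agent.P361.LRO _root_.P361.LRO

noncomputable section

/-- Long-window information on a network with copies (scaled field `g`, physical field
`g / (s β)`, so that the slice parameters are `g / (2 N s)`). -/
structure LocalC3 (n s N W : ℕ) [NeZero n] (e : ℕ) (K c1 : ℝ) (b : Finset (Tor n)) (g : Tor n → ℝ)
    (c : NdS n s N → NdS n s N → ℝ) : Prop where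
  symm : ∀ u v, c u v = c v u
  nonneg : ∀ u v, 0 ≤ c u v
  tot : ∀ (k : Fin (N + 1)) (x : Tor n) (i : Fin s), k ≠ 0 →
    ∑ v, c (k, (x, i)) v ≤ g x / (2 * ((N * s : ℕ) : ℝ))
  long : ∀ (k l : Fin (N + 1)) (p x y : Tor n) (i j : Fin s), k ≠ 0 → (k : ℕ) + W ≤ l →
    x ∈ cube n p (2 * 3 ^ e) → y ∈ cube n p (2 * 3 ^ e) → g x = 1 → g y = 1 →
    c1 / (((N * s : ℕ) : ℝ) ^ 2 * 27 ^ e) ≤ c (k, (x, i)) (l, (y, j))
  contact : ∀ (k : Fin (N + 1)) (p x y : Tor n) (j : Fin s), W ≤ (k : ℕ) →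
    x ∈ b → x ∈ cube n p (2 * 3 ^ e) → y ∈ cube n p (2 * 3 ^ e) → g y = 1 →
    c1 * (K / b.card) / (((N * s : ℕ) : ℝ) * 27 ^ e) ≤ ∑ i, c (0, (x, i)) (k, (y, j))

theorem slot_gap {s N W : ℕ} {k l : Fin (N + 1)} {i j : Fin s} (hk : k ≠ 0) (hl : l ≠ 0)
    (h : (slotL s N k i : ℕ) + W * s ≤ (slotL s N l j : ℕ)) : (k : ℕ) + W ≤ l := by
  rw [slotL_val hk, slotL_val hl] at h
  have hi := i.2
  have hj := j.2
  have hk1 : 1 ≤ (k : ℕ) := Nat.one_le_iff_ne_zero.2 fun h => hk (Fin.ext h)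
  have hl1 : 1 ≤ (l : ℕ) := Nat.one_le_iff_ne_zero.2 fun h => hl (Fin.ext h)
  obtain ⟨k', hk'⟩ : ∃ k', (k : ℕ) = k' + 1 := ⟨(k : ℕ) - 1, by omega⟩
  obtain ⟨l', hl'⟩ : ∃ l', (l : ℕ) = l' + 1 := ⟨(l : ℕ) - 1, by omega⟩
  rw [hk', hl'] at h ⊢
  simp only [Nat.add_sub_cancel] at h
  by_contra hcon
  have h1 : l' + 1 ≤ k' + W := by omega
  have h2 : (l' + 1) * s ≤ (k' + W) * s := Nat.mul_le_mul_right s h1
  have h3 : (l' + 1) * s = l' * s + s := by ring
  have h4 : (k' + W) * s = k' * s + W * s := by ring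
  omega

theorem slot_far {s N W : ℕ} {k : Fin (N + 1)} {i : Fin s} (hk : k ≠ 0)
    (h : W * s ≤ (slotL s N k i : ℕ)) : W ≤ k := by
  rw [slotL_val hk] at h
  have hi := i.2
  have hk1 : 1 ≤ (k : ℕ) := Nat.one_le_iff_ne_zero.2 fun h => hk (Fin.ext h)
  obtain ⟨k', hk'⟩ : ∃ k', (k : ℕ) = k' + 1 := ⟨(k : ℕ) - 1, by omega⟩
  rw [hk'] at h ⊢
  simp only [Nat.add_sub_cancel] at h
  by_contra hcon
  have h1 : k' + 2 ≤ W := by omega
  have h2 : (k' + 2) * s ≤ W * s := Nat.mul_le_mul_right s h1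
  have h3 : (k' + 2) * s = k' * s + s + s := by ring
  omega

/-- The slots network satisfies the hypotheses of `Ind3.block3`. -/
theorem local3_slots {n s N W e : ℕ} [NeZero n] (hs : 0 < s) (hW : 0 < W) {K c1 : ℝ}
    {b : Finset (Tor n)} {g : Tor n → ℝ} {c : NdS n s N → NdS n s N → ℝ}
    (hc : LocalC3 n s N W e K c1 b g c) :
    Ind3.Local3 n (N * s) (W * s) e K c1 b g (mgC (slotF n s N) c) := by
  have hsec : ∀ u : Ind.Nd n (N * s), u.1 ≠ 0 → ∃ (k : Fin (N + 1)) (i : Fin s), k ≠ 0 ∧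
      slotF n s N (k, (u.2, i)) = u := by
    intro u hu
    obtain ⟨k, i, hk, h⟩ := exists_slot hs hu
    exact ⟨k, i, hk, Prod.ext h rfl⟩
  refine ⟨mgC_symm hc.symm, mgC_nonneg hc.nonneg, ?_, ?_, ?_⟩
  · intro k x hk
    obtain ⟨k', i, hk', h⟩ := hsec (k, x) hk
    have h1 := sum_mgC_le (f := slotF n s N) hc.nonneg (x := (k', (x, i)))
      (fun y hy => slotF_inj hk' hy)
    rw [h] at h1
    exact h1.trans (hc.tot k' x i hk')
  · intro k l p x y hk hkl hx hy hgx hgy
    have hWs : 0 < W * s := Nat.mul_pos hW hs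
    have hl : l ≠ 0 := by
      intro h
      rw [h, Fin.val_zero] at hkl
      omega
    obtain ⟨k', i, hk', h⟩ := hsec (k, x) hk
    obtain ⟨l', j, hl', h'⟩ := hsec (l, y) hl
    have e1 : slotL s N k' i = k := congrArg Prod.fst h
    have e2 : slotL s N l' j = l := congrArg Prod.fst h'
    have hgap : (k' : ℕ) + W ≤ l' := by
      refine slot_gap hk' hl' (i := i) (j := j) ?_
      rw [e1, e2]; exact hkl
    have h1 := hc.long k' l' p x y i j hk' hgap hx hy hgx hgy
    refine h1.trans ?_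
    have h2 := le_mgC (f := slotF n s N) hc.nonneg (x := (k', (x, i))) (y := (l', (y, j))) (by
      rw [h, h']
      intro h3
      have h4 : k = l := congrArg Prod.fst h3
      rw [h4] at hkl
      omega)
    rw [h, h'] at h2
    exact h2
  · intro k p x y hk hxb hx hy hgy
    have hWs : 0 < W * s := Nat.mul_pos hW hs
    have hk0 : k ≠ 0 := by
      intro h
      rw [h, Fin.val_zero] at hk
      omega
    obtain ⟨k', j, hk', h⟩ := hsec (k, y) hk0
    have e1 : slotL s N k' j = k := congrArg Prod.fst h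
    have hfar : W ≤ (k' : ℕ) := by
      refine slot_far hk' (i := j) ?_
      rw [e1]; exact hk
    have h1 := hc.contact k' p x y j hfar hxb hx hy hgy
    refine h1.trans ?_
    have h2 := sum_le_mgC (f := slotF n s N) hc.nonneg (u := ((0 : Fin (N * s + 1)), x))
      (y := (k', (y, j))) (by
        rw [h]
        intro h3
        exact hk0 (congrArg Prod.fst h3).symm)
    rw [h] at h2
    refine le_trans ?_ h2
    have h3 : ∑ i, c (0, (x, i)) (k', (y, j)) =
        ∑ z ∈ (univ : Finset (Fin s)).image (fun i => ((0 : Fin (N + 1)), (x, i))),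
          c z (k', (y, j)) := by
      rw [Finset.sum_image]
      intro i _ i' _ hii
      simpa using hii
    rw [h3, ← Finset.sum_filter]
    refine Finset.sum_le_sum_of_subset_of_nonneg ?_ fun z _ _ => hc.nonneg _ _
    intro z hz
    rw [Finset.mem_image] at hz
    obtain ⟨i, -, rfl⟩ := hz
    rw [Finset.mem_filter]
    refine ⟨Finset.mem_univ _, ?_⟩
    show (slotL s N 0 i, x) = (0, x)
    rw [slotL_zero]

end

end Vale.Agent.P361.LRO.GenS
end

section

/-!
P361 LRO: the physical network satisfies `Ind.Low` (block (3) → block (6)).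
-/

namespace Vale.Agent.P361.LRO.Ind

open Finset Vale.Agent.P361.LRO _root_.P361.LRO

noncomputable section

theorem LBn_iff {n N : ℕ} [NeZero n] {β K : ℝ} {b : Finset (Tor n)} {h : Tor n → ℝ}
    {E G : Finset (Nd n N)} {A : ℝ} :
    LBn (physC n N β K b h) E G A ↔ LB (phys (edges n) β N) (th β N h (blk K b)) E G A := by
  unfold LBn LB physC
  constructor
  · intro H a h1 h2; rw [← Net.netK_c0]; exact H a h1 h2
  · intro H a h1 h2; rw [Net.netK_c0]; exact H a h1 h2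

theorem RBn_iff {n N : ℕ} [NeZero n] {β K : ℝ} {b : Finset (Tor n)} {h : Tor n → ℝ}
    {E : Finset (Nd n N)} {q : Nd n N → ℝ} {R : ℝ} :
    RBn (physC n N β K b h) E q R ↔ RB (phys (edges n) β N) (th β N h (blk K b)) E q R := by
  unfold RBn RB physC
  constructor
  · intro H a h1; rw [← Net.netK_c0]; exact H a h1
  · intro H a h1; rw [Net.netK_c0]; exact H a h1

/-- the path of node parameters is the path of profiles -/
theorem path_th {V : Type} [Fintype V] [DecidableEq V] {β : ℝ} {N : ℕ} (hβ : 0 ≤ β)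
    {h h' T : V → ℝ} (hT : ∀ x, 0 ≤ T x) {s : ℝ} (hs : 0 ≤ s) (z : Fin (N + 1) × V) :
    max (th β N h' T z) (Real.exp (-s) * th β N h T z) =
      th β N (fun x => max (h' x) (Real.exp (-s) * h x)) T z := by
  unfold th
  by_cases hz : z.1 = 0
  · rw [if_pos hz, if_pos hz, if_pos hz]
    apply max_eq_left
    have : Real.exp (-s) ≤ 1 := Real.exp_le_one_iff.2 (by linarith)
    have h2 := mul_le_mul_of_nonneg_right this (hT z.2)
    linarith
  · rw [if_neg hz, if_neg hz, if_neg hz]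
    have hc : 0 ≤ β / (2 * N) := by positivity
    have e1 : β * h' z.2 / (2 * N) = β / (2 * N) * h' z.2 := by ring
    have e2 : Real.exp (-s) * (β * h z.2 / (2 * N)) = β / (2 * N) * (Real.exp (-s) * h z.2) := by
      ring
    have e3 : β * max (h' z.2) (Real.exp (-s) * h z.2) / (2 * N) =
        β / (2 * N) * max (h' z.2) (Real.exp (-s) * h z.2) := by ring
    rw [e1, e2, e3, mul_max_of_nonneg _ _ hc]

theorem sum_layers {n N : ℕ} [NeZero n] (f : Tor n → ℝ) :
    ∑ z : Nd n N, (if z.1 ≠ 0 then f z.2 else 0) = N * ∑ x, f x := by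
  rw [Fintype.sum_prod_type, Fin.sum_univ_succ]
  simp only [ne_eq, not_true_eq_false, if_false, Finset.sum_const_zero, zero_add,
    Fin.succ_ne_zero, not_false_eq_true, if_true]
  rw [Finset.sum_const, Finset.card_univ, Fintype.card_fin, nsmul_eq_mul]

theorem low_inst {n N : ℕ} [NeZero n] {β K h0 lam ε : ℝ} (b : Finset (Tor n)) (hβ : 0 < β)
    (hN : β ≤ N) (hK : 0 ≤ K) (hh0 : 0 < h0) (hlam : 0 ≤ lam) (hε : 0 ≤ ε) (hε2 : ε ≤ 1 / 2)
    (hgood : Net.Good (phys (edges n) β N))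
    (hmag : ∀ g : Tor n → ℝ, Fam n h0 lam g → ∀ z : Nd n N, z.1 ≠ 0 →
      1 - ε ^ 2 ≤ mag (phys (edges n) β N) (th β N g (blk K b)) z) :
    Low n N β h0 lam ε (physC n N β K b) := by
  have hNp : (0:ℝ) < N := by linarith
  have hT : ∀ x, 0 ≤ blk K b x ∧ blk K b x ≤ 1 := blk_mem hK b
  have hp : 0 < β / (2 * N) := by positivity
  have thval : ∀ (g : Tor n → ℝ) (z : Nd n N), z.1 ≠ 0 →
      th β N g (blk K b) z = β / (2 * N) * g z.2 := by
    intro g z hz; unfold th; rw [if_neg hz]; ring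
  have th0 : ∀ (g : Tor n → ℝ) (z : Nd n N), z.1 = 0 →
      th β N g (blk K b) z = blk K b z.2 := by
    intro g z hz; unfold th; rw [if_pos hz]
  have thmem : ∀ (g : Tor n → ℝ), Fam n h0 lam g → ∀ z : Nd n N,
      0 ≤ th β N g (blk K b) z ∧ th β N g (blk K b) z ≤ 1 := by
    intro g hg z
    exact Loc.th_memL hβ.le hN (fun x => ⟨hh0.le.trans (hg.ge x), hg.le_one x⟩) hT z
  have thmono : ∀ (g g' : Tor n → ℝ), (∀ x, g' x ≤ g x) → ∀ z : Nd n N,
      th β N g' (blk K b) z ≤ th β N g (blk K b) z := by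
    intro g g' hle z
    by_cases hz : z.1 = 0
    · rw [th0 g z hz, th0 g' z hz]
    · rw [thval g z hz, thval g' z hz]
      exact mul_le_mul_of_nonneg_left (hle _) hp.le
  have thpos : ∀ (g : Tor n → ℝ), Fam n h0 lam g → ∀ z : Nd n N, z.1 ≠ 0 →
      0 < th β N g (blk K b) z := by
    intro g hg z hz
    rw [thval g z hz]; exact mul_pos hp (hh0.trans_le (hg.ge _))
  have thlt : ∀ (g g' : Tor n → ℝ) (z : Nd n N),
      th β N g' (blk K b) z < th β N g (blk K b) z → z.1 ≠ 0 ∧ g' z.2 < g z.2 := by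
    intro g g' z hlt
    have hz : z.1 ≠ 0 := by
      intro hz; rw [th0 g z hz, th0 g' z hz] at hlt; exact lt_irrefl _ hlt
    refine ⟨hz, ?_⟩
    rw [thval g z hz, thval g' z hz] at hlt
    exact lt_of_mul_lt_mul_left hlt hp.le
  have magpath : ∀ (g g' : Tor n → ℝ), Fam n h0 lam g → Fam n h0 lam g' → ∀ s : ℝ, 0 ≤ s →
      ∀ z : Nd n N, z.1 ≠ 0 → 1 - ε ^ 2 ≤ mag (phys (edges n) β N)
        (fun x => max (th β N g' (blk K b) x) (Real.exp (-s) * th β N g (blk K b) x)) z := by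
    intro g g' hg hg' s hs z hz
    have e : (fun x : Nd n N => max (th β N g' (blk K b) x)
        (Real.exp (-s) * th β N g (blk K b) x)) =
        th β N (fun x => max (g' x) (Real.exp (-s) * g x)) (blk K b) := by
      funext x; exact path_th hβ.le (fun x => (hT x).1) hs x
    rw [e]
    refine hmag _ ?_ z hz
    exact Fam.max_smul hg' hg.lip hg.le_one (fun x => hh0.le.trans (hg.ge x))
      (Real.exp_pos _).le (Real.exp_le_one_iff.2 (by linarith))
  refine ⟨?_, ?_⟩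
  · intro h h' hh hh' hle E G hEG heq S hS hsum A hA hLB
    rw [LBn_iff] at hLB ⊢
    have hSp : 0 < S := by
      by_contra hc; push Not at hc
      have : β * S ≤ 0 := mul_nonpos_of_nonneg_of_nonpos hβ.le hc
      linarith
    have heqθ : ∀ z ∈ E ∪ G, th β N h' (blk K b) z = th β N h (blk K b) z := by
      intro z hz
      by_cases hz0 : z.1 = 0
      · rw [th0 h z hz0, th0 h' z hz0]
      · rw [thval h z hz0, thval h' z hz0, heq z hz hz0]
    have hB : ∑ z : Nd n N, (if th β N h' (blk K b) z < th β N h (blk K b) z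
        then th β N h (blk K b) z else 0) ≤ β / 2 * S := by
      have h1 : ∑ z : Nd n N, (if th β N h' (blk K b) z < th β N h (blk K b) z
          then th β N h (blk K b) z else 0) ≤
          ∑ z : Nd n N, (if z.1 ≠ 0 then
            (β / (2 * N) * (if h' z.2 = h z.2 then 0 else h z.2)) else 0) := by
        refine Finset.sum_le_sum fun z _ => ?_
        by_cases hz : z.1 ≠ 0
        · rw [if_pos hz, thval h z hz, thval h' z hz]
          by_cases hlt : β / (2 * N) * h' z.2 < β / (2 * N) * h z.2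
          · rw [if_pos hlt, if_neg (by intro he; rw [he] at hlt; exact lt_irrefl _ hlt)]
          · rw [if_neg hlt]
            refine mul_nonneg hp.le ?_
            split_ifs
            · exact le_refl _
            · exact hh0.le.trans (hh.ge _)
        · push Not at hz
          rw [th0 h z hz, th0 h' z hz, if_neg (lt_irrefl _), if_neg (by simp [hz])]
      refine h1.trans ?_
      rw [sum_layers (fun x => β / (2 * N) * (if h' x = h x then 0 else h x)), ← Finset.mul_sum]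
      calc (N:ℝ) * (β / (2 * N) * ∑ x, (if h' x = h x then 0 else h x))
          = β / 2 * ∑ x, (if h' x = h x then 0 else h x) := by field_simp
        _ ≤ β / 2 * S := mul_le_mul_of_nonneg_left hsum (by positivity)
    have key := Net.LB_lower hgood (ε := ε) (S := Real.log (β * S)) (B := β / 2 * S) hε
      (fun z => (thmem h' hh' z).1) (thmono h h' hle) (fun z => (thmem h hh z).2)
      (fun z hz => heqθ z (Finset.mem_union_left _ hz))
      (fun z hz => heqθ z (Finset.mem_union_right _ hz)) hEG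
      (fun z hz => thpos h' hh' z (thlt h h' z hz).1)
      (fun s hs z hz => magpath h h' hh hh' s hs z (thlt h h' z hz).1)
      (Real.log_nonneg hS) hB hLB
    intro a h1 h2
    refine le_trans ?_ (key a h1 h2)
    have hβS : 0 < β * S := by positivity
    have e1 : Real.exp (-(4 * ε * Real.log (β * S))) = (β * S) ^ (-(4 * ε)) := by
      rw [Real.rpow_def_of_pos hβS]; congr 1; ring
    have e2 : Real.exp (-Real.log (β * S)) = (β * S)⁻¹ := by
      rw [Real.exp_neg, Real.exp_log hβS]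
    rw [e1, e2]
    have e3 : 2 * ε * (β / 2 * S) * (β * S)⁻¹ = ε := by field_simp
    rw [e3]; linarith
  · intro hh0' hh01 h' hh' E q hE1 hqE hq0 hqn hq1 R hR hRB
    rw [RBn_iff] at hRB ⊢
    have hone : Fam n h0 lam (fun _ => 1) := fam_const hh01 le_rfl (by norm_num) hlam
    have hle : ∀ x, h' x ≤ (fun _ => (1:ℝ)) x := fun x => hh'.le_one x
    have hEθ : ∀ z ∈ E, th β N h' (blk K b) z = th β N (fun _ => 1) (blk K b) z := by
      intro z hz
      by_cases hz0 : z.1 = 0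
      · rw [th0 _ z hz0, th0 _ z hz0]
      · rw [thval _ z hz0, thval _ z hz0, hE1 z hz hz0]
    have hS0 : 0 ≤ Real.log (1 / h0) := by
      apply Real.log_nonneg; rw [le_div_iff₀ hh0]; linarith
    have hexpS : Real.exp (Real.log (1 / h0)) = 1 / h0 := Real.exp_log (by positivity)
    have key := Net.ode_RB hgood (θ0 := th β N h' (blk K b)) (θ1 := th β N (fun _ => 1) (blk K b))
      (fun z => (thmem h' hh' z).1) (thmono _ h' hle) (fun z => (thmem _ hone z).2)
      hEθ hq1 (τ := 2 * ε) (by positivity)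
      (fun s hs z hz => ⟨Net.sqrt_mag_le hε (magpath _ h' hone hh' s hs z (thlt _ h' z hz).1), by
        have := magpath _ h' hone hh' s hs z (thlt _ h' z hz).1
        nlinarith⟩) hR hRB hS0 (by
        intro z
        rw [hexpS]
        by_cases hz0 : z.1 = 0
        · rw [th0 _ z hz0, th0 _ z hz0]
          have h1 : 1 ≤ 1 / h0 := by rw [le_div_iff₀ hh0]; linarith
          exact le_mul_of_one_le_left (hT _).1 h1
        · rw [thval _ z hz0, thval _ z hz0]
          have h2 := hh'.ge z.2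
          have h3 : 1 ≤ h' z.2 / h0 := by rw [le_div_iff₀ hh0]; linarith
          calc β / (2 * N) * 1 ≤ β / (2 * N) * (h' z.2 / h0) :=
                mul_le_mul_of_nonneg_left h3 hp.le
            _ = 1 / h0 * (β / (2 * N) * h' z.2) := by ring)
    intro a h1
    refine (key a h1).trans ?_
    have hKK : 0 ≤ KK (phys (edges n) β N) (th β N h' (blk K b)) a := by
      rw [← Net.netK_c0]
      apply P361.LRO.netK_nonneg
      intro u v
      unfold Net.c0
      split_ifs with huv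
      · exact le_refl _
      · exact hgood.ccnn _ (thmem h' hh') u v huv
    refine mul_le_mul_of_nonneg_right ?_ hKK
    have e1 : Real.exp (2 * (2 * ε) * Real.log (1 / h0)) = h0 ^ (-(4 * ε)) := by
      rw [Real.rpow_def_of_pos hh0, one_div, Real.log_inv]; congr 1; ring
    rw [e1]
    refine mul_le_mul_of_nonneg_left ?_ (Real.rpow_nonneg hh0.le _)
    have hsumle : ∑ z ∈ univ.filter (fun z => th β N h' (blk K b) z <
        th β N (fun _ => 1) (blk K b) z), q z ^ 2 / th β N (fun _ => 1) (blk K b) z ≤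
        (2 * N / β) * ∑ z, (q z) ^ 2 := by
      rw [Finset.mul_sum, Finset.sum_filter]
      refine Finset.sum_le_sum fun z _ => ?_
      split_ifs with hz
      · rw [thval _ z (thlt _ h' z hz).1]
        apply le_of_eq
        field_simp
      · positivity
    have h3 : 0 ≤ ∑ z ∈ univ.filter (fun z => th β N h' (blk K b) z <
        th β N (fun _ => 1) (blk K b) z), q z ^ 2 / th β N (fun _ => 1) (blk K b) z :=
      Finset.sum_nonneg fun z _ => div_nonneg (sq_nonneg _) (thmem _ hone z).1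
    rw [hexpS]
    have h4 : 4 * (1 / h0 - 1) * ∑ z ∈ univ.filter (fun z => th β N h' (blk K b) z <
        th β N (fun _ => 1) (blk K b) z), q z ^ 2 / th β N (fun _ => 1) (blk K b) z ≤
        4 * (1 / h0) * ((2 * N / β) * ∑ z, (q z) ^ 2) := by
      refine mul_le_mul (by linarith) hsumle h3 (by positivity)
    have h5 : 4 * (1 / h0) * ((2 * N / β) * ∑ z, (q z) ^ 2) =
        8 * N / (β * h0) * ∑ z, (q z) ^ 2 := by field_simp; ring
    linarith

end

end Vale.Agent.P361.LRO.Ind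
end

section

/-!
P361 LRO, all spins, block (6) by TYING THE COPIES (helper262): the network with copies on
`NdS n s N` is reduced to a network on `Nd n N` to which block (6) for `s = 1` applies verbatim.
-/

namespace Vale.Agent.P361.LRO.GenS

open Finset Vale.Agent.P361.LRO _root_.P361.LRO

noncomputable section

/-- The network with copies (zero on the diagonal). -/
def physS (n s M N : ℕ) [NeZero n] (β K : ℝ) (b : Finset (Tor n)) (h : Tor n → ℝ) :
    NdS n s N → NdS n s N → ℝ :=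
  Net.c0 (phys (edgesS n s M) β N) (th β N (hS h) (blk K (b ×ˢ univ)))

/-- Mean over the copies. -/
def avgC {n s N : ℕ} (a : NdS n s N → ℝ) : Ind.Nd n N → ℝ :=
  fun u => (1 / (s : ℝ)) * ∑ i : Fin s, a (u.1, (u.2, i))

/-- A potential on the sites as a potential on the copies. -/
def upC {n : ℕ} (s : ℕ) {N : ℕ} (a : Ind.Nd n N → ℝ) : NdS n s N → ℝ := fun z => a (z.1, z.2.1)

/-- Tying the copies. -/
def tie {n s N : ℕ} (c : NdS n s N → NdS n s N → ℝ) : Ind.Nd n N → Ind.Nd n N → ℝ :=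
  fun u v => (1 / (s : ℝ)) * ∑ i : Fin s, ∑ j : Fin s, c (u.1, (u.2, i)) (v.1, (v.2, j))

/-- The family of tied networks; the network in the field `1` is multiplied by `κ`. -/
def tieC (n s M N : ℕ) [NeZero n] (β K κ : ℝ) (b : Finset (Tor n)) (h : Tor n → ℝ) :
    Ind.Nd n N → Ind.Nd n N → ℝ :=
  fun u v => (if h = fun _ => 1 then κ else 1) * tie (physS n s M N β K b h) u v

/-- All copies of the nodes of an electrode. -/
def liftN {n : ℕ} [NeZero n] (s : ℕ) {N : ℕ} (E : Finset (Ind.Nd n N)) : Finset (NdS n s N) :=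
  univ.filter fun z => (z.1, z.2.1) ∈ E

/-- (M1) output of LOC with copies (`k = 0` allowed). -/
def LocStmtS (s : ℕ) : Prop :=
  ∃ c0 : ℝ, 0 < c0 ∧ ∀ (n : ℕ) [NeZero n] (M : ℕ) (β : ℝ) (N : ℕ) (h T : Tor n → ℝ),
    2 ≤ n → 1 ≤ β → 8 * β ≤ N → (∀ x, 0 ≤ h x ∧ h x ≤ 1) → (∀ x, 0 ≤ T x ∧ T x ≤ 1) →
    (∀ (k k' : Fin (N + 1)) (x y : Tor n) (i j : Fin s), k < k' →
      1 / 4 ≤ ((k' : ℝ) - (k : ℝ)) * β / N → ((k' : ℝ) - (k : ℝ)) * β / N ≤ 1 →
      ((x, y) ∈ edges n ∨ (y, x) ∈ edges n) → x ≠ y →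
      c0 * (th β N (hS h) (hS T) (k, (x, i)) * th β N (hS h) (hS T) (k', (y, j))) ≤
        cc (phys (edgesS n s M) β N) (th β N (hS h) (hS T)) (k, (x, i)) (k', (y, j))) ∧
    (∀ (k k' : Fin (N + 1)) (x : Tor n) (i : Fin s), k < k' →
      ((k' : ℝ) - (k : ℝ)) * β / N ≤ 1 →
      c0 * (th β N (hS h) (hS T) (k, (x, i)) * th β N (hS h) (hS T) (k', (x, i))) ≤
        ∑ j, cc (phys (edgesS n s M) β N) (th β N (hS h) (hS T)) (k, (x, j)) (k', (x, i)))

end

end Vale.Agent.P361.LRO.GenS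
end

section

/-!
P361 LRO, block (6), master file, part 2: the physical conductances satisfy `Ind.Local`.
-/

namespace Vale.Agent.P361.LRO.Net

open Finset Filter Vale.Agent.P361.LRO

noncomputable section

/-- LOC with the constant `cl` (form of `Skel/Low.lean`, `Loc/LowLoc.lean`). -/
def LocBound (cl : ℝ) : Prop :=
  ∀ {V : Type} [Fintype V] [DecidableEq V] (L : List (V × V)),
    (∀ x, (L.filter fun e => e.1 = x ∨ e.2 = x).length ≤ 6) →
    ∀ (β : ℝ), 1 ≤ β → ∀ N : ℕ, 8 * β ≤ N → ∀ h T : V → ℝ,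
    (∀ x, 0 ≤ h x ∧ h x ≤ 1) → (∀ x, 0 ≤ T x ∧ T x ≤ 1) →
    (∀ (k k' : Fin (N + 1)) (x : V), 0 < k → k < k' → ((k' : ℝ) - (k : ℝ)) * β / N ≤ 1 →
      cl * (β * h x / (2 * N)) ^ 2 ≤ cc (phys L β N) (th β N h T) (k, x) (k', x)) ∧
    (∀ (k k' : Fin (N + 1)) (x y : V), 0 < k → k < k' → 1 / 4 ≤ ((k' : ℝ) - (k : ℝ)) * β / N →
      ((k' : ℝ) - (k : ℝ)) * β / N ≤ 1 → ((x, y) ∈ L ∨ (y, x) ∈ L) → x ≠ y →
      cl * (β * h x / (2 * N)) * (β * h y / (2 * N)) ≤
        cc (phys L β N) (th β N h T) (k, x) (k', y)) ∧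
    (∀ (k : Fin (N + 1)) (x : V), 0 < k → (k : ℝ) * β / N ≤ 1 →
      cl * T x * (β * h x / (2 * N)) ≤ cc (phys L β N) (th β N h T) (0, x) (k, x))

theorem mem_edges {n : ℕ} [NeZero n] (x : Tor n) (i : Fin 3) :
    (x, x + Pi.single i 1) ∈ edges n := by
  unfold edges
  rw [List.mem_map]
  exact ⟨(x, i), by simp, rfl⟩

theorem edges_deg {n : ℕ} [NeZero n] (x : Tor n) :
    ((edges n).filter fun e => e.1 = x ∨ e.2 = x).length ≤ 6 := by
  unfold edges
  rw [List.filter_map, List.length_map]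
  have hnd : ((Finset.univ : Finset (Tor n × Fin 3)).toList).Nodup := Finset.nodup_toList _
  set p : Tor n × Fin 3 → Bool :=
    (fun e : Tor n × Tor n => decide (e.1 = x ∨ e.2 = x)) ∘ fun z => (z.1, z.1 + Pi.single z.2 1)
    with hp
  have h1 : (((Finset.univ : Finset (Tor n × Fin 3)).toList).filter p).length =
      ((((Finset.univ : Finset (Tor n × Fin 3)).toList).filter p).toFinset).card :=
    (List.toFinset_card_of_nodup (hnd.filter p)).symm
  rw [h1]
  have h2 : (((Finset.univ : Finset (Tor n × Fin 3)).toList).filter p).toFinset ⊆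
      ((Finset.univ : Finset (Fin 3)).image fun i => (x, i)) ∪
        ((Finset.univ : Finset (Fin 3)).image fun i => (x - Pi.single i 1, i)) := by
    intro z hz
    rw [List.mem_toFinset, List.mem_filter] at hz
    have h3 := hz.2
    simp only [hp, Function.comp, decide_eq_true_eq] at h3
    rw [Finset.mem_union, Finset.mem_image, Finset.mem_image]
    rcases h3 with h3 | h3
    · exact Or.inl ⟨z.2, Finset.mem_univ _, Prod.ext h3.symm rfl⟩
    · exact Or.inr ⟨z.2, Finset.mem_univ _, Prod.ext (by simp [← h3]) rfl⟩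
  refine (Finset.card_le_card h2).trans ((Finset.card_union_le _ _).trans ?_)
  have h4 := Finset.card_image_le (s := (Finset.univ : Finset (Fin 3))) (f := fun i => (x, i))
  have h5 := Finset.card_image_le (s := (Finset.univ : Finset (Fin 3)))
    (f := fun i => (x - (Pi.single i 1 : Tor n), i))
  rw [Finset.card_univ, Fintype.card_fin] at h4 h5
  omega

theorem half_le_tanh {y : ℝ} (h0 : 0 ≤ y) (h1 : y ≤ 1) : y / 2 ≤ Real.tanh y := by
  rw [Real.tanh_eq_sinh_div_cosh, le_div_iff₀ (Real.cosh_pos y)]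
  have h2 : y ≤ Real.sinh y := Real.self_le_sinh_iff.2 h0
  have h3 : Real.cosh y ≤ 2 := by
    have := Real.cosh_le_cosh.2 (show |y| ≤ |(1 : ℝ)| by
      rw [abs_of_nonneg h0, abs_one]; exact h1)
    refine this.trans ?_
    rw [Real.cosh_eq]
    have he := Real.exp_one_lt_d9
    have he2 : Real.exp (-1) ≤ 1 := Real.exp_le_one_iff.2 (by norm_num)
    linarith
  have h4 := Real.cosh_pos y
  nlinarith

theorem local_cF {n N W m : ℕ} [NeZero n] (hn : 2 ≤ n) {β K cl : ℝ} {b : Finset (Tor n)}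
    {h : Tor n → ℝ} (hcl : 0 < cl) (hL : LocBound cl) (hβ : 1 ≤ β) (hN8 : 8 * β ≤ N)
    (hN : N = m * W) (hW : 0 < W) (hw : Ind.Win β m)
    (hG : Good (phys (edges n) β N)) (hK : 0 ≤ K) (hb : b.Nonempty) (hKb : K ≤ 2 * b.card)
    (hh : ∀ x, 0 ≤ h x ∧ h x ≤ 1) :
    Ind.Local n N W β K (cl / 8) b h (cF n β N (blk K b) h) := by
  have hb0 : (0 : ℝ) < b.card := by exact_mod_cast hb.card_pos
  have hNp : (0 : ℝ) < N := by linarith
  have hβ0 : (0 : ℝ) < β := by linarith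
  have hm0 : (0 : ℝ) < m := by exact_mod_cast hw.pos
  have hW0 : (0 : ℝ) < W := by exact_mod_cast hW
  have hT : ∀ x, 0 ≤ blk K b x ∧ blk K b x ≤ 1 := by
    intro x
    unfold blk
    split_ifs
    · refine ⟨?_, (Real.tanh_lt_one _).le⟩
      rw [Real.tanh_eq_sinh_div_cosh]
      exact div_nonneg (Real.sinh_nonneg_iff.2 (by positivity)) (Real.cosh_pos _).le
    · norm_num
  have hθ : ∀ z, 0 ≤ th β N h (blk K b) z ∧ th β N h (blk K b) z ≤ 1 := fun z =>
    ⟨th_nonneg hβ0.le (fun x => (hh x).1) (fun x => (hT x).1) z,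
      th_le_one hβ0.le (by linarith) (fun x => (hh x).2) (fun x => (hT x).2) z⟩
  obtain ⟨l1, l2, l3⟩ := hL (edges n) (edges_deg (n := n)) β hβ N hN8 h (blk K b) hh hT
  have hsymm : ∀ u v, cF n β N (blk K b) h u v = cF n β N (blk K b) h v u := by
    intro u v
    unfold cF c0
    by_cases huv : u = v
    · subst huv; rfl
    · rw [if_neg huv, if_neg (Ne.symm huv), cc_comm]
  have hval : ∀ u v, u ≠ v → cF n β N (blk K b) h u v =
      cc (phys (edges n) β N) (th β N h (blk K b)) u v := fun u v huv => if_neg huv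
  have hNm : (N : ℝ) = m * W := by rw [hN]; push_cast; ring
  have hWN : (W : ℝ) * β / N = β / m := by rw [hNm]; field_simp
  have cast_fin : ∀ k l : Fin (N + 1), (((l : ℕ) : ℝ) - ((k : ℕ) : ℝ)) = ((l : ℝ) - (k : ℝ)) :=
    fun k l => rfl
  refine ⟨hsymm, ?_, ?_, ?_, ?_, ?_⟩
  · intro u v
    unfold cF c0
    split_ifs with huv
    · exact le_rfl
    · exact hG.ccnn _ hθ u v huv
  · intro k x hk
    have h1 : ∑ v, cF n β N (blk K b) h (k, x) v =
        vv (phys (edges n) β N) (th β N h (blk K b)) (k, x) :=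
      netV_c0 (phys (edges n) β N) (th β N h (blk K b)) (k, x)
    rw [h1]
    refine (hG.vle _ hθ _).trans ?_
    rw [th_ne (z := (k, x)) _ hk]
  · intro k l x hk hkl hl hx
    have hne : (k, x) ≠ (l, x) := fun e => (ne_of_lt hkl) (congrArg Prod.fst e)
    rw [hval _ _ hne]
    have hl' : (((l : ℕ) : ℝ)) ≤ ((k : ℕ) : ℝ) + 3 * W := by exact_mod_cast hl
    have h1 := l1 k l x (Fin.pos_iff_ne_zero.2 hk) hkl (by
      have h2 : (((l : ℕ) : ℝ) - ((k : ℕ) : ℝ)) * β / N ≤ 3 * (W * β / N) := by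
        rw [show 3 * (W * β / (N : ℝ)) = (3 * W) * β / N by ring]
        gcongr
        linarith
      rw [hWN] at h2
      have := hw.hi
      linarith)
    rw [hx] at h1
    refine le_trans ?_ h1
    have e : cl * (β * 1 / (2 * (N : ℝ))) ^ 2 = cl / 4 * (β / N) ^ 2 := by ring
    rw [e]
    gcongr
    linarith
  · intro k l x i hk hl hsep h3 h4 hx hxi
    have hxne : x ≠ x + Pi.single i 1 := by
      intro e
      have h1 : (Pi.single i 1 : Tor n) = 0 := by
        have h2 : x + 0 = x + Pi.single i 1 := by rw [add_zero]; exact e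
        exact (add_left_cancel h2).symm
      have h2 := congrFun h1 i
      rw [Pi.single_eq_same, Pi.zero_apply] at h2
      have : Fact (1 < n) := ⟨hn⟩
      exact one_ne_zero h2
    have hne : (k, x) ≠ (l, x + Pi.single i 1) := fun e => hxne (congrArg Prod.snd e)
    have hbd : ∀ k l : Fin (N + 1), (k : ℕ) + W ≤ l → (l : ℕ) ≤ k + 3 * W →
        1 / 4 ≤ ((l : ℝ) - (k : ℝ)) * β / N ∧ ((l : ℝ) - (k : ℝ)) * β / N ≤ 1 := by
      intro k l h5 h6
      have h5' : ((k : ℕ) : ℝ) + W ≤ ((l : ℕ) : ℝ) := by exact_mod_cast h5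
      have h6' : (((l : ℕ) : ℝ)) ≤ ((k : ℕ) : ℝ) + 3 * W := by exact_mod_cast h6
      constructor
      · have h7 : (W * β / N : ℝ) ≤ (((l : ℕ) : ℝ) - ((k : ℕ) : ℝ)) * β / N := by
          gcongr
          linarith
        rw [hWN] at h7
        exact hw.lo.trans h7
      · have h7 : (((l : ℕ) : ℝ) - ((k : ℕ) : ℝ)) * β / N ≤ 3 * (W * β / N) := by
          rw [show 3 * (W * β / (N : ℝ)) = (3 * W) * β / N by ring]
          gcongr
          linarith
        rw [hWN] at h7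
        have := hw.hi
        exact h7.trans (by linarith)
    have efin : ∀ c : ℝ, cl * (β * 1 / (2 * (N : ℝ))) * (β * 1 / (2 * N)) ≤ c →
        cl / 8 * (β / N) ^ 2 ≤ c := by
      intro c hc
      refine le_trans ?_ hc
      have e : cl * (β * 1 / (2 * (N : ℝ))) * (β * 1 / (2 * N)) = cl / 4 * (β / N) ^ 2 := by ring
      rw [e]
      gcongr
      linarith
    rcases hsep with h5 | h5
    · have hkl : k < l := by
        rw [Fin.lt_def]; omega
      rw [hval _ _ hne]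
      obtain ⟨b1, b2⟩ := hbd k l h5 h3
      have h6 := l2 k l x (x + Pi.single i 1) (Fin.pos_iff_ne_zero.2 hk) hkl b1 b2
        (Or.inl (mem_edges x i)) hxne
      rw [hx, hxi] at h6
      exact efin _ h6
    · have hkl : l < k := by
        rw [Fin.lt_def]; omega
      rw [hsymm, hval _ _ (Ne.symm hne)]
      obtain ⟨b1, b2⟩ := hbd l k h5 h4
      have h6 := l2 l k (x + Pi.single i 1) x (Fin.pos_iff_ne_zero.2 hl) hkl b1 b2
        (Or.inr (mem_edges x i)) (Ne.symm hxne)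
      rw [hx, hxi] at h6
      exact efin _ h6
  · intro k x hk hkW hxb hx
    have hne : ((0 : Fin (N + 1)), x) ≠ (k, x) := fun e => hk (congrArg Prod.fst e).symm
    rw [hval _ _ hne]
    have hkW' : ((k : ℕ) : ℝ) ≤ W := by exact_mod_cast hkW
    have h1 := l3 k x (Fin.pos_iff_ne_zero.2 hk) (by
      have h2 : ((k : ℕ) : ℝ) * β / N ≤ W * β / N := by gcongr
      rw [hWN] at h2
      have := hw.hi
      exact h2.trans (by linarith))
    rw [hx] at h1
    refine le_trans ?_ h1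
    have h2 : K / b.card / 4 ≤ blk K b x := by
      unfold blk
      rw [if_pos hxb]
      have h3 := half_le_tanh (y := K / (2 * b.card)) (by positivity)
        ((div_le_one (by positivity)).2 hKb)
      refine le_trans (le_of_eq ?_) h3
      field_simp
      ring
    have e : cl / 8 * (K / b.card) * (β / N) = cl * (K / b.card / 4) * (β * 1 / (2 * N)) := by
      ring
    rw [e]
    gcongr

end

end Vale.Agent.P361.LRO.Net
end

section

/-!
P361 LRO, all spins: local information on the slots network.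
-/

namespace Vale.Agent.P361.LRO.GenS

open Finset _root_.P361.LRO Vale.Agent.P361.LRO

noncomputable section

theorem isLaw_phys'' {V : Type} [Fintype V] [DecidableEq V] (L : List (V × V)) {β : ℝ}
    (hβ : 0 ≤ β) {N : ℕ} (hN : β ≤ N) : IsLaw (phys L β N) := by
  refine ⟨gates L N (β / (2 * N)), base N, ?_, rfl⟩
  intro g hg
  unfold gates at hg
  rw [List.mem_flatMap] at hg
  obtain ⟨k, _, hk⟩ := hg
  rw [List.mem_map] at hk
  obtain ⟨e, _, rfl⟩ := hk
  refine ⟨by positivity, ?_⟩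
  by_cases hN0 : (N : ℝ) = 0
  · rw [hN0]; simp
  · have hNp : (0:ℝ) < N := lt_of_le_of_ne (Nat.cast_nonneg N) (Ne.symm hN0)
    rw [div_le_div_iff₀ (by positivity) (by norm_num)]
    linarith

theorem blk_memS {V : Type} [Fintype V] [DecidableEq V] {K : ℝ} (hK : 0 ≤ K) (b : Finset V)
    (x : V) : 0 ≤ blk K b x ∧ blk K b x ≤ 1 := by
  unfold blk
  split_ifs
  · have h0 : 0 ≤ K / (2 * b.card) := by positivity
    refine ⟨?_, (Real.tanh_lt_one _).le⟩
    rw [Real.tanh_eq_sinh_div_cosh]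
    exact div_nonneg (Real.sinh_nonneg_iff.2 h0) (Real.cosh_pos _).le
  · norm_num

/-- Lags of slots. -/
theorem slot_lag {s N W : ℕ} {k l : Fin (N + 1)} {i j : Fin s} (hk : k ≠ 0) (hl : l ≠ 0)
    (h1 : (slotL s N k i : ℕ) + W * s ≤ slotL s N l j)
    (h2 : (slotL s N l j : ℕ) ≤ slotL s N k i + 3 * (W * s)) :
    (k : ℕ) + W ≤ l ∧ (l : ℕ) ≤ k + 3 * W := by
  rw [slotL_val hk, slotL_val hl] at h1 h2
  have hk1 : 1 ≤ (k : ℕ) := Nat.one_le_iff_ne_zero.2 fun h => hk (Fin.ext h)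
  have hl1 : 1 ≤ (l : ℕ) := Nat.one_le_iff_ne_zero.2 fun h => hl (Fin.ext h)
  have hs : 0 < s := Nat.lt_of_le_of_lt (Nat.zero_le _) i.2
  have hi := i.2
  have hj := j.2
  obtain ⟨k', hk'⟩ : ∃ k', (k : ℕ) = k' + 1 := ⟨k - 1, by omega⟩
  obtain ⟨l', hl'⟩ : ∃ l', (l : ℕ) = l' + 1 := ⟨l - 1, by omega⟩
  rw [hk', hl'] at h1 h2 ⊢
  rw [Nat.add_sub_cancel, Nat.add_sub_cancel] at h1 h2
  constructor
  · by_contra hc
    have h3 : l' + 1 ≤ k' + W := by omega
    have h4 : (l' + 1) * s ≤ (k' + W) * s := Nat.mul_le_mul_right s h3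
    rw [Nat.add_mul, Nat.add_mul, one_mul] at h4
    omega
  · by_contra hc
    have h3 : k' + 3 * W + 1 ≤ l' := by omega
    have h4 : (k' + 3 * W + 1) * s ≤ l' * s := Nat.mul_le_mul_right s h3
    rw [Nat.add_mul, Nat.add_mul, one_mul, Nat.mul_assoc] at h4
    omega

theorem slot_lag0 {s N W : ℕ} {k : Fin (N + 1)} {i : Fin s} (hk : k ≠ 0)
    (h1 : (slotL s N k i : ℕ) ≤ W * s) : (k : ℕ) ≤ W := by
  rw [slotL_val hk] at h1
  have hk1 : 1 ≤ (k : ℕ) := Nat.one_le_iff_ne_zero.2 fun h => hk (Fin.ext h)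
  obtain ⟨k', hk'⟩ : ∃ k', (k : ℕ) = k' + 1 := ⟨k - 1, by omega⟩
  rw [hk'] at h1 ⊢
  rw [Nat.add_sub_cancel] at h1
  by_contra hc
  have h3 : W ≤ k' := by omega
  have h4 : W * s ≤ k' * s := Nat.mul_le_mul_right s h3
  omega

theorem blk_hS {n s : ℕ} [NeZero n] (K : ℝ) (b : Finset (Tor n)) :
    blk K (b ×ˢ (univ : Finset (Fin s))) =
      hS (fun x => if x ∈ b then Real.tanh (K / (2 * (b ×ˢ (univ : Finset (Fin s))).card))
        else 0) := by
  funext z
  show (if z ∈ b ×ˢ (univ : Finset (Fin s)) then _ else _) = if z.1 ∈ b then _ else _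
  by_cases hz : z.1 ∈ b
  · rw [if_pos hz, if_pos (by simp [hz])]
  · rw [if_neg hz, if_neg (by simp [hz])]

/-- **Local information on the slots network.** -/
theorem localN_slots (s : ℕ) (hs : 0 < s) (hL : LocStmtS s) :
    ∃ c1 : ℝ, 0 < c1 ∧ ∀ (n N W m M : ℕ) [NeZero n] (β K : ℝ) (b : Finset (Tor n))
      (h : Tor n → ℝ), 2 ≤ n → 1 ≤ β → 8 * β ≤ N → 0 < W → N = m * W → Ind.Win β m →
      0 ≤ K → b.Nonempty → K ≤ b.card → (∀ x, 0 ≤ h x ∧ h x ≤ 1) →
      Ind.LocalN n (N * s) (W * s) β K c1 b h (cslot n s M β N K b h) := by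
  obtain ⟨c0, hc0, hloc⟩ := hL
  have hsr : (1 : ℝ) ≤ s := by exact_mod_cast hs
  have hs0 : (0 : ℝ) < s := by linarith
  refine ⟨c0 / (16 * s), by positivity, ?_⟩
  intro n N W m M _ β K b h hn hβ hN hW hNm hwin hK hb hKb hh
  have hβ0 : (0:ℝ) < β := by linarith
  have hNp : (0:ℝ) < N := by linarith
  have hβN : β ≤ N := by linarith
  have hbp : (0 : ℝ) < b.card := by exact_mod_cast hb.card_pos
  have hlaw := isLaw_phys'' (edgesS n s M) hβ0.le hβN
  have hG : Net.Good (phys (edgesS n s M) β N) := good_of_isLaw hlaw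
  set T : Tor n → ℝ := fun x => if x ∈ b then
    Real.tanh (K / (2 * (b ×ˢ (univ : Finset (Fin s))).card)) else 0 with hTdef
  have hblk : blk K (b ×ˢ (univ : Finset (Fin s))) = hS T := blk_hS K b
  have hT : ∀ x, 0 ≤ T x ∧ T x ≤ 1 := by
    intro x
    have := blk_memS hK (b ×ˢ (univ : Finset (Fin s))) (x, ⟨0, hs⟩)
    rw [hblk] at this
    exact this
  set θ : Fin (N + 1) × (Tor n × Fin s) → ℝ := th β N (hS h) (hS T) with hθdef
  have hθ : ∀ z, 0 ≤ θ z ∧ θ z ≤ 1 := fun z =>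
    ⟨Net.th_nonneg (h := hS h) (T := hS T) hβ0.le (fun x => (hh x.1).1) (fun x => (hT x.1).1) z,
      Net.th_le_one (h := hS h) (T := hS T) hβ0.le hβN (fun x => (hh x.1).2)
        (fun x => (hT x.1).2) z⟩
  obtain ⟨l1, l2⟩ := hloc n M β N h T hn hβ hN hh hT
  rw [← hθdef] at l1 l2
  have hmW : (N : ℝ) = m * W := by rw [hNm]; push_cast; ring
  have hWp : (0:ℝ) < W := by exact_mod_cast hW
  have hmp : (0:ℝ) < m := by exact_mod_cast hwin.pos
  have hWβ : (W:ℝ) * β / N = β / m := by rw [hmW]; field_simp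
  have hcs : ∀ u v, cslot n s M β N K b h u v =
      (1 / (s : ℝ)) * mgC (slotF n s N) (Net.c0 (phys (edgesS n s M) β N) θ) u v := by
    intro u v
    unfold cslot
    rw [hblk]
  have h0nn : ∀ u v, 0 ≤ Net.c0 (phys (edgesS n s M) β N) θ u v := by
    intro u v
    unfold Net.c0
    split_ifs with huv
    · exact le_rfl
    · exact hG.ccnn _ hθ u v huv
  have h0sy : ∀ u v, Net.c0 (phys (edgesS n s M) β N) θ u v =
      Net.c0 (phys (edgesS n s M) β N) θ v u := by
    intro u v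
    unfold Net.c0
    by_cases huv : u = v
    · subst huv; rfl
    · rw [if_neg huv, if_neg (Ne.symm huv), Net.cc_comm]
  have hval : ∀ u v, u ≠ v → Net.c0 (phys (edgesS n s M) β N) θ u v =
      cc (phys (edgesS n s M) β N) θ u v := fun u v huv => if_neg huv
  have hsymm : ∀ u v, cslot n s M β N K b h u v = cslot n s M β N K b h v u := by
    intro u v
    rw [hcs, hcs, mgC_symm h0sy]
  have hnsc : ((N * s : ℕ) : ℝ) = N * s := by push_cast; ring
  -- physical rates
  have hth : ∀ (k : Fin (N + 1)) (x : Tor n) (i : Fin s), k ≠ 0 →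
      θ (k, (x, i)) = β * h x / (2 * N) := fun k x i hk => by
    rw [hθdef]; exact Net.th_ne _ (z := (k, (x, i))) hk
  refine ⟨hsymm, ?_, ?_, ?_, ?_⟩
  · intro u v
    rw [hcs]
    exact mul_nonneg (by positivity) (mgC_nonneg h0nn u v)
  · intro l x hl
    obtain ⟨k, i, hk, rfl⟩ := exists_slot hs hl
    have h1 : ∑ v, mgC (slotF n s N) (Net.c0 (phys (edgesS n s M) β N) θ)
        (slotF n s N (k, (x, i))) v ≤
        ∑ y, Net.c0 (phys (edgesS n s M) β N) θ (k, (x, i)) y :=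
      sum_mgC_le h0nn fun y hy => slotF_inj (x := (k, (x, i))) hk hy
    have h2 : ∑ y, Net.c0 (phys (edgesS n s M) β N) θ (k, (x, i)) y =
        vv (phys (edgesS n s M) β N) θ (k, (x, i)) :=
      Net.netV_c0 (phys (edgesS n s M) β N) θ (k, (x, i))
    have h3 := hG.vle _ hθ (k, (x, i))
    rw [hth k x i hk] at h3
    have h4 : ∑ v, cslot n s M β N K b h (slotL s N k i, x) v =
        (1 / (s : ℝ)) * ∑ v, mgC (slotF n s N) (Net.c0 (phys (edgesS n s M) β N) θ)
          (slotF n s N (k, (x, i))) v := by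
      rw [Finset.mul_sum]
      exact Finset.sum_congr rfl fun v _ => hcs _ _
    rw [h4, hnsc]
    have h5 : β * h x / (2 * (N * s)) = (1 / (s : ℝ)) * (β * h x / (2 * N)) := by
      field_simp
    rw [h5]
    exact mul_le_mul_of_nonneg_left ((h1.trans_eq h2).trans h3) (by positivity)
  · intro k' l' x e hk' hl' hsep h3 h4 hx hx'
    obtain ⟨k, i, hk, rfl⟩ := exists_slot hs hk'
    obtain ⟨l, j, hl, rfl⟩ := exists_slot hs hl'
    have hxne := Ind.ne_add n hn x e
    have key : ∀ (k l : Fin (N + 1)) (i j : Fin s) (x y : Tor n), k ≠ 0 → l ≠ 0 →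
        (k : ℕ) + W ≤ l → (l : ℕ) ≤ k + 3 * W → ((x, y) ∈ edges n ∨ (y, x) ∈ edges n) → x ≠ y →
        h x = 1 → h y = 1 →
        c0 / (16 * s) * (β / ((N * s : ℕ) : ℝ)) ^ 2 ≤
          cslot n s M β N K b h (slotL s N k i, x) (slotL s N l j, y) := by
      intro k l i j x y hk hl h5 h6 hed hxy hx hy
      have h5' : ((k : ℕ) : ℝ) + W ≤ ((l : ℕ) : ℝ) := by exact_mod_cast h5
      have h6' : (((l : ℕ) : ℝ)) ≤ ((k : ℕ) : ℝ) + 3 * W := by exact_mod_cast h6
      have b1 : 1 / 4 ≤ ((l : ℝ) - (k : ℝ)) * β / N := by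
        have h7 : (W * β / N : ℝ) ≤ (((l : ℕ) : ℝ) - ((k : ℕ) : ℝ)) * β / N := by
          gcongr
          linarith
        rw [hWβ] at h7
        exact hwin.lo.trans h7
      have b2 : ((l : ℝ) - (k : ℝ)) * β / N ≤ 1 := by
        have h7 : (((l : ℕ) : ℝ) - ((k : ℕ) : ℝ)) * β / N ≤ 3 * (W * β / N) := by
          rw [show 3 * (W * β / (N : ℝ)) = (3 * W) * β / N by ring]
          gcongr
          linarith
        rw [hWβ] at h7
        have := hwin.hi
        exact h7.trans (by linarith)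
      have hkl : k < l := by rw [Fin.lt_def]; omega
      have h7 := l1 k l x y i j hkl b1 b2 hed hxy
      rw [hth k x i hk, hth l y j hl, hx, hy] at h7
      have hne : slotF n s N (k, (x, i)) ≠ slotF n s N (l, (y, j)) := fun hc =>
        hxy (congrArg Prod.snd hc)
      have hne' : ((k, (x, i)) : Fin (N + 1) × (Tor n × Fin s)) ≠ (l, (y, j)) := fun hc =>
        hne (congrArg _ hc)
      have h8 := le_mgC (f := slotF n s N) h0nn hne
      rw [hval _ _ hne'] at h8
      show _ ≤ cslot n s M β N K b h (slotF n s N (k, (x, i))) (slotF n s N (l, (y, j)))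
      rw [hcs]
      have h9 : c0 / (16 * s) * (β / ((N * s : ℕ) : ℝ)) ^ 2 ≤
          (1 / (s : ℝ)) * (c0 * (β * 1 / (2 * N) * (β * 1 / (2 * N)))) := by
        rw [hnsc]
        have e1 : c0 / (16 * s) * (β / ((N : ℝ) * s)) ^ 2 =
            (c0 * (β / N) ^ 2 / (16 * s)) * (1 / s ^ 2) := by
          field_simp
        have e2 : (1 / (s : ℝ)) * (c0 * (β * 1 / (2 * N) * (β * 1 / (2 * N)))) =
            (c0 * (β / N) ^ 2 / (16 * s)) * 4 := by
          field_simp
          ring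
        rw [e1, e2]
        refine mul_le_mul_of_nonneg_left ?_ (by positivity)
        rw [div_le_iff₀ (by positivity)]
        nlinarith
      exact h9.trans (mul_le_mul_of_nonneg_left (h7.trans h8) (by positivity))
    rcases hsep with h5 | h5
    · obtain ⟨h6, h7⟩ := slot_lag hk hl h5 h3
      exact key k l i j x _ hk hl h6 h7 (Or.inl (Net.mem_edges x e)) hxne hx hx'
    · obtain ⟨h6, h7⟩ := slot_lag hl hk h5 h4
      rw [hsymm]
      exact key l k j i _ x hl hk h6 h7 (Or.inr (Net.mem_edges x e)) (Ne.symm hxne) hx' hx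
  · intro k' x hk' hkW hxb hx
    obtain ⟨k, j, hk, rfl⟩ := exists_slot hs hk'
    have h1 := slot_lag0 hk hkW
    have h1' : ((k : ℕ) : ℝ) ≤ W := by exact_mod_cast h1
    have b2 : ((k : ℝ) - (((0 : Fin (N + 1)) : ℕ) : ℝ)) * β / N ≤ 1 := by
      have h2 : ((k : ℝ) - (((0 : Fin (N + 1)) : ℕ) : ℝ)) * β / N ≤ W * β / N := by
        gcongr
        rw [Fin.val_zero]
        push_cast
        linarith
      rw [hWβ] at h2
      have := hwin.hi
      exact h2.trans (by linarith)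
    have h7 := l2 0 k x j (Fin.pos_iff_ne_zero.2 hk) b2
    have hne : ((0 : Fin (N * s + 1)), x) ≠ slotF n s N (k, (x, j)) := fun hc =>
      slotL_ne hk j (congrArg Prod.fst hc).symm
    have h8 := sum_le_mgC (f := slotF n s N) h0nn hne
    have h9 : ∑ i : Fin s, cc (phys (edgesS n s M) β N) θ (0, (x, i)) (k, (x, j)) ≤
        ∑ x', if slotF n s N x' = ((0 : Fin (N * s + 1)), x) then
          Net.c0 (phys (edgesS n s M) β N) θ x' (k, (x, j)) else 0 := by
      rw [Fintype.sum_prod_type]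
      refine le_trans ?_ (Finset.single_le_sum (f := fun a : Fin (N + 1) => ∑ y : Tor n × Fin s,
        if slotF n s N (a, y) = ((0 : Fin (N * s + 1)), x) then
          Net.c0 (phys (edgesS n s M) β N) θ (a, y) (k, (x, j)) else 0) ?_ (Finset.mem_univ 0))
      · rw [Fintype.sum_prod_type]
        refine le_trans ?_ (Finset.single_le_sum (f := fun a : Tor n => ∑ i : Fin s,
          if slotF n s N (0, (a, i)) = ((0 : Fin (N * s + 1)), x) then
            Net.c0 (phys (edgesS n s M) β N) θ (0, (a, i)) (k, (x, j)) else 0) ?_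
              (Finset.mem_univ x))
        · refine Finset.sum_le_sum fun i _ => ?_
          have e1 : slotF n s N (0, (x, i)) = ((0 : Fin (N * s + 1)), x) := by
            unfold slotF; rw [slotL_zero]
          rw [if_pos e1, hval]
          exact fun hc => hk (congrArg Prod.fst hc).symm
        · intro a _
          refine Finset.sum_nonneg fun i _ => ?_
          split_ifs
          · exact h0nn _ _
          · exact le_rfl
      · intro a _
        refine Finset.sum_nonneg fun i _ => ?_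
        split_ifs
        · exact h0nn _ _
        · exact le_rfl
    have h10 : θ (0, (x, j)) = Real.tanh (K / (2 * (b ×ˢ (univ : Finset (Fin s))).card)) := by
      rw [hθdef]
      unfold th hS
      rw [if_pos rfl]
      simp only [hTdef]
      rw [if_pos hxb]
    have hcard : (((b ×ˢ (univ : Finset (Fin s))).card : ℕ) : ℝ) = b.card * s := by
      rw [Finset.card_product, Finset.card_univ, Fintype.card_fin]
      push_cast
      ring
    have h11 : K / (b.card * s) / 4 ≤ θ (0, (x, j)) := by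
      rw [h10, hcard]
      have h3 := Net.half_le_tanh (y := K / (2 * (b.card * s))) (by positivity)
        ((div_le_one (by positivity)).2 (by nlinarith))
      refine le_trans (le_of_eq ?_) h3
      field_simp
      ring
    rw [hth k x j hk, hx] at h7
    show _ ≤ cslot n s M β N K b h (0, x) (slotF n s N (k, (x, j)))
    rw [hcs]
    have h12 : c0 / (16 * s) * (K / b.card) * (β / ((N * s : ℕ) : ℝ)) ≤
        (1 / (s : ℝ)) * (c0 * (θ (0, (x, j)) * (β * 1 / (2 * N)))) := by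
      have h13 : c0 * (K / (b.card * s) / 4 * (β * 1 / (2 * N))) ≤
          c0 * (θ (0, (x, j)) * (β * 1 / (2 * N))) := by
        refine mul_le_mul_of_nonneg_left ?_ hc0.le
        exact mul_le_mul_of_nonneg_right h11 (by positivity)
      refine le_trans ?_ (mul_le_mul_of_nonneg_left h13 (by positivity))
      rw [hnsc]
      have e1 : (1 / (s : ℝ)) * (c0 * (K / (b.card * s) / 4 * (β * 1 / (2 * N)))) =
          2 * (c0 / (16 * s) * (K / b.card) * (β / (N * s))) := by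
        field_simp
        ring
      rw [e1]
      have : 0 ≤ c0 / (16 * s) * (K / b.card) * (β / ((N : ℝ) * s)) := by positivity
      linarith
    exact h12.trans (mul_le_mul_of_nonneg_left (h7.trans (h9.trans h8)) (by positivity))

end

end Vale.Agent.P361.LRO.GenS
end

section

/-!
P361 LRO, stage 3, all spins: the physical network with copies in the field `g / (s β)` satisfies
`LocalC3` (long windows), from the long-window bound `CCgeS` and the defect bound `DeltaStmt`.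
-/

namespace Vale.Agent.P361.LRO.GenS

open Finset Matrix Vale.Agent.P361.LRO _root_.P361.LRO Vale.Agent.P361.LRO.Bloch

noncomputable section

/-- Conductances between all copies at distance at least a quarter of the circle; only the inter
gates have to be controlled. -/
def CCgeS (s : ℕ) : Prop :=
  ∃ c0 CJ : ℝ, 0 < c0 ∧ 0 < CJ ∧ ∀ (n M : ℕ) [NeZero n] (β : ℝ), 2 ≤ n → 8 ≤ β →
    ∃ N0 : ℕ, 1 ≤ N0 ∧ ∀ N W : ℕ, N0 ≤ N → N = 4 * W →
    ∀ θ : Fin (N + 1) × (Tor n × Fin s) → ℝ, (∀ z, 0 ≤ θ z ∧ θ z ≤ 1) →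
      (∀ z, z.1 ≠ 0 → θ z ≤ 1 / (2 * N)) → (∀ k x i j, θ (k, (x, i)) = θ (k, (x, j))) →
      ∀ k m e : ℕ, k + m + 1 ≤ N → W ≤ m + 1 → (3:ℝ) ^ e ≤ 3 * √β → √β ≤ 3 * 3 ^ e →
      ∀ δ : ℝ, 0 ≤ δ → δ * (CJ * β) ≤ 1 / 2 →
      ∀ (p x y : Tor n) (i j : Fin s), x ∈ cube n p (2 * 3 ^ e) → y ∈ cube n p (2 * 3 ^ e) →
      (∀ w1 w2 a b p, a.1 ≠ b.1 → mword (edgesS n s M) β N θ k m = w1 ++ Lt.gate a b p :: w2 →
        trace (lctx (edgesS n s M) β N θ (k + m + 1) (x, i) * wd w1 * exM a b * wd w2 *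
            rctx (edgesS n s M) β N θ k (y, j)) ≤
          δ * trace (lctx (edgesS n s M) β N θ (k + m + 1) (x, i) *
            wd (mword (edgesS n s M) β N θ k m) * rctx (edgesS n s M) β N θ k (y, j)) ∧
        trace (lctx (edgesS n s M) β N θ (k + m + 1) (x, i) * wd w1 * neM a b * wd w2 *
            rctx (edgesS n s M) β N θ k (y, j)) ≤
          δ * trace (lctx (edgesS n s M) β N θ (k + m + 1) (x, i) *
            wd (mword (edgesS n s M) β N θ k m) * rctx (edgesS n s M) β N θ k (y, j))) →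
      c0 / 27 ^ e *
        (θ (Fin.ofNat (N + 1) (k + m + 1), (x, i)) * θ (Fin.ofNat (N + 1) k, (y, j))) ≤
      cc (phys (edgesS n s M) β N) θ (Fin.ofNat (N + 1) (k + m + 1), (x, i))
        (Fin.ofNat (N + 1) k, (y, j))

/-- **The physical network with copies satisfies `LocalC3`.** `c1` depends only on `s`. -/
theorem localC3_inst (s : ℕ) (hs : 0 < s) (hCC : CCgeS s) (hΔ : Ind3.DeltaStmt) :
    ∃ c1 : ℝ, 0 < c1 ∧ ∀ A : ℝ, 0 < A → ∃ β0 : ℝ, 8 ≤ β0 ∧
    ∀ β : ℝ, β0 ≤ β → ∀ (e n M : ℕ) [NeZero n] (K η : ℝ) (b : Finset (Tor n)), 2 ≤ n →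
    (3:ℝ) ^ e ≤ 3 * √β → √β ≤ 3 * 3 ^ e → 0 < K → K ≤ s * b.card → b.Nonempty →
    0 < η → η ≤ A * β ^ (-(3 / 2) : ℝ) → K * η ≤ A →
    ∃ N0 : ℕ, ∀ N W : ℕ, N0 ≤ N → N = 4 * W → ∀ g : Tor n → ℝ, (∀ x, 0 ≤ g x ∧ g x ≤ 1) →
    (∀ z, rho (edgesS n s M) β (hS fun y => g y / (s * β)) z ≤ η) →
    LocalC3 n s N W e K c1 b g
      (Net.c0 (phys (edgesS n s M) β N)
        (th β N (hS fun y => g y / (s * β)) (blk K (b ×ˢ univ)))) := by
  obtain ⟨C, hC, hΔ⟩ := hΔ
  obtain ⟨c0, CJ, hc0p, hCJ, hCC⟩ := hCC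
  have hsr : (1 : ℝ) ≤ s := by exact_mod_cast hs
  have hs0 : (0 : ℝ) < s := by linarith
  refine ⟨c0 / 8, by positivity, fun A hA => ?_⟩
  set Mc : ℝ := 2 * (C * A * Real.exp (C * A) * CJ) with hM
  have hMp : 0 < Mc := by
    have := Real.exp_pos (C * A)
    positivity
  refine ⟨max 8 (Mc ^ 2), le_max_left _ _, ?_⟩
  intro β hβ e n M _ K η b hn he1 he2 hK hKb hbn hη hη2 hKη
  have hβ8 : 8 ≤ β := (le_max_left _ _).trans hβ
  have hβ0 : 0 < β := by linarith
  have hβM : Mc ≤ √β := Real.le_sqrt_of_sq_le ((le_max_right _ _).trans hβ)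
  set δ : ℝ := C * η * Real.exp (C * (K * η)) with hδ
  have hδ0 : 0 ≤ δ := by
    have := Real.exp_pos (C * (K * η))
    positivity
  have hsβ : 0 < √β := Real.sqrt_pos.2 hβ0
  have hrp : β ^ (-(3 / 2) : ℝ) = 1 / (β * √β) := by
    rw [Real.rpow_neg hβ0.le, one_div, Real.sqrt_eq_rpow]
    congr 1
    rw [show (3 / 2 : ℝ) = 1 + 1 / 2 by norm_num, Real.rpow_add hβ0, Real.rpow_one]
  have hδ2 : δ * (CJ * β) ≤ 1 / 2 := by
    have h1 : δ ≤ C * (A * (1 / (β * √β))) * Real.exp (C * A) := by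
      rw [hδ]
      refine mul_le_mul (mul_le_mul_of_nonneg_left ?_ hC.le)
        (Real.exp_le_exp.2 (mul_le_mul_of_nonneg_left hKη hC.le)) (Real.exp_pos _).le
        (by positivity)
      rw [← hrp]; exact hη2
    have h2 : 0 ≤ CJ * β := by positivity
    calc δ * (CJ * β)
        ≤ C * (A * (1 / (β * √β))) * Real.exp (C * A) * (CJ * β) :=
          mul_le_mul_of_nonneg_right h1 h2
      _ = Mc / 2 / √β := by rw [hM]; field_simp
      _ ≤ 1 / 2 := by
        rw [div_div, div_le_div_iff₀ (by positivity) (by norm_num)]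
        linarith
  set bS : Finset (Tor n × Fin s) := b ×ˢ univ with hbS
  have hcard : ((bS.card : ℕ) : ℝ) = b.card * s := by
    rw [hbS, Finset.card_product, Finset.card_univ, Fintype.card_fin]
    push_cast
    ring
  have hbp : (0:ℝ) < b.card := by exact_mod_cast hbn.card_pos
  have hbSn : bS.Nonempty := by
    obtain ⟨x, hx⟩ := hbn
    exact ⟨(x, ⟨0, hs⟩), by rw [hbS]; simp [hx]⟩
  have hKbS : K ≤ bS.card := by rw [hcard]; linarith
  obtain ⟨N1, hN1⟩ := hΔ (Tor n × Fin s) (edgesS n s M) β K η bS hβ0 hK hKbS hbSn hη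
  obtain ⟨N2, hN21, hN2⟩ := hCC n M β hn hβ8
  refine ⟨max N1 (max N2 ⌈β⌉₊), ?_⟩
  intro N W hN hNW g hg hrho
  have hNN1 : N1 ≤ N := (le_max_left _ _).trans hN
  have hNN2 : N2 ≤ N := (le_max_left _ _).trans ((le_max_right _ _).trans hN)
  have hNβ : β ≤ N := by
    have : ⌈β⌉₊ ≤ N := (le_max_right _ _).trans ((le_max_right _ _).trans hN)
    exact (Nat.le_ceil β).trans (by exact_mod_cast this)
  have hNp : (0:ℝ) < N := by linarith
  have hNat : 1 ≤ N := hN21.trans hNN2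
  have hW : 1 ≤ W := by omega
  set h : Tor n → ℝ := fun y => g y / (s * β) with hh
  have hh01 : ∀ x, 0 ≤ h x ∧ h x ≤ 1 := fun x => by
    rw [hh]
    refine ⟨div_nonneg (hg x).1 (by positivity), ?_⟩
    simp only
    rw [div_le_one (by positivity)]
    nlinarith [(hg x).2]
  have hT : ∀ x, 0 ≤ blk K bS x ∧ blk K bS x ≤ 1 := blk_memS hK.le bS
  set θ : Fin (N + 1) × (Tor n × Fin s) → ℝ := th β N (hS h) (blk K bS) with hθdef
  have hθ : ∀ z, 0 ≤ θ z ∧ θ z ≤ 1 := fun z =>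
    ⟨Net.th_nonneg (h := hS h) (T := blk K bS) hβ0.le (fun x => (hh01 x.1).1)
        (fun x => (hT x).1) z,
      Net.th_le_one (h := hS h) (T := blk K bS) hβ0.le hNβ (fun x => (hh01 x.1).2)
        (fun x => (hT x).2) z⟩
  have hθg : ∀ (k : Fin (N + 1)) (x : Tor n) (i : Fin s), k ≠ 0 →
      θ (k, (x, i)) = g x / (2 * ((N * s : ℕ) : ℝ)) := fun k x i hk => by
    rw [hθdef]
    unfold th hS
    rw [if_neg hk, hh]
    push_cast
    field_simp
  have hθ2 : ∀ z : Fin (N + 1) × (Tor n × Fin s), z.1 ≠ 0 → θ z ≤ 1 / (2 * N) := by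
    rintro ⟨k, x, i⟩ hk
    rw [hθg k x i hk]
    push_cast
    rw [div_le_div_iff₀ (by positivity) (by positivity)]
    have h1 : g x ≤ 1 := (hg x).2
    have h2 : g x * (2 * (N:ℝ)) ≤ 1 * (2 * N) := mul_le_mul_of_nonneg_right h1 (by positivity)
    nlinarith
  have hθ0 : ∀ (x : Tor n) (i : Fin s), θ (0, (x, i)) = blk K bS (x, i) := fun x i => by
    rw [hθdef]; unfold th; rw [if_pos rfl]
  have hθs : ∀ k x i j, θ (k, (x, i)) = θ (k, (x, j)) := by
    intro k x i j
    by_cases hk : k = 0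
    · subst hk
      rw [hθ0, hθ0, hbS, blk_hS]
      rfl
    · rw [hθg k x i hk, hθg k x j hk]
  have hlaw := isLaw_phys'' (edgesS n s M) hβ0.le hNβ
  have hG : Net.Good (phys (edgesS n s M) β N) := good_of_isLaw hlaw
  have hval : ∀ u v, u ≠ v → Net.c0 (phys (edgesS n s M) β N) θ u v =
      cc (phys (edgesS n s M) β N) θ u v := fun u v huv => if_neg huv
  have hmain : ∀ (k m : ℕ), k + m + 1 ≤ N → W ≤ m + 1 → ∀ (p x y : Tor n) (i j : Fin s),
      x ∈ cube n p (2 * 3 ^ e) → y ∈ cube n p (2 * 3 ^ e) →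
      c0 / 27 ^ e * (θ (Fin.ofNat (N + 1) (k + m + 1), (x, i)) *
        θ (Fin.ofNat (N + 1) k, (y, j))) ≤
      cc (phys (edgesS n s M) β N) θ (Fin.ofNat (N + 1) (k + m + 1), (x, i))
        (Fin.ofNat (N + 1) k, (y, j)) := fun k m hkm hWm p x y i j hx hy =>
    hN2 N W hNN2 hNW _ hθ hθ2 hθs k m e hkm hWm he1 he2 δ hδ0 hδ2 p x y i j hx hy
      (fun w1 w2 a c p _ hw => hN1 N hNN1 (hS h) (fun z => hh01 z.1) hrho k m hkm (x, i) (y, j)
        w1 w2 a c p hw)
  refine ⟨?_, ?_, ?_, ?_, ?_⟩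
  · intro u v
    unfold Net.c0
    by_cases huv : u = v
    · subst huv; rfl
    · rw [if_neg huv, if_neg (Ne.symm huv), Net.cc_comm]
  · intro u v
    unfold Net.c0
    split_ifs with huv
    · exact le_rfl
    · exact hG.ccnn _ hθ u v huv
  · intro k x i hk
    have h2 : ∑ y, Net.c0 (phys (edgesS n s M) β N) θ (k, (x, i)) y =
        vv (phys (edgesS n s M) β N) θ (k, (x, i)) :=
      Net.netV_c0 (phys (edgesS n s M) β N) θ (k, (x, i))
    have h3 := hG.vle _ hθ (k, (x, i))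
    rw [hθg k x i hk] at h3
    exact h2.trans_le h3
  · intro k l p x y i j hk hkl hx hy hgx hgy
    have hk0 : 0 < (k : ℕ) := Fin.pos_of_ne_zero hk
    have hl0 : l ≠ 0 := by
      intro h
      rw [h] at hkl
      simp at hkl
      omega
    have hne : ((k, (x, i)) : Fin (N + 1) × (Tor n × Fin s)) ≠ (l, (y, j)) := fun h => by
      have : (k:ℕ) = l := congrArg (fun z : Fin (N + 1) × (Tor n × Fin s) => (z.1 : ℕ)) h
      omega
    rw [hval _ _ hne, Net.cc_comm]
    have hlN : (l : ℕ) ≤ N := Nat.lt_succ_iff.1 l.2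
    obtain ⟨m, hm⟩ : ∃ m : ℕ, (l : ℕ) = k + m + 1 := ⟨(l : ℕ) - k - 1, by omega⟩
    have h1 := hmain k m (by omega) (by omega) p y x j i hy hx
    have hl : Fin.ofNat (N + 1) ((k : ℕ) + m + 1) = l := by
      rw [← hm]; exact Fin.cast_val_eq_self l
    have hkk : Fin.ofNat (N + 1) (k : ℕ) = k := Fin.cast_val_eq_self k
    rw [hl, hkk, hθg l y j hl0, hθg k x i hk, hgx, hgy] at h1
    refine le_trans ?_ h1
    have hNs : (0 : ℝ) < ((N * s : ℕ) : ℝ) := by push_cast; positivity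
    have e1 : c0 / 27 ^ e * (1 / (2 * ((N * s : ℕ) : ℝ)) * (1 / (2 * ((N * s : ℕ) : ℝ)))) =
        2 * (c0 / 8 / (((N * s : ℕ) : ℝ) ^ 2 * 27 ^ e)) := by
      field_simp
      norm_num
    rw [e1]
    have : 0 ≤ c0 / 8 / (((N * s : ℕ) : ℝ) ^ 2 * 27 ^ e) := by positivity
    linarith
  · intro k p x y j hWk hxb hx hy hgy
    have hk0 : 0 < (k : ℕ) := by omega
    have hkne : k ≠ 0 := by
      intro h
      rw [h] at hk0
      simp at hk0
    have hkN : (k : ℕ) ≤ N := Nat.lt_succ_iff.1 k.2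
    obtain ⟨m, hm⟩ : ∃ m : ℕ, (k : ℕ) = 0 + m + 1 := ⟨(k : ℕ) - 1, by omega⟩
    have hl : Fin.ofNat (N + 1) (0 + m + 1) = k := by
      rw [← hm]; exact Fin.cast_val_eq_self k
    have hkk : Fin.ofNat (N + 1) 0 = (0 : Fin (N + 1)) := by
      simp
    have hNs : (0 : ℝ) < ((N * s : ℕ) : ℝ) := by push_cast; positivity
    have ht : ∀ i : Fin s, K / (b.card * s) / 4 ≤ θ (0, (x, i)) := by
      intro i
      rw [hθ0]
      unfold blk
      rw [if_pos (by rw [hbS]; simp [hxb]), hcard]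
      have h3 := Net.half_le_tanh (y := K / (2 * (b.card * s))) (by positivity)
        ((div_le_one (by positivity)).2 (by nlinarith))
      refine le_trans (le_of_eq ?_) h3
      field_simp
      ring
    have hterm : ∀ i : Fin s, c0 / 27 ^ e * (1 / (2 * ((N * s : ℕ) : ℝ)) *
        (K / (b.card * s) / 4)) ≤
        Net.c0 (phys (edgesS n s M) β N) θ (0, (x, i)) (k, (y, j)) := by
      intro i
      have hne : ((0, (x, i)) : Fin (N + 1) × (Tor n × Fin s)) ≠ (k, (y, j)) := fun h =>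
        hkne (congrArg Prod.fst h).symm
      rw [hval _ _ hne, Net.cc_comm]
      have h1 := hmain 0 m (by omega) (by omega) p y x j i hy hx
      rw [hl, hkk, hθg k y j hkne, hgy] at h1
      refine le_trans ?_ h1
      exact mul_le_mul_of_nonneg_left (mul_le_mul_of_nonneg_left (ht i) (by positivity))
        (by positivity)
    have hsum : ∑ _i : Fin s, c0 / 27 ^ e * (1 / (2 * ((N * s : ℕ) : ℝ)) *
        (K / (b.card * s) / 4)) ≤
        ∑ i, Net.c0 (phys (edgesS n s M) β N) θ (0, (x, i)) (k, (y, j)) :=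
      Finset.sum_le_sum fun i _ => hterm i
    rw [Finset.sum_const, Finset.card_univ, Fintype.card_fin, nsmul_eq_mul] at hsum
    refine le_trans (le_of_eq ?_) hsum
    field_simp
    norm_num

end

end Vale.Agent.P361.LRO.GenS
end

section

/-!
P361, Bloch's law for all spins: long windows for any circuit whose trace formula is the one of the
physical circuit with an extra (entrywise nonnegative) factor `EM` between the layers `N` and `0`
(for spin `S`: the projector onto the symmetric subspace of the copies).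
-/

namespace Vale.Agent.P361.LRO.Bloch

open Finset Matrix Vale.Agent.P361.LRO.Dict

set_option linter.unusedSectionVars false

noncomputable section

variable {V : Type} [Fintype V] [DecidableEq V]

/-- The trace formula with the factor `EM`. -/
def TrE {N : ℕ} (μ : Equiv.Perm (Fin (N + 1) × V) → ℝ) (EM : MM V) (L : List (V × V)) (β : ℝ) : Prop :=
  ∀ A : Fin (N + 1) × V → Matrix (Fin 2) (Fin 2) ℝ, NZ μ A = trace (EM *
    (down (fun k => layM (fun x => A (Fin.ofNat (N + 1) k, x)) * gatM L (β / (2 * N))) N *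
      layM (fun x => A (0, x))))

theorem NZ_splitE {N : ℕ} {μ : Equiv.Perm (Fin (N + 1) × V) → ℝ} {EM : MM V} {L : List (V × V)}
    {β : ℝ} (hμ : TrE μ EM L β) (A : Fin (N + 1) × V → Matrix (Fin 2) (Fin 2) ℝ)
    {k m : ℕ} (h : k + m + 1 ≤ N) :
    NZ μ A = trace (EM * (
      down (fun j => (layM fun x => A (Fin.ofNat (N + 1) (k + m + 1 + j), x)) *
        gatM L (β / (2 * N))) (N - (k + m + 1)) *
      ((layM fun x => A (Fin.ofNat (N + 1) (k + m + 1), x)) *
        ((gatM L (β / (2 * N)) * down (fun j => (layM fun x => A (Fin.ofNat (N + 1) (k + j), x)) *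
          gatM L (β / (2 * N))) m) * ((layM fun x => A (Fin.ofNat (N + 1) k, x)) *
          (if k = 0 then 1 else gatM L (β / (2 * N)) *
            down (fun j => (layM fun x => A (Fin.ofNat (N + 1) j, x)) *
              gatM L (β / (2 * N))) (k - 1) * layM fun x => A (Fin.ofNat (N + 1) 0, x))))))) := by
  rw [hμ]
  have h0 : (layM fun x => A (0, x) : MM V) = layM fun x => A (Fin.ofNat (N + 1) 0, x) := rfl
  rw [h0, split_gen (fun j => (layM fun x => A (Fin.ofNat (N + 1) j, x) : MM V))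
    (gatM L (β / (2 * N))) h]

theorem TrE.phys (L : List (V × V)) (β : ℝ) (N : ℕ) : TrE (phys L β N) 1 L β := by
  intro A
  rw [NZ_phys, one_mul]

/-- The product formula for the partition function is positive. -/
theorem TrE.pos {N : ℕ} {μ : Equiv.Perm (Fin (N + 1) × V) → ℝ} {EM : MM V} {L : List (V × V)}
    {β : ℝ} (hμ : TrE μ EM L β) (hEM : PU EM) (hβ : 0 ≤ β) (hN : β ≤ N)
    {θ : Fin (N + 1) × V → ℝ} (hθ : ∀ z, 0 ≤ θ z ∧ θ z ≤ 1) :
    0 < NZ μ fun z => dgM (θ z) := by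
  have hp0 : 0 ≤ β / (2 * N) := by positivity
  have hp1 : β / (2 * N) ≤ 1 := by
    rcases Nat.eq_zero_or_pos N with h | h
    · subst h; norm_num
    · have : (0 : ℝ) < N := by exact_mod_cast h
      rw [div_le_one (by positivity)]
      linarith
  rw [hμ]
  have hd : ∀ n, PU (down (fun k => layM (fun x => dgM (θ (Fin.ofNat (N + 1) k, x))) *
      gatM L (β / (2 * N))) n) := by
    intro n
    induction n with
    | zero => exact PU.one
    | succ n ih => exact ((PU.layM fun _ => hθ _).mul (PU.gatM L hp0 hp1)).mul ih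
  have h1 := (hEM.mul ((hd N).mul (PU.layM fun x => hθ (0, x)))).trace
  linarith

/-- From a trace inequality to the conductance. -/
theorem cc_of_trace (L : List (V × V)) {β : ℝ} {N : ℕ} {μ : Equiv.Perm (Fin (N + 1) × V) → ℝ}
    {EM : MM V} (hEM : Le 0 EM) (hμ : TrE μ EM L β) (hβ : 0 ≤ β) (hN : β ≤ N) (hN0 : 0 < N)
    {θ : Fin (N + 1) × V → ℝ} (hθ : ∀ z, 0 ≤ θ z ∧ θ z ≤ 1)
    (hpos : 0 < NZ μ fun z => dgM (θ z)) {k m : ℕ} (hk : k + m + 1 ≤ N) (x y : V) (S : ℝ)
    (hS : S * trace ((EM * lctx L β N θ (k + m + 1) x) * wd (mword L β N θ k m) *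
        rctx L β N θ k y) ≤
      trace ((EM * lctx L β N θ (k + m + 1) x) * sxM x * wd (mword L β N θ k m) *
        (sxM y * rctx L β N θ k y))) :
    S * (θ (Fin.ofNat (N + 1) (k + m + 1), x) * θ (Fin.ofNat (N + 1) k, y)) / 4 ≤
      cc μ θ (Fin.ofNat (N + 1) (k + m + 1), x) (Fin.ofNat (N + 1) k, y) := by
  classical
  have hNr : (0 : ℝ) < N := by exact_mod_cast hN0
  set p : ℝ := β / (2 * N) with hp
  have hp0 : 0 ≤ p := by positivity
  have hp1 : p ≤ 1 := by
    rw [hp, div_le_one (by positivity)]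
    linarith
  set u : Fin (N + 1) × V := (Fin.ofNat (N + 1) (k + m + 1), x) with hu
  set v : Fin (N + 1) × V := (Fin.ofNat (N + 1) k, y) with hv
  have huv : u ≠ v := by
    intro h
    have := ofNat_inj hk (by omega) (congrArg Prod.fst h)
    omega
  set A : MM V := EM * lctx L β N θ (k + m + 1) x with hA
  set C : MM V := rctx L β N θ k y with hC
  set w : List (Lt V) := mword L β N θ k m with hw
  have hAn : Le 0 A := hEM.zero_mul
    ((preM_nonneg L hp0 hp1 hθ _).zero_mul (rmM_nonneg (fun _ => hθ _) _))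
  have hCn : Le 0 C := (rmM_nonneg (fun _ => hθ _) _).zero_mul (restM_nonneg L hp0 hp1 hθ _)
  have hok : ∀ l ∈ w, Ok l := ok_mid L hp0 hp1 (fun _ _ => hθ _) m
  have hwd : wd w = gatM L p * down (fun j => (layM fun z =>
      dgM (θ (Fin.ofNat (N + 1) (k + j), z))) * gatM L p) m := wd_mid L p _ m
  -- layers away from `u`, `v`
  have hlay : ∀ j, j ≤ N → j ≠ k + m + 1 → j ≠ k →
      (layM fun z => (Function.update (Function.update (fun z => dgM (θ z)) u m1) v m1)
        (Fin.ofNat (N + 1) j, z) : MM V) = layM fun z => dgM (θ (Fin.ofNat (N + 1) j, z)) := by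
    intro j hj h1 h2
    congr 1
    funext z
    rw [Function.update_of_ne, Function.update_of_ne]
    · intro h
      exact h1 (ofNat_inj hj hk (congrArg Prod.fst h))
    · intro h
      exact h2 (ofNat_inj hj (by omega) (congrArg Prod.fst h))
  have hlayu : (layM fun z => (Function.update (Function.update (fun z => dgM (θ z)) u m1) v m1)
        (Fin.ofNat (N + 1) (k + m + 1), z) : MM V) =
      rmM (fun z => θ (Fin.ofNat (N + 1) (k + m + 1), z)) x * sxM x := by
    rw [rmM_mul_sxM]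
    congr 1
    funext z
    rw [Function.update_of_ne]
    · by_cases hz : z = x
      · subst hz
        rw [← hu, Function.update_self, Function.update_self]
      · rw [Function.update_of_ne hz, Function.update_of_ne]
        intro h
        exact hz (congrArg Prod.snd h)
    · intro h
      have := ofNat_inj hk (by omega) (congrArg Prod.fst h)
      omega
  have hlayv : (layM fun z => (Function.update (Function.update (fun z => dgM (θ z)) u m1) v m1)
        (Fin.ofNat (N + 1) k, z) : MM V) =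
      sxM y * rmM (fun z => θ (Fin.ofNat (N + 1) k, z)) y := by
    rw [sxM_mul_rmM]
    congr 1
    funext z
    by_cases hz : z = y
    · subst hz
      rw [← hv, Function.update_self, Function.update_self]
    · rw [Function.update_of_ne hz, Function.update_of_ne, Function.update_of_ne]
      · intro h
        have := ofNat_inj (by omega) hk (congrArg Prod.fst h)
        omega
      · intro h
        exact hz (congrArg Prod.snd h)
  have hnum : NZ μ (Function.update (Function.update (fun z => dgM (θ z)) u m1) v m1) =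
      trace (A * sxM x * wd w * (sxM y * C)) := by
    rw [NZ_splitE hμ _ hk, hlayu, hlayv, hwd]
    rw [down_congr (f := fun j => (layM fun z => (Function.update (Function.update
        (fun z => dgM (θ z)) u m1) v m1) (Fin.ofNat (N + 1) (k + m + 1 + j), z) : MM V) *
        gatM L (β / (2 * N)))
      (g := fun j => FM N θ (k + m + 1 + j) * gatM L (β / (2 * N)))
      (fun j h1 h2 => by rw [hlay _ (by omega) (by omega) (by omega)]; rfl)]
    rw [down_congr (f := fun j => (layM fun z => (Function.update (Function.update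
        (fun z => dgM (θ z)) u m1) v m1) (Fin.ofNat (N + 1) (k + j), z) : MM V) *
        gatM L (β / (2 * N)))
      (g := fun j => (layM fun z => dgM (θ (Fin.ofNat (N + 1) (k + j), z))) *
        gatM L (β / (2 * N)))
      (fun j h1 h2 => by rw [hlay _ (by omega) (by omega) (by omega)])]
    have hrest : (if k = 0 then 1 else gatM L (β / (2 * N)) *
            down (fun j => (layM fun z => (Function.update (Function.update (fun z => dgM (θ z)) u
              m1) v m1) (Fin.ofNat (N + 1) j, z) : MM V) * gatM L (β / (2 * N))) (k - 1) *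
            layM fun z => (Function.update (Function.update (fun z => dgM (θ z)) u m1) v m1)
              (Fin.ofNat (N + 1) 0, z)) = restM L (β / (2 * N)) N θ k := by
      unfold restM
      by_cases hk0 : k = 0
      · rw [if_pos hk0, if_pos hk0]
      · rw [if_neg hk0, if_neg hk0, hlay 0 (by omega) (by omega) (by omega),
          down_congr (f := fun j => (layM fun z => (Function.update (Function.update
            (fun z => dgM (θ z)) u m1) v m1) (Fin.ofNat (N + 1) j, z) : MM V) *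
            gatM L (β / (2 * N)))
          (g := fun j => FM N θ j * gatM L (β / (2 * N)))
          (fun j h1 h2 => by rw [hlay _ (by omega) (by omega) (by omega)]; rfl)]
        rfl
    rw [hrest, hA, hC]
    unfold lctx rctx preM
    simp only [Matrix.mul_assoc]
    rw [hp]
  have hden : NZ μ (fun z => dgM (θ z)) ≤
      (1 + θ u) * (1 + θ v) * trace (A * wd w * C) := by
    rw [NZ_splitE hμ _ hk, hwd]
    have hGn := gatM_nonneg' L hp0 hp1
    have hPn := preM_nonneg L hp0 hp1 hθ (k + m + 1)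
    have hRn := restM_nonneg L hp0 hp1 hθ k
    have hMn : Le (0 : MM V) (gatM L p * down (fun j => (layM fun z =>
      dgM (θ (Fin.ofNat (N + 1) (k + j), z))) * gatM L p) m) := by
      rw [← hwd]; exact wd_nonneg hok
    have h1 := (layM_le_rmM (t := fun z => θ (Fin.ofNat (N + 1) (k + m + 1), z))
      (fun _ => hθ _) x)
    have h2 := (layM_le_rmM (t := fun z => θ (Fin.ofNat (N + 1) k, z)) (fun _ => hθ _) y)
    have h3 : Le (preM L p N θ (k + m + 1) * ((layM fun z =>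
        dgM (θ (Fin.ofNat (N + 1) (k + m + 1), z))) * ((gatM L p * down (fun j => (layM fun z =>
        dgM (θ (Fin.ofNat (N + 1) (k + j), z))) * gatM L p) m) * ((layM fun z =>
        dgM (θ (Fin.ofNat (N + 1) k, z))) * restM L p N θ k))))
        (preM L p N θ (k + m + 1) * (((1 + θ u) • rmM (fun z =>
          θ (Fin.ofNat (N + 1) (k + m + 1), z)) x) * ((gatM L p * down (fun j => (layM fun z =>
        dgM (θ (Fin.ofNat (N + 1) (k + j), z))) * gatM L p) m) * (((1 + θ v) • rmM (fun z =>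
          θ (Fin.ofNat (N + 1) k, z)) y) * restM L p N θ k)))) := by
      refine Le.mul_left ?_ hPn
      refine Le.trans (Le.mul_right h1 (hMn.zero_mul
        ((layM_nonneg' fun _ => hθ _).zero_mul hRn))) ?_
      refine Le.mul_left ?_ ((rmM_nonneg (fun _ => hθ _) _).zero_smul (by linarith [(hθ u).1]))
      refine Le.mul_left ?_ hMn
      exact Le.mul_right h2 hRn
    have h4 := (h3.mul_left hEM).trace
    refine le_trans h4 (le_of_eq ?_)
    rw [hA, hC]
    unfold lctx rctx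
    simp only [Matrix.smul_mul, Matrix.mul_smul, Matrix.trace_smul, smul_eq_mul, Matrix.mul_assoc]
    ring
  have hNZn : 0 < NZ μ fun z => dgM (θ z) := hpos
  have hccn : 0 ≤ cc μ θ u v := by
    rw [cc_eq3 _ _ huv, hnum]
    refine div_nonneg (mul_nonneg (mul_nonneg (hθ u).1 (hθ v).1) ?_) hNZn.le
    have := (((hAn.zero_mul (sxM_nonneg x)).zero_mul (wd_nonneg hok)).zero_mul
      ((sxM_nonneg y).zero_mul hCn)).trace
    rwa [Matrix.trace_zero] at this
  have hmain' : S * trace (A * wd w * C) ≤ trace (A * sxM x * wd w * (sxM y * C)) := hS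
  rcases le_or_gt S 0 with hS0 | hS0
  · refine le_trans ?_ hccn
    have : S * (θ u * θ v) ≤ 0 :=
      mul_nonpos_of_nonpos_of_nonneg hS0 (mul_nonneg (hθ u).1 (hθ v).1)
    linarith
  · rw [cc_eq3 _ _ huv, hnum, le_div_iff₀ hNZn]
    have hZ' : 0 ≤ trace (A * wd w * C) := by
      have := ((hAn.zero_mul (wd_nonneg hok)).zero_mul hCn).trace
      rwa [Matrix.trace_zero] at this
    have h5 : NZ μ (fun z => dgM (θ z)) ≤ 4 * trace (A * wd w * C) := by
      refine hden.trans (mul_le_mul_of_nonneg_right ?_ hZ')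
      nlinarith [(hθ u).1, (hθ u).2, (hθ v).1, (hθ v).2]
    have h6 : 0 ≤ S * (θ u * θ v) / 4 :=
      div_nonneg (mul_nonneg hS0.le (mul_nonneg (hθ u).1 (hθ v).1)) (by norm_num)
    calc S * (θ u * θ v) / 4 * NZ μ (fun z => dgM (θ z))
        ≤ S * (θ u * θ v) / 4 * (4 * trace (A * wd w * C)) := mul_le_mul_of_nonneg_left h5 h6
      _ = θ u * θ v * (S * trace (A * wd w * C)) := by ring
      _ ≤ θ u * θ v * trace (A * sxM x * wd w * (sxM y * C)) :=
          mul_le_mul_of_nonneg_left hmain' (mul_nonneg (hθ u).1 (hθ v).1)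


/-- From a trace inequality to the conductance of the physical circuit (any list `L`, any slice
parameters in `[0, 1]`). -/
theorem cc_of_trace_phys (L : List (V × V)) {β : ℝ} {N : ℕ} (hβ : 0 ≤ β) (hN : β ≤ N)
    (hN0 : 0 < N) {θ : Fin (N + 1) × V → ℝ} (hθ : ∀ z, 0 ≤ θ z ∧ θ z ≤ 1)
    {k m : ℕ} (hk : k + m + 1 ≤ N) (x y : V) (S : ℝ)
    (hS : S * trace (lctx L β N θ (k + m + 1) x * wd (mword L β N θ k m) * rctx L β N θ k y) ≤
      trace (lctx L β N θ (k + m + 1) x * sxM x * wd (mword L β N θ k m) *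
        (sxM y * rctx L β N θ k y))) :
    S * (θ (Fin.ofNat (N + 1) (k + m + 1), x) * θ (Fin.ofNat (N + 1) k, y)) / 4 ≤
      cc (phys L β N) θ (Fin.ofNat (N + 1) (k + m + 1), x) (Fin.ofNat (N + 1) k, y) := by
  refine cc_of_trace (EM := 1) L one_nonneg (TrE.phys L β N) hβ hN hN0 hθ
    ((TrE.phys L β N).pos PU.one hβ hN hθ) hk x y S ?_
  rw [Matrix.one_mul]
  exact hS

/-- **Long windows**, conductances of the circuit with the factor `EM`. -/
theorem cc_longE (L : List (V × V)) {β : ℝ} {N : ℕ} {μ : Equiv.Perm (Fin (N + 1) × V) → ℝ}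
    {EM : MM V} (hEM : Le 0 EM) (hμ : TrE μ EM L β) (hβ : 0 ≤ β) (hN : β ≤ N) (hN0 : 0 < N)
    {θ : Fin (N + 1) × V → ℝ} (hθ : ∀ z, 0 ≤ θ z ∧ θ z ≤ 1)
    (hpos : 0 < NZ μ fun z => dgM (θ z)) {D : ℝ}
    (hD : ∀ v, (tch L v : ℝ) ≤ D) {k m : ℕ} (hk : k + m + 1 ≤ N) (x y : V) (J : ℕ) {δ : ℝ}
    (hδ : 0 ≤ δ)
    (hX : ∀ w1 w2 a b p, mword L β N θ k m = w1 ++ Lt.gate a b p :: w2 →
      trace ((EM * lctx L β N θ (k + m + 1) x) * wd w1 * exM a b * wd w2 * rctx L β N θ k y) ≤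
        δ * trace ((EM * lctx L β N θ (k + m + 1) x) * wd (mword L β N θ k m) * rctx L β N θ k y) ∧
      trace ((EM * lctx L β N θ (k + m + 1) x) * wd w1 * neM a b * wd w2 * rctx L β N θ k y) ≤
        δ * trace ((EM * lctx L β N θ (k + m + 1) x) * wd (mword L β N θ k m) * rctx L β N θ k y)) :
    (∑ j ∈ range J, qq (mword L β N θ k m) (q0 x) y j *
      (1 - δ * (β / (2 * N) * D * (m + 1) + (1 + β / (2 * N) * D) * j))) *
      (θ (Fin.ofNat (N + 1) (k + m + 1), x) * θ (Fin.ofNat (N + 1) k, y)) / 4 ≤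
      cc μ θ (Fin.ofNat (N + 1) (k + m + 1), x) (Fin.ofNat (N + 1) k, y) := by
  have hNr : (0 : ℝ) < N := by exact_mod_cast hN0
  have hp0 : 0 ≤ β / (2 * N) := by positivity
  have hp1 : β / (2 * N) ≤ 1 := by
    rw [div_le_one (by positivity)]
    linarith
  have hAn : Le 0 (EM * lctx L β N θ (k + m + 1) x) := hEM.zero_mul
    ((preM_nonneg L hp0 hp1 hθ _).zero_mul (rmM_nonneg (fun _ => hθ _) _))
  have hCn : Le 0 (rctx L β N θ k y) :=
    (rmM_nonneg (fun _ => hθ _) _).zero_mul (restM_nonneg L hp0 hp1 hθ _)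
  have hmain := long_trace _ _ hAn hCn hδ (mword L β N θ k m)
    (ok_mid L hp0 hp1 (fun _ _ => hθ _) m) x y J _ (Pot_mid L hp0 hD _ m 0) (HX_of _ _ _ hX)
  refine cc_of_trace L hEM hμ hβ hN hN0 hθ hpos hk x y _ (le_trans (le_of_eq ?_) hmain)
  congr 1
  refine Finset.sum_congr rfl fun j _ => ?_
  ring

end

end Vale.Agent.P361.LRO.Bloch
end

section

/-! # P361 LRO, stage 3 for all spins (E): geometry half (helper793) -/

namespace Vale.Agent.P361.LRO.S3S

open Finset Matrix Vale.Agent.P361.LRO.GenS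

noncomputable section

/-- inter-site part of the free box with `s` copies of each site -/
def boxA (s l : ℕ) : Matrix (B.cube l × Fin s → Fin 2) (B.cube l × Fin s → Fin 2) ℝ :=
  (1 / 2 : ℝ) • ham (interL (S3.nnL (B.cube l)) s) 0

/-- intra-site part of the free box with `s` copies of each site -/
def boxB (s l : ℕ) : Matrix (B.cube l × Fin s → Fin 2) (B.cube l × Fin s → Fin 2) ℝ :=
  ham (intraL (B.cube l) s) 0

/-- partition function of the free box with copies -/
def ZbM (s l M : ℕ) (β : ℝ) : ℝ :=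
  Matrix.trace (NormedSpace.exp (-β • (boxA s l + (M : ℝ) • boxB s l)))

end

end Vale.Agent.P361.LRO.S3S

namespace Vale.Agent.P361.LRO.Energy.ETS

open Matrix Finset Vale.Agent.P361.LRO.Loc3 Vale.Agent.P361.LRO.Energy.ET
open Vale.Agent.P361.LRO.GenS Vale.Agent.P361.LRO.GenS.EnS
open scoped ComplexOrder

set_option linter.unusedSectionVars false

noncomputable section

theorem cpx_list_sum {α ι : Type*} [Fintype ι] [DecidableEq ι] (L : List α)
    (F : α → Matrix ι ι ℝ) : cpx ((L.map F).sum) = (L.map fun e => cpx (F e)).sum := by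
  induction L with
  | nil => ext i j; simp [cpx]
  | cons a L ih => simp only [List.map_cons, List.sum_cons, cpx_add, ih]

theorem cpx_ham0 {V : Type} [Fintype V] [DecidableEq V] (L : List (V × V)) :
    cpx (ham L (0 : V → ℝ)) =
      (L.map fun e => (hM e.1 e.2 : Matrix (Cfg V) (Cfg V) ℂ)).sum := by
  have h : ham L (0 : V → ℝ) = (L.map fun e => LRO.hM e.1 e.2).sum := by
    rw [ham]; simp
  rw [h, cpx_list_sum]
  simp only [cpx_hM]

theorem hM_ab_symm {V : Type} [Fintype V] [DecidableEq V] {s : ℕ} (u v : V) :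
    (∑ ab : Fin s × Fin s, (hM (u, ab.1) (v, ab.2) : Matrix (Cfg (V × Fin s)) (Cfg (V × Fin s)) ℂ)) =
      ∑ ab : Fin s × Fin s, hM (v, ab.1) (u, ab.2) := by
  rw [Fintype.sum_prod_type, Fintype.sum_prod_type, Finset.sum_comm]
  exact Finset.sum_congr rfl fun i _ => Finset.sum_congr rfl fun j _ => hM_symm _ _

theorem cpx_boxA (s l : ℕ) : cpx (S3S.boxA s l) =
    ∑ u : B.cube l, ∑ v : B.cube l, ∑ i : Fin 3, if v.1 = u.1 + Pi.single i 1 then
      ∑ ab : Fin s × Fin s,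
        (hM (u, ab.1) (v, ab.2) : Matrix (Cfg (B.cube l × Fin s)) (Cfg (B.cube l × Fin s)) ℂ)
      else 0 := by
  have h0 : cpx (ham (interL (S3.nnL (B.cube l)) s) 0) = ∑ x : B.cube l, ∑ y : B.cube l,
      if IsNN x.1 y.1 then ∑ ab : Fin s × Fin s,
        (hM (x, ab.1) (y, ab.2) : Matrix (Cfg (B.cube l × Fin s)) (Cfg (B.cube l × Fin s)) ℂ)
      else 0 := by
    rw [cpx_ham0, sum_interL, S3.nnL, Finset.sum_map_toList, Finset.sum_filter,
      Fintype.sum_prod_type]
  rw [S3S.boxA, cpx_smul, h0, sum_isNN (fun u v => ∑ ab : Fin s × Fin s,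
        (hM (u, ab.1) (v, ab.2) : Matrix (Cfg (B.cube l × Fin s)) (Cfg (B.cube l × Fin s)) ℂ))
      (fun u v => hM_ab_symm u v), smul_add, ← add_smul]
  norm_num

theorem cpx_boxB (s l : ℕ) : cpx (S3S.boxB s l) =
    ∑ u : B.cube l, ∑ ab : Fin s × Fin s with ab.1 < ab.2,
        (hM (u, ab.1) (u, ab.2) : Matrix (Cfg (B.cube l × Fin s)) (Cfg (B.cube l × Fin s)) ℂ) := by
  rw [S3S.boxB, cpx_ham0, intraL, List.map_map, Finset.sum_map_toList, Finset.sum_filter,
    Fintype.sum_prod_type]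
  refine Finset.sum_congr rfl fun u _ => ?_
  rw [Finset.sum_filter]
  rfl

variable {n s : ℕ} [NeZero n]

/-- the box with copies in the torus with copies -/
def eS (s : ℕ) (x : Tor n) (l : ℕ) (p : B.cube l × Fin s) : Tor n × Fin s := (eC x l p.1, p.2)

theorem eS_injective {x : Tor n} {l : ℕ} (hl : l ≤ n) : Function.Injective (eS s x l) := by
  intro p q h
  have h2 := Prod.mk.inj h
  exact Prod.ext (eC_injective hl h2.1) h2.2

/-- inter-site energy in `Q` -/
def inA (s : ℕ) (Q : Finset (Tor n)) : Matrix (Cfg (Tor n × Fin s)) (Cfg (Tor n × Fin s)) ℂ :=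
  ∑ z ∈ Vale.Agent.P361.LRO.Energy.ET.ins Q, ∑ ab : Fin s × Fin s, hM (z.1, ab.1) (nxt z, ab.2)

/-- intra-site energy in `Q` -/
def inB (s : ℕ) (Q : Finset (Tor n)) : Matrix (Cfg (Tor n × Fin s)) (Cfg (Tor n × Fin s)) ℂ :=
  ∑ y ∈ Q, ∑ ab : Fin s × Fin s with ab.1 < ab.2, hM (y, ab.1) (y, ab.2)

theorem emb_boxA_le (x : Tor n) {l : ℕ} (hl : l ≤ n) :
    (inA s (cube n x l) - emb (eS s x l) (cpx (S3S.boxA s l))).PosSemidef := by
  classical
  have he := eC_injective (x := x) hl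
  have heS := eS_injective (s := s) (x := x) hl
  set T : Finset (B.cube l × Fin 3) := Finset.univ.filter fun p => p.1.1 + Pi.single p.2 1 ∈ B.cube l
    with hT
  have h1 : emb (eS s x l) (cpx (S3S.boxA s l)) =
      ∑ p ∈ T, ∑ ab : Fin s × Fin s, (hM (eC x l p.1, ab.1) (nxt (eC x l p.1, p.2), ab.2) :
        Matrix (Cfg (Tor n × Fin s)) (Cfg (Tor n × Fin s)) ℂ) := by
    rw [cpx_boxA, emb_sum, hT, Finset.sum_filter, Fintype.sum_prod_type]
    refine Finset.sum_congr rfl fun u _ => ?_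
    rw [Finset.sum_comm, emb_sum]
    refine Finset.sum_congr rfl fun i _ => ?_
    rw [emb_sum]
    have e1 : ∀ v : B.cube l, emb (eS s x l) (if v.1 = u.1 + Pi.single i 1 then
        ∑ ab : Fin s × Fin s, hM (u, ab.1) (v, ab.2) else 0) =
        if v.1 = u.1 + Pi.single i 1 then
          (∑ ab : Fin s × Fin s, hM (eC x l u, ab.1) (nxt (eC x l u, i), ab.2) :
            Matrix (Cfg (Tor n × Fin s)) (Cfg (Tor n × Fin s)) ℂ) else 0 := by
      intro v
      split_ifs with h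
      · rw [emb_sum]
        refine Finset.sum_congr rfl fun ab _ => ?_
        rw [emb_hM heS, ← nxt_eC x l u v i h]
        rfl
      · exact emb_zero _
    simp only [e1]
    refine (Finset.sum_coe_sort (B.cube l) (fun v => if v = u.1 + Pi.single i 1 then
      (∑ ab : Fin s × Fin s, hM (eC x l u, ab.1) (nxt (eC x l u, i), ab.2) :
            Matrix (Cfg (Tor n × Fin s)) (Cfg (Tor n × Fin s)) ℂ) else 0)).trans ?_
    rw [Finset.sum_ite_eq']
  have hinj : Function.Injective fun p : B.cube l × Fin 3 => (eC x l p.1, p.2) := by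
    intro p q h
    have h2 := Prod.mk.inj h
    exact Prod.ext (he h2.1) h2.2
  have h2 : emb (eS s x l) (cpx (S3S.boxA s l)) =
      ∑ z ∈ T.image fun p => (eC x l p.1, p.2), ∑ ab : Fin s × Fin s,
        (hM (z.1, ab.1) (nxt z, ab.2) :
          Matrix (Cfg (Tor n × Fin s)) (Cfg (Tor n × Fin s)) ℂ) := by
    rw [h1, Finset.sum_image fun p _ q _ h => hinj h]
  have h3 : (T.image fun p => (eC x l p.1, p.2)) ⊆ Vale.Agent.P361.LRO.Energy.ET.ins (cube n x l) := by
    intro z hz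
    obtain ⟨p, hp, rfl⟩ := Finset.mem_image.1 hz
    have hp' := (Finset.mem_filter.1 hp).2
    refine Finset.mem_filter.2 ⟨Finset.mem_univ _, eC_mem x l p.1, ?_⟩
    have := nxt_eC x l p.1 ⟨_, hp'⟩ p.2 rfl
    rw [← this]
    exact eC_mem x l _
  rw [h2, inA, ← Finset.sum_sdiff h3, add_sub_cancel_right]
  exact Matrix.posSemidef_sum _ fun z _ => Matrix.posSemidef_sum _ fun ab _ => hM_posSemidef _ _

theorem emb_boxB_le (x : Tor n) {l : ℕ} (hl : l ≤ n) :
    (inB s (cube n x l) - emb (eS s x l) (cpx (S3S.boxB s l))).PosSemidef := by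
  classical
  have he := eC_injective (x := x) hl
  have heS := eS_injective (s := s) (x := x) hl
  have h1 : emb (eS s x l) (cpx (S3S.boxB s l)) =
      ∑ y ∈ (Finset.univ : Finset (B.cube l)).image (eC x l), ∑ ab : Fin s × Fin s with ab.1 < ab.2,
        (hM (y, ab.1) (y, ab.2) :
          Matrix (Cfg (Tor n × Fin s)) (Cfg (Tor n × Fin s)) ℂ) := by
    rw [cpx_boxB, emb_sum, Finset.sum_image fun p _ q _ h => he h]
    refine Finset.sum_congr rfl fun u _ => ?_
    rw [emb_sum]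
    refine Finset.sum_congr rfl fun ab _ => ?_
    rw [emb_hM heS]
    rfl
  have h3 : ((Finset.univ : Finset (B.cube l)).image (eC x l)) ⊆ cube n x l := by
    intro z hz
    obtain ⟨p, -, rfl⟩ := Finset.mem_image.1 hz
    exact eC_mem x l p
  rw [h1, inB, ← Finset.sum_sdiff h3, add_sub_cancel_right]
  exact Matrix.posSemidef_sum _ fun z _ => Matrix.posSemidef_sum _ fun ab _ => hM_posSemidef _ _

theorem sum_replicate {α M' : Type*} [AddCommMonoid M'] (M : ℕ) (l : List α) (F : α → M') :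
    (((List.replicate M l).flatten).map F).sum = M • (l.map F).sum := by
  induction M with
  | zero => simp
  | succ M ih =>
    rw [List.replicate_succ, List.flatten_cons, List.map_append, List.sum_append, ih, succ_nsmul,
      add_comm]

/-- sum over the edges with copies -/
theorem sum_edgesS {M' : Type*} [AddCommMonoid M'] (M : ℕ)
    (F : (Tor n × Fin s) × (Tor n × Fin s) → M') :
    ((edgesS n s M).map F).sum =
      (∑ z : Tor n × Fin 3, ∑ ab : Fin s × Fin s, F ((z.1, ab.1), (nxt z, ab.2))) +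
      M • ∑ y : Tor n, ∑ ab : Fin s × Fin s with ab.1 < ab.2, F ((y, ab.1), (y, ab.2)) := by
  rw [edgesS, List.map_append, List.sum_append, sum_replicate, sum_interE, sum_interL]
  congr 1
  · exact sum_edges (n := n) fun e => ∑ ab : Fin s × Fin s, F ((e.1, ab.1), (e.2, ab.2))
  · congr 1
    rw [intraE, List.map_map, Finset.sum_map_toList, Finset.sum_filter, Fintype.sum_prod_type]
    refine Finset.sum_congr rfl fun u _ => ?_
    rw [Finset.sum_filter]
    rfl

theorem sum_getL {α M' : Type*} [AddCommMonoid M'] (L : List α) (F : α → M') :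
    ∑ i : Fin L.length, F (L.get i) = (L.map F).sum := by
  rw [← Fin.sum_univ_fun_getElem]
  rfl

/-- the bonds inside in the exponent -/
theorem inX_edgesS (M : ℕ) (Q : Finset (Tor n)) (β : ℝ) :
    inX (Q ×ˢ (Finset.univ : Finset (Fin s))) β
      (fun i : Fin (edgesS n s M).length => ((edgesS n s M).get i).1)
      (fun i => ((edgesS n s M).get i).2) (fun _ => 1) =
      (β : ℂ) • (inA s Q + (M : ℂ) • inB s Q) := by
  rw [inX, Finset.sum_filter]
  refine (sum_getL (edgesS n s M) (fun e => if e.1 ∈ Q ×ˢ (Finset.univ : Finset (Fin s)) ∧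
    e.2 ∈ Q ×ˢ (Finset.univ : Finset (Fin s)) then
    (((β * 1 : ℝ)) : ℂ) • (hM e.1 e.2 : Matrix (Cfg (Tor n × Fin s)) (Cfg (Tor n × Fin s)) ℂ)
      else 0)).trans ?_
  rw [sum_edgesS]
  have hA : (∑ z : Tor n × Fin 3, ∑ ab : Fin s × Fin s,
      if (((z.1, ab.1), (nxt z, ab.2)) : (Tor n × Fin s) × (Tor n × Fin s)).1 ∈
          Q ×ˢ (Finset.univ : Finset (Fin s)) ∧
        (((z.1, ab.1), (nxt z, ab.2)) : (Tor n × Fin s) × (Tor n × Fin s)).2 ∈
          Q ×ˢ (Finset.univ : Finset (Fin s)) then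
        (((β * 1 : ℝ)) : ℂ) • (hM (z.1, ab.1) (nxt z, ab.2) :
          Matrix (Cfg (Tor n × Fin s)) (Cfg (Tor n × Fin s)) ℂ) else 0) = (β : ℂ) • inA s Q := by
    rw [inA, Vale.Agent.P361.LRO.Energy.ET.ins, Finset.sum_filter, Finset.smul_sum]
    refine Finset.sum_congr rfl fun z _ => ?_
    by_cases hz : z.1 ∈ Q ∧ nxt z ∈ Q
    · rw [if_pos hz, Finset.smul_sum]
      refine Finset.sum_congr rfl fun ab _ => ?_
      rw [if_pos (by simpa using hz), mul_one]
    · rw [if_neg hz, smul_zero]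
      refine Finset.sum_eq_zero fun ab _ => ?_
      rw [if_neg (by simpa using hz)]
  have hB : (∑ y : Tor n, ∑ ab : Fin s × Fin s with ab.1 < ab.2,
      if (((y, ab.1), (y, ab.2)) : (Tor n × Fin s) × (Tor n × Fin s)).1 ∈
          Q ×ˢ (Finset.univ : Finset (Fin s)) ∧
        (((y, ab.1), (y, ab.2)) : (Tor n × Fin s) × (Tor n × Fin s)).2 ∈
          Q ×ˢ (Finset.univ : Finset (Fin s)) then
        (((β * 1 : ℝ)) : ℂ) • (hM (y, ab.1) (y, ab.2) :
          Matrix (Cfg (Tor n × Fin s)) (Cfg (Tor n × Fin s)) ℂ) else 0) = (β : ℂ) • inB s Q := by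
    rw [inB, Finset.smul_sum, ← Finset.sum_subset (Finset.subset_univ Q)]
    · refine Finset.sum_congr rfl fun y hy => ?_
      rw [Finset.smul_sum]
      refine Finset.sum_congr rfl fun ab _ => ?_
      rw [if_pos (by simpa using hy), mul_one]
    · intro y _ hy
      refine Finset.sum_eq_zero fun ab _ => ?_
      rw [if_neg (by simpa using hy)]
  refine (congrArg₂ (· + ·) hA (congrArg (M • ·) hB)).trans ?_
  show _ + _ = _
  rw [← Nat.cast_smul_eq_nsmul ℂ, smul_add, smul_smul, smul_smul, mul_comm (M : ℂ)]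

theorem cpx_isHermitian {ι : Type*} [Fintype ι] [DecidableEq ι] {A : Matrix ι ι ℝ} (hA : A.IsSymm) :
    (cpx A).IsHermitian := by
  ext i j
  rw [Matrix.conjTranspose_apply, cpx, Matrix.map_apply, Matrix.map_apply, hA.apply]
  simp

theorem box_symm (s l M : ℕ) (c : ℝ) : (c • (S3S.boxA s l + (M : ℝ) • S3S.boxB s l)).IsSymm := by
  unfold S3S.boxA S3S.boxB
  exact (((ham_symm _ _).smul _).add ((ham_symm _ _).smul _)).smul _

/-- the free cube of the torus with copies against the free box with copies -/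
theorem log_resQS_le (M : ℕ) (x : Tor n) {l : ℕ} (hl : l ≤ n) {β : ℝ} (hβ : 0 ≤ β) :
    Real.log (trace (NormedSpace.exp (resQ (cube n x l ×ˢ (Finset.univ : Finset (Fin s)))
      (((-(1 / 2) : ℝ) : ℂ) • inX (cube n x l ×ˢ (Finset.univ : Finset (Fin s))) β
        (fun i : Fin (edgesS n s M).length => ((edgesS n s M).get i).1)
        (fun i => ((edgesS n s M).get i).2) (fun _ => 1))))).re ≤
      Real.log (S3S.ZbM s l M (β / 2)) := by
  set QS := cube n x l ×ˢ (Finset.univ : Finset (Fin s)) with hQS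
  have hin := inX_isHermitian QS β (fun i : Fin (edgesS n s M).length => ((edgesS n s M).get i).1)
        (fun i => ((edgesS n s M).get i).2) (fun _ => 1)
  have hon := inX_onQ QS β (fun i : Fin (edgesS n s M).length => ((edgesS n s M).get i).1)
        (fun i => ((edgesS n s M).get i).2) (fun _ => 1)
  have hX : (cpx (-(β / 2) • (S3S.boxA s l + (M : ℝ) • S3S.boxB s l))).IsHermitian :=
    cpx_isHermitian (box_symm s l M _)
  rw [log_resQ _ (onQ_smul _ hon) (smul_real_isHermitian hin _)]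
  have h1 : nlt (((-(1 / 2) : ℝ) : ℂ) •
      inX QS β (fun i : Fin (edgesS n s M).length => ((edgesS n s M).get i).1)
        (fun i => ((edgesS n s M).get i).2) (fun _ => 1)) ≤
      nlt (cpx (-(β / 2) • (S3S.boxA s l + (M : ℝ) • S3S.boxB s l))) := by
    rw [← nlt_emb (eS s x l) (eS_injective hl) hX]
    unfold nlt
    refine sub_le_sub_right (Real.log_le_log (trace_exp_pos (smul_real_isHermitian hin _)) ?_) _
    refine trace_exp_mono (smul_real_isHermitian hin _) (emb_isHermitian _ hX) ?_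
    have e : emb (eS s x l) (cpx (-(β / 2) • (S3S.boxA s l + (M : ℝ) • S3S.boxB s l))) -
        ((-(1 / 2) : ℝ) : ℂ) • inX QS β
          (fun i : Fin (edgesS n s M).length => ((edgesS n s M).get i).1)
        (fun i => ((edgesS n s M).get i).2) (fun _ => 1) =
        (((β / 2 : ℝ)) : ℂ) • ((inA s (cube n x l) - emb (eS s x l) (cpx (S3S.boxA s l))) +
          (((M : ℝ)) : ℂ) • (inB s (cube n x l) - emb (eS s x l) (cpx (S3S.boxB s l)))) := by
      rw [cpx_smul, cpx_add, cpx_smul, emb_smul, emb_add, emb_smul, hQS, inX_edgesS, smul_smul,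
        smul_sub]
      push_cast
      module
    rw [e]
    exact smul_real_posSemidef ((emb_boxA_le x hl).add
      (smul_real_posSemidef (emb_boxB_le x hl) (Nat.cast_nonneg M))) (by positivity)
  have h2 : Real.log (S3S.ZbM s l M (β / 2)) =
      nlt (cpx (-(β / 2) • (S3S.boxA s l + (M : ℝ) • S3S.boxB s l))) +
        ((l : ℝ) ^ 3 * s) * Real.log 2 := by
    have hc : Fintype.card (B.cube l × Fin s) = l ^ 3 * s := by
      rw [Fintype.card_prod, Fintype.card_coe, B.cube_eq, card_cube, Fintype.card_fin]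
    unfold nlt
    rw [hc, ← cpx_exp, cpx_trace, S3S.ZbM]
    push_cast
    ring
  have h3 : ((QS.card : ℕ) : ℝ) ≤ (l : ℝ) ^ 3 * s := by
    rw [hQS, Finset.card_product, Finset.card_univ, Fintype.card_fin]
    push_cast
    have : ((cube n x l).card : ℝ) ≤ (l : ℝ) ^ 3 := by exact_mod_cast card_cube_le x l
    exact mul_le_mul_of_nonneg_right this (by positivity)
  have h4 : 0 ≤ Real.log 2 := Real.log_nonneg (by norm_num)
  have h5 := mul_le_mul_of_nonneg_right h3 h4
  rw [h2]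
  linarith

/-- **Energy of a cube with copies.** -/
theorem energyS_ins (M : ℕ) {β : ℝ} (hβ : 0 ≤ β) {h : Tor n → ℝ} (hh : ∀ x, 0 ≤ h x) (x : Tor n)
    {l : ℕ} (hl0 : 0 < l) (hl : l ≤ n) :
    β * ∑ i : Fin s, ∑ j : Fin s, ∑ z ∈ Vale.Agent.P361.LRO.Energy.ET.ins (cube n x l), ee n s M β h z i j ≤
      2 * (Real.log (S3S.ZbM s l M (β / 2)) + 6 * s ^ 2 * β * (l : ℝ) ^ 2) := by
  set Q := cube n x l with hQ
  set QS := Q ×ˢ (Finset.univ : Finset (Fin s)) with hQS
  have h1 := energy_half QS (hS h) (fun i : Fin (edgesS n s M).length => ((edgesS n s M).get i).1)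
    (fun i => ((edgesS n s M).get i).2) hβ (c := fun _ => 1) (fun _ => zero_le_one)
    (fun y _ => hh y.1)
  have h2 := log_resQS_le (s := s) M x hl hβ
  have h3 : ∑ i : Fin s, ∑ j : Fin s, ∑ z ∈ Vale.Agent.P361.LRO.Energy.ET.ins Q, ee n s M β h z i j ≤
      ∑ i : Fin (edgesS n s M).length with (((edgesS n s M).get i).1 ∈ QS ∧
      ((edgesS n s M).get i).2 ∈ QS), (1 : ℝ) * ex (gibX β (hS h)
        (fun i : Fin (edgesS n s M).length => ((edgesS n s M).get i).1)
        (fun i => ((edgesS n s M).get i).2) (fun _ => 1))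
        (hM ((edgesS n s M).get i).1 ((edgesS n s M).get i).2) := by
    rw [Finset.sum_filter]
    simp only [one_mul, ← gib_hM]
    rw [sum_getL (edgesS n s M) (fun e => if e.1 ∈ QS ∧ e.2 ∈ QS then
      gib (edgesS n s M) β (hS h) (LRO.hM e.1 e.2) else 0), sum_edgesS]
    refine le_trans (le_of_eq ?_) (le_add_of_nonneg_right ?_)
    · have e1 : ∀ i j : Fin s, ∑ z ∈ Vale.Agent.P361.LRO.Energy.ET.ins Q, ee n s M β h z i j =
          ∑ z : Tor n × Fin 3, if z.1 ∈ Q ∧ nxt z ∈ Q then ee n s M β h z i j else 0 := by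
        intro i j
        rw [Vale.Agent.P361.LRO.Energy.ET.ins, Finset.sum_filter]
      simp only [e1]
      rw [Finset.sum_congr rfl fun i _ => Finset.sum_comm, Finset.sum_comm]
      refine Finset.sum_congr rfl fun z _ => ?_
      rw [Fintype.sum_prod_type]
      refine Finset.sum_congr rfl fun i _ => Finset.sum_congr rfl fun j _ => ?_
      simp only [hQS, Finset.mem_product, Finset.mem_univ, and_true]
      rfl
    · refine nsmul_nonneg (Finset.sum_nonneg fun y _ => Finset.sum_nonneg fun ab _ => ?_) _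
      split_ifs
      · exact gib_hM_nonneg _ _ _ _ _
      · exact le_rfl
  have h4 : ∑ i : Fin (edgesS n s M).length with ((((edgesS n s M).get i).1 ∈ QS ∨
      ((edgesS n s M).get i).2 ∈ QS) ∧ ¬ (((edgesS n s M).get i).1 ∈ QS ∧
      ((edgesS n s M).get i).2 ∈ QS)), (1 : ℝ) = (s : ℝ) ^ 2 * ((bdy Q).card : ℝ) := by
    rw [Finset.sum_filter, sum_getL (edgesS n s M) (fun e => if (e.1 ∈ QS ∨ e.2 ∈ QS) ∧
      ¬ (e.1 ∈ QS ∧ e.2 ∈ QS) then (1 : ℝ) else 0), sum_edgesS]
    have e2 : (∑ y : Tor n, ∑ ab : Fin s × Fin s with ab.1 < ab.2,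
        if ((y, ab.1) ∈ QS ∨ (y, ab.2) ∈ QS) ∧ ¬ ((y, ab.1) ∈ QS ∧ (y, ab.2) ∈ QS) then
          (1 : ℝ) else 0) = 0 := by
      refine Finset.sum_eq_zero fun y _ => Finset.sum_eq_zero fun ab _ => ?_
      rw [if_neg]
      simp only [hQS, Finset.mem_product, Finset.mem_univ, and_true]
      tauto
    rw [e2, smul_zero, add_zero, bdy, Finset.card_filter]
    push_cast
    rw [Finset.mul_sum]
    refine Finset.sum_congr rfl fun z _ => ?_
    simp only [hQS, Finset.mem_product, Finset.mem_univ, and_true]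
    rw [Finset.sum_const, Finset.card_univ, Fintype.card_prod, Fintype.card_fin, nsmul_eq_mul]
    push_cast
    ring
  rw [h4] at h1
  have h5 : ((bdy Q).card : ℝ) ≤ 6 * (l : ℝ) ^ 2 := by exact_mod_cast card_bdy_le x hl0
  have h6 : β * ((s : ℝ) ^ 2 * ((bdy Q).card : ℝ)) ≤ β * ((s : ℝ) ^ 2 * (6 * (l : ℝ) ^ 2)) := by
    gcongr
  have h7 := mul_le_mul_of_nonneg_left h3 hβ
  linarith

/-- the bonds touching a cube are inside the cube with one more layer -/
theorem tch_subset_ins (x : Tor n) (l : ℕ) :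
    tch (cube n x l) ⊆ Vale.Agent.P361.LRO.Energy.ET.ins (cube n (x - 1) (l + 2)) := by
  have key : ∀ (y : Tor n) (a : Fin 3 → Fin l) (k : Fin 3) (c : ℕ), c ≤ 2 →
      y = (x + fun i => ((a i : ℕ) : ZMod n)) - Pi.single k 1 + Pi.single k (c : ZMod n) →
      y ∈ cube n (x - 1) (l + 2) := by
    intro y a k c hc hy
    refine mem_cube.2 ⟨fun i => ⟨if i = k then (a i : ℕ) + c else (a i : ℕ) + 1, ?_⟩, ?_⟩
    · have := (a i).2
      split_ifs <;> omega
    · rw [hy]
      funext i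
      by_cases hi : i = k
      · subst hi
        simp only [Pi.add_apply, Pi.sub_apply, Pi.single_eq_same, if_true, Pi.one_apply]
        push_cast
        ring
      · simp only [Pi.add_apply, Pi.sub_apply, Pi.single_eq_of_ne hi, if_neg hi, Pi.one_apply]
        push_cast
        ring
  intro z hz
  rw [tch, Finset.mem_filter] at hz
  rw [Vale.Agent.P361.LRO.Energy.ET.ins, Finset.mem_filter]
  refine ⟨Finset.mem_univ _, ?_⟩
  rcases hz.2 with h | h
  · obtain ⟨a, ha⟩ := mem_cube.1 h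
    refine ⟨key _ a z.2 1 (by norm_num) ?_, key _ a z.2 2 le_rfl ?_⟩
    · rw [ha]; push_cast; abel
    · rw [nxt, ha]
      have : (Pi.single z.2 ((2 : ℕ) : ZMod n) : Tor n) = Pi.single z.2 1 + Pi.single z.2 1 := by
        rw [← Pi.single_add]; norm_num
      rw [this]; abel
  · obtain ⟨a, ha⟩ := mem_cube.1 h
    have hz1 : z.1 = nxt z - Pi.single z.2 1 := by rw [nxt]; abel
    refine ⟨key _ a z.2 0 (by norm_num) ?_, key _ a z.2 1 (by norm_num) ?_⟩
    · rw [hz1, ha]; push_cast; simp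
    · rw [ha]; push_cast; abel

end

end Vale.Agent.P361.LRO.Energy.ETS

namespace Vale.Agent.P361.LRO.S3S

open Finset Matrix Vale.Agent.P361.LRO.GenS Vale.Agent.P361.LRO.S3
open Vale.Agent.P361.LRO.GenS.EnS

noncomputable section

variable {n s : ℕ} [NeZero n]

theorem gib_CM {V : Type} [Fintype V] [DecidableEq V] (L : List (V × V)) (β : ℝ) (h : V → ℝ)
    (b : Finset V) : gib L β h (CM b) = ∑ x ∈ b, ∑ y ∈ b, gib L β h (hM x y) := by
  rw [CM]
  have hs : ∀ {κ : Type} (t : Finset κ) (F : κ → Matrix (V → Fin 2) (V → Fin 2) ℝ),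
      gib L β h (∑ k ∈ t, F k) = ∑ k ∈ t, gib L β h (F k) := by
    intro κ t F
    unfold gib
    rw [Matrix.mul_sum, Matrix.trace_sum, Finset.sum_div]
  rw [hs]
  exact Finset.sum_congr rfl fun x _ => hs _ _

/-- **Energy of the blocks** (geometry half of `EnergyStmt3S`). -/
theorem energyS_blocks (hs : 0 < s) (M : ℕ) {β : ℝ} (hβ : 0 < β) {h : Tor n → ℝ}
    (hh : ∀ x, 0 ≤ h x) (x : Tor n) (w m : ℕ) (hw : 1 ≤ w) (hm : 1 ≤ m) (hwm : w * m + 2 ≤ n) :
    (∑ y : Fin 3 → Fin m, yb (edgesS n s M) β (hS h)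
      (cubeS n s (x + fun i => ((w * (y i : ℕ) : ℕ) : ZMod n)) w)) / (m : ℝ) ^ 3 ≤
      (40 * s + 64) / ((s : ℝ) ^ 2 * β * w * (m : ℝ) ^ 3) *
        (2 * (Real.log (ZbM s (w * m + 2) M (β / 2)) +
          6 * s ^ 2 * β * (((w * m + 2 : ℕ)) : ℝ) ^ 2)) := by
  have hw' : (0 : ℝ) < w := by exact_mod_cast hw
  have hm' : (0 : ℝ) < m := by exact_mod_cast hm
  have hs' : (0 : ℝ) < s := by exact_mod_cast hs
  have hwn : w ≤ n := by nlinarith
  have h1 := total_le (s := s) M β h x w m hw hwn (by omega)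
  have h2 := Energy.ETS.energyS_ins (s := s) M hβ.le hh (x - 1) (l := w * m + 2) (by omega) hwm
  have h3 : ∑ i : Fin s, ∑ j : Fin s, ∑ z ∈ Energy.tch (cube n x (w * m)), ee n s M β h z i j ≤
      ∑ i : Fin s, ∑ j : Fin s, ∑ z ∈ Vale.Agent.P361.LRO.Energy.ET.ins (cube n (x - 1) (w * m + 2)),
        ee n s M β h z i j :=
    Finset.sum_le_sum fun i _ => Finset.sum_le_sum fun j _ =>
      Finset.sum_le_sum_of_subset_of_nonneg (Energy.ETS.tch_subset_ins x (w * m))
        fun z _ _ => ee_nonneg _ _ _ _ _ _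
  have h4 : ∀ y : Fin 3 → Fin m, yb (edgesS n s M) β (hS h)
      (cubeS n s (x + fun i => ((w * (y i : ℕ) : ℕ) : ZMod n)) w) =
      1 / ((w : ℝ) ^ 6 * s ^ 2) *
      ∑ z ∈ cubeS n s (x + fun i => ((w * (y i : ℕ) : ℕ) : ZMod n)) w,
      ∑ z' ∈ cubeS n s (x + fun i => ((w * (y i : ℕ) : ℕ) : ZMod n)) w,
        gib (edgesS n s M) β (hS h) (hM z z') := by
    intro y
    rw [yb, gib_CM, Vale.Agent.P361.LRO.GenS.EnS.card_cubeS _ hwn]
    field_simp
  simp only [h4]
  rw [← Finset.mul_sum]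
  set E := 2 * (Real.log (ZbM s (w * m + 2) M (β / 2)) +
          6 * s ^ 2 * β * (((w * m + 2 : ℕ)) : ℝ) ^ 2) with hE
  have h5 : ∑ i : Fin s, ∑ j : Fin s, ∑ z ∈ Energy.tch (cube n x (w * m)), ee n s M β h z i j ≤
      E / β := by
    rw [le_div_iff₀ hβ, mul_comm]
    exact (mul_le_mul_of_nonneg_left h3 hβ.le).trans h2
  have h6 : (40 * (s : ℝ) + 64) * (w : ℝ) ^ 5 * ∑ i : Fin s, ∑ j : Fin s,
      ∑ z ∈ Energy.tch (cube n x (w * m)), ee n s M β h z i j ≤
      (40 * s + 64) * (w : ℝ) ^ 5 * (E / β) := mul_le_mul_of_nonneg_left h5 (by positivity)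
  rw [div_le_iff₀ (by positivity)]
  calc 1 / ((w : ℝ) ^ 6 * s ^ 2) * _ ≤ 1 / ((w : ℝ) ^ 6 * s ^ 2) *
        ((40 * s + 64) * (w : ℝ) ^ 5 * (E / β)) :=
        mul_le_mul_of_nonneg_left (h1.trans h6) (by positivity)
    _ = (40 * s + 64) / ((s : ℝ) ^ 2 * β * w * (m : ℝ) ^ 3) * E * (m : ℝ) ^ 3 := by
        field_simp

theorem ham_zero {V : Type} [Fintype V] [DecidableEq V] (L : List (V × V)) :
    ham L (0 : V → ℝ) = (L.map fun e => hM e.1 e.2).sum := by
  rw [ham]; simp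

theorem ham_Lm_zero {V : Type} [Fintype V] [DecidableEq V] (L : List (V × V)) (s m : ℕ) :
    ham (Lm L s m) (0 : V × Fin s → ℝ) = ham (interL L s) 0 + (m : ℝ) • ham (intraL V s) 0 := by
  rw [ham_zero, ham_zero, ham_zero, Lm, List.map_append, List.sum_append,
    Energy.ETS.sum_replicate, Nat.cast_smul_eq_nsmul]

theorem ZbM_eq (s l M : ℕ) (β : ℝ) : ZbM s l M (β / 2) =
    trace (NormedSpace.exp (-(β / 4) • ham (Lm (nnL (B.cube l)) s (2 * M)) 0)) := by
  rw [ZbM, boxA, boxB, ham_Lm_zero]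
  congr 2
  push_cast
  module

/-- **Seam** (683's form). -/
theorem seamE (M : ℕ) {β : ℝ} (hβ : 0 ≤ β) {h : Tor n → ℝ} (hh : ∀ x, 0 ≤ h x) (x : Tor n) {l : ℕ}
    (hl0 : 0 < l) (hl : l ≤ n) :
    β * ∑ z ∈ Vale.Agent.P361.LRO.Energy.ET.ins (cube n x l), ∑ i : Fin s, ∑ j : Fin s, ee n s M β h z i j ≤
      2 * (Real.log (trace (NormedSpace.exp
        (-(β / 4) • ham (Lm (nnL (B.cube l)) s (2 * M)) 0))) + 6 * s ^ 2 * β * (l : ℝ) ^ 2) := by
  rw [← ZbM_eq]
  refine le_trans (le_of_eq ?_) (Energy.ETS.energyS_ins (s := s) M hβ hh x hl0 hl)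
  congr 1
  rw [Finset.sum_comm]
  refine Finset.sum_congr rfl fun i _ => ?_
  rw [Finset.sum_comm]

end

end Vale.Agent.P361.LRO.S3S
end

section

/-!
P361, stage 3, all spins `S = s/2`: the start of the bootstrap at the uniform field `h = 1/β`, on the
level of the magnetization per site of the odd tori (helper10).
-/

namespace Vale.Agent.P361.LRO.S3

open Filter Topology Finset

/-- Magnetization per site on odd tori from the torus pressure. -/
theorem magTorus_ge_slope (s : ℕ) {N : ℕ} (hN : 1 ≤ N) {β h : ℝ} (hβ : 0 < β) (hh : 0 < h) :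
    (pressTorus s N β h - pressTorus s N β (h / 2)) / (h / 2) ≤
      gibbsMagV s (torusAdj (2 * N + 1)) β h / (2 * N + 1) ^ 3 := by
  have h1 := pressTorus_support s N hN hβ h (h / 2)
  rw [div_le_iff₀ (by positivity)]
  nlinarith

/-- Field `c/β`: the deficit of the magnetization per site is `O(β^{-3/2})` on large odd tori. -/
theorem magTorus_start (s : ℕ) {c : ℝ} (hc : 0 < c) (hU : ∀ κ : ℝ, κ < 1 / 21 → ∀ ε : ℝ, 0 < ε →
    ∀ᶠ β : ℝ in atTop, ∀ h : ℝ, β ^ (-1 - κ) ≤ h →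
      |β ^ (3 / 2 : ℝ) * ((s : ℝ) / 2 - Model.mag s β h) -
        Model.idealDeficit ((s : ℝ) / 2) (β * h)| ≤ ε) :
    ∃ C β0 : ℝ, ∀ β : ℝ, β0 ≤ β → ∃ N0 : ℕ, ∀ N : ℕ, N0 ≤ N → 1 ≤ N ∧
      (s : ℝ) / 2 - gibbsMagV s (torusAdj (2 * N + 1)) β (c / β) / (2 * N + 1) ^ 3 ≤
        C * β ^ (-(3 / 2) : ℝ) := by
  set I := Model.idealDeficit ((s : ℝ) / 2) (c / 2) with hI
  have h1 := hU (1 / 42) (by norm_num) 1 one_pos
  obtain ⟨β1, hβ1⟩ := eventually_atTop.1 h1
  have hlim : Tendsto (fun β : ℝ => β ^ (1 / 42 : ℝ)) atTop atTop :=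
    tendsto_rpow_atTop (by norm_num)
  obtain ⟨β2, hβ2⟩ := eventually_atTop.1 (hlim.eventually (eventually_ge_atTop (2 / c)))
  refine ⟨|I| + 2, max (max β1 β2) 1, fun β hβ => ?_⟩
  have hb1 : β1 ≤ β := le_trans (le_trans (le_max_left _ _) (le_max_left _ _)) hβ
  have hb2 : β2 ≤ β := le_trans (le_trans (le_max_right _ _) (le_max_left _ _)) hβ
  have hb0 : (0 : ℝ) < β := lt_of_lt_of_le one_pos (le_trans (le_max_right _ _) hβ)
  set h : ℝ := c / β with hh
  have hpos : 0 < h := by positivity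
  have hfield : β ^ (-1 - 1 / 42 : ℝ) ≤ h / 2 := by
    have e1 : β ^ (-1 - 1 / 42 : ℝ) = β⁻¹ * (β ^ (1 / 42 : ℝ))⁻¹ := by
      rw [← Real.rpow_neg hb0.le, ← Real.rpow_neg_one, ← Real.rpow_add hb0]
      congr 1
    have e2 : 2 / c ≤ β ^ (1 / 42 : ℝ) := hβ2 β hb2
    have e4 : (β ^ (1 / 42 : ℝ))⁻¹ ≤ (2 / c)⁻¹ := inv_anti₀ (by positivity) e2
    have e5 : h / 2 = β⁻¹ * (2 / c)⁻¹ := by rw [hh]; field_simp
    rw [e1, e5]
    exact mul_le_mul_of_nonneg_left e4 (inv_nonneg.2 hb0.le)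
  have h2 := hβ1 β hb1 (h / 2) hfield
  have hbh : β * (h / 2) = c / 2 := by
    rw [hh]; field_simp
  rw [hbh, ← hI] at h2
  have hb32 : 0 < β ^ (3 / 2 : ℝ) := Real.rpow_pos_of_pos hb0 _
  have hneg : β ^ (-(3 / 2) : ℝ) = (β ^ (3 / 2 : ℝ))⁻¹ := Real.rpow_neg hb0.le _
  have hb32' : 0 < β ^ (-(3 / 2) : ℝ) := Real.rpow_pos_of_pos hb0 _
  have h3 : (s : ℝ) / 2 - Model.mag s β (h / 2) ≤ (|I| + 1) * β ^ (-(3 / 2) : ℝ) := by
    have e1 := (abs_le.1 h2).2
    have e2 := le_abs_self I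
    rw [hneg, ← div_eq_mul_inv, le_div_iff₀ hb32]
    linarith
  have h4 := Vale.Agent.P361.rightDeriv_le_slope' s hb0 (h₀ := h / 2) (h := h) (by linarith)
  have h4' : Model.mag s β (h / 2) ≤
      (Model.pressure s β h - Model.pressure s β (h / 2)) / (h / 2) := by
    have e1 : h - h / 2 = h / 2 := by ring
    rw [e1] at h4
    exact h4
  have h5 : Tendsto (fun N : ℕ => (pressTorus s N β h - pressTorus s N β (h / 2)) / (h / 2)) atTop
      (𝓝 ((Model.pressure s β h - Model.pressure s β (h / 2)) / (h / 2))) :=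
    ((pressTorus_tendsto s hb0 h).sub (pressTorus_tendsto s hb0 (h / 2))).div_const _
  have h6 := (tendsto_order.1 h5).1
    ((Model.pressure s β h - Model.pressure s β (h / 2)) / (h / 2) - β ^ (-(3 / 2) : ℝ))
    (by linarith)
  obtain ⟨N0, hN0⟩ := eventually_atTop.1 h6
  refine ⟨N0 + 1, fun N hN => ⟨by omega, ?_⟩⟩
  have h7 := hN0 N (by omega)
  have h8 := magTorus_ge_slope s (by omega : 1 ≤ N) hb0 hpos
  have h9 : (|I| + 1) * β ^ (-(3 / 2) : ℝ) + β ^ (-(3 / 2) : ℝ) =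
      (|I| + 2) * β ^ (-(3 / 2) : ℝ) := by ring
  linarith

end Vale.Agent.P361.LRO.S3
end

section

/-!
P361, low-temperature order: the bootstrap from the interface statements.
-/

namespace Vale.Agent.P361.LRO

open Filter Finset Matrix

noncomputable section

theorem Db_eq_Dst {V : Type} [Fintype V] [DecidableEq V] (L : List (V × V)) (β : ℝ) (h : V → ℝ)
    (b : Finset V) : Db L β h b = Dst L β h b := by
  unfold Db Dst
  ring

theorem pTwist_of (h : TwistStmt) : PTwist := by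
  obtain ⟨C, hC, H⟩ := h
  refine ⟨C, hC, ?_⟩
  intro V _ _ L _ β hβ h hh b K κ hb hK _ hκ hN
  have h1 := H V L β h K κ b hβ (fun x => (hh x).1) (by linarith) hκ hb hN
  rw [Db_eq_Dst] at h1
  linarith

theorem pEnergy_of (h : EnergyStmt) : PEnergy 2 := by
  obtain ⟨C, H⟩ := h
  refine ⟨max C 1, lt_max_of_lt_right one_pos, ?_⟩
  intro β hβ n _ w m hw hm hwm h hh x0
  have hm' : (0 : ℝ) < (m : ℝ) ^ 3 := by positivity
  have h1 := H n β h x0 w m (by linarith) (fun x => (hh x).1) hw hm hwm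
  rw [div_le_iff₀ hm'] at h1
  simp only [Db_eq_Dst] at h1
  have h2 : C * (w : ℝ) ^ 2 * (1 / β + 1 / ((w : ℝ) * m)) ≤
      max C 1 * (w : ℝ) ^ 2 * (1 / β + 1 / ((w : ℝ) * m)) := by
    rw [mul_assoc, mul_assoc]
    refine mul_le_mul_of_nonneg_right (le_max_left _ _) ?_
    have : (0 : ℝ) < β := by linarith
    positivity
  have h3 := mul_le_mul_of_nonneg_right h2 hm'.le
  linarith

theorem pHarn_of (h : RegStmt) : PHarn := by
  intro V _ _ L _ β hβ h1 h2 hh1 hh2 d hd hd3 hl z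
  exact h V L β h1 h2 d hβ hh1 hh2 hd hd3 hl z

theorem pTrans_of (h : TransStmt) : PTrans := by
  intro n _ β f v x
  exact h n β f x v

/-! ### The parameters -/

/-- the scale exponent: `β ^ (7/20) ≤ 3 ^ a ≤ 3 β ^ (7/20)` -/
def aS (β : ℝ) : ℕ := Nat.clog 3 ⌈β ^ (7 / 20 : ℝ)⌉₊

/-- the side of the blocks -/
def wS (β : ℝ) : ℕ := 3 ^ aS β

/-- the number of the blocks -/
def mS (β : ℝ) : ℕ := ⌈β ^ (9 / 20 : ℝ)⌉₊

/-- `1 / L₀` -/
def lamS (β : ℝ) : ℝ := β ^ (-(9 / 10) : ℝ)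

theorem wS_ge (β : ℝ) : β ^ (7 / 20 : ℝ) ≤ wS β := by
  refine (Nat.le_ceil _).trans ?_
  exact_mod_cast Nat.le_pow_clog (by norm_num) _

theorem wS_le {β : ℝ} (hβ : 1 < β) : (wS β : ℝ) ≤ 3 * β ^ (7 / 20 : ℝ) := by
  have h1 : 1 < β ^ (7 / 20 : ℝ) := Real.one_lt_rpow hβ (by norm_num)
  have h2 : 1 < ⌈β ^ (7 / 20 : ℝ)⌉₊ := by
    rw [Nat.lt_ceil]
    exact_mod_cast h1
  have h3 := Nat.pow_pred_clog_lt_self (b := 3) (by norm_num) h2
  have h4 : ((3 ^ (Nat.clog 3 ⌈β ^ (7 / 20 : ℝ)⌉₊).pred : ℕ) : ℝ) < β ^ (7 / 20 : ℝ) := by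
    rwa [← Nat.lt_ceil]
  have h5 : 0 < Nat.clog 3 ⌈β ^ (7 / 20 : ℝ)⌉₊ := Nat.clog_pos (by norm_num) h2
  unfold wS aS
  obtain ⟨k, hk⟩ := Nat.exists_eq_succ_of_ne_zero h5.ne'
  rw [hk] at h4 ⊢
  rw [Nat.pred_succ] at h4
  push_cast at h4 ⊢
  rw [pow_succ]
  linarith

theorem par_S : Par 2 wS mS lamS := by
  intro A C hA hC
  have hlim : ∀ (a : ℝ), 0 < a → ∀ B : ℝ, ∀ᶠ β : ℝ in atTop, B ≤ β ^ a := fun a ha B =>
    (tendsto_rpow_atTop ha).eventually_ge_atTop B
  filter_upwards [hlim (1 / 100) (by norm_num) (10 / A), hlim (1 / 100) (by norm_num) (1 / A),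
    hlim (26 / 25) (by norm_num) A,
    hlim (1 / 20) (by norm_num) (32 * (16 * A ^ 4 * (C * (9 * 2)))),
    hlim (19 / 100) (by norm_num) (7 * (9 / 2 * 18 ^ 2)),
    hlim (1 / 10) (by norm_num) 54,
    eventually_gt_atTop (1 : ℝ)] with β h1 h1' h2 h3 h4 h5 hβ1
  have hβ : 0 < β := by linarith
  have hw1 := wS_ge β
  have hw2 := wS_le hβ1
  have hp : ∀ a : ℝ, 0 < β ^ a := fun a => Real.rpow_pos_of_pos hβ a
  have hwpos : (0 : ℝ) < wS β := (hp _).trans_le hw1
  have hm1 : β ^ (9 / 20 : ℝ) ≤ mS β := Nat.le_ceil _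
  have hm2 : (mS β : ℝ) ≤ 2 * β ^ (9 / 20 : ℝ) := by
    have h6 : (mS β : ℝ) < β ^ (9 / 20 : ℝ) + 1 := Nat.ceil_lt_add_one (hp _).le
    have h7 : 1 < β ^ (9 / 20 : ℝ) := Real.one_lt_rpow hβ1 (by norm_num)
    linarith
  have hmpos : (0 : ℝ) < mS β := (hp _).trans_le hm1
  have hmul : ∀ a b : ℝ, β ^ a * β ^ b = β ^ (a + b) := fun a b => (Real.rpow_add hβ a b).symm
  have hl1 : β ^ (4 / 5 : ℝ) ≤ wS β * mS β := by
    have h6 := mul_le_mul hw1 hm1 (hp _).le hwpos.le
    rw [hmul] at h6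
    norm_num at h6 ⊢
    exact h6
  have hl2 : (wS β : ℝ) * mS β ≤ 6 * β ^ (4 / 5 : ℝ) := by
    have h6 := mul_le_mul hw2 hm2 hmpos.le (by positivity)
    have h7 : 3 * β ^ (7 / 20 : ℝ) * (2 * β ^ (9 / 20 : ℝ)) = 6 * β ^ (4 / 5 : ℝ) := by
      have h8 := hmul (7 / 20) (9 / 20)
      norm_num at h8
      linear_combination 6 * h8
    rwa [h7] at h6
  have hη : etaB β = (β ^ (1 / 100 : ℝ))⁻¹ := by
    unfold etaB
    rw [Real.rpow_neg hβ.le]
  have hAη : A / etaB β = A * β ^ (1 / 100 : ℝ) := by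
    rw [hη, div_inv_eq_mul]
  have hlam : lamS β = (β ^ (9 / 10 : ℝ))⁻¹ := by
    unfold lamS
    rw [Real.rpow_neg hβ.le]
  refine ⟨by exact_mod_cast hwpos, by exact_mod_cast hmpos, (hp _).le, ?_, ?_, ?_, ?_, ?_⟩
  · rw [hAη]
    rw [div_le_iff₀ hA] at h1
    linarith
  · rw [hAη]
    have h6 : (β ^ (7 / 20 : ℝ)) ^ 3 ≤ (wS β : ℝ) ^ 3 := pow_le_pow_left₀ (hp _).le hw1 3
    refine le_trans ?_ h6
    rw [← Real.rpow_natCast, ← Real.rpow_mul hβ.le]
    have h7 : β ^ (7 / 20 * ((3 : ℕ) : ℝ)) = β ^ (26 / 25 : ℝ) * β ^ (1 / 100 : ℝ) := by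
      rw [hmul]
      norm_num
    rw [h7]
    exact mul_le_mul_of_nonneg_right h2 (hp _).le
  · rw [hAη]
    have e1 : 1 + A * β ^ (1 / 100 : ℝ) ≤ 2 * (A * β ^ (1 / 100 : ℝ)) := by
      rw [div_le_iff₀ hA] at h1'
      linarith
    have e2 : (1 + A * β ^ (1 / 100 : ℝ)) ^ 4 ≤ 16 * A ^ 4 * β ^ (1 / 25 : ℝ) := by
      refine (pow_le_pow_left₀ (by positivity) e1 4).trans (le_of_eq ?_)
      rw [mul_pow, mul_pow, ← Real.rpow_natCast (β ^ (1 / 100 : ℝ)), ← Real.rpow_mul hβ.le]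
      norm_num
      ring
    have e3 : (wS β : ℝ) ^ 2 ≤ 9 * β ^ (7 / 10 : ℝ) := by
      refine (pow_le_pow_left₀ hwpos.le hw2 2).trans (le_of_eq ?_)
      rw [mul_pow, ← Real.rpow_natCast (β ^ (7 / 20 : ℝ)), ← Real.rpow_mul hβ.le]
      norm_num
    have e4 : 1 / β + 1 / ((wS β : ℝ) * mS β) ≤ 2 * (β ^ (4 / 5 : ℝ))⁻¹ := by
      have e5 : 1 / ((wS β : ℝ) * mS β) ≤ (β ^ (4 / 5 : ℝ))⁻¹ := by
        rw [one_div]
        exact inv_anti₀ (hp _) hl1
      have e6 : 1 / β ≤ (β ^ (4 / 5 : ℝ))⁻¹ := by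
        rw [one_div]
        refine inv_anti₀ (hp _) ?_
        conv_rhs => rw [← Real.rpow_one β]
        exact Real.rpow_le_rpow_of_exponent_le hβ1.le (by norm_num)
      linarith
    have e7 : C * (wS β : ℝ) ^ 2 * (1 / β + 1 / ((wS β : ℝ) * mS β)) ≤
        C * (9 * β ^ (7 / 10 : ℝ)) * (2 * (β ^ (4 / 5 : ℝ))⁻¹) := by
      refine mul_le_mul (mul_le_mul_of_nonneg_left e3 hC.le) e4 (by positivity) (by positivity)
    have e8 : (1 + A * β ^ (1 / 100 : ℝ)) ^ 4 *
        (C * (wS β : ℝ) ^ 2 * (1 / β + 1 / ((wS β : ℝ) * mS β))) ≤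
        16 * A ^ 4 * β ^ (1 / 25 : ℝ) * (C * (9 * β ^ (7 / 10 : ℝ)) *
          (2 * (β ^ (4 / 5 : ℝ))⁻¹)) :=
      mul_le_mul e2 e7 (by positivity) (by positivity)
    refine e8.trans ?_
    have e9 : β ^ (4 / 5 : ℝ) = β ^ (1 / 25 : ℝ) * β ^ (7 / 10 : ℝ) * (β ^ (1 / 20 : ℝ) *
        β ^ (1 / 100 : ℝ)) := by
      rw [hmul, hmul, hmul]
      norm_num
    rw [hη, e9]
    have q1 := hp (1 / 25)
    have q2 := hp (7 / 10)
    have q3 := hp (1 / 20)
    have q4 := hp (1 / 100)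
    have e10 : 16 * A ^ 4 * β ^ (1 / 25 : ℝ) * (C * (9 * β ^ (7 / 10 : ℝ)) *
        (2 * (β ^ (1 / 25 : ℝ) * β ^ (7 / 10 : ℝ) * (β ^ (1 / 20 : ℝ) *
          β ^ (1 / 100 : ℝ)))⁻¹)) =
        (16 * A ^ 4 * (C * (9 * 2))) / (β ^ (1 / 20 : ℝ) * β ^ (1 / 100 : ℝ)) := by
      field_simp
    rw [e10, div_le_div_iff₀ (by positivity) (by norm_num)]
    have e11 : (β ^ (1 / 100 : ℝ))⁻¹ * (β ^ (1 / 20 : ℝ) * β ^ (1 / 100 : ℝ)) =
        β ^ (1 / 20 : ℝ) := by
      field_simp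
    rw [e11]
    linarith
  · have e1 : (wS β : ℝ) * mS β * lamS β ≤ 6 * (β ^ (1 / 10 : ℝ))⁻¹ := by
      have e2 : (wS β : ℝ) * mS β * lamS β ≤ 6 * β ^ (4 / 5 : ℝ) * lamS β :=
        mul_le_mul_of_nonneg_right hl2 (hp _).le
      refine e2.trans (le_of_eq ?_)
      rw [hlam]
      have e3 : β ^ (9 / 10 : ℝ) = β ^ (4 / 5 : ℝ) * β ^ (1 / 10 : ℝ) := by
        rw [hmul]
        norm_num
      rw [e3]
      have q1 := hp (4 / 5)
      have q2 := hp (1 / 10)
      field_simp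
    have e0 : 0 ≤ (wS β : ℝ) * mS β * lamS β := by
      have := (hp (-(9 / 10))).le
      unfold lamS
      positivity
    have e2 : (3 * (wS β * mS β) * lamS β) ^ 2 ≤ (18 * (β ^ (1 / 10 : ℝ))⁻¹) ^ 2 := by
      refine pow_le_pow_left₀ (by linarith) (by linarith) 2
    have e3 : (18 * (β ^ (1 / 10 : ℝ))⁻¹) ^ 2 = 18 ^ 2 * (β ^ (1 / 5 : ℝ))⁻¹ := by
      rw [mul_pow, inv_pow, ← Real.rpow_natCast (β ^ (1 / 10 : ℝ)), ← Real.rpow_mul hβ.le]
      norm_num
    rw [e3] at e2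
    have e4 : β ^ (1 / 5 : ℝ) = β ^ (19 / 100 : ℝ) * β ^ (1 / 100 : ℝ) := by
      rw [hmul]
      norm_num
    rw [e4] at e2
    rw [hη]
    have q1 := hp (19 / 100)
    have q2 := hp (1 / 100)
    refine (mul_le_mul_of_nonneg_left e2 (by norm_num)).trans ?_
    rw [mul_inv]
    have e5 : 9 / 2 * (18 ^ 2 * ((β ^ (19 / 100 : ℝ))⁻¹ * (β ^ (1 / 100 : ℝ))⁻¹)) =
        (9 / 2 * 18 ^ 2) / β ^ (19 / 100 : ℝ) * (β ^ (1 / 100 : ℝ))⁻¹ := by
      field_simp
    rw [e5]
    have e6 : (9 / 2 * 18 ^ 2) / β ^ (19 / 100 : ℝ) ≤ 1 / 7 := by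
      rw [div_le_div_iff₀ q1 (by norm_num)]
      linarith
    calc _ ≤ 1 / 7 * (β ^ (1 / 100 : ℝ))⁻¹ := mul_le_mul_of_nonneg_right e6 (by positivity)
      _ = _ := by ring
  · have e1 : (wS β : ℝ) * mS β * lamS β ≤ 6 * (β ^ (1 / 10 : ℝ))⁻¹ := by
      have e2 : (wS β : ℝ) * mS β * lamS β ≤ 6 * β ^ (4 / 5 : ℝ) * lamS β :=
        mul_le_mul_of_nonneg_right hl2 (hp _).le
      refine e2.trans (le_of_eq ?_)
      rw [hlam]
      have e3 : β ^ (9 / 10 : ℝ) = β ^ (4 / 5 : ℝ) * β ^ (1 / 10 : ℝ) := by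
        rw [hmul]
        norm_num
      rw [e3]
      have q1 := hp (4 / 5)
      have q2 := hp (1 / 10)
      field_simp
    have e2 : (β ^ (1 / 10 : ℝ))⁻¹ ≤ (54 : ℝ)⁻¹ := inv_anti₀ (by norm_num) h5
    have e3 := Real.pi_gt_three
    nlinarith

/-! ### The bootstrap -/

theorem pSix_of (h : KappaStmt) : PSix wS lamS := by
  obtain ⟨c, hc, H⟩ := h
  refine ⟨c, hc, fun A hA => ?_⟩
  obtain ⟨β0, H⟩ := H A hA
  filter_upwards [eventually_ge_atTop β0, eventually_gt_atTop (1 : ℝ)] with β hβ0 hβ1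
  obtain ⟨n0, H⟩ := H β hβ0
  filter_upwards [eventually_ge_atTop n0] with n hn
  intro hodd _ h0 hh0 hh01 hB h hh x
  have hβ : 0 < β := by linarith
  have hAη : A / etaB β = A * β ^ (1 / 100 : ℝ) := by
    unfold etaB
    rw [Real.rpow_neg hβ.le, div_inv_eq_mul]
  have e1 : (wS β : ℝ) = (3 : ℝ) ^ aS β := by
    unfold wS
    push_cast
    rfl
  have h1 := H n hn hodd (aS β) (e1 ▸ wS_ge β) (e1 ▸ wS_le hβ1) h0 hh0 hh01
    (fun h' hh' x' => hB h' hh' x') h hh x
  rw [hAη]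
  exact h1

/-- **The bootstrap, assembled** (from the weakest forms of the blocks). -/
theorem bootStmt_ofP (h6 : KappaStmt) (h1 : PTwist) (h7 : EnergyStmt) (h8 : RegStmt)
    (hs : StartStmt) (ht : TransStmt) : BootStmt := by
  have hstep := step_of h1 (pEnergy_of h7) (pHarn_of h8) (pTrans_of ht) (pSix_of h6)
    par_S
  have hlog : ∀ᶠ β : ℝ in atTop, Real.log 2 / β ≤ β ^ (-(1 / 100) : ℝ) := by
    filter_upwards [eventually_ge_atTop (1 : ℝ)] with β hβ1
    have hβ : 0 < β := by linarith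
    have e1 : Real.log 2 / β ≤ 1 / β := by
      refine div_le_div_of_nonneg_right ?_ hβ.le
      linarith [Real.log_two_lt_d9]
    refine e1.trans ?_
    rw [one_div, ← Real.rpow_neg_one]
    exact Real.rpow_le_rpow_of_exponent_le hβ1 (by norm_num)
  obtain ⟨β0, H⟩ := eventually_atTop.1 (hstep.and (hlog.and (eventually_ge_atTop (1 : ℝ))))
  refine ⟨β0, fun β hβ0 => ?_⟩
  obtain ⟨hst, hlog, hβ1⟩ := H β hβ0
  have hβ : 0 < β := by linarith
  obtain ⟨n0, Hn⟩ := eventually_atTop.1 hst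
  refine ⟨n0, fun n _ hn hodd h hh hh1 x => ?_⟩
  have hn0 : (0 : ℝ) < n := by exact_mod_cast NeZero.pos n
  have ha0 : (0 : ℝ) < (n : ℝ) ^ (-(1 / 4) : ℝ) := Real.rpow_pos_of_pos hn0 _
  have hη := etaB_pos hβ
  have hlam : 0 ≤ lamS β := (Real.rpow_pos_of_pos hβ _).le
  have key := boot n (β := β) hη hlam ha0 (hh.trans hh1)
    (fun x => (hs n β x hβ).trans hlog)
    (fun h0 hh0 hh01 hB => Hn n hn hodd h0 hh0 hh01 hB) (fun _ => h) ?_ x
  · have e1 : etaB β = β ^ (-(1 / 100) : ℝ) := rfl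
    rw [← e1]
    linarith
  · refine ⟨fun _ => ⟨hh, hh1⟩, fun _ _ => ?_⟩
    have e2 : 1 ≤ Real.exp (lamS β) := Real.one_le_exp hlam
    have e3 : 0 < h := ha0.trans_le hh
    constructor <;> nlinarith

/-- **The bootstrap, assembled.** -/
theorem bootStmt_of (h6 : KappaStmt) (h1 : TwistStmt) (h7 : EnergyStmt) (h8 : RegStmt)
    (hs : StartStmt) (ht : TransStmt) : BootStmt :=
  bootStmt_ofP h6 (pTwist_of h1) h7 h8 hs ht

end

end Vale.Agent.P361.LRO
end

section

/-!
P361, stage 3, all spins, block (M), step (V2): the variational inequality for the edge list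
`L ++ E`, where only `L` (inter site edges) is kept in the free gas and the energy of `E`
(intra site edges, any multiplicity) is dropped.
-/

set_option linter.unusedSectionVars false

namespace Vale.Agent.P361.LRO.S3.MeanS

open Finset Matrix Vale.Agent.P361.LRO.S3.Mean

noncomputable section

variable {V : Type} [Fintype V] [DecidableEq V]

theorem sum_hM_symm (E : List (V × V)) :
    ((E.map fun e => hM e.1 e.2).sum : Matrix (V → Fin 2) (V → Fin 2) ℝ).IsSymm := by
  induction E with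
  | nil => simp [Matrix.isSymm_zero]
  | cons e E ih =>
    simp only [List.map_cons, List.sum_cons]
    exact (hM_symm _ _).add ih

theorem hM_sq' (x y : V) :
    (hM x y : Matrix (V → Fin 2) (V → Fin 2) ℝ) * hM x y = hM x y := by
  have h1 : (swapM x y : Matrix (V → Fin 2) (V → Fin 2) ℝ) * swapM x y = 1 := by
    ext σ τ
    simp only [Matrix.mul_apply, swapM, Matrix.of_apply, Matrix.one_apply]
    rw [Finset.sum_eq_single (τ ∘ Equiv.swap x y)]
    · have : (τ ∘ Equiv.swap x y) ∘ Equiv.swap x y = τ := by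
        funext z; simp
      rw [this]
      simp
    · intro ρ _ hρ
      simp [hρ]
    · intro h
      exact absurd (Finset.mem_univ _) h
  rw [hM, smul_mul_smul_comm, sub_mul, mul_sub, mul_sub, one_mul, mul_one, one_mul, h1,
    show (1 : Matrix (V → Fin 2) (V → Fin 2) ℝ) - swapM x y - (swapM x y - 1) =
      (2 : ℝ) • (1 - swapM x y) by rw [two_smul]; abel, smul_smul]
  norm_num

theorem hM_psd (x y : V) : (hM x y : Matrix (V → Fin 2) (V → Fin 2) ℝ).PosSemidef := by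
  have h : (hM x y : Matrix (V → Fin 2) (V → Fin 2) ℝ) = (hM x y)ᴴ * hM x y := by
    rw [Matrix.conjTranspose_eq_transpose_of_trivial, (hM_symm x y).eq, hM_sq']
  rw [h]
  exact Matrix.posSemidef_conjTranspose_mul_self _

theorem sum_hM_psd (E : List (V × V)) :
    ((E.map fun e => hM e.1 e.2).sum : Matrix (V → Fin 2) (V → Fin 2) ℝ).PosSemidef := by
  induction E with
  | nil => simp [Matrix.PosSemidef.zero]
  | cons e E ih =>
    simp only [List.map_cons, List.sum_cons]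
    exact (hM_psd _ _).add ih

theorem ham_append (L E : List (V × V)) (h : V → ℝ) :
    ham (L ++ E) h = ham L h + (E.map fun e => hM e.1 e.2).sum := by
  simp only [ham, List.map_append, List.sum_append]
  abel

/-- **(V2), all spins**: `lam * β * <dΓ(g)> ≤ log (free gas of the edges L) - log Z̃_{L ++ E} +
β <W_L>`, Gibbs state of `L ++ E`. -/
theorem mean_ineqS (L E : List (V × V)) (hL : ∀ e ∈ L, e.1 ≠ e.2) {β : ℝ} (hβ : 0 ≤ β)
    (h lam : ℝ) (g : V → V → ℝ) (hg : ∀ u v, g u v = g v u) {F : ℝ}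
    (hF : Matrix.trace (NormedSpace.exp (-(hcM fun u v =>
      β * (tL L u v + h * oneK u v - lam * g u v)))) ≤ Real.exp F) :
    β * lam * gib (L ++ E) β (fun _ => h) (hcM g) ≤ F -
      (Real.log (Matrix.trace (NormedSpace.exp (-β • ham (L ++ E) fun _ => h))) -
        β * h * Fintype.card V / 2) + β * gib (L ++ E) β (fun _ => h) (WL L) := by
  set X : Matrix (V → Fin 2) (V → Fin 2) ℝ := -β • ham (L ++ E) fun _ => h with hX
  set K : Matrix (V → Fin 2) (V → Fin 2) ℝ := (E.map fun e => hM e.1 e.2).sum with hK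
  set Y : Matrix (V → Fin 2) (V → Fin 2) ℝ := (β * lam) • hcM g - β • WL L with hY
  have hgs : (hcM g).IsSymm := hcM_symm hg
  have hXs : X.IsSymm := (ham_symm (L ++ E) _).smul _
  have hYs : Y.IsSymm := (hgs.smul _).sub ((WL_symm L).smul _)
  have hKs : K.IsSymm := sum_hM_symm E
  have hKp : K.PosSemidef := sum_hM_psd E
  have h1 := peierls_bogoliubov_real hXs hYs
  have h2 : trace (NormedSpace.exp X * Y) / trace (NormedSpace.exp X) =
      β * lam * gib (L ++ E) β (fun _ => h) (hcM g) - β * gib (L ++ E) β (fun _ => h) (WL L) := by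
    have : trace (NormedSpace.exp X * Y) / trace (NormedSpace.exp X) =
        gib (L ++ E) β (fun _ => h) Y := rfl
    rw [this, hY, gib_sub, gib_smul, gib_smul]
  have hmono : trace (NormedSpace.exp (X + Y)) ≤ trace (NormedSpace.exp (X + Y + β • K)) := by
    refine trace_exp_mono_real (hXs.add hYs) ((hXs.add hYs).add (hKs.smul _)) ?_
    rw [add_sub_cancel_left]
    exact hKp.smul hβ
  have h3 : X + Y + β • K = -(hcM fun u v => β * (tL L u v + h * oneK u v - lam * g u v)) +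
      (β * h * Fintype.card V / 2) • (1 : Matrix (V → Fin 2) (V → Fin 2) ℝ) := by
    rw [hcM_smul, hcM_sub (fun u v => tL L u v + h * oneK u v) (fun u v => lam * g u v),
      hcM_smul]
    have h4 := ham_eq L hL h
    rw [hX, hY, ham_append, h4, ← hK]
    simp only [smul_sub, smul_add, smul_smul, neg_smul]
    have h5 : -β * (h * Fintype.card V / 2) = -(β * h * Fintype.card V / 2) := by ring
    rw [h5, neg_smul]
    abel
  have hpos0 := trace_exp_pos_real (hXs.add hYs)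
  have hlog := h1.trans (Real.log_le_log hpos0 hmono)
  rw [h2, h3, Vale.Agent.P361.LRO.S3.Mean.exp_add_smul_one, Matrix.trace_smul, smul_eq_mul] at hlog
  have hAs : (-(hcM fun u v => β * (tL L u v + h * oneK u v - lam * g u v))).IsSymm := by
    refine Matrix.IsSymm.neg (hcM_symm fun u v => ?_)
    have e1 : tL L u v = tL L v u := by
      simp only [tL, pairK_symm _ _ u v]
    have e2 : (oneK u v : ℝ) = oneK v u := by
      simp only [oneK, eq_comm]
    rw [e1, e2, hg u v]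
  have hpos := trace_exp_pos_real hAs
  rw [Real.log_mul (Real.exp_pos _).ne' hpos.ne', Real.log_exp] at hlog
  have h6 : Real.log (trace (NormedSpace.exp (-(hcM fun u v =>
      β * (tL L u v + h * oneK u v - lam * g u v))))) ≤ F := by
    calc _ ≤ Real.log (Real.exp F) := Real.log_le_log hpos hF
      _ = F := Real.log_exp F
  linarith

end

end Vale.Agent.P361.LRO.S3.MeanS
end

section

/-!
P361, stage 3, block (M), part (P) of helper836's note 10606: the pair inequality.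
For two sites `x ≠ y`, `n_x = 1/2 - S³_x`: if `<n_x>, <n_y> ≤ η ≤ 1/4` then
`<n_x n_y> ≤ 8 η²`.  Proof: for the block `b = {x, y}` and the full slice (`θ = 1`) the twisted
partition function is a quadratic polynomial in `cos φ` with real roots (strong Rayleigh), its
discriminant is `(a-d)² - u (2 (a+d) - u) ≥ 0`, `u = a + b + c + d + R`, `|R| ≤ b + c`.
-/

namespace Vale.Agent.P361.LRO.S3P

open Finset Matrix Filter Topology

set_option linter.unusedSectionVars false
set_option linter.unnecessarySeqFocus false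

noncomputable section

/-- A real quadratic polynomial with only real complex roots has nonnegative discriminant. -/
theorem disc_of_roots (F : Polynomial ℝ) (hdeg : F.natDegree ≤ 2)
    (hroots : ∀ τ : ℂ, (F.map (algebraMap ℝ ℂ)).eval τ = 0 → ∃ r : ℝ, r ≤ -1 ∧ τ = (r : ℂ)) :
    4 * F.eval 0 * ((F.eval 1 + F.eval (-1)) / 2 - F.eval 0) ≤
      ((F.eval 1 - F.eval (-1)) / 2) ^ 2 := by
  have hev : ∀ t : ℝ, F.eval t = F.coeff 0 + F.coeff 1 * t + F.coeff 2 * t ^ 2 := by
    intro t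
    rw [Polynomial.eval_eq_sum_range' (n := 3) (by omega)]
    simp [Finset.sum_range_succ]
  have hevc : ∀ τ : ℂ, (F.map (algebraMap ℝ ℂ)).eval τ =
      F.coeff 0 + F.coeff 1 * τ + F.coeff 2 * τ ^ 2 := by
    intro τ
    rw [Polynomial.eval_eq_sum_range' (n := 3) (by
      have := Polynomial.natDegree_map_le (p := F) (f := algebraMap ℝ ℂ)
      omega)]
    simp [Finset.sum_range_succ]
  set A := F.coeff 0
  set B := F.coeff 1
  set C := F.coeff 2
  have h0 : F.eval 0 = A := by rw [hev]; ring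
  have h1 : F.eval 1 = A + B + C := by rw [hev]; ring
  have h2 : F.eval (-1) = A - B + C := by rw [hev]; ring
  rw [h0, h1, h2]
  by_contra hlt
  push Not at hlt
  have hd : 0 < 4 * A * C - B ^ 2 := by nlinarith
  have hC : C ≠ 0 := by
    rintro hC
    rw [hC] at hd
    nlinarith [sq_nonneg B]
  set D := Real.sqrt (4 * A * C - B ^ 2) with hD
  have hDp : 0 < D := Real.sqrt_pos.2 hd
  have hDs : D ^ 2 = 4 * A * C - B ^ 2 := Real.sq_sqrt hd.le
  have hCc : (C : ℂ) ≠ 0 := by exact_mod_cast hC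
  set τ : ℂ := (-(B : ℂ) + D * Complex.I) / (2 * C) with hτ
  have hDsc : (D : ℂ) ^ 2 = 4 * A * C - B ^ 2 := by exact_mod_cast hDs
  have hz : (F.map (algebraMap ℝ ℂ)).eval τ = 0 := by
    rw [hevc, hτ]
    field_simp
    have hI : Complex.I ^ 2 = -1 := Complex.I_sq
    linear_combination (D : ℂ) ^ 2 * hI - hDsc
  obtain ⟨r, -, hr⟩ := hroots τ hz
  have him : τ.im = D / (2 * C) := by
    have h3 : τ = ((-B / (2 * C) : ℝ) : ℂ) + ((D / (2 * C) : ℝ) : ℂ) * Complex.I := by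
      rw [hτ]
      push_cast
      field_simp
    rw [h3, Complex.add_im, Complex.ofReal_im, Complex.im_ofReal_mul, Complex.I_im]
    ring
  rw [hr, Complex.ofReal_im] at him
  have : D / (2 * C) ≠ 0 := div_ne_zero hDp.ne' (mul_ne_zero two_ne_zero hC)
  exact this him.symm

section X

variable {X : Type} [Fintype X] [DecidableEq X]

omit [Fintype X] [DecidableEq X] in
theorem qz_natAbs_le (π : Equiv.Perm X) (s : X → Fin 2) (b : Finset X) :
    (qz π s b).natAbs ≤ b.card := by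
  have h1 : |qz π s b| ≤ ((b.card : ℕ) : ℤ) := by
    unfold qz
    refine le_trans (Finset.abs_sum_le_sum_abs _ _) ?_
    calc ∑ x ∈ b, |(((s x : ℕ) : ℤ) - ((s (π x) : ℕ) : ℤ))| ≤ ∑ x ∈ b, (1 : ℤ) := by
          refine Finset.sum_le_sum fun x _ => ?_
          have := (s x).isLt
          have := (s (π x)).isLt
          rw [abs_le]
          omega
      _ = ((b.card : ℕ) : ℤ) := by simp
  rw [Int.abs_eq_natAbs] at h1
  exact_mod_cast h1

theorem FP_natDegree_le (μ : Equiv.Perm X → ℝ) (θ : X → ℝ) (b : Finset X) :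
    (FP μ θ b).natDegree ≤ b.card := by
  unfold FP
  refine Polynomial.natDegree_sum_le_of_forall_le _ _ fun π _ => ?_
  refine Polynomial.natDegree_sum_le_of_forall_le _ _ fun s _ => ?_
  refine le_trans (Polynomial.natDegree_C_mul_le _ _) ?_
  rw [Polynomial.Chebyshev.natDegree_T]
  exact qz_natAbs_le π s b

theorem Zf_disc {μ : Equiv.Perm X → ℝ} {θ : X → ℝ} (hμ : ∀ π, 0 ≤ μ π)
    (hθ : ∀ x, 0 ≤ θ x) (hZ : 0 < ZZ μ θ) (hst : Stable μ θ) (b : Finset X) (hb : b.card ≤ 2) :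
    4 * Zf μ θ b (Real.pi / 2) * ((Zf μ θ b 0 + Zf μ θ b Real.pi) / 2 - Zf μ θ b (Real.pi / 2)) ≤
      ((Zf μ θ b 0 - Zf μ θ b Real.pi) / 2) ^ 2 := by
  have h := disc_of_roots (FP μ θ b) ((FP_natDegree_le μ θ b).trans hb) (FP_roots hμ hθ hZ hst b)
  have h0 := FP_eval_cos μ θ b (Real.pi / 2)
  have h1 := FP_eval_cos μ θ b 0
  have h2 := FP_eval_cos μ θ b Real.pi
  rw [Real.cos_pi_div_two] at h0
  rw [Real.cos_zero] at h1
  rw [Real.cos_pi] at h2
  rw [← h0, ← h1, ← h2]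
  exact h

end X

variable {V : Type} [Fintype V] [DecidableEq V]

/-- Discriminant inequality for the weight `W`. -/
def DI (W : Matrix (V → Fin 2) (V → Fin 2) ℝ) (b : Finset V) (θ : ℝ) : Prop :=
  4 * ZTw W b θ (Real.pi / 2) *
      ((ZTw W b θ 0 + ZTw W b θ Real.pi) / 2 - ZTw W b θ (Real.pi / 2)) ≤
    ((ZTw W b θ 0 - ZTw W b θ Real.pi) / 2) ^ 2

theorem DI_gibbs_K (L : List (V × V)) {β : ℝ} (hβ : 0 < β) {h : V → ℝ} (hh : ∀ x, 0 ≤ h x)
    {K : ℝ} (hK : 0 ≤ K) (b : Finset V) (hb : b.card ≤ 2) :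
    DI (NormedSpace.exp (-β • ham L h)) b (Real.tanh (K / (2 * b.card))) := by
  have hcont : ∀ φ : ℝ, Tendsto (fun N : ℕ => ZTw (stepM L β h N ^ N) b
      (Real.tanh (K / (2 * b.card))) φ) atTop
      (𝓝 (ZTw (NormedSpace.exp (-β • ham L h)) b (Real.tanh (K / (2 * b.card))) φ)) := by
    intro φ
    simp only [ZTw_eq]
    refine tendsto_finsetSum _ fun σ _ => tendsto_finsetSum _ fun τ _ => ?_
    refine Tendsto.mul_const _ ?_
    have h1 := tendsto_pi_nhds.1 (stepM_tendsto L β h) σ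
    exact tendsto_pi_nhds.1 h1 τ
  unfold DI
  refine le_of_tendsto_of_tendsto
    (((hcont _).const_mul 4).mul ((((hcont 0).add (hcont Real.pi)).div_const 2).sub (hcont _)))
    ((((hcont 0).sub (hcont Real.pi)).div_const 2).pow 2) ?_
  filter_upwards [Bloch.phys_good L hβ hh hK b] with N hN
  obtain ⟨hl, ht⟩ := hN
  have h3 := Zf_disc hl.nonneg (fun z => (ht z).1) (ZZ_pos hl fun z => (ht z).1)
    (SR.stable_of_isLaw hl ht) (hatb N b) (by
      unfold hatb
      rw [Finset.card_product, Finset.card_singleton, one_mul]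
      exact hb)
  simp only [Zf_phys] at h3
  exact h3

theorem DI_gibbs (L : List (V × V)) {β : ℝ} (hβ : 0 < β) {h : V → ℝ} (hh : ∀ x, 0 ≤ h x)
    {b : Finset V} (hb : b.card = 2) :
    DI (NormedSpace.exp (-β • ham L h)) b 1 := by
  have h1 : ∀ θ ∈ Set.Ioo (0 : ℝ) 1, DI (NormedSpace.exp (-β • ham L h)) b θ := by
    intro θ hθ
    have h2 := DI_gibbs_K L hβ hh (K := 4 * Real.artanh θ)
      (by have := (Real.artanh_pos hθ).le; positivity) b hb.le
    rw [hb] at h2
    have h3 : 4 * Real.artanh θ / (2 * ((2 : ℕ) : ℝ)) = Real.artanh θ := by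
      push_cast; ring
    rw [h3, Real.tanh_artanh ⟨by linarith [hθ.1], hθ.2⟩] at h2
    exact h2
  have hc : ∀ φ : ℝ, Continuous fun θ : ℝ => ZTw (NormedSpace.exp (-β • ham L h)) b θ φ := by
    intro φ
    simp only [ZTw_eq]
    refine continuous_finsetSum _ fun σ _ => continuous_finsetSum _ fun τ _ =>
      continuous_const.mul ?_
    unfold rotT
    simp only [Matrix.of_apply]
    refine continuous_finsetProd _ fun x _ => ?_
    by_cases hx : x ∈ b
    · simp only [hx, if_true]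
      generalize τ x = i
      generalize σ x = j
      fin_cases i <;> fin_cases j <;> simp only [rotM] <;> simp <;> fun_prop
    · simp only [hx, if_false]
      exact continuous_const
  have hcl : IsClosed {θ : ℝ | DI (NormedSpace.exp (-β • ham L h)) b θ} := by
    unfold DI
    refine isClosed_le ?_ ?_
    · exact (continuous_const.mul (hc _)).mul ((((hc 0).add (hc Real.pi)).div_const 2).sub (hc _))
    · exact (((hc 0).sub (hc Real.pi)).div_const 2).pow 2
  have h4 : closure (Set.Ioo (0 : ℝ) 1) ⊆ {θ : ℝ | DI (NormedSpace.exp (-β • ham L h)) b θ} :=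
    closure_minimal h1 hcl
  rw [closure_Ioo (by norm_num)] at h4
  exact h4 ⟨by norm_num, le_rfl⟩

/-! ### The three values -/

/-- Mass of the configurations with prescribed values at `x` and `y`. -/
def ms (W : Matrix (V → Fin 2) (V → Fin 2) ℝ) (x y : V) (i j : Fin 2) : ℝ :=
  ∑ σ : V → Fin 2, if σ x = i ∧ σ y = j then W σ σ else 0

/-- Exchange mass. -/
def xs (W : Matrix (V → Fin 2) (V → Fin 2) ℝ) (x y : V) : ℝ :=
  ∑ σ : V → Fin 2, if σ x = σ y then 0 else W σ (σ ∘ Equiv.swap x y)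

theorem prod_pair_split {x y : V} (hxy : x ≠ y) (f : V → ℝ) :
    ∏ z, f z = f x * (f y * ∏ z ∈ (univ.erase x).erase y, f z) := by
  rw [← Finset.mul_prod_erase univ f (mem_univ x),
    ← Finset.mul_prod_erase (univ.erase x) f (mem_erase.2 ⟨hxy.symm, mem_univ y⟩)]

theorem rotT_diag {x y : V} (hxy : x ≠ y) {φ : ℝ} {i : Fin 2}
    (hr : ∀ a a' : Fin 2, rotM 1 φ a a' = if a = i ∧ a' = i then 2 else 0)
    (W : Matrix (V → Fin 2) (V → Fin 2) ℝ) :
    ZTw W {x, y} 1 φ = 4 * ms W x y i i := by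
  rw [ZTw_eq]
  unfold ms
  rw [Finset.mul_sum]
  refine Finset.sum_congr rfl fun σ _ => ?_
  rw [Finset.sum_eq_single σ]
  · unfold rotT
    rw [Matrix.of_apply, prod_pair_split hxy]
    have h1 : ∏ z ∈ (univ.erase x).erase y, (if z ∈ ({x, y} : Finset V) then
        rotM 1 φ (σ z) (σ z) else if σ z = σ z then 1 else 0) = 1 := by
      refine Finset.prod_eq_one fun z hz => ?_
      rw [mem_erase, mem_erase] at hz
      rw [if_neg (by simp [hz.1, hz.2.1]), if_pos rfl]
    rw [h1, hr, hr]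
    simp only [mem_insert, mem_singleton, true_or, or_true, if_true, and_self, mul_one]
    by_cases h2 : σ x = i
    · by_cases h3 : σ y = i
      · simp [h2, h3]; ring
      · simp [h2, h3]
    · simp [h2]
  · intro τ _ hτ
    unfold rotT
    rw [Matrix.of_apply]
    obtain ⟨z, hz⟩ := Function.ne_iff.1 hτ
    have h1 : (∏ z, if z ∈ ({x, y} : Finset V) then rotM 1 φ (τ z) (σ z)
        else if τ z = σ z then 1 else 0) = 0 := by
      refine Finset.prod_eq_zero (mem_univ z) ?_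
      split_ifs
      · rw [hr, if_neg]
        rintro ⟨h3, h4⟩
        exact hz (h3.trans h4.symm)
      · rfl
    rw [h1, mul_zero]
  · intro h; exact absurd (mem_univ σ) h

theorem rotM_one_zero (a a' : Fin 2) : rotM 1 0 a a' = if a = 0 ∧ a' = 0 then 2 else 0 := by
  unfold rotM
  fin_cases a <;> fin_cases a' <;> simp <;> norm_num

theorem rotM_one_pi (a a' : Fin 2) :
    rotM 1 Real.pi a a' = if a = 1 ∧ a' = 1 then 2 else 0 := by
  unfold rotM
  fin_cases a <;> fin_cases a' <;> simp <;> norm_num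

theorem rotM_one_half (a a' : Fin 2) : rotM 1 (Real.pi / 2) a a' = 1 := by
  unfold rotM
  fin_cases a <;> fin_cases a' <;> simp

theorem rotT_half {x y : V} (σ τ : V → Fin 2) :
    rotT {x, y} 1 (Real.pi / 2) τ σ =
      if ∀ z, z ∉ ({x, y} : Finset V) → τ z = σ z then 1 else 0 := by
  unfold rotT
  rw [Matrix.of_apply]
  split_ifs with h
  · refine Finset.prod_eq_one fun z _ => ?_
    by_cases hz : z ∈ ({x, y} : Finset V)
    · rw [if_pos hz, rotM_one_half]
    · rw [if_neg hz, if_pos (h z hz)]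
  · push Not at h
    obtain ⟨z, hz, hne⟩ := h
    refine Finset.prod_eq_zero (mem_univ z) ?_
    rw [if_neg hz, if_neg hne]

theorem off_cases {x y : V} (hxy : x ≠ y) {σ τ : V → Fin 2}
    (h : ∀ z, z ∉ ({x, y} : Finset V) → τ z = σ z) (hd : Tw.dn univ τ = Tw.dn univ σ) :
    τ = σ ∨ τ = σ ∘ Equiv.swap x y := by
  have h1 := Tw.dn_eq_of_off h hd
  unfold Tw.dn at h1
  rw [Finset.sum_pair hxy, Finset.sum_pair hxy] at h1
  have h2 : ∀ z, z ≠ x → z ≠ y → τ z = σ z := fun z hzx hzy => h z (by simp [hzx, hzy])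
  have hsx := (σ x).isLt
  have hsy := (σ y).isLt
  have htx := (τ x).isLt
  have hty := (τ y).isLt
  by_cases h3 : (τ x : ℕ) = (σ x : ℕ)
  · left
    funext z
    by_cases hzx : z = x
    · subst hzx; exact Fin.ext h3
    · by_cases hzy : z = y
      · subst hzy; exact Fin.ext (by omega)
      · exact h2 z hzx hzy
  · right
    funext z
    by_cases hzx : z = x
    · subst hzx
      simp only [Function.comp_apply, Equiv.swap_apply_left]
      exact Fin.ext (by omega)
    · by_cases hzy : z = y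
      · subst hzy
        simp only [Function.comp_apply, Equiv.swap_apply_right]
        exact Fin.ext (by omega)
      · simp only [Function.comp_apply]
        rw [Equiv.swap_apply_of_ne_of_ne hzx hzy]
        exact h2 z hzx hzy

theorem swap_ne {x y : V} {σ : V → Fin 2} (h : σ x ≠ σ y) : σ ∘ Equiv.swap x y ≠ σ := by
  intro h1
  have h2 := congrFun h1 x
  simp only [Function.comp_apply, Equiv.swap_apply_left] at h2
  exact h h2.symm

theorem swap_eq {x y : V} {σ : V → Fin 2} (h : σ x = σ y) : σ ∘ Equiv.swap x y = σ := by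
  funext z
  simp only [Function.comp_apply]
  by_cases hzx : z = x
  · subst hzx; rw [Equiv.swap_apply_left]; exact h.symm
  · by_cases hzy : z = y
    · subst hzy; rw [Equiv.swap_apply_right]; exact h
    · rw [Equiv.swap_apply_of_ne_of_ne hzx hzy]

theorem ZTw_half {x y : V} (hxy : x ≠ y) {W : Matrix (V → Fin 2) (V → Fin 2) ℝ}
    (hW : Tw.Cons W) :
    ZTw W {x, y} 1 (Real.pi / 2) = Matrix.trace W + xs W x y := by
  rw [ZTw_eq]
  unfold xs Matrix.trace
  rw [← Finset.sum_add_distrib]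
  refine Finset.sum_congr rfl fun σ _ => ?_
  simp only [rotT_half, Matrix.diag_apply]
  by_cases hs : σ x = σ y
  · rw [if_pos hs, add_zero, Finset.sum_eq_single σ]
    · simp
    · intro τ _ hτ
      by_cases h1 : W σ τ = 0
      · rw [h1, zero_mul]
      · rw [if_neg, mul_zero]
        intro h2
        rcases off_cases hxy h2 (hW σ τ h1).symm with h3 | h3
        · exact hτ h3
        · rw [swap_eq hs] at h3
          exact hτ h3
    · intro h; exact absurd (mem_univ σ) h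
  · rw [if_neg hs, ← Finset.sum_subset (Finset.subset_univ {σ, σ ∘ Equiv.swap x y})]
    · rw [Finset.sum_pair (swap_ne hs).symm, if_pos (fun z _ => rfl), if_pos, mul_one, mul_one]
      intro z hz
      simp only [mem_insert, mem_singleton, not_or] at hz
      simp only [Function.comp_apply]
      rw [Equiv.swap_apply_of_ne_of_ne hz.1 hz.2]
    · intro τ _ hτ
      simp only [mem_insert, mem_singleton, not_or] at hτ
      by_cases h1 : W σ τ = 0
      · rw [h1, zero_mul]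
      · rw [if_neg, mul_zero]
        intro h2
        rcases off_cases hxy h2 (hW σ τ h1).symm with h3 | h3
        · exact hτ.1 h3
        · exact hτ.2 h3

theorem two_mul_abs_le {ι : Type} [Fintype ι] [DecidableEq ι] {W : Matrix ι ι ℝ}
    (hW : W.PosSemidef) (i j : ι) : 2 * |W i j| ≤ W i i + W j j := by
  have hsym : W j i = W i j := by
    have := hW.1.apply i j
    simpa using this
  have h1 : ∀ s : ℝ, 0 ≤ W i i + s * (2 * W i j) + s ^ 2 * W j j := by
    intro s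
    have h2 := hW.dotProduct_mulVec_nonneg (Pi.single i 1 + s • Pi.single j 1)
    simp only [star_trivial, Matrix.mulVec_add, Matrix.mulVec_smul, dotProduct_add,
      add_dotProduct, dotProduct_smul, smul_dotProduct, Matrix.mulVec_single_one,
      single_one_dotProduct, smul_eq_mul, Matrix.col_apply] at h2
    rw [hsym] at h2
    nlinarith [h2]
  have h3 := h1 1
  have h4 := h1 (-1)
  rcases abs_cases (W i j) with h | h <;> rw [h.1] <;> nlinarith

theorem xs_abs_le {x y : V} {W : Matrix (V → Fin 2) (V → Fin 2) ℝ} (hW : W.PosSemidef) :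
    |xs W x y| ≤ ∑ σ : V → Fin 2, if σ x = σ y then 0 else W σ σ := by
  unfold xs
  refine (Finset.abs_sum_le_sum_abs _ _).trans ?_
  have h1 : ∑ σ : V → Fin 2, |if σ x = σ y then 0 else W σ (σ ∘ Equiv.swap x y)| ≤
      ∑ σ : V → Fin 2, ((if σ x = σ y then 0 else W σ σ) / 2 +
        (if σ x = σ y then 0 else W (σ ∘ Equiv.swap x y) (σ ∘ Equiv.swap x y)) / 2) := by
    refine Finset.sum_le_sum fun σ _ => ?_
    split_ifs
    · simp
    · have := two_mul_abs_le hW σ (σ ∘ Equiv.swap x y)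
      linarith
  refine h1.trans (le_of_eq ?_)
  rw [Finset.sum_add_distrib]
  have h2 : ∑ σ : V → Fin 2, (if σ x = σ y then 0 else
      W (σ ∘ Equiv.swap x y) (σ ∘ Equiv.swap x y)) / 2 =
      ∑ σ : V → Fin 2, (if σ x = σ y then 0 else W σ σ) / 2 := by
    refine Finset.sum_nbij' (fun σ => σ ∘ Equiv.swap x y) (fun σ => σ ∘ Equiv.swap x y)
      (fun _ _ => mem_univ _) (fun _ _ => mem_univ _) ?_ ?_ ?_
    · intro σ _; funext z; simp
    · intro σ _; funext z; simp
    · intro σ _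
      simp only [Function.comp_apply, Equiv.swap_apply_left, Equiv.swap_apply_right]
      by_cases h : σ x = σ y
      · rw [if_pos h, if_pos h.symm]
      · rw [if_neg h, if_neg (Ne.symm h)]
  rw [h2, ← Finset.sum_add_distrib]
  refine Finset.sum_congr rfl fun σ _ => ?_
  ring

theorem trace_split {x y : V} (W : Matrix (V → Fin 2) (V → Fin 2) ℝ) :
    Matrix.trace W = ms W x y 0 0 + ms W x y 1 1 +
      ∑ σ : V → Fin 2, if σ x = σ y then 0 else W σ σ := by
  unfold Matrix.trace ms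
  rw [← Finset.sum_add_distrib, ← Finset.sum_add_distrib]
  refine Finset.sum_congr rfl fun σ _ => ?_
  rw [Matrix.diag_apply]
  generalize σ x = i
  generalize σ y = j
  fin_cases i <;> fin_cases j <;> simp

theorem ms_nonneg {W : Matrix (V → Fin 2) (V → Fin 2) ℝ} (hW : W.PosSemidef) (x y : V)
    (i j : Fin 2) : 0 ≤ ms W x y i j := by
  unfold ms
  refine Finset.sum_nonneg fun σ _ => ?_
  split_ifs
  · exact hW.diag_nonneg
  · exact le_rfl

/-- The core inequality: `a d ≤ (b + c)²` (unnormalised), general weight. -/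
theorem ad_le_of_DI {W : Matrix (V → Fin 2) (V → Fin 2) ℝ} (hpsd : W.PosSemidef)
    (hcons : Tw.Cons W) {x y : V} (hxy : x ≠ y) (hD : DI W {x, y} 1) :
    ms W x y 0 0 * ms W x y 1 1 ≤
      (∑ σ : V → Fin 2, if σ x = σ y then 0 else W σ σ) ^ 2 := by
  unfold DI at hD
  rw [rotT_diag hxy rotM_one_zero, rotT_diag hxy rotM_one_pi, ZTw_half hxy hcons,
    trace_split (x := x) (y := y)] at hD
  have hx := xs_abs_le (x := x) (y := y) hpsd
  set a := ms W x y 0 0
  set d := ms W x y 1 1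
  set S := ∑ σ : V → Fin 2, if σ x = σ y then 0 else W σ σ
  set R := xs W x y
  have h1 := abs_le.1 hx
  nlinarith [mul_nonneg (by linarith [h1.1] : 0 ≤ S + R) (by linarith [h1.2] : 0 ≤ S - R)]

theorem nM_mul (x y : V) : (((1 / 2 : ℝ) • (1 - szM x)) * ((1 / 2 : ℝ) • (1 - szM y)) :
    Matrix (V → Fin 2) (V → Fin 2) ℝ) =
      Matrix.diagonal fun σ => if σ x = 1 ∧ σ y = 1 then 1 else 0 := by
  unfold szM
  rw [← Matrix.diagonal_one, Matrix.diagonal_sub, Matrix.diagonal_sub, ← Matrix.diagonal_smul,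
    ← Matrix.diagonal_smul, Matrix.diagonal_mul_diagonal]
  congr 1
  funext σ
  simp only [Pi.smul_apply, smul_eq_mul]
  generalize σ x = i
  generalize σ y = j
  fin_cases i <;> fin_cases j <;> simp <;> norm_num

theorem nM_eq (x : V) : ((1 / 2 : ℝ) • (1 - szM x) : Matrix (V → Fin 2) (V → Fin 2) ℝ) =
      Matrix.diagonal fun σ => if σ x = 1 then 1 else 0 := by
  unfold szM
  rw [← Matrix.diagonal_one, Matrix.diagonal_sub, ← Matrix.diagonal_smul]
  congr 1
  funext σ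
  simp only [Pi.smul_apply, smul_eq_mul]
  generalize σ x = i
  fin_cases i <;> simp <;> norm_num

theorem trace_mul_diag (W : Matrix (V → Fin 2) (V → Fin 2) ℝ) (f : (V → Fin 2) → ℝ) :
    Matrix.trace (W * Matrix.diagonal f) = ∑ σ, W σ σ * f σ := by
  unfold Matrix.trace
  refine Finset.sum_congr rfl fun σ _ => ?_
  rw [Matrix.diag_apply, Matrix.mul_diagonal]

/-- **(P)**, general weight `W` (PSD, conserving, discriminant inequality). -/
theorem pair_le_of_DI {W : Matrix (V → Fin 2) (V → Fin 2) ℝ} (hpsd : W.PosSemidef)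
    (hcons : Tw.Cons W) (hZ : 0 < Matrix.trace W) {x y : V} (hxy : x ≠ y) (hD : DI W {x, y} 1)
    {η : ℝ} (hη : η ≤ 1 / 4)
    (hx : Matrix.trace (W * ((1 / 2 : ℝ) • (1 - szM x))) / Matrix.trace W ≤ η)
    (hy : Matrix.trace (W * ((1 / 2 : ℝ) • (1 - szM y))) / Matrix.trace W ≤ η) :
    Matrix.trace (W * (((1 / 2 : ℝ) • (1 - szM x)) * ((1 / 2 : ℝ) • (1 - szM y)))) /
      Matrix.trace W ≤ 8 * η ^ 2 := by
  have had := ad_le_of_DI hpsd hcons hxy hD
  have hZs := trace_split (x := x) (y := y) W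
  rw [div_le_iff₀ hZ, nM_eq, trace_mul_diag] at hx hy
  rw [div_le_iff₀ hZ, nM_mul, trace_mul_diag]
  have hd : ∑ σ : V → Fin 2, W σ σ * (if σ x = 1 ∧ σ y = 1 then 1 else 0) = ms W x y 1 1 := by
    unfold ms
    refine Finset.sum_congr rfl fun σ _ => ?_
    split_ifs <;> simp
  rw [hd]
  have hsum : (∑ σ : V → Fin 2, W σ σ * (if σ x = 1 then 1 else 0)) +
      ∑ σ : V → Fin 2, W σ σ * (if σ y = 1 then 1 else 0) =
      2 * ms W x y 1 1 + ∑ σ : V → Fin 2, if σ x = σ y then 0 else W σ σ := by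
    unfold ms
    rw [Finset.mul_sum, ← Finset.sum_add_distrib, ← Finset.sum_add_distrib]
    refine Finset.sum_congr rfl fun σ _ => ?_
    generalize σ x = i
    generalize σ y = j
    fin_cases i <;> fin_cases j <;> simp <;> ring
  have ha0 := ms_nonneg hpsd x y 0 0
  have hd0 := ms_nonneg hpsd x y 1 1
  have hS0 : 0 ≤ ∑ σ : V → Fin 2, if σ x = σ y then 0 else W σ σ := by
    refine Finset.sum_nonneg fun σ _ => ?_
    split_ifs
    · exact le_rfl
    · exact hpsd.diag_nonneg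
  set a := ms W x y 0 0
  set d := ms W x y 1 1
  set S := ∑ σ : V → Fin 2, if σ x = σ y then 0 else W σ σ
  set Z := Matrix.trace W
  have h1 : 2 * d + S ≤ 2 * η * Z := by linarith
  have h2 : Z / 2 ≤ a := by nlinarith
  have h3 : S ≤ 2 * η * Z := by linarith
  have h4 : S ^ 2 ≤ (2 * η * Z) ^ 2 := by
    apply pow_le_pow_left₀ hS0 h3
  have h5 : Z / 2 * d ≤ (2 * η * Z) ^ 2 :=
    (mul_le_mul_of_nonneg_right h2 hd0).trans (had.trans h4)
  have h6 : Z * d ≤ Z * (8 * η ^ 2 * Z) := by nlinarith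
  exact le_of_mul_le_mul_left h6 hZ

/-- **(P)**: the pair inequality. -/
theorem pair_le (L : List (V × V)) {β : ℝ} (hβ : 0 < β) {h : V → ℝ} (hh : ∀ x, 0 ≤ h x)
    {x y : V} (hxy : x ≠ y) {η : ℝ} (hη : η ≤ 1 / 4) (hx : rho L β h x ≤ η)
    (hy : rho L β h y ≤ η) :
    gib L β h (((1 / 2 : ℝ) • (1 - szM x)) * ((1 / 2 : ℝ) • (1 - szM y))) ≤ 8 * η ^ 2 :=
  pair_le_of_DI (Tw.expH_psd L β h) (fun σ τ hd => Tw.expH_cons L β h σ τ hd)
    (Tw.trace_expH_pos L β h) hxy (DI_gibbs L hβ hh (Finset.card_pair hxy)) hη hx hy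

end

end Vale.Agent.P361.LRO.S3P
end

section

/-!
P361 stage 3, block (M) for all spins `s / 2`: the numbers.
-/

namespace Vale.Agent.P361.LRO.S3S

open Filter Topology Vale.Agent.P361.B Vale.Agent.P361.LRO.S3

theorem aS_eq_BCS (s : ℕ) : Vale.Agent.P361.B.aS ((s : ℝ) / 2) = BCS s := by
  have hpi := Real.pi_pos
  unfold Vale.Agent.P361.B.aS BCS
  have hs0 : (0 : ℝ) ≤ (s : ℝ) / 2 := by positivity
  have h1 : Real.sqrt (4 * Real.pi * ((s : ℝ) / 2)) ^ 3 = (4 * Real.pi * ((s : ℝ) / 2)) ^ (3 / 2 : ℝ) := by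
    rw [Real.sqrt_eq_rpow, ← Real.rpow_natCast, ← Real.rpow_mul (by positivity)]
    norm_num
  have h2 : (8 : ℝ) * Real.pi ^ (3 / 2 : ℝ) * ((s : ℝ) / 2) ^ (3 / 2 : ℝ) =
      (4 * Real.pi * ((s : ℝ) / 2)) ^ (3 / 2 : ℝ) := by
    have h8 : (8 : ℝ) = 4 ^ (3 / 2 : ℝ) := by
      rw [show (4 : ℝ) = 2 ^ (2 : ℝ) by norm_num, ← Real.rpow_mul (by norm_num)]
      norm_num
    rw [h8, ← Real.mul_rpow (by norm_num) hpi.le, ← Real.mul_rpow (by positivity) hs0]
  rw [h1, h2, inv_mul_eq_div]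

theorem aS_pos {s : ℕ} (hs : 1 ≤ s) : 0 < Vale.Agent.P361.B.aS ((s : ℝ) / 2) := by
  have hsR : (1 : ℝ) ≤ s := by exact_mod_cast hs
  have h1 : 0 < fS ((s : ℝ) / 2) 0 := by
    unfold fS
    have hpi := Real.pi_pos
    refine mul_pos (by positivity) ?_
    refine (summable_f le_rfl).tsum_pos (fun r => by positivity) 0 ?_
    positivity
  rwa [fS_zero] at h1

/-- The bounding function, any positive limit `A0`. -/
theorem G_lim_gen {A0 C0 c c' d D1 D2 C1 C7 δ : ℝ} (hA0 : 0 < A0) (hδ : 0 < δ)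
    (hcd : 0 < c' - 2 * d) (h1c : 0 < 1 - c') (hcc : 0 < c - c') (hc2 : 0 < 1 / 2 - c') :
    ∀ᶠ β : ℝ in atTop, ((Real.sqrt (1 - 9 * |C0| * β ^ (-(c' - 2 * d))) ^ 3)⁻¹ *
      (A0 + D2 / β) + (D1 * β ^ (-(1 - c')) + |C1| * β ^ (-(c - c'))) +
      24 * C7 ^ 2 * β ^ (-(1 / 2 - c')) ≤ (1 + δ) * A0) ∧
      9 * |C0| * β ^ (-(c' - 2 * d)) ≤ 1 / 2 := by
  have T1 : Tendsto (fun β : ℝ => 9 * |C0| * β ^ (-(c' - 2 * d))) atTop (𝓝 0) := by
    simpa using (tendsto_rpow_neg_atTop hcd).const_mul (9 * |C0|)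
  have T2 : Tendsto (fun β : ℝ => (Real.sqrt (1 - 9 * |C0| * β ^ (-(c' - 2 * d))) ^ 3)⁻¹) atTop
      (𝓝 1) := by
    have h1 : Tendsto (fun β : ℝ => 1 - 9 * |C0| * β ^ (-(c' - 2 * d))) atTop (𝓝 1) := by
      simpa using tendsto_const_nhds.sub T1
    have h2 := (Real.continuous_sqrt.tendsto 1).comp h1
    have h3 := (h2.pow 3).inv₀ (by simp)
    simpa using h3
  have T3 : Tendsto (fun β : ℝ => A0 + D2 / β) atTop (𝓝 A0) := by
    have h1 : Tendsto (fun β : ℝ => D2 / β) atTop (𝓝 0) :=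
      tendsto_const_nhds.div_atTop tendsto_id
    simpa using tendsto_const_nhds.add h1
  have T4 : Tendsto (fun β : ℝ => D1 * β ^ (-(1 - c')) + |C1| * β ^ (-(c - c'))) atTop
      (𝓝 0) := by
    have h1 := (tendsto_rpow_neg_atTop h1c).const_mul D1
    have h2 := (tendsto_rpow_neg_atTop hcc).const_mul |C1|
    simpa using h1.add h2
  have T5 : Tendsto (fun β : ℝ => 24 * C7 ^ 2 * β ^ (-(1 / 2 - c'))) atTop (𝓝 0) := by
    simpa using (tendsto_rpow_neg_atTop hc2).const_mul (24 * C7 ^ 2)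
  have T6 := ((T2.mul T3).add T4).add T5
  have hlim : (1 : ℝ) * A0 + 0 + 0 < (1 + δ) * A0 := by nlinarith
  filter_upwards [T6.eventually (gt_mem_nhds hlim),
    T1.eventually (gt_mem_nhds (by norm_num : (0 : ℝ) < 1 / 2))] with β h1 h2
  exact ⟨h1.le, h2.le⟩

theorem exp_small (s : ℕ) : ∀ᶠ β : ℝ in atTop,
    Real.sqrt β ^ 3 * (2 * (s : ℝ) * Real.exp (-β)) ≤ β⁻¹ := by
  have h1 := (tendsto_rpow_mul_exp_neg_mul_atTop_nhds_zero (5 / 2) 1 one_pos).const_mul (2 * (s : ℝ))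
  rw [mul_zero] at h1
  filter_upwards [h1.eventually (gt_mem_nhds one_pos), eventually_gt_atTop 0] with β h2 hβ
  rw [← one_div, le_div_iff₀ hβ]
  have e : Real.sqrt β ^ 3 * (2 * (s : ℝ) * Real.exp (-β)) * β =
      2 * (s : ℝ) * (β ^ (5 / 2 : ℝ) * Real.exp (-1 * β)) := by
    have h3 : Real.sqrt β ^ 3 * β = β ^ (5 / 2 : ℝ) := by
      rw [Real.sqrt_eq_rpow, ← Real.rpow_natCast, ← Real.rpow_mul hβ.le]
      nth_rewrite 2 [← Real.rpow_one β]
      rw [← Real.rpow_add hβ]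
      norm_num
    rw [← h3]
    have h4 : Real.exp (-1 * β) = Real.exp (-β) := by congr 1; ring
    rw [h4]
    ring
  rw [e]
  exact h2.le

theorem extra_step {X M P F F0 Cp b ε E : ℝ} (hM : 0 < M) (h : X / M * P ≤ F + Cp / b + ε)
    (hF : F ≤ F0) (hE : X * E ≤ 1 / b) : X / M * (P + M * E) ≤ F0 + (Cp + 1) / b + ε := by
  have h1 : X / M * (P + M * E) = X / M * P + X * E := by field_simp
  have h2 : (Cp + 1) / b = Cp / b + 1 / b := add_div _ _ _
  rw [h1, h2]
  linarith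

theorem small3 {s β : ℝ} (hβ : 0 < β)
    (h : Real.sqrt β ^ 3 * (2 * s * Real.exp (-β)) ≤ β⁻¹) :
    Real.sqrt β ^ 3 * (2 * s * Real.exp (-(3 * β))) ≤ 1 / β := by
  by_cases hs : 0 ≤ s
  · have hex : Real.exp (-(3 * β)) ≤ Real.exp (-β) := Real.exp_le_exp.2 (by linarith)
    have h2 : Real.sqrt β ^ 3 * (2 * s * Real.exp (-(3 * β))) ≤
        Real.sqrt β ^ 3 * (2 * s * Real.exp (-β)) :=
      mul_le_mul_of_nonneg_left (mul_le_mul_of_nonneg_left hex (by positivity)) (by positivity)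
    rw [one_div]
    linarith
  · have h1 : 0 ≤ Real.sqrt β ^ 3 * (2 * (-s) * Real.exp (-(3 * β))) := by
      have : 0 ≤ -s := by linarith
      positivity
    have h2 : 0 < 1 / β := by positivity
    linarith

theorem smallτ {s β τ : ℝ} (hβ : 0 < β) (hτ0 : 0 ≤ τ) (hτ1 : τ < 1)
    (h : Real.sqrt β ^ 3 * (2 * s * Real.exp (-β)) ≤ β⁻¹) :
    Real.sqrt ((1 - τ) * β) ^ 3 * (2 * s * Real.exp (-β)) ≤ 1 / ((1 - τ) * β) := by
  have h3 : β⁻¹ ≤ 1 / ((1 - τ) * β) := by
    rw [← one_div]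
    refine one_div_le_one_div_of_le (mul_pos (by linarith) hβ) ?_
    nlinarith
  by_cases hs : 0 ≤ s
  · have h2 : Real.sqrt ((1 - τ) * β) ^ 3 * (2 * s * Real.exp (-β)) ≤
        Real.sqrt β ^ 3 * (2 * s * Real.exp (-β)) := by
      refine mul_le_mul_of_nonneg_right ?_ (by positivity)
      refine pow_le_pow_left₀ (Real.sqrt_nonneg _) (Real.sqrt_le_sqrt ?_) 3
      nlinarith
    linarith
  · have h1 : 0 ≤ Real.sqrt ((1 - τ) * β) ^ 3 * (2 * (-s) * Real.exp (-β)) := by
      have : 0 ≤ -s := by linarith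
      positivity
    have h2 : 0 < β⁻¹ := by positivity
    linarith

/-- Numbers of (M), all spins. -/
theorem mean_num_S {s : ℕ} (hs : 1 ≤ s) {c : ℝ} (hc : 0 < c) (C0 C1 C7 : ℝ) :
    ∃ c' d : ℝ, 0 < c' ∧ 0 < d ∧ d ≤ 1 / 100 ∧
    ∀ δ : ℝ, 0 < δ → ∃ β0 : ℝ, 1 ≤ β0 ∧ ∀ β : ℝ, β0 ≤ β → ∀ w : ℝ, 0 ≤ w →
    w ≤ 3 * β ^ (1 / 2 + d) → ∃ μ : ℝ, 0 ≤ μ ∧ μ ≤ 1 / 2 ∧ C0 * β ^ (-1 - c') * w ^ 2 ≤ μ ∧
    ∀ h : ℝ, 0 < h → ∀ᶠ m : ℕ in atTop, ∀ [NeZero m] (y lZ ρ : ℝ),
      β ^ (-(3 / 2) : ℝ) * (FS ((s : ℝ) / 2) 0 - C1 * β ^ (-c)) ≤ lZ / (m : ℝ) ^ 3 →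
      0 ≤ ρ → ρ ≤ C7 * β ^ (-(3 / 2) : ℝ) →
      β * β ^ (-1 - c') * (((m : ℝ) ^ 3 * s) * y) ≤
        (∑ k : Fin 3 → ZMod m, -Real.log (1 - Real.exp (-(β * (s * tK m k + h)))) +
          (m : ℝ) ^ 3 * (2 * s * Real.exp (-(3 * β)))) +
        β * β ^ (-1 - c') *
          (∑ k : Fin 3 → ZMod m, 1 / (Real.exp (β * ((1 - μ) * (s * tK m k) + h)) - 1) +
            (m : ℝ) ^ 3 * (2 * s * Real.exp (-β))) - lZ +
          β * (24 * (s : ℝ) ^ 2 * (m : ℝ) ^ 3 * ρ ^ 2) →
      y ≤ (1 + δ) * (BCS s / s) * β ^ (-(3 / 2) : ℝ) := by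
  have hsR : (1 : ℝ) ≤ s := by exact_mod_cast hs
  obtain ⟨Cp, hCp, hp⟩ := tor_log_eventually (n := s) hs
  obtain ⟨Cd, hCd, hd⟩ := tor_dens_eventually (n := s) hs
  obtain ⟨c', hc'0, hc'c, hc'4⟩ : ∃ c' : ℝ, 0 < c' ∧ c' < c ∧ c' ≤ 1 / 4 :=
    ⟨min (c / 2) (1 / 4), lt_min (by linarith) (by norm_num),
      lt_of_le_of_lt (min_le_left _ _) (by linarith), min_le_right _ _⟩
  obtain ⟨d, hd0, hd100, hdc⟩ : ∃ d : ℝ, 0 < d ∧ d ≤ 1 / 100 ∧ d ≤ c' / 4 :=
    ⟨min (1 / 100) (c' / 4), lt_min (by norm_num) (by linarith), min_le_left _ _, min_le_right _ _⟩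
  refine ⟨c', d, hc'0, hd0, hd100, fun δ hδ => ?_⟩
  obtain ⟨β0, hβ0⟩ := eventually_atTop.1 ((G_lim_gen (A0 := Vale.Agent.P361.B.aS ((s : ℝ) / 2)) (C0 := C0) (c := c)
    (c' := c') (d := d) (D1 := Cp + 1 + 1) (D2 := 2 * (Cd + 1) + 1) (C1 := C1) (C7 := s * C7)
    (aS_pos hs) hδ (by linarith) (by linarith) (by linarith)
    (by linarith)).and ((eventually_ge_atTop (2 * 448 : ℝ)).and (exp_small s)))
  refine ⟨max 1 β0, le_max_left _ _, fun β hβ w hw0 hw => ?_⟩
  obtain ⟨⟨hG, hτ⟩, h896, hsm⟩ := hβ0 β (le_trans (le_max_right _ _) hβ)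
  have hβ1 : 1 ≤ β := by linarith
  have hβp : 0 < β := by linarith
  obtain ⟨τ, hτd⟩ : ∃ τ : ℝ, τ = 9 * |C0| * β ^ (-(c' - 2 * d)) := ⟨_, rfl⟩
  rw [← hτd] at hG hτ
  have hτ0 : 0 ≤ τ := by rw [hτd]; positivity
  have hτw : C0 * β ^ (-1 - c') * w ^ 2 ≤ τ := by
    have h1 := w_step (C0 := C0) (c' := c') (t := 1) (gk := C0 * w ^ 2) hβp zero_le_one hw0 hw
      (by rw [mul_one])
    rw [mul_one, ← hτd] at h1
    linarith
  refine ⟨τ, hτ0, hτ, hτw, fun h hh => ?_⟩
  have hβ' : 448 ≤ (1 - τ) * β := by nlinarith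
  have hsb : 0 < β * h := mul_pos hβp hh
  filter_upwards [hp β (by linarith) (β * h) hsb β⁻¹ (by positivity),
    hd ((1 - τ) * β) hβ' (β * h) hsb β⁻¹ (by positivity), eventually_gt_atTop 0] with m hm1 hm2 hm0
  intro _ y lZ ρ hlZ hρ0 hρ hV
  have m1 := hm1
  have m2 := hm2
  have hmR : (0 : ℝ) < m := by exact_mod_cast hm0
  have hm3 : (0 : ℝ) < (m : ℝ) ^ 3 := by positivity
  have e1 : ∀ k : Fin 3 → ZMod m,
      β * ((s : ℝ) * tK m k) + β * h = β * (s * tK m k + h) := fun k => by ring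
  have e2 : ∀ k : Fin 3 → ZMod m, (1 - τ) * β * ((s : ℝ) * tK m k) + β * h =
      β * ((1 - τ) * (s * tK m k) + h) := fun k => by ring
  simp only [e1] at m1
  simp only [e2] at m2
  have f1 : FS ((s : ℝ) / 2) (β * h) ≤ FS ((s : ℝ) / 2) 0 := FS_mono_zero hsb.le _
  have f2 : fS ((s : ℝ) / 2) (β * h) ≤ Vale.Agent.P361.B.aS ((s : ℝ) / 2) := fS_le _ hsb.le
  generalize (∑ k : Fin 3 → ZMod m, -Real.log (1 - Real.exp (-(β * (s * tK m k + h))))) = P at *
  generalize (∑ k : Fin 3 → ZMod m, 1 / (Real.exp (β * ((1 - τ) * (s * tK m k) + h)) - 1)) = Q at *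
  have P0 := extra_step (E := 2 * s * Real.exp (-(3 * β))) hm3 m1 f1 (small3 hβp hsm)
  have Q0 := extra_step (E := 2 * s * Real.exp (-β)) hm3 m2 f2 (smallτ hβp hτ0 (by linarith) hsm)
  have P1 := p_step (M := (m : ℝ) ^ 3) (F0 := FS ((s : ℝ) / 2) 0) (Cp := Cp + 1) hβp P0
  have Q1 := q_step (M := (m : ℝ) ^ 3) (A := Vale.Agent.P361.B.aS ((s : ℝ) / 2)) (Cd := Cd + 1) hβp (by linarith)
    hτ Q0
  rw [rpow_neg_three_half hβp] at hlZ hρ ⊢
  have hsρ : (s : ℝ) * ρ ≤ s * C7 * (Real.sqrt β ^ 3)⁻¹ := by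
    rw [mul_assoc]; exact mul_le_mul_of_nonneg_left hρ (by positivity)
  have V3 := mean_core (c := c) (c' := c') (C1 := C1) (C7 := s * C7) (D1 := Cp + 1 + 1)
    (F0 := FS ((s : ℝ) / 2) 0) (A := Vale.Agent.P361.B.aS ((s : ℝ) / 2) + (2 * (Cd + 1) + 1) / β) (y := s * y)
    (ρ := s * ρ) hβp hm3 P1 Q1 hlZ (by positivity) hsρ (by
      have e3 : β * β ^ (-1 - c') * (m : ℝ) ^ 3 * (s * y) =
        β * β ^ (-1 - c') * (((m : ℝ) ^ 3 * s) * y) := by ring
      have e4 : 24 * β * (m : ℝ) ^ 3 * (s * ρ) ^ 2 =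
        β * (24 * (s : ℝ) ^ 2 * (m : ℝ) ^ 3 * ρ ^ 2) := by ring
      rw [e3, e4]
      linarith)
  have V4 := V3.trans (mul_le_mul_of_nonneg_left hG (by positivity))
  rw [aS_eq_BCS] at V4
  have e5 : (1 + δ) * (BCS s / s) * (Real.sqrt β ^ 3)⁻¹ =
      (Real.sqrt β ^ 3)⁻¹ * ((1 + δ) * BCS s) / s := by ring
  rw [e5, le_div_iff₀ (by linarith)]
  linarith

theorem lz_conv_S {s : ℕ} (hs : 1 ≤ s) {K β h lZ M : ℝ} (hK : 1 ≤ K) (hKβ : K ≤ β) (h0 : 0 ≤ h)
    (hh : h ≤ β ^ (-(10 : ℝ))) (hM : 0 < M)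
    (hl : ((1 - K / β) * FS ((s : ℝ) / 2) (β * h) / Real.sqrt β ^ 3 -
      (Real.sqrt β ^ 3)⁻¹ / β) * M ≤ lZ) :
    β ^ (-(3 / 2) : ℝ) * (FS ((s : ℝ) / 2) 0 -
      (K * FS ((s : ℝ) / 2) 0 + Vale.Agent.P361.B.aS ((s : ℝ) / 2) + 1) * β ^ (-(1 : ℝ))) ≤ lZ / M := by
  have hβ1 : 1 ≤ β := hK.trans hKβ
  have hβp : 0 < β := by linarith
  have hX0 : 0 < (Real.sqrt β ^ 3)⁻¹ := by have := Real.sqrt_pos.2 hβp; positivity
  have h1 : ((1 - K / β) * FS ((s : ℝ) / 2) (β * h) / Real.sqrt β ^ 3 -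
      (Real.sqrt β ^ 3)⁻¹ / β) ≤ lZ / M := by rw [le_div_iff₀ hM]; exact hl
  refine le_trans ?_ h1
  rw [rpow_neg_three_half hβp, Real.rpow_neg_one]
  have e : (1 - K / β) * FS ((s : ℝ) / 2) (β * h) / Real.sqrt β ^ 3 - (Real.sqrt β ^ 3)⁻¹ / β =
      (Real.sqrt β ^ 3)⁻¹ * ((1 - K / β) * FS ((s : ℝ) / 2) (β * h) - 1 / β) := by
    rw [div_eq_mul_inv _ (Real.sqrt β ^ 3)]; ring
  rw [e]
  refine mul_le_mul_of_nonneg_left ?_ hX0.le
  have hbh : β * h ≤ 1 / β := by
    rw [le_div_iff₀ hβp]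
    have h2 : β * h * β ≤ β * β ^ (-(10 : ℝ)) * β :=
      mul_le_mul_of_nonneg_right (mul_le_mul_of_nonneg_left hh hβp.le) hβp.le
    have h3 : β * β ^ (-(10 : ℝ)) * β = β ^ (-(8 : ℝ)) := by
      have h4 : ∀ x : ℝ, β * x * β = β ^ (1 : ℝ) * x * β ^ (1 : ℝ) := fun x => by
        rw [Real.rpow_one]
      rw [h4, ← Real.rpow_add hβp, ← Real.rpow_add hβp]
      norm_num
    have h5 : β ^ (-(8 : ℝ)) ≤ 1 := Real.rpow_le_one_of_one_le_of_nonpos hβ1 (by norm_num)
    linarith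
  have hge := FS_ge (s := β * h) (mul_nonneg hβp.le h0) ((s : ℝ) / 2)
  have hle := FS_mono_zero (mul_nonneg hβp.le h0) ((s : ℝ) / 2)
  have ha : 0 < Vale.Agent.P361.B.aS ((s : ℝ) / 2) := aS_pos hs
  have h6 : β * h * Vale.Agent.P361.B.aS ((s : ℝ) / 2) ≤ 1 / β * Vale.Agent.P361.B.aS ((s : ℝ) / 2) :=
    mul_le_mul_of_nonneg_right hbh ha.le
  have h7 : K / β * FS ((s : ℝ) / 2) (β * h) ≤ K / β * FS ((s : ℝ) / 2) 0 :=
    mul_le_mul_of_nonneg_left hle (by positivity)
  have e2 : (K * FS ((s : ℝ) / 2) 0 + Vale.Agent.P361.B.aS ((s : ℝ) / 2) + 1) * β⁻¹ =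
      K / β * FS ((s : ℝ) / 2) 0 + 1 / β * Vale.Agent.P361.B.aS ((s : ℝ) / 2) + 1 / β := by
    rw [← one_div]; ring
  rw [e2]
  have e3 : (1 - K / β) * FS ((s : ℝ) / 2) (β * h) =
      FS ((s : ℝ) / 2) (β * h) - K / β * FS ((s : ℝ) / 2) (β * h) := by ring
  rw [e3]
  linarith

/-- Numbers of (M), all spins, with the lower bound of the pressure in the landed form. -/
theorem mean_final_S {s : ℕ} (hs : 1 ≤ s) {K : ℝ} (hK : 1 ≤ K) (C0 C7 : ℝ) :
    ∃ c' d : ℝ, 0 < c' ∧ 0 < d ∧ d ≤ 1 / 100 ∧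
    ∀ δ : ℝ, 0 < δ → ∃ β0 : ℝ, K ≤ β0 ∧ ∀ β : ℝ, β0 ≤ β → ∀ w : ℝ, 0 ≤ w →
    w ≤ 3 * β ^ (1 / 2 + d) → ∃ μ : ℝ, 0 ≤ μ ∧ μ ≤ 1 / 2 ∧ C0 * β ^ (-1 - c') * w ^ 2 ≤ μ ∧
    ∀ h : ℝ, 0 < h → h ≤ β ^ (-(10 : ℝ)) → ∃ ε : ℝ, 0 < ε ∧ ∀ᶠ m : ℕ in atTop,
      ∀ [NeZero m] (y lZ ρ : ℝ),
      ((1 - K / β) * FS ((s : ℝ) / 2) (β * h) / Real.sqrt β ^ 3 - ε) * (m : ℝ) ^ 3 ≤ lZ →
      0 ≤ ρ → ρ ≤ C7 * β ^ (-(3 / 2) : ℝ) →
      β * β ^ (-1 - c') * (((m : ℝ) ^ 3 * s) * y) ≤
        (∑ k : Fin 3 → ZMod m, -Real.log (1 - Real.exp (-(β * (s * tK m k + h)))) +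
          (m : ℝ) ^ 3 * (2 * s * Real.exp (-(3 * β)))) +
        β * β ^ (-1 - c') *
          (∑ k : Fin 3 → ZMod m, 1 / (Real.exp (β * ((1 - μ) * (s * tK m k) + h)) - 1) +
            (m : ℝ) ^ 3 * (2 * s * Real.exp (-β))) - lZ +
          β * (24 * (s : ℝ) ^ 2 * (m : ℝ) ^ 3 * ρ ^ 2) →
      y ≤ (1 + δ) * (BCS s / s) * β ^ (-(3 / 2) : ℝ) := by
  obtain ⟨c', d, hc', hd, hd100, H⟩ := mean_num_S hs (c := 1) one_pos C0
    (K * FS ((s : ℝ) / 2) 0 + Vale.Agent.P361.B.aS ((s : ℝ) / 2) + 1) C7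
  refine ⟨c', d, hc', hd, hd100, fun δ hδ => ?_⟩
  obtain ⟨β0, hβ01, H0⟩ := H δ hδ
  refine ⟨max K β0, le_max_left _ _, fun β hβ w hw0 hw => ?_⟩
  obtain ⟨μ, hμ0, hμ1, hμw, H1⟩ := H0 β ((le_max_right _ _).trans hβ) w hw0 hw
  have hKβ : K ≤ β := (le_max_left _ _).trans hβ
  have hβp : 0 < β := by linarith
  refine ⟨μ, hμ0, hμ1, hμw, fun h hh hhβ => ⟨(Real.sqrt β ^ 3)⁻¹ / β, ?_, ?_⟩⟩
  · have := Real.sqrt_pos.2 hβp
    positivity
  · filter_upwards [H1 h hh, eventually_gt_atTop 0] with m hm hm0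
    intro _ y lZ ρ hlZ hρ0 hρ hV
    have hmR : (0 : ℝ) < m := by exact_mod_cast hm0
    have h1 := lz_conv_S hs hK hKβ hh.le hhβ (by positivity : (0 : ℝ) < (m : ℝ) ^ 3) hlZ
    exact hm y lZ ρ h1 hρ0 hρ hV

end Vale.Agent.P361.LRO.S3S
end

section

/-!
P361, stage 3, all spins: landed lower bound of the free energy of large tori, for the copies,
uniform in the multiplicity `M` (helper486).
-/

namespace Vale.Agent.P361.LRO.S3S

open Finset Matrix Filter Topology Vale.Agent.P361.LRO.GenS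

noncomputable section

/-- Lower bound with the reduced pressure, number normalisation. -/
theorem logZS_lower (s : ℕ) (hs : 1 ≤ s) {β : ℝ} (hβ : 0 < β) (h : ℝ) {ε : ℝ} (hε : 0 < ε) :
    ∃ n0 : ℕ, ∀ (n : ℕ) [NeZero n], n0 ≤ n → Odd n → ∀ M : ℕ,
      (n : ℝ) ^ 3 * (B.gRed s β h - ε) ≤
        Real.log (trace (NormedSpace.exp (-β • ham (edgesS n s M) (hS fun _ => h)))) -
          β * h * s / 2 * (n : ℝ) ^ 3 := by
  obtain ⟨n0, hn0⟩ := logZ_copies_ge (h := h) hs hβ hε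
  refine ⟨n0, fun n _ hn hodd M => ?_⟩
  have h1 := hn0 n hn hodd M
  linarith

/-- Lower bound with the ideal gas of magnons. -/
theorem logZS_lower_FS {s : ℕ} (hs : 1 ≤ s) : ∃ K : ℝ, 1 ≤ K ∧ ∀ β : ℝ, K ≤ β → ∀ h : ℝ, 0 ≤ h →
    ∀ ε : ℝ, 0 < ε → ∃ n0 : ℕ, ∀ (n : ℕ) [NeZero n], n0 ≤ n → Odd n → ∀ M : ℕ,
      ((1 - K / β) * B.FS ((s : ℝ) / 2) (β * h) / Real.sqrt β ^ 3 - ε) * (n : ℝ) ^ 3 ≤
        Real.log (trace (NormedSpace.exp (-β • ham (edgesS n s M) (hS fun _ => h)))) -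
          β * h / 2 * ((n : ℝ) ^ 3 * s) := by
  obtain ⟨K, hK1, hK⟩ := B.gRed_lower hs
  refine ⟨K, hK1, fun β hβK h hh ε hε => ?_⟩
  have hβ : 0 < β := by linarith
  have hs3 : 0 < Real.sqrt β ^ 3 := by positivity
  have hth : 0 ≤ β * h := by positivity
  have h1 : (1 - K / β) * B.FS ((s : ℝ) / 2) (β * h) / Real.sqrt β ^ 3 ≤ B.gRed s β h := by
    rw [div_le_iff₀ hs3]
    have h2 := (B.FR_tendsto ((s : ℝ) / 2) hth).const_mul (1 - K / β)
    refine le_of_tendsto' h2 fun R => ?_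
    have := hK β hβK h hh R
    linarith
  obtain ⟨n0, hn0⟩ := logZS_lower s hs hβ h hε
  refine ⟨n0, fun n _ hn hodd M => ?_⟩
  have h3 := hn0 n hn hodd M
  have h4 : ((1 - K / β) * B.FS ((s : ℝ) / 2) (β * h) / Real.sqrt β ^ 3 - ε) * (n : ℝ) ^ 3 ≤
      (B.gRed s β h - ε) * (n : ℝ) ^ 3 :=
    mul_le_mul_of_nonneg_right (by linarith) (by positivity)
  linarith

end

end Vale.Agent.P361.LRO.S3S
end
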