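import Vale.Agent.P361.Bd4.B3
import Vale.Agent.P361.Bd4.B4
import Vale.Agent.P361.Bdl.B13
import Vale.Agent.P361.Bd4.B2
import Vale.Agent.P361.Bdl.B12
import Vale.Agent.P361.Bd4.B1
import Vale.Agent.P361.Bdl.B9
import Vale.Agent.P361.Bdl.B11
import Vale.Agent.P361.Bdl.B1
import Vale.Agent.P361.Bdl.B10
import Vale.Agent.P361.Bdl.B2
import Vale.Agent.P361.Bdl.B4

set_option linter.all false

section

/-!
P361 LRO, stage 3, all spins: lowering the field in the slots network, for any good law and the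
scaled fields (slice parameters `g / (2 N s)`).
-/

namespace Vale.Agent.P361.LRO.S3S

open Finset _root_.P361.LRO Vale.Agent.P361.LRO Vale.Agent.P361.LRO.Ind Vale.Agent.P361.LRO.Net
  Vale.Agent.P361.LRO.GenS

set_option linter.unusedSectionVars false

noncomputable section

variable {n s N : ℕ} [NeZero n] [NeZero s]

section Equiv'

variable {K : ℝ} {b : Finset (Tor n)} {h : Tor n → ℝ}
  {μ : Equiv.Perm (Fin (N + 1) × (Tor n × Fin s)) → ℝ}

theorem netK_cS3 (a : Nd n (N * s) → ℝ) :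
    netK (cS3 n s N μ K b h) a =
      KK μ (th (1 / (s : ℝ)) N (hS h) (blk K (b ×ˢ univ))) (fun z => a (slotF n s N z)) := by
  unfold cS3
  rw [netK_mgC, netK_c0]

/-- The potential on the copies may be replaced by the pull-back of a potential on the slots. -/
theorem KK_sec3 {β : ℝ} (hβ : 0 < β) (hN : β ≤ N) (hK : 0 ≤ K) (h0 : ∀ x, 0 ≤ h x)
    (h1 : ∀ x, h x ≤ 1) (hG : Vale.Agent.P361.LRO.Net.Good μ) {E : Finset (Nd n (N * s))}
    (hE : hatb (N * s) b ⊆ E) {a : Fin (N + 1) × (Tor n × Fin s) → ℝ}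
    (ha : ∀ z ∈ pre E, a z = 1) :
    KK μ (th β N (hS h) (blk K (b ×ˢ univ))) (fun z => a (secF (slotF n s N z))) =
    KK μ (th β N (hS h) (blk K (b ×ˢ univ))) a := by
  have hθ : ∀ z, 0 ≤ th β N (hS (s := s) h) (blk K (b ×ˢ univ)) z ∧
      th β N (hS (s := s) h) (blk K (b ×ˢ univ)) z ≤ 1 :=
    fun z => th_mem' (h := hS (s := s) h) hβ hN hK _ (fun x => h0 x.1) (fun x => h1 x.1) z
  rw [← netK_c0, ← netK_c0]
  refine netK_congr_zero (c0_symm _ _) fun z => ?_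
  by_cases hz : z.1 = 0
  · by_cases hb : z.2.1 ∈ b
    · left
      have h2 : slotF n s N z ∈ E := by
        apply hE
        unfold hatb
        rw [Finset.mem_product]
        exact ⟨by rw [Finset.mem_singleton]; exact (slotF_zero_iff z).mpr hz, hb⟩
      rw [ha z (mem_pre.mpr h2), ha (secF (slotF n s N z)) (mem_pre.mpr (by rw [slotF_secF]; exact h2))]
    · right
      intro v
      refine c0_zero hG hθ ?_ v
      unfold th blk
      rw [if_pos hz, if_neg]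
      simpa using hb
  · left
    rw [secF_slotF hz]

theorem inv_s_pos : (0 : ℝ) < 1 / (s : ℝ) := by
  have : (0 : ℝ) < s := by exact_mod_cast Nat.pos_of_ne_zero (NeZero.ne s)
  positivity

theorem inv_s_le (hN : 1 ≤ N) : 1 / (s : ℝ) ≤ N := by
  have h1 : (1 : ℝ) ≤ s := by exact_mod_cast Nat.one_le_iff_ne_zero.2 (NeZero.ne s)
  have h2 : (1 : ℝ) ≤ N := by exact_mod_cast hN
  refine le_trans ?_ h2
  rw [div_le_one (by linarith)]
  exact h1

theorem LBn_cS3 (hN : 1 ≤ N) (hK : 0 ≤ K) (h0 : ∀ x, 0 ≤ h x)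
    (h1 : ∀ x, h x ≤ 1) (hG : Vale.Agent.P361.LRO.Net.Good μ) {E G : Finset (Nd n (N * s))}
    (hE : hatb (N * s) b ⊆ E) (A : ℝ) :
    LBn (cS3 n s N μ K b h) E G A ↔
      LB μ (th (1 / (s : ℝ)) N (hS h) (blk K (b ×ˢ univ))) (pre E) (pre G) A := by
  constructor
  · intro H a haE haG
    have h2 := H (fun u => a (secF u))
      (fun u hu => haE _ (mem_pre.mpr (by rw [slotF_secF]; exact hu)))
      (fun u hu => haG _ (mem_pre.mpr (by rw [slotF_secF]; exact hu)))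
    rwa [netK_cS3, KK_sec3 inv_s_pos (inv_s_le hN) hK h0 h1 hG hE haE] at h2
  · intro H a haE haG
    rw [netK_cS3]
    exact H (fun z => a (slotF n s N z)) (fun z hz => haE _ (mem_pre.mp hz))
      (fun z hz => haG _ (mem_pre.mp hz))

theorem RBn_cS3 (hN : 1 ≤ N) (hK : 0 ≤ K) (h0 : ∀ x, 0 ≤ h x)
    (h1 : ∀ x, h x ≤ 1) (hG : Vale.Agent.P361.LRO.Net.Good μ) {E : Finset (Nd n (N * s))}
    (hE : hatb (N * s) b ⊆ E) {q : Nd n (N * s) → ℝ} (hq : ∀ x, q (0, x) = 0) (R : ℝ) :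
    RBn (cS3 n s N μ K b h) E q R ↔
      RB μ (th (1 / (s : ℝ)) N (hS h) (blk K (b ×ˢ univ))) (pre E) (qS q) R := by
  constructor
  · intro H a haE
    have h2 := H (fun u => a (secF u))
      (fun u hu => haE _ (mem_pre.mpr (by rw [slotF_secF]; exact hu)))
    rwa [netK_cS3, KK_sec3 inv_s_pos (inv_s_le hN) hK h0 h1 hG hE haE, sum_qS_sec hq] at h2
  · intro H a haE
    have h2 := H (fun z => a (slotF n s N z)) (fun z hz => haE _ (mem_pre.mp hz))
    rwa [sum_qS hq, ← netK_cS3] at h2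

end Equiv'

/-- **`LowE` for the slots network of any good law, scaled fields.** -/
theorem lowE_gen (hN : 1 ≤ N) {K : ℝ} (hK : 0 ≤ K)
    (b : Finset (Tor n)) {h0 lam ε : ℝ} (hh0 : 0 < h0) (hε : 0 ≤ ε) (hε1 : ε ^ 2 ≤ 1 / 2)
    {μ : Equiv.Perm (Fin (N + 1) × (Tor n × Fin s)) → ℝ} (hG : Vale.Agent.P361.LRO.Net.Good μ)
    (hmag : ∀ h, Fam n h0 lam h → ∀ z : Fin (N + 1) × (Tor n × Fin s), z.1 ≠ 0 →
      1 - ε ^ 2 ≤ mag μ (th (1 / (s : ℝ)) N (hS h) (blk K (b ×ˢ univ))) z) :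
    LowE n (N * s) b 1 h0 lam ε (cS3 n s N μ K b) := by
  have hNn : 0 < N := hN
  have hNpos : (0 : ℝ) < N := by exact_mod_cast hNn
  have hsn : 0 < s := Nat.pos_of_ne_zero (NeZero.ne s)
  have hs : (0 : ℝ) < s := by exact_mod_cast hsn
  obtain ⟨β, hβd⟩ : ∃ β : ℝ, β = 1 / (s : ℝ) := ⟨_, rfl⟩
  have hβ : 0 < β := by rw [hβd]; exact inv_s_pos
  have hNβ : β ≤ N := by rw [hβd]; exact inv_s_le hN
  have hsβ : (s : ℝ) * β = 1 := by rw [hβd]; field_simp
  rw [← hβd] at hmag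
  set T : Tor n × Fin s → ℝ := blk K (b ×ˢ univ) with hT
  have hT0 : ∀ z, 0 ≤ T z := fun z => (blk_mem' hK z).1
  have hfpos : ∀ {h : Tor n → ℝ}, Fam n h0 lam h → ∀ x, 0 < h x :=
    fun hf x => hh0.trans_le (hf.1 x).1
  have hmem : ∀ {h : Tor n → ℝ}, Fam n h0 lam h → ∀ z : Fin (N + 1) × (Tor n × Fin s),
      0 ≤ th β N (hS h) T z ∧ th β N (hS h) T z ≤ 1 := fun {h} hf z =>
    th_mem' (h := hS (s := s) h) hβ hNβ hK _ (fun x => (hfpos hf x.1).le)
      (fun x => (hf.1 x.1).2) z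
  have hmono : ∀ {h h' : Tor n → ℝ}, (∀ x, h' x ≤ h x) →
      ∀ z : Fin (N + 1) × (Tor n × Fin s),
      th β N (hS h') T z ≤ th β N (hS h) T z := by
    intro h h' hle z
    unfold th hS
    split_ifs
    · exact le_rfl
    · have := hle z.2.1
      gcongr
  have hlt : ∀ {h h' : Tor n → ℝ} (z : Fin (N + 1) × (Tor n × Fin s)),
      th β N (hS h') T z < th β N (hS h) T z → z.1 ≠ 0 := by
    intro h h' z hz h0
    unfold th at hz
    simp [h0] at hz
  have hfix : ∀ {h h' : Tor n → ℝ} (z : Fin (N + 1) × (Tor n × Fin s)),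
      (z.1 ≠ 0 → h' z.2.1 = h z.2.1) →
      th β N (hS h') T z = th β N (hS h) T z := by
    intro h h' z hz
    unfold th hS
    split_ifs with h1
    · rfl
    · rw [hz h1]
  have hpos : ∀ {h h' : Tor n → ℝ}, Fam n h0 lam h' → ∀ z : Fin (N + 1) × (Tor n × Fin s),
      th β N (hS h') T z < th β N (hS h) T z → 0 < th β N (hS h') T z := by
    intro h h' hf z hz
    have h1 := hlt z hz
    unfold th
    rw [if_neg h1]
    have := hfpos hf z.2.1
    unfold hS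
    positivity
  have hm : ∀ {h h' : Tor n → ℝ}, Fam n h0 lam h → Fam n h0 lam h' → ∀ t : ℝ, 0 ≤ t →
      ∀ z : Fin (N + 1) × (Tor n × Fin s), th β N (hS h') T z < th β N (hS h) T z →
      1 - ε ^ 2 ≤ mag μ (path (th β N (hS h) T) (th β N (hS h') T) t) z := by
    intro h h' hf hf' t ht z hz
    rw [path_thS hNn hβ hT0 h h' ht]
    exact hmag _ (Fam.lower hh0.le hf hf' ht) z (hlt z hz)
  refine ⟨?_, ?_⟩
  · intro h h' hf hf' hle E G hEG hbE hfixEG S hS1 hsum A hA hLB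
    rw [LBn_cS3 hN hK (fun x => (hfpos hf x).le) (fun x => (hf.1 x).2) hG hbE, ← hβd] at hLB
    rw [LBn_cS3 hN hK (fun x => (hfpos hf' x).le) (fun x => (hf'.1 x).2) hG hbE, ← hβd]
    have hE : ∀ z ∈ pre E, th β N (hS h') T z = th β N (hS h) T z := fun z hz =>
      hfix z fun h1 => hfixEG _ (Finset.mem_union_left _ (mem_pre.mp hz))
        (fun h2 => h1 ((slotF_zero_iff z).mp h2))
    have hG' : ∀ z ∈ pre G, th β N (hS h') T z = th β N (hS h) T z := fun z hz =>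
      hfix z fun h1 => hfixEG _ (Finset.mem_union_right _ (mem_pre.mp hz))
        (fun h2 => h1 ((slotF_zero_iff z).mp h2))
    have hpre : Disjoint (pre (s := s) (N := N) E) (pre G) := by
      rw [Finset.disjoint_left] at hEG ⊢
      intro z hz hz'
      exact hEG (mem_pre.mp hz) (mem_pre.mp hz')
    rw [one_mul] at hS1 ⊢
    have key := LB_lower hG hε (fun z => (hmem hf' z).1) (hmono hle) (fun z => (hmem hf z).2)
      hE hG' hpre (hpos hf') (hm hf hf') (Real.log_nonneg hS1)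
      (B := S / 2) (by
        rw [sum_loweredS hβ hNβ T hle]
        have h5 : (s : ℝ) * (β / 2 * ∑ x, (if h' x = h x then 0 else h x)) =
            (s * β) / 2 * ∑ x, (if h' x = h x then 0 else h x) := by ring
        rw [h5, hsβ]
        linarith) hLB
    intro a haE haG
    refine le_trans ?_ (key a haE haG)
    have hSpos : 0 < S := by linarith
    have e1 : Real.exp (-(4 * ε * Real.log S)) = S ^ (-(4 * ε)) := by
      rw [Real.rpow_def_of_pos hSpos]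
      congr 1
      ring
    rw [e1, Real.exp_neg, Real.exp_log hSpos]
    have e2 : 2 * ε * (S / 2) * S⁻¹ = ε := by
      have h5 : S * S⁻¹ = 1 := mul_inv_cancel₀ hSpos.ne'
      linear_combination ε * h5
    rw [e2]
    linarith
  · intro _ hh1 h' hf' E q hbE hfixE hqE hq0 hqnn hq1 R hR hRB
    have hlam : 1 ≤ Real.exp lam := by
      have h1 := hf'.2 0 0
      have h2 := hfpos hf' 0
      have h3 : h' 0 ≤ Real.exp lam * (Real.exp lam * h' 0) :=
        h1.1.trans (mul_le_mul_of_nonneg_left h1.2 (Real.exp_pos _).le)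
      by_contra hcon
      have h4 : Real.exp lam < 1 := not_le.mp hcon
      have h5 := Real.exp_pos lam
      nlinarith [mul_pos h5 h2, mul_pos (sub_pos.mpr h4) h2,
        mul_pos (mul_pos h5 h2) (sub_pos.mpr h4)]
    have hf : Fam n h0 lam fun _ => (1 : ℝ) :=
      ⟨fun x => ⟨hh1, le_rfl⟩, fun x i => ⟨by linarith, by linarith⟩⟩
    rw [RBn_cS3 hN hK (fun x => (hfpos hf x).le) (fun x => (hf.1 x).2) hG hbE hq0, ← hβd] at hRB
    rw [RBn_cS3 hN hK (fun x => (hfpos hf' x).le) (fun x => (hf'.1 x).2) hG hbE hq0, ← hβd]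
    have hle : ∀ x, h' x ≤ (fun _ : Tor n => (1 : ℝ)) x := fun x => (hf'.1 x).2
    have hE : ∀ z ∈ pre E, th β N (hS h') T z = th β N (hS fun _ => 1) T z := fun z hz =>
      hfix z fun h1 => hfixE _ (mem_pre.mp hz) (fun h2 => h1 ((slotF_zero_iff z).mp h2))
    have hlog : 0 ≤ Real.log (1 / h0) := Real.log_nonneg (by rw [le_div_iff₀ hh0]; linarith)
    have hqS1 : ∑ z : Fin (N + 1) × (Tor n × Fin s), qS q z = 1 := by
      have h1 := sum_qS (s := s) (N := N) hq0 (fun _ => 1)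
      simp only [mul_one] at h1
      rw [h1, hq1]
    have key := ode_RB hG (fun z => (hmem hf' z).1) (hmono hle) (fun z => (hmem hf z).2)
      hE hqS1 (τ := 2 * ε) (by positivity)
      (fun t ht z hz => by
        have h1 := hm hf hf' t ht z hz
        refine ⟨sqrt_mag_le hε h1, ?_⟩
        have h2 : 1 / 2 ≤ 1 - ε ^ 2 := by linarith
        exact h2.trans h1)
      hR hRB hlog (fun z => by
        rw [Real.exp_log (by positivity)]
        unfold th
        by_cases hz : z.1 = 0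
        · simp only [hz, if_true]
          have h1 := hT0 z.2
          have h2 : 1 ≤ 1 / h0 := by rw [le_div_iff₀ hh0]; linarith
          nlinarith
        · simp only [hz, if_false, hS]
          have h2 := (hf'.1 z.2.1).1
          have h3 : (1 : ℝ) ≤ 1 / h0 * h' z.2.1 := by
            rw [one_div, inv_mul_eq_div, le_div_iff₀ hh0]
            linarith
          have hc : 0 ≤ β / (2 * N) := by positivity
          calc β * 1 / (2 * N) = β / (2 * N) * 1 := by ring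
            _ ≤ β / (2 * N) * (1 / h0 * h' z.2.1) := mul_le_mul_of_nonneg_left h3 hc
            _ = 1 / h0 * (β * h' z.2.1 / (2 * N)) := by ring)
    intro a ha
    refine (key a ha).trans ?_
    have hKK : 0 ≤ KK μ (th β N (hS h') T) a := by
      rw [← netK_c0]
      refine P361.LRO.netK_nonneg (fun x y => ?_) a
      unfold c0
      split_ifs with hxy
      · exact le_rfl
      · exact hG.ccnn _ (hmem hf') x y hxy
    refine mul_le_mul_of_nonneg_right ?_ hKK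
    have e1 : Real.exp (2 * (2 * ε) * Real.log (1 / h0)) = h0 ^ (-(4 * ε)) := by
      rw [Real.rpow_def_of_pos hh0, one_div, Real.log_inv]
      congr 1
      ring
    rw [e1]
    refine mul_le_mul_of_nonneg_left ?_ (Real.rpow_nonneg hh0.le _)
    refine add_le_add le_rfl ?_
    rw [Real.exp_log (by positivity)]
    have hq2 : ∑ z : Fin (N + 1) × (Tor n × Fin s), qS q z ^ 2 = ∑ u, q u ^ 2 := by
      have h1 := sum_slot (s := s) (N := N) (fun u => q u ^ 2) (fun x => by simp [hq0 x])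
      rw [← h1]
      refine Finset.sum_congr rfl fun z _ => ?_
      unfold qS
      split_ifs <;> simp
    have h5 : ∑ z ∈ univ.filter (fun z : Fin (N + 1) × (Tor n × Fin s) =>
        th β N (hS h') T z < th β N (hS fun _ => 1) T z),
        qS q z ^ 2 / th β N (hS fun _ => 1) T z ≤ 2 * N / β * ∑ u, q u ^ 2 := by
      rw [← hq2, Finset.mul_sum, Finset.sum_filter]
      refine Finset.sum_le_sum fun z _ => ?_
      split_ifs with h1
      · have hz := hlt z h1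
        unfold th hS
        rw [if_neg hz]
        apply le_of_eq
        field_simp
      · positivity
    have h6 : 0 ≤ ∑ z ∈ univ.filter (fun z : Fin (N + 1) × (Tor n × Fin s) =>
        th β N (hS h') T z < th β N (hS fun _ => 1) T z),
        qS q z ^ 2 / th β N (hS fun _ => 1) T z :=
      Finset.sum_nonneg fun z _ => div_nonneg (sq_nonneg _) (hmem hf z).1
    have h7 : 1 / h0 - 1 ≤ 1 / h0 := by linarith
    have h8 : 0 ≤ 1 / h0 := by positivity
    have h9 : 2 * N / β = 2 * (N * s) := by rw [hβd]; field_simp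
    calc 4 * (1 / h0 - 1) * ∑ z ∈ univ.filter (fun z : Fin (N + 1) × (Tor n × Fin s) =>
        th β N (hS h') T z < th β N (hS fun _ => 1) T z),
        qS q z ^ 2 / th β N (hS fun _ => 1) T z
        ≤ 4 * (1 / h0) * (2 * N / β * ∑ u, q u ^ 2) := by
          apply mul_le_mul _ h5 h6 (by positivity)
          linarith
      _ = 8 * ((N * s : ℕ) : ℝ) / (1 * h0) * (∑ u, q u ^ 2) := by
          rw [h9]
          push_cast
          field_simp
          ring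

/-- **Lowering the field in the slots network.** -/
theorem lowStmt3S {s : ℕ} (hs : 0 < s) : LowStmt3S s := by
  have : NeZero s := ⟨hs.ne'⟩
  intro n N _ K h0 lam ε b μ hN hK hh0 hε hε1 hG hmag
  exact lowE_gen hN hK b hh0 hε hε1 hG hmag

end

end Vale.Agent.P361.LRO.S3S
end

section

/-!
P361 LRO, stage 3, all spins: `LocalStmt3S` from the long-window bound `CCgeS` and the defect
bound `DeltaStmt`.
-/

namespace Vale.Agent.P361.LRO.S3S

open Finset Vale.Agent.P361.LRO _root_.P361.LRO Vale.Agent.P361.LRO.Ind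
  Vale.Agent.P361.LRO.Ind3 Vale.Agent.P361.LRO.GenS

noncomputable section

/-- **The local instance for all spins.** -/
theorem localStmt3S_of {s : ℕ} (hs : 0 < s) (hCC : CCgeS s) (hΔ : DeltaStmt) :
    LocalStmt3S s := by
  obtain ⟨c1, hc1, H⟩ := localC3_inst s hs hCC hΔ
  refine ⟨c1, hc1, fun C7 Lam hC7 hLam => ?_⟩
  have hsr : (1 : ℝ) ≤ s := by exact_mod_cast hs
  obtain ⟨β0, hβ08, H⟩ := H (C7 + Lam * C7) (by positivity)
  refine ⟨β0, fun β hβ => ⟨2, ?_⟩⟩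
  intro n _ hn M e K b he1 he2 hK1 hKL hKb
  have hβ8 : 8 ≤ β := hβ08.trans hβ
  have hβp : 0 < β := by linarith
  have hη : 0 < C7 * β ^ (-(3 / 2) : ℝ) := by
    have := Real.rpow_pos_of_pos hβp (-(3 / 2) : ℝ)
    positivity
  have hprod : β ^ (3 / 2 : ℝ) * β ^ (-(3 / 2) : ℝ) = 1 := by
    rw [← Real.rpow_add hβp]
    norm_num
  have hKη : K * (C7 * β ^ (-(3 / 2) : ℝ)) ≤ C7 + Lam * C7 := by
    have h1 : K * (C7 * β ^ (-(3 / 2) : ℝ)) ≤ (Lam * β ^ (3 / 2 : ℝ)) *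
        (C7 * β ^ (-(3 / 2) : ℝ)) := mul_le_mul_of_nonneg_right hKL hη.le
    have h2 : (Lam * β ^ (3 / 2 : ℝ)) * (C7 * β ^ (-(3 / 2) : ℝ)) =
        Lam * C7 * (β ^ (3 / 2 : ℝ) * β ^ (-(3 / 2) : ℝ)) := by ring
    rw [h2, hprod, mul_one] at h1
    linarith
  have hbp : (0 : ℝ) < b.card := by linarith
  have hbn : b.Nonempty := by
    rw [← Finset.card_pos]
    exact_mod_cast hbp
  have hsq : β ^ (1 / 2 : ℝ) = √β := (Real.sqrt_eq_rpow β).symm
  rw [hsq] at he1 he2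
  obtain ⟨N0, H⟩ := H β hβ e n M K (C7 * β ^ (-(3 / 2) : ℝ)) b hn he2 (by
      have : (0 : ℝ) < 3 ^ e := by positivity
      linarith) (by linarith) (by nlinarith) hbn hη
    (mul_le_mul_of_nonneg_right (by nlinarith) (Real.rpow_pos_of_pos hβp _).le) hKη
  refine ⟨max N0 1, fun W hW g hg hrho => ?_⟩
  have hW0 : N0 ≤ 4 * W := by
    have := (le_max_left N0 1).trans hW
    omega
  have hW1 : 0 < W := (le_max_right N0 1).trans hW
  have h := H (4 * W) W hW0 rfl g (fun x => ⟨(hg x).1.le, (hg x).2⟩) hrho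
  rw [th_scaledS hs hβp] at h
  exact local3_slots hs hW1 h

end

end Vale.Agent.P361.LRO.S3S
end

section

/-!
P361 LRO, stage 3, all spins: `KappaStmt3S s` from the local instance.
-/

namespace Vale.Agent.P361.LRO.S3S

/-- **Stiffness, all spins**, from the long-window local instance. -/
theorem kappaStmt3S_of_local {s : ℕ} (hs : 0 < s) (hL : LocalStmt3S s) : KappaStmt3S s :=
  kappaStmt3S_of hs (fun c1 hc1 => Ind3.block3E c1 hc1) hL (lowStmt3S hs)

/-- **Stiffness, all spins**, from the long-window conductance bound. -/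
theorem kappaStmt3S_of_CC {s : ℕ} (hs : 0 < s) (hCC : GenS.CCgeS s) : KappaStmt3S s :=
  kappaStmt3S_of_local hs (localStmt3S_of hs hCC Ind3.deltaStmt)

end Vale.Agent.P361.LRO.S3S
end

section

/-!
P361 LRO, stage 3, all spins: `CCgeS s` (input of `GenS/LocalInst3S.lean`) from the long-window
trace inequality `LongTr s` and the kernel bound `KerS.qS_lower1`.
-/

namespace Vale.Agent.P361.LRO.S3S

open Finset Matrix Vale.Agent.P361.LRO _root_.P361.LRO Vale.Agent.P361.LRO.Bloch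
  Vale.Agent.P361.LRO.S3S.KerS Vale.Agent.P361.LRO.GenS

noncomputable section

/-- Long windows on `edgesS n s M`, trace form, for every pair of copies (walk with at least one
move); only the inter gates have to be controlled. -/
def LongTr (s : ℕ) : Prop :=
  ∀ (n M : ℕ) [NeZero n] (β : ℝ) (N : ℕ), 2 ≤ n → 0 ≤ β → β ≤ N → 0 < N →
    ∀ θ : Fin (N + 1) × (Tor n × Fin s) → ℝ, (∀ z, 0 ≤ θ z ∧ θ z ≤ 1) →
    (∀ k x i j, θ (k, (x, i)) = θ (k, (x, j))) →
    ∀ τ : ℝ, 0 ≤ τ → τ ≤ 1 → (∀ z, z.1 ≠ 0 → θ z ≤ τ) →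
    ∀ k m : ℕ, k + m + 1 ≤ N → ∀ δ : ℝ, 0 ≤ δ → ∀ (x y : Tor n) (i j : Fin s),
      (∀ w1 w2 a b p, a.1 ≠ b.1 → mword (edgesS n s M) β N θ k m = w1 ++ Lt.gate a b p :: w2 →
        trace (lctx (edgesS n s M) β N θ (k + m + 1) (x, i) * wd w1 * exM a b * wd w2 *
            rctx (edgesS n s M) β N θ k (y, j)) ≤
          δ * trace (lctx (edgesS n s M) β N θ (k + m + 1) (x, i) *
            wd (mword (edgesS n s M) β N θ k m) * rctx (edgesS n s M) β N θ k (y, j)) ∧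
        trace (lctx (edgesS n s M) β N θ (k + m + 1) (x, i) * wd w1 * neM a b * wd w2 *
            rctx (edgesS n s M) β N θ k (y, j)) ≤
          δ * trace (lctx (edgesS n s M) β N θ (k + m + 1) (x, i) *
            wd (mword (edgesS n s M) β N θ k m) * rctx (edgesS n s M) β N θ k (y, j))) →
      ∀ J : ℕ,
      ((1 - τ) / (1 + τ)) ^ m * (∑ l ∈ Ico 1 J,
        qS ((1 - β / (2 * N)) ^ (6 * s)) (s * (β / (2 * N)) * (1 - β / (2 * N)) ^ (12 * s)) x
          (m + 1) y l *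
        (1 / s - δ * ((m + 1) * s * (β / (2 * N)) * (6 * s) +
          s * (1 + 2 * (β / (2 * N)) * (6 * s)) * l))) *
        trace (lctx (edgesS n s M) β N θ (k + m + 1) (x, i) *
          wd (mword (edgesS n s M) β N θ k m) * rctx (edgesS n s M) β N θ k (y, j)) ≤
      trace (lctx (edgesS n s M) β N θ (k + m + 1) (x, i) * sxM (x, i) *
        wd (mword (edgesS n s M) β N θ k m) * (sxM (y, j) * rctx (edgesS n s M) β N θ k (y, j)))

/-- The weight of the lumped walk, at least one move. -/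
theorem walkS_ge {n : ℕ} [NeZero n] {s : ℕ} (hs1 : 1 ≤ s) {β : ℝ} (hβ : 8 ≤ β) :
    ∃ N0 : ℕ, 1 ≤ N0 ∧ ∀ N W : ℕ, N0 ≤ N → N = 4 * W →
      ∀ m e : ℕ, m + 1 ≤ N → W ≤ m + 1 → (3:ℝ) ^ e ≤ 3 * √β → √β ≤ 3 * 3 ^ e →
      ∀ J : ℕ, Ker.cJ 18 * (s * (β / 2)) ≤ J →
      ∀ p x y : Tor n, x ∈ cube n p (2 * 3 ^ e) → y ∈ cube n p (2 * 3 ^ e) →
      Ker.cK 18 ^ 3 / (108 * s ^ 3 * 27 ^ e) ≤ ∑ j ∈ Ico 1 J,
        qS ((1 - β / (2 * N)) ^ (6 * s)) (s * (β / (2 * N)) * (1 - β / (2 * N)) ^ (12 * s)) x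
          (m + 1) y j := by
  have hcK : 0 < Ker.cK 18 := Ker.cK_pos 18
  have hβ0 : 0 < β := by linarith
  have hJ0 := Ind3.cJ_nonneg
  have hs0 : (1:ℝ) ≤ s := by exact_mod_cast hs1
  obtain ⟨N0, hN0⟩ := qS_lower1 (A := 18) (by norm_num) (n := n) hs1 hβ0
  refine ⟨max N0 (max 1 ⌈β⌉₊), le_max_of_le_right (le_max_left _ _), ?_⟩
  intro N W hN hNW m e hm hWm he1 he2 J hJ p x y hx hy
  have hN1 : 1 ≤ N := (le_max_left _ _).trans ((le_max_right _ _).trans hN)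
  have hNβ : β ≤ N := by
    have : ⌈β⌉₊ ≤ N := (le_max_right _ _).trans ((le_max_right _ _).trans hN)
    exact (Nat.le_ceil β).trans (by exact_mod_cast this)
  have hNp : (0:ℝ) < N := by linarith
  obtain ⟨z, hz, hyz⟩ := Ind3.cube_diff hx hy
  have hp0 : 0 ≤ β / (2 * N) := by positivity
  set t : ℝ := s * (((m + 1 : ℕ) : ℝ) * (β / (2 * N))) with ht
  have hm1 : ((m + 1 : ℕ) : ℝ) ≤ N := by exact_mod_cast hm
  have hm2 : (N : ℝ) / 4 ≤ ((m + 1 : ℕ) : ℝ) := by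
    have h1 : (N : ℝ) = 4 * W := by rw [hNW]; push_cast; ring
    have h2 : (W : ℝ) ≤ ((m + 1 : ℕ) : ℝ) := by exact_mod_cast hWm
    linarith
  have hs1' : ((m + 1 : ℕ) : ℝ) * (β / (2 * N)) ≤ β / 2 := by
    calc ((m + 1 : ℕ) : ℝ) * (β / (2 * N)) ≤ N * (β / (2 * N)) :=
          mul_le_mul_of_nonneg_right hm1 hp0
      _ = β / 2 := by field_simp
  have hs2' : β / 8 ≤ ((m + 1 : ℕ) : ℝ) * (β / (2 * N)) := by
    calc β / 8 = N / 4 * (β / (2 * N)) := by field_simp; norm_num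
      _ ≤ _ := mul_le_mul_of_nonneg_right hm2 hp0
  have ht1 : t ≤ s * (β / 2) := mul_le_mul_of_nonneg_left hs1' (by linarith)
  have ht2 : β / 8 ≤ t := by
    calc β / 8 ≤ 1 * (((m + 1 : ℕ) : ℝ) * (β / (2 * N))) := by rw [one_mul]; exact hs2'
      _ ≤ t := mul_le_mul_of_nonneg_right hs0 (by linarith)
  have ht3 : 1 ≤ t := by linarith
  have htp : 0 < t := by linarith
  have hsq : 0 < √t := Real.sqrt_pos.2 htp
  have hβs : √β ≤ 3 * √t := by
    have h1 : √β ≤ √(9 * t) := Real.sqrt_le_sqrt (by linarith)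
    rw [Real.sqrt_mul (by norm_num), show (9:ℝ) = 3 ^ 2 by norm_num,
      Real.sqrt_sq (by norm_num)] at h1
    exact h1
  have hker := hN0 N ((le_max_left _ _).trans hN) (m + 1) hm t rfl ht3 J
    ((mul_le_mul_of_nonneg_left ht1 hJ0).trans hJ) x z (fun i => by
      refine (hz i).trans ?_
      push_cast
      linarith)
  rw [← hyz] at hker
  refine le_trans ?_ hker
  have h27 : (27:ℝ) ^ e = (3 ^ e) ^ 3 := by
    rw [← pow_mul, mul_comm, pow_mul]; norm_num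
  have h1 : √t ≤ 3 * s * 3 ^ e := by
    have a1 : √t ≤ √((s : ℝ) ^ 2 * β) := by
      refine Real.sqrt_le_sqrt (ht1.trans ?_)
      nlinarith
    have a2 : √((s : ℝ) ^ 2 * β) = s * √β := by
      rw [Real.sqrt_mul (by positivity), Real.sqrt_sq (by linarith)]
    rw [a2] at a1
    calc √t ≤ s * √β := a1
      _ ≤ s * (3 * 3 ^ e) := mul_le_mul_of_nonneg_left he2 (by linarith)
      _ = _ := by ring
  have h2 : Ker.cK 18 / (3 * s * 3 ^ e) ≤ Ker.cK 18 / √t :=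
    div_le_div_of_nonneg_left hcK.le hsq h1
  have h3 := pow_le_pow_left₀ (by positivity) h2 3
  calc Ker.cK 18 ^ 3 / (108 * s ^ 3 * 27 ^ e) = (Ker.cK 18 / (3 * s * 3 ^ e)) ^ 3 / 4 := by
        rw [h27, div_pow, mul_pow, mul_pow]; field_simp; norm_num
    _ ≤ _ := by linarith

theorem ccgeS_of {s : ℕ} (hs : 0 < s) (hL : LongTr s) : CCgeS s := by
  have hs1 : (1:ℝ) ≤ s := by exact_mod_cast hs
  have hs0 : (0:ℝ) < s := by linarith
  have hcK : 0 < Ker.cK 18 := Ker.cK_pos 18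
  have hcJ := Ind3.cJ_nonneg
  -- `a_l ≤ X β`
  set X : ℝ := 3 * s ^ 2 + s * (1 + 6 * s) * (Ker.cJ 18 * (s / 2) + 1) with hX
  have hXp : 0 < X := by positivity
  refine ⟨Real.exp (-2) * Ker.cK 18 ^ 3 / (864 * s ^ 4), s * X, ?_, by positivity, ?_⟩
  · have := Real.exp_pos (-2)
    positivity
  intro n M _ β hn hβ
  obtain ⟨N0, hN01, hN0⟩ := walkS_ge (n := n) hs hβ
  refine ⟨max N0 ⌈β⌉₊, le_max_of_le_left hN01, ?_⟩
  intro N W hN hNW θ hθ hθ2 hcopy k m e hk hWm he1 he2 δ hδ hδ2 p x y i j hx hy hXX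
  have hN1 : 1 ≤ N := hN01.trans ((le_max_left _ _).trans hN)
  have hNβ : β ≤ N := by
    have : ⌈β⌉₊ ≤ N := (le_max_right _ _).trans hN
    exact (Nat.le_ceil β).trans (by exact_mod_cast this)
  have hβ0 : 0 < β := by linarith
  have hNp : (0:ℝ) < N := by linarith
  have hN1r : (1:ℝ) ≤ N := by exact_mod_cast hN1
  set J : ℕ := ⌈Ker.cJ 18 * (s * (β / 2))⌉₊ with hJ
  have hJ1 : Ker.cJ 18 * (s * (β / 2)) ≤ J := Nat.le_ceil _
  have hJ2 : (J:ℝ) ≤ Ker.cJ 18 * (s * (β / 2)) + 1 := (Nat.ceil_lt_add_one (by positivity)).le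
  have hwalk := hN0 N W ((le_max_left _ _).trans hN) hNW m e (by omega) hWm he1 he2 J hJ1
    p x y hx hy
  have hτ1 : 1 / (2 * (N:ℝ)) ≤ 1 := by
    rw [div_le_one (by positivity)]
    linarith
  have htr := hL n M β N hn hβ0.le hNβ (by omega) θ hθ hcopy (1 / (2 * N)) (by positivity) hτ1
    hθ2 k m hk δ hδ x y i j hXX J
  have hcc := cc_of_trace_phys (edgesS n s M) hβ0.le hNβ (by omega) hθ hk (x, i) (y, j) _ htr
  refine le_trans ?_ hcc
  have hp0 : 0 ≤ β / (2 * N) := by positivity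
  have hp1 : β / (2 * N) ≤ 1 / 2 := by
    rw [div_le_div_iff₀ (by positivity) (by norm_num)]; linarith
  set c0 : ℝ := (1 - β / (2 * N)) ^ (6 * s) with hc0
  set c1 : ℝ := s * (β / (2 * N)) * (1 - β / (2 * N)) ^ (12 * s) with hc1
  have hc0n : 0 ≤ c0 := pow_nonneg (by linarith) _
  have hc1n : 0 ≤ c1 := mul_nonneg (by positivity) (pow_nonneg (by linarith) _)
  set S := ∑ l ∈ Ico 1 J, qS c0 c1 x (m + 1) y l with hS
  have hhalf : S / (2 * s) ≤ ∑ l ∈ Ico 1 J, qS c0 c1 x (m + 1) y l *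
      (1 / s - δ * ((m + 1) * s * (β / (2 * N)) * (6 * s) +
        s * (1 + 2 * (β / (2 * N)) * (6 * s)) * l)) := by
    rw [hS, Finset.sum_div]
    refine Finset.sum_le_sum fun l hl => ?_
    rw [div_eq_mul_inv]
    refine mul_le_mul_of_nonneg_left ?_ (qS_nonneg hc0n hc1n x _ y l)
    have hl' : (l:ℝ) ≤ J := by exact_mod_cast (Finset.mem_Ico.1 hl).2.le
    have hm1 : ((m:ℝ) + 1) ≤ N := by exact_mod_cast (by omega : m + 1 ≤ N)
    have h1 : (m + 1) * s * (β / (2 * N)) * (6 * s) ≤ 3 * (s:ℝ) ^ 2 * β := by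
      calc ((m:ℝ) + 1) * s * (β / (2 * N)) * (6 * s) ≤ N * s * (β / (2 * N)) * (6 * s) := by
            gcongr
        _ = 3 * (s:ℝ) ^ 2 * β := by field_simp; norm_num
    have h2 : 2 * (β / (2 * N)) * (6 * (s:ℝ)) ≤ 6 * s := by
      nlinarith
    have h3 : (l:ℝ) ≤ (Ker.cJ 18 * (s / 2) + 1) * β := by
      refine (hl'.trans hJ2).trans ?_
      nlinarith
    have h4 : s * (1 + 2 * (β / (2 * N)) * (6 * s)) * l ≤
        s * (1 + 6 * s) * ((Ker.cJ 18 * (s / 2) + 1) * β) := by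
      refine mul_le_mul ?_ h3 (Nat.cast_nonneg _) (by positivity)
      exact mul_le_mul_of_nonneg_left (by linarith) hs0.le
    have h5 : (m + 1) * s * (β / (2 * N)) * (6 * s) +
        s * (1 + 2 * (β / (2 * N)) * (6 * s)) * l ≤ X * β := by
      rw [hX]
      linarith
    have h6 := mul_le_mul_of_nonneg_left h5 hδ
    have h7 : δ * (X * β) ≤ 1 / (2 * s) := by
      rw [le_div_iff₀ (by positivity)]
      have : δ * (X * β) * (2 * s) = 2 * (δ * (s * X * β)) := by ring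
      rw [this]; linarith
    have h8 : (1:ℝ) / s = 1 / (2 * s) + 1 / (2 * s) := by field_simp; norm_num
    rw [← one_div, h8]
    linarith
  have hloss := Ind3.loss_ge (N := N) (m := m) hN1 (by omega)
  have hθθ : 0 ≤ θ (Fin.ofNat (N + 1) (k + m + 1), (x, i)) * θ (Fin.ofNat (N + 1) k, (y, j)) :=
    mul_nonneg (hθ _).1 (hθ _).1
  have hS1 : Ker.cK 18 ^ 3 / (216 * s ^ 4 * 27 ^ e) ≤ ∑ l ∈ Ico 1 J, qS c0 c1 x (m + 1) y l *
      (1 / s - δ * ((m + 1) * s * (β / (2 * N)) * (6 * s) +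
        s * (1 + 2 * (β / (2 * N)) * (6 * s)) * l)) := by
    refine le_trans ?_ hhalf
    calc Ker.cK 18 ^ 3 / (216 * s ^ 4 * 27 ^ e) =
          Ker.cK 18 ^ 3 / (108 * s ^ 3 * 27 ^ e) / (2 * s) := by field_simp; norm_num
      _ ≤ S / (2 * s) := div_le_div_of_nonneg_right hwalk (by positivity)
  have h6 : Real.exp (-2) * Ker.cK 18 ^ 3 / (864 * s ^ 4) / 27 ^ e ≤
      ((1 - 1 / (2 * (N:ℝ))) / (1 + 1 / (2 * (N:ℝ)))) ^ m * (∑ l ∈ Ico 1 J,
      qS c0 c1 x (m + 1) y l * (1 / s - δ * ((m + 1) * s * (β / (2 * N)) * (6 * s) +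
        s * (1 + 2 * (β / (2 * N)) * (6 * s)) * l))) / 4 := by
    have e1 : Real.exp (-2) * Ker.cK 18 ^ 3 / (864 * s ^ 4) / 27 ^ e =
        Real.exp (-2) * (Ker.cK 18 ^ 3 / (216 * s ^ 4 * 27 ^ e)) / 4 := by
      field_simp
      norm_num
    rw [e1]
    refine div_le_div_of_nonneg_right ?_ (by norm_num)
    exact mul_le_mul hloss hS1 (by positivity) ((Real.exp_pos _).le.trans hloss)
  have h7 := mul_le_mul_of_nonneg_right h6 hθθ
  refine h7.trans (le_of_eq ?_)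
  ring

end

end Vale.Agent.P361.LRO.S3S
end

section

/-!
P361, Bloch's law for all spins: `LongTr s`.
-/

namespace Vale.Agent.P361.LRO.S3S

open Finset Matrix Vale.Agent.P361.LRO _root_.P361.LRO Vale.Agent.P361.LRO.Bloch
  Vale.Agent.P361.LRO.Bloch.H1 Vale.Agent.P361.LRO.S3S.KerS Vale.Agent.P361.LRO.GenS

noncomputable section

theorem longTr_of (s : ℕ)
    (hcE : ∀ (n : ℕ) [NeZero n], 2 ≤ n → ∃ cX : Tor n → Tor n → ℕ,
      (∀ y v : Tor n × Fin s, cE y v (interE n s).reverse = cX y.1 v.1) ∧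
      ∀ (f : Tor n → ℝ) (x : Tor n), ∑ x', (cX x' x : ℝ) * f x' = Vale.Agent.P361.LRO.S3S.KerS.nb f x)
    (hnE : ∀ (n : ℕ) [NeZero n] (v : Tor n × Fin s), nE v (interE n s).reverse ≤ 6 * s)
    (hgl : ∀ (n M : ℕ) [NeZero n] (p : ℝ), gl (edgesS n s M) p =
      (((List.replicate M (intraE n s)).flatten.reverse).map fun e => Lt.gate e.1 e.2 p) ++
        ((interE n s).reverse.map fun e => Lt.gate e.1 e.2 p))
    (hintra : ∀ (n M : ℕ) [NeZero n], ∀ e ∈ (List.replicate M (intraE n s)).flatten.reverse,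
      e.1.1 = e.2.1)
    (hinter : ∀ (n : ℕ) [NeZero n], 2 ≤ n → ∀ e ∈ (interE n s).reverse, e.1.1 ≠ e.2.1) :
    LongTr s := by
  intro n M _ β N hn hβ hβN hN θ hθ hθc τ hτ0 hτ1 hτ k m hkm δ hδ x y i j hX J
  have hNr : (0 : ℝ) < N := by exact_mod_cast hN
  have hp0 : 0 ≤ β / (2 * N) := by positivity
  have hp1 : β / (2 * N) ≤ 1 := by
    rw [div_le_one (by positivity)]
    linarith
  obtain ⟨cX, hcX, hnb⟩ := hcE n hn
  have hcard : ∀ x : Tor n, (univ.filter fun v : Tor n × Fin s => v.1 = x).card = s := by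
    intro x
    have e : (univ.filter fun v : Tor n × Fin s => v.1 = x) =
        ({x} : Finset (Tor n)) ×ˢ (univ : Finset (Fin s)) := by
      ext v
      rw [Finset.mem_filter, Finset.mem_product, Finset.mem_singleton]
      simp
    rw [e, Finset.card_product, Finset.card_singleton, Finset.card_univ, Fintype.card_fin,
      one_mul]
  have hAn : Le 0 (lctx (edgesS n s M) β N θ (k + m + 1) (x, i)) :=
    (preM_nonneg _ hp0 hp1 hθ _).zero_mul (rmM_nonneg (fun _ => hθ _) _)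
  have hCn : Le 0 (rctx (edgesS n s M) β N θ k (y, j)) :=
    (rmM_nonneg (fun _ => hθ _) _).zero_mul (restM_nonneg _ hp0 hp1 hθ _)
  have key := long_copies (st := fun v : Tor n × Fin s => v.1) (s := s) hcard hAn hCn hp0 hp1
    (D := 6 * s) (hinter n hn) (hintra n M) (hnE n) hcX (hgl n M (β / (2 * N))) hτ0 hτ1
    (t := fun j z => θ (Fin.ofNat (N + 1) (k + j), z)) (fun _ _ => hθ _) m
    (fun l z h1 h2 => hτ _ (by
      intro h
      have h3 := congrArg Fin.val h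
      simp only [Fin.val_ofNat, Fin.val_zero] at h3
      rw [Nat.mod_eq_of_lt (by omega)] at h3
      omega))
    (x, i) (y, j)
    (qs := fun k => Vale.Agent.P361.LRO.S3S.KerS.qS ((1 - β / (2 * N)) ^ (6 * s))
      (s * (β / (2 * N)) * (1 - β / (2 * N)) ^ (12 * s)) x k)
    (fun v l => rfl)
    (fun k => by
      funext v l
      simp only [Vale.Agent.P361.LRO.S3S.KerS.qS, stepQ]
      rw [show 12 * s = 2 * (6 * s) by ring]
      congr 1
      split_ifs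
      · rfl
      · rw [hnb])
    hδ (fun w1 w2 a b p hw hab => hX w1 w2 a b p hab hw) J
  refine le_trans (le_of_eq ?_) key
  unfold mword
  push_cast
  congr 2
  refine Finset.sum_congr rfl fun l _ => ?_
  ring

/-- **Long windows for all spins.** -/
theorem longTr (s : ℕ) : LongTr s :=
  longTr_of s
    (fun n _ hn => ⟨C527.cT n, fun y v => C527.cE_inter hn y v, fun f x => C527.sum_cT f x⟩)
    (fun _ _ v => C527.nE_inter v)
    (fun _ M _ p => C527.gl_edgesS M p)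
    (fun _ M _ => C527.intra_eq M)
    (fun _ _ hn => C527.inter_ne hn)

end

end Vale.Agent.P361.LRO.S3S
end

section

/-!
P361, stage 3, all spins: **block (E)**, `EnergyStmt3S s` (helper683; geometry helper793).
-/

namespace Vale.Agent.P361.LRO.S3S

open Finset Matrix Filter Topology Vale.Agent.P361.LRO.GenS Vale.Agent.P361.LRO.S3

noncomputable section

theorem geoE {s : ℕ} (hs : 1 ≤ s) : GeoE s := by
  intro n M _ β h x w m hβ hh hw hm hwm
  have h1 := energyS_blocks (n := n) (s := s) hs M hβ hh x w m hw hm hwm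
  rw [ZbM_eq] at h1
  exact h1

theorem boxE {s : ℕ} (hs : 1 ≤ s) : BoxE s := by
  haveI : NeZero s := ⟨by omega⟩
  intro l β hβ
  have h1 := tendsto_Z (Λ := B.cube l) (s := s) hs (β := β / 2) (by positivity) 0
  rw [← Zt_eq (s := s) (B.cube l) (β / 2) 0] at h1
  refine h1.congr fun M => ?_
  rw [ZbE]
  have e : -(β / 2 / 2) • ham (Lm (nnL (B.cube l)) s (2 * M)) (fun _ => 0) -
      (0 : ℝ) • TwJ.Dn (univ : Finset (B.cube l × Fin s)) =
      -(β / 4) • ham (Lm (nnL (B.cube l)) s (2 * M)) 0 := by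
    rw [zero_smul, sub_zero, show β / 2 / 2 = β / 4 by ring]
    rfl
  rw [e]

/-- **(E)** crude energy for all profiles, every spin. -/
theorem energyStmt3S (s : ℕ) (hs : 1 ≤ s) : EnergyStmt3S s :=
  energyStmt3S_of hs (geoE hs) (boxE hs)

end

end Vale.Agent.P361.LRO.S3S
end

section

/-!
P361, stage 3, all spins, block (B0): the start of the bootstrap.
-/

namespace Vale.Agent.P361.LRO.S3S

open Finset Filter Topology Vale.Agent.P361.LRO.GenS Vale.Agent.P361.LRO.S3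

/-- All densities of a uniform field are equal. -/
theorem b0s_rho_eq (n s M : ℕ) [NeZero n] (β h : ℝ) (z z' : Tor n × Fin s) :
    rho (edgesS n s M) β (hS fun _ => h) z = rho (edgesS n s M) β (hS fun _ => h) z' := by
  have h1 := transStmtS s n M β (fun _ => h) z.1 (z'.1 - z.1) z.2 z'.2
  rw [add_sub_cancel] at h1
  exact h1

/-- The densities converge as `M → ∞`. -/
theorem b0s_tendsto {n s : ℕ} [NeZero n] [NeZero s] (hn : 3 ≤ n) {β : ℝ} (hβ : 0 < β) (h : ℝ)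
    (z : Tor n × Fin s) :
    Tendsto (fun M : ℕ => rho (edgesS n s M) β (hS fun _ => h) z) atTop
      (𝓝 (1 / 2 - gibbsMagV s (torusAdj n) β h / (s * (n : ℝ) ^ 3))) := by
  have hs0 : (s : ℝ) ≠ 0 := Nat.cast_ne_zero.2 (NeZero.ne s)
  have hn0 : (n : ℝ) ≠ 0 := Nat.cast_ne_zero.2 (NeZero.ne n)
  have hcard : (Fintype.card (Tor n × Fin s) : ℝ) = s * (n : ℝ) ^ 3 := by
    rw [Fintype.card_prod, Fintype.card_fin, Fintype.card_fun, ZMod.card, Fintype.card_fin]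
    push_cast
    ring
  have h1 := ((tendsto_gibbsMag (s := s) hn hβ h).div_const (s * (n : ℝ) ^ 3)).const_sub (1 / 2)
  refine h1.congr fun M => ?_
  rw [Finset.sum_congr rfl fun z' _ => by rw [b0s_rho_eq n s M β h z' z],
    Finset.sum_const, Finset.card_univ, nsmul_eq_mul, hcard]
  field_simp
  ring

/-- (B0) from the uniform Bloch asymptotics of the landed part. -/
theorem startStmt3S_of (s : ℕ) (hs : 1 ≤ s) (hU : ∀ κ : ℝ, κ < 1 / 21 → ∀ ε : ℝ, 0 < ε →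
    ∀ᶠ β : ℝ in atTop, ∀ h : ℝ, β ^ (-1 - κ) ≤ h →
      |β ^ (3 / 2 : ℝ) * ((s : ℝ) / 2 - Model.mag s β h) -
        Model.idealDeficit ((s : ℝ) / 2) (β * h)| ≤ ε) : StartStmt3S s := by
  have hs0 : (0 : ℝ) < s := Nat.cast_pos.2 hs
  have _ : NeZero s := ⟨by omega⟩
  obtain ⟨C, β0, hC⟩ := magTorus_start s (c := 1 / s) (by positivity) hU
  refine ⟨C / s + 1, max β0 1, fun β hβ => ?_⟩
  have hb0 : (0 : ℝ) < β := lt_of_lt_of_le one_pos (le_trans (le_max_right _ _) hβ)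
  obtain ⟨N0, hN0⟩ := hC β (le_trans (le_max_left _ _) hβ)
  refine ⟨2 * N0 + 3, fun n _ hn hodd => ?_⟩
  obtain ⟨N, hN⟩ := hodd
  subst hN
  have h1 := (hN0 N (by omega)).2
  have hfield : (1 : ℝ) / s / β = 1 / (s * β) := by rw [div_div]
  rw [hfield] at h1
  have hpow : 0 < β ^ (-(3 / 2) : ℝ) := Real.rpow_pos_of_pos hb0 _
  have hlim : 1 / 2 - gibbsMagV s (torusAdj (2 * N + 1)) β (1 / (s * β)) /
      (s * ((2 * N + 1 : ℕ) : ℝ) ^ 3) ≤ C / s * β ^ (-(3 / 2) : ℝ) := by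
    have e1 : 1 / 2 - gibbsMagV s (torusAdj (2 * N + 1)) β (1 / (s * β)) /
        (s * ((2 * N + 1 : ℕ) : ℝ) ^ 3) = ((s : ℝ) / 2 -
          gibbsMagV s (torusAdj (2 * N + 1)) β (1 / (s * β)) / (2 * N + 1) ^ 3) / s := by
      push_cast
      field_simp
    rw [e1, div_le_iff₀ hs0]
    calc _ ≤ C * β ^ (-(3 / 2) : ℝ) := h1
      _ = C / s * β ^ (-(3 / 2) : ℝ) * s := by field_simp
  have hz : ∃ M0 : ℕ, ∀ M : ℕ, M0 ≤ M →
      rho (edgesS (2 * N + 1) s M) β (hS fun _ => 1 / (s * β)) (0, ⟨0, by omega⟩) ≤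
        (C / s + 1) * β ^ (-(3 / 2) : ℝ) := by
    have h2 := b0s_tendsto (n := 2 * N + 1) (s := s) (by omega) hb0 (1 / (s * β))
      ((0 : Tor (2 * N + 1)), (⟨0, by omega⟩ : Fin s))
    have h3 := (tendsto_order.1 h2).2 ((C / s + 1) * β ^ (-(3 / 2) : ℝ)) (by
      rw [add_mul, one_mul]
      linarith)
    obtain ⟨M0, hM0⟩ := eventually_atTop.1 h3
    exact ⟨M0, fun M hM => (hM0 M hM).le⟩
  obtain ⟨M0, hM0⟩ := hz
  refine ⟨M0, fun M hM z => ?_⟩
  rw [b0s_rho_eq (2 * N + 1) s M β (1 / (s * β)) z (0, ⟨0, by omega⟩)]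
  exact hM0 M hM

end Vale.Agent.P361.LRO.S3S
end

section

/-! P361, stage 3, all spins, block (B0). -/

namespace Vale.Agent.P361.LRO.S3S

theorem startStmt3S (s : ℕ) (hs : 1 ≤ s) : StartStmt3S s :=
  startStmt3S_of s hs fun κ hκ ε hε => Vale.Agent.P361.BridgeB.mag_uniform s hs κ hκ ε hε

end Vale.Agent.P361.LRO.S3S
end

section

/-!
P361 LRO, all spins: the bootstrap from the interface statements.
-/

namespace Vale.Agent.P361.LRO.GenS

open Finset Matrix Filter Topology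

noncomputable section

theorem card_cubeS {n s w : ℕ} (hwn : w ≤ n) (z : Tor n) : (cubeS n s z w).card = w ^ 3 * s := by
  unfold cubeS
  rw [Finset.card_product, Finset.card_univ, Fintype.card_fin]
  congr 1
  unfold cube
  rw [Finset.card_image_of_injective, Finset.card_univ, Fintype.card_fun, Fintype.card_fin,
    Fintype.card_fin]
  intro a b hab
  have h2 := add_left_cancel hab
  funext i
  have h3 := congrFun h2 i
  have h4 : ((a i : ℕ) : ZMod n) = ((b i : ℕ) : ZMod n) := h3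
  rw [ZMod.natCast_eq_natCast_iff'] at h4
  rw [Nat.mod_eq_of_lt ((a i).2.trans_le hwn), Nat.mod_eq_of_lt ((b i).2.trans_le hwn)] at h4
  exact Fin.ext h4

theorem end_calc {η ρ ρz : ℝ} (hη : 0 < η) (hη1 : η ≤ 1) (hM' : 0 < 1 - 2 * ρ)
    (hM : 0 < 1 - 2 * ρz) (hρz : ρz ≤ η / 16)
    (h : 1 / (1 - 2 * ρ) - 1 ≤ 2 * (1 / (1 - 2 * ρz) - 1) + η / 7) : ρ ≤ η / 2 := by
  have h10 : 1 / (1 - 2 * ρz) ≤ 1 + η / 7 := by
    rw [div_le_iff₀ hM]
    nlinarith
  have h11 : 1 / (1 - 2 * ρ) ≤ 1 + 3 * (η / 7) := by linarith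
  rw [div_le_iff₀ hM'] at h11
  by_contra hcon
  push Not at hcon
  nlinarith

theorem good_point {n s m w : ℕ} [NeZero n] (hm : 0 < m) (F : Tor n × Fin s → ℝ) {η : ℝ}
    (bl : (Fin 3 → Fin m) → Finset (Tor n × Fin s)) (hbl : ∀ y, (bl y).card = w ^ 3 * s)
    (hw : 0 < w) (hs : 0 < s)
    (hsum : ∑ y, (∑ z ∈ bl y, F z) / (bl y).card ≤ (m : ℝ) ^ 3 * (η / 16)) :
    ∃ y, ∃ z ∈ bl y, F z ≤ η / 16 := by
  by_contra hcon
  push Not at hcon
  have hcp : ∀ y, 0 < (bl y).card := by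
    intro y
    rw [hbl]
    positivity
  have hcpR : ∀ y, (0 : ℝ) < (bl y).card := fun y => by exact_mod_cast hcp y
  have h2 : ∀ y, η / 16 < (∑ z ∈ bl y, F z) / (bl y).card := by
    intro y
    rw [lt_div_iff₀ (hcpR y)]
    have h3 : ∑ z ∈ bl y, η / 16 < ∑ z ∈ bl y, F z :=
      Finset.sum_lt_sum_of_nonempty (Finset.card_pos.1 (hcp y)) fun z hz => hcon y z hz
    rw [Finset.sum_const, nsmul_eq_mul] at h3
    linarith
  have : Nonempty (Fin m) := ⟨⟨0, hm⟩⟩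
  have h3 : ∑ y : Fin 3 → Fin m, η / 16 <
      ∑ y, (∑ z ∈ bl y, F z) / (bl y).card :=
    Finset.sum_lt_sum_of_nonempty Finset.univ_nonempty fun y _ => h2 y
  rw [Finset.sum_const, Finset.card_univ, Fintype.card_fun, Fintype.card_fin, Fintype.card_fin,
    nsmul_eq_mul] at h3
  push_cast at h3
  linarith

/-- The step of the bootstrap. -/
theorem stepS {s : ℕ} (hs : 1 ≤ s) (h1 : TwistStmt) (h7 : EnergyStmtS s) (h8 : RegStmt)
    (ht : TransStmtS s) (h6 : KappaStmtS s) :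
    ∀ᶠ β : ℝ in atTop, ∀ᶠ n : ℕ in atTop, Odd n → ∀ [NeZero n] (M : ℕ) (h0 : ℝ),
      (n : ℝ) ^ (-(1 / 4) : ℝ) ≤ h0 → h0 ≤ 1 → BHS n s M β (lamS β) (etaB β) h0 →
        BHS n s M β (lamS β) (etaB β / 2) h0 := by
  obtain ⟨c, hc, h6⟩ := h6
  obtain ⟨C1, hC1, h1⟩ := h1
  obtain ⟨C, h7⟩ := h7
  have hsR : (1 : ℝ) ≤ s := by exact_mod_cast hs
  have hC' : 0 < max C 1 := lt_max_of_lt_right one_pos
  have hA : (0 : ℝ) < 32 * C1 / c := by positivity
  have hCC : 0 < C1 * max C 1 := by positivity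
  obtain ⟨β0, h6⟩ := h6 _ hA
  filter_upwards [par_S _ (C1 * max C 1) hA hCC, eventually_ge_atTop β0,
    eventually_gt_atTop (1 : ℝ)] with β hp hβ0 hβ1
  obtain ⟨n0, h6⟩ := h6 β hβ0
  obtain ⟨hw, hm, hlam, hK10, hKw, hpar, hd1, hd2⟩ := hp
  have hβ : 0 < β := by linarith
  have hη := etaB_pos hβ
  have hη1 := etaB_le_one hβ1.le
  filter_upwards [eventually_ge_atTop n0, eventually_ge_atTop 3,
    eventually_ge_atTop (3 * (wS β * mS β))] with n hn0' hn3 hnw3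
  intro hodd _ M h0 hh0 hh01 hB h hh z0
  obtain ⟨x, i0⟩ := z0
  have hnw : wS β * mS β ≤ n := by omega
  have hn0 : (0 : ℝ) < n := by
    have : (3 : ℝ) ≤ n := by exact_mod_cast hn3
    linarith
  have h0p : 0 < h0 := (Real.rpow_pos_of_pos hn0 _).trans_le hh0
  have hpos : ∀ y, 0 < h y := fun y => h0p.trans_le (hh.1 y).1
  set K : ℝ := 32 * C1 / c / etaB β with hK
  set κ : ℝ := c * K with hκ
  have hκ' : C1 / κ = etaB β / 32 := by
    rw [hκ, hK]
    field_simp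
  have hκp : 0 < κ := by
    rw [hκ, hK]
    positivity
  have hKeq : K = 32 * C1 / c * β ^ (1 / 100 : ℝ) := by
    rw [hK]
    unfold etaB
    rw [Real.rpow_neg hβ.le, div_inv_eq_mul]
  -- the blocks of the cube
  set bl : (Fin 3 → Fin (mS β)) → Finset (Tor n × Fin s) := fun y =>
    cubeS n s (x + fun i => ((wS β * (y i : ℕ) : ℕ) : ZMod n)) (wS β) with hbl
  have hwn : wS β ≤ n := le_trans (Nat.le_mul_of_pos_right _ hm) hnw
  have hcard : ∀ z : Tor n, (cubeS n s z (wS β)).card = wS β ^ 3 * s := fun z =>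
    card_cubeS hwn z
  have e1 : (wS β : ℝ) = (3 : ℝ) ^ aS β := by
    unfold wS
    push_cast
    rfl
  have htw : ∀ y, (∑ z ∈ bl y, rho (edgesS n s M) β (hS h) z) / (bl y).card ≤
      etaB β / 32 + C1 * (1 + K) ^ 4 * Db (edgesS n s M) β (hS h) (bl y) := by
    intro y
    have hκN : ∃ᶠ N : ℕ in atTop, κ ≤ kap (edgesS n s M) β N (hS h) K (bl y) := by
      have h2 := h6 n hn0' hodd M (aS β) (e1 ▸ wS_ge β) (e1 ▸ wS_le hβ1) h0 hh0 hh01
        (fun h' hh' x' => hB h' hh' x') h hh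
        (x + fun i => ((wS β * (y i : ℕ) : ℕ) : ZMod n))
      rw [← hKeq] at h2
      exact h2
    have h2 := h1 (Tor n × Fin s) (edgesS n s M) β (hS h) K κ (bl y) hβ
      (fun z => hpos z.1) (by linarith) hκp
      (by
        rw [← Finset.card_pos, hbl]
        dsimp only
        rw [hcard]
        positivity) hκN
    rw [hκ'] at h2
    linarith
  have hsum : ∑ y, (∑ z ∈ bl y, rho (edgesS n s M) β (hS h) z) / (bl y).card ≤
      (mS β : ℝ) ^ 3 * (etaB β / 16) := by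
    refine (Finset.sum_le_sum fun y _ => htw y).trans ?_
    rw [Finset.sum_add_distrib, ← Finset.mul_sum, Finset.sum_const, Finset.card_univ,
      Fintype.card_fun, Fintype.card_fin, Fintype.card_fin, nsmul_eq_mul]
    push_cast
    have h2 := h7 n M β h x (wS β) (mS β) hβ hpos hw hm hnw3
    have hm3' : (0 : ℝ) < (mS β : ℝ) ^ 3 := by positivity
    rw [div_le_iff₀ hm3'] at h2
    have hCm : C * (wS β : ℝ) ^ 2 * (1 / β + 1 / ((wS β : ℝ) * mS β)) ≤
        max C 1 * (wS β : ℝ) ^ 2 * (1 / β + 1 / ((wS β : ℝ) * mS β)) := by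
      rw [mul_assoc, mul_assoc]
      refine mul_le_mul_of_nonneg_right (le_max_left _ _) ?_
      positivity
    have h2' : ∑ y : Fin 3 → Fin (mS β), Db (edgesS n s M) β (hS h) (bl y) ≤
        (mS β : ℝ) ^ 3 * (max C 1 * (wS β : ℝ) ^ 2 * (1 / β + 1 / ((wS β : ℝ) * mS β))) := by
      have h3 := mul_le_mul_of_nonneg_right hCm hm3'.le
      rw [hbl]
      dsimp only
      linarith
    have hK3 : 0 ≤ C1 * (1 + K) ^ 4 := by positivity
    have h3 := mul_le_mul_of_nonneg_left h2' hK3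
    have hm3 : (0 : ℝ) ≤ (mS β : ℝ) ^ 3 := by positivity
    have h4 := mul_le_mul_of_nonneg_left hpar hm3
    have h5 : C1 * (1 + K) ^ 4 * ((mS β : ℝ) ^ 3 * (max C 1 * (wS β : ℝ) ^ 2 *
        (1 / β + 1 / ((wS β : ℝ) * mS β)))) =
        (mS β : ℝ) ^ 3 * ((1 + K) ^ 4 * (C1 * max C 1 * (wS β : ℝ) ^ 2 *
          (1 / β + 1 / ((wS β : ℝ) * mS β)))) := by ring
    rw [h5] at h3
    linarith
  -- a good point
  obtain ⟨y, z, hz, hρz⟩ : ∃ y, ∃ z ∈ bl y, rho (edgesS n s M) β (hS h) z ≤ etaB β / 16 :=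
    good_point hm _ bl (fun y => hcard _) hw hs hsum
  -- the vector from `x` to `z`
  obtain ⟨k, hk, hzk⟩ : ∃ k : Fin 3 → ℕ, (∀ i, k i ≤ wS β * mS β) ∧
      z.1 = x + fun i => (k i : ZMod n) := by
    rw [hbl] at hz
    unfold cubeS cube at hz
    dsimp only at hz
    rw [Finset.mem_product, Finset.mem_image] at hz
    obtain ⟨a, -, ha⟩ := hz.1
    refine ⟨fun i => wS β * (y i : ℕ) + (a i : ℕ), fun i => ?_, ?_⟩
    · have h2 : (y i : ℕ) + 1 ≤ mS β := (y i).2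
      have h3 := Nat.mul_le_mul_left (wS β) h2
      have h4 : (a i : ℕ) < wS β := (a i).2
      rw [mul_add, mul_one] at h3
      exact (Nat.add_le_add_left h4.le _).trans h3
    · rw [← ha, add_assoc]
      congr 1
      funext i
      simp only [Pi.add_apply]
      push_cast
      ring
  set v : Tor n := fun i => (k i : ZMod n) with hv
  -- Harnack
  have hd0 : (0 : ℝ) ≤ 3 * (wS β * mS β) * lamS β := by positivity
  have hlog : ∀ u, |Real.log (h (u + v)) - Real.log (h u)| ≤ 3 * (wS β * mS β) * lamS β := by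
    intro u
    have := fam_log_vec hh h0p (wS β * mS β) k hk hlam u
    push_cast at this
    exact this
  obtain ⟨hM, hH⟩ := h8 (Tor n × Fin s) (edgesS n s M) β (hS fun u => h (u + v)) (hS h) _ hβ
    (fun u => hpos _) (fun u => hpos _) hd0 hd2 (fun u => hlog u.1) (x, i0)
  have hzz : rho (edgesS n s M) β (hS fun u => h (u + v)) (x, i0) =
      rho (edgesS n s M) β (hS h) z := by
    rw [ht n M β h x v i0 z.2, ← hzk]
  rw [hzz] at hM hH
  have hM' : 0 < 1 - 2 * rho (edgesS n s M) β (hS h) (x, i0) :=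
    (h8 (Tor n × Fin s) (edgesS n s M) β (hS h) (hS h) 0 hβ (fun u => hpos _) (fun u => hpos _)
      le_rfl (by rw [mul_zero]; positivity) (fun u => by rw [sub_self, abs_zero]) (x, i0)).1
  exact end_calc hη hη1 hM' hM hρz (by linarith)

/-- The bootstrap for the profiles of the family. -/
theorem bootS {n s : ℕ} [NeZero n] (M : ℕ) {β η lam a : ℝ} (hη : 0 < η) (hlam : 0 ≤ lam) (ha0 : 0 < a)
    (ha1 : a ≤ 1) (h1 : ∀ z, rho (edgesS n s M) β (hS fun _ => 1) z ≤ η)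
    (hstep : ∀ h0, a ≤ h0 → h0 ≤ 1 → BHS n s M β lam η h0 → BHS n s M β lam (η / 2) h0) :
    BHS n s M β lam (η / 2) a := by
  rcases Nat.eq_zero_or_pos s with rfl | hs
  · rintro h hh ⟨x, i⟩
    exact i.elim0
  have hexp : 1 ≤ Real.exp lam := Real.one_le_exp hlam
  -- the maximum of the densities of the copies
  have hcont : ∀ i : Fin s, ∀ x : Tor n, Continuous fun h : Tor n → ℝ =>
      rho (edgesS n s M) β (hS h) (x, i) := by
    intro i x
    exact (continuous_rho (edgesS n s M) β (x, i)).comp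
      (continuous_pi fun z => continuous_apply z.1)
  have key := bootstrap_abs (V := Tor n)
    (fun h x => (univ : Finset (Fin s)).sup' ⟨⟨0, hs⟩, mem_univ _⟩
      fun i => rho (edgesS n s M) β (hS h) (x, i))
    (fun x => Continuous.finset_sup'_apply _ fun i _ => hcont i x)
    (fun h => ∀ (x : Tor n) (i : Fin 3), h x ≤ Real.exp lam * h (x + Pi.single i 1) ∧
      h (x + Pi.single i 1) ≤ Real.exp lam * h x) ?_ ha0 hη
    (fun x => Finset.sup'_le _ _ fun i _ => h1 (x, i)) ?_ ha1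
  · intro h hh z
    exact (Finset.le_sup' (fun i => rho (edgesS n s M) β (hS h) (z.1, i))
      (mem_univ z.2)).trans (key h hh.1 hh.2 z.1)
  · intro h c hc hreg x i
    have hm : ∀ u v : ℝ, u ≤ Real.exp lam * v → max u c ≤ Real.exp lam * max v c := by
      intro u v huv
      refine max_le (huv.trans ?_) ?_
      · exact mul_le_mul_of_nonneg_left (le_max_left _ _) (Real.exp_pos _).le
      · calc c ≤ Real.exp lam * c := by nlinarith
          _ ≤ _ := mul_le_mul_of_nonneg_left (le_max_right _ _) (Real.exp_pos _).le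
    exact ⟨hm _ _ (hreg x i).1, hm _ _ (hreg x i).2⟩
  · intro h0 h2 h3 h4 h h5 h6 x
    refine Finset.sup'_le _ _ fun i _ => ?_
    refine hstep h0 h2 h3 (fun h' hh' z => ?_) h ⟨h5, h6⟩ (x, i)
    exact (Finset.le_sup' (fun i => rho (edgesS n s M) β (hS h') (z.1, i))
      (mem_univ z.2)).trans (h4 h' hh'.1 hh'.2 z.1)

/-- **The bootstrap, assembled, for spin `s / 2`.** -/
theorem bootStmtS_of {s : ℕ} (hs : 1 ≤ s) (h6 : KappaStmtS s) (h1 : TwistStmt)
    (h7 : EnergyStmtS s) (h8 : RegStmt) (hst : StartStmtS s) (ht : TransStmtS s) :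
    BootStmtS s := by
  have hstep := stepS hs h1 h7 h8 ht h6
  obtain ⟨C, hst⟩ := hst
  have hlog : ∀ᶠ β : ℝ in atTop, C / β ≤ β ^ (-(1 / 100) : ℝ) := by
    have h2 : Tendsto (fun β : ℝ => β ^ (99 / 100 : ℝ)) atTop atTop :=
      tendsto_rpow_atTop (by norm_num)
    filter_upwards [h2.eventually_ge_atTop C, eventually_gt_atTop (0 : ℝ)] with β hβ1 hβ
    rw [div_le_iff₀ hβ]
    refine hβ1.trans (le_of_eq ?_)
    conv_rhs =>
      rhs
      rw [← Real.rpow_one β]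
    rw [← Real.rpow_add hβ]
    norm_num
  obtain ⟨β0, H⟩ := eventually_atTop.1 (hstep.and (hlog.and (eventually_ge_atTop (1 : ℝ))))
  refine ⟨β0, fun β hβ0 => ?_⟩
  obtain ⟨hst', hlog, hβ1⟩ := H β hβ0
  have hβ : 0 < β := by linarith
  obtain ⟨n0, Hn⟩ := eventually_atTop.1 hst'
  refine ⟨n0, fun n _ hn hodd M h hh hh1 z => ?_⟩
  have hn0 : (0 : ℝ) < n := by exact_mod_cast NeZero.pos n
  have ha0 : (0 : ℝ) < (n : ℝ) ^ (-(1 / 4) : ℝ) := Real.rpow_pos_of_pos hn0 _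
  have hη := etaB_pos hβ
  have hlam : 0 ≤ lamS β := (Real.rpow_pos_of_pos hβ _).le
  have key := bootS (n := n) (s := s) M (β := β) hη hlam ha0 (hh.trans hh1)
    (fun z => (hst n M β z hβ).trans hlog)
    (fun h0 hh0 hh01 hB => Hn n hn hodd M h0 hh0 hh01 hB) (fun _ => h) ?_ z
  · have e1 : etaB β = β ^ (-(1 / 100) : ℝ) := rfl
    rw [← e1]
    linarith
  · refine ⟨fun _ => ⟨hh, hh1⟩, fun _ _ => ?_⟩
    have e2 : 1 ≤ Real.exp (lamS β) := Real.one_le_exp hlam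
    have e3 : 0 < h := ha0.trans_le hh
    constructor <;> nlinarith

end

end Vale.Agent.P361.LRO.GenS
end

section

/-!
P361, STAGE 3 for all spins, block (B): the bootstrap at Bloch's order `β ^ (-3/2)` for the graph
`edgesS n s M` (the version with copies of `S3/BootB.lean` of helper678).
-/

namespace Vale.Agent.P361.LRO.S3S

open Finset Matrix Filter Topology Vale.Agent.P361.LRO.GenS Vale.Agent.P361.LRO.S3

noncomputable section

namespace BootS

/-! ### The scales -/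

/-- the scale exponent: `√β ≤ 3 ^ a ≤ 3 √β` -/
def aC (β : ℝ) : ℕ := Nat.clog 3 ⌈Real.sqrt β⌉₊

/-- the side of the blocks -/
def wC (β : ℝ) : ℕ := 3 ^ aC β

/-- the number of the blocks: `β ^ 3 ≤ w m ≤ 2 β ^ 3` -/
def mC (β : ℝ) : ℕ := ⌈β ^ (3 : ℝ) / wC β⌉₊

theorem wC_ge (β : ℝ) : Real.sqrt β ≤ wC β := by
  refine (Nat.le_ceil _).trans ?_
  exact_mod_cast Nat.le_pow_clog (by norm_num) _

theorem wC_le {β : ℝ} (hβ : 1 < β) : (wC β : ℝ) ≤ 3 * Real.sqrt β := by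
  have h1 : 1 < Real.sqrt β := by
    rw [Real.lt_sqrt (by norm_num)]
    linarith
  have h2 : 1 < ⌈Real.sqrt β⌉₊ := by
    rw [Nat.lt_ceil]
    exact_mod_cast h1
  have h3 := Nat.pow_pred_clog_lt_self (b := 3) (by norm_num) h2
  have h4 : ((3 ^ (Nat.clog 3 ⌈Real.sqrt β⌉₊).pred : ℕ) : ℝ) < Real.sqrt β := by
    rwa [← Nat.lt_ceil]
  have h5 : 0 < Nat.clog 3 ⌈Real.sqrt β⌉₊ := Nat.clog_pos (by norm_num) h2
  unfold wC aC
  obtain ⟨k, hk⟩ := Nat.exists_eq_succ_of_ne_zero h5.ne'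
  rw [hk] at h4 ⊢
  rw [Nat.pred_succ] at h4
  push_cast at h4 ⊢
  rw [pow_succ]
  linarith

theorem wC_pos (β : ℝ) : 0 < wC β := by unfold wC; positivity

theorem sqrt_le_self {β : ℝ} (hβ : 9 ≤ β) : 3 * Real.sqrt β ≤ β := by
  have h1 : (3 : ℝ) ≤ Real.sqrt β := by
    rw [Real.le_sqrt' (by norm_num)]
    linarith
  have h2 := Real.mul_self_sqrt (show (0 : ℝ) ≤ β by linarith)
  nlinarith

theorem two_le_wC {β : ℝ} (hβ : 9 ≤ β) : 2 ≤ wC β := by
  have h1 : (3 : ℝ) ≤ Real.sqrt β := by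
    rw [Real.le_sqrt' (by norm_num)]
    linarith
  have h2 : (3 : ℝ) ≤ wC β := h1.trans (wC_ge β)
  have h3 : 3 ≤ wC β := by exact_mod_cast h2
  omega

theorem wC_le34 {β : ℝ} (hβ : 81 ≤ β) : (wC β : ℝ) ≤ β ^ (3 / 4 : ℝ) := by
  have hβ0 : 0 < β := by linarith
  refine (wC_le (by linarith)).trans ?_
  have h1 : (3 : ℝ) ≤ β ^ (1 / 4 : ℝ) := by
    have h2 : (81 : ℝ) ^ (1 / 4 : ℝ) = 3 := by
      rw [show (81 : ℝ) = (3 : ℝ) ^ (4 : ℝ) by norm_num, ← Real.rpow_mul (by norm_num)]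
      norm_num
    rw [← h2]
    exact Real.rpow_le_rpow (by norm_num) hβ (by norm_num)
  have h3 : β ^ (3 / 4 : ℝ) = β ^ (1 / 4 : ℝ) * β ^ (1 / 2 : ℝ) := by
    rw [← Real.rpow_add hβ0]
    norm_num
  rw [h3, Real.sqrt_eq_rpow]
  exact mul_le_mul_of_nonneg_right h1 (Real.rpow_pos_of_pos hβ0 _).le

theorem mC_spec {β : ℝ} (hβ : 9 ≤ β) : 1 ≤ mC β ∧ β ^ (3 : ℝ) ≤ (wC β : ℝ) * mC β ∧
    (wC β : ℝ) * mC β ≤ 2 * β ^ (3 : ℝ) := by
  have hw : (0 : ℝ) < wC β := by exact_mod_cast wC_pos β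
  have hβ0 : 0 < β := by linarith
  have hβ3 : 0 < β ^ (3 : ℝ) := Real.rpow_pos_of_pos hβ0 _
  have h1 : β ^ (3 : ℝ) / wC β ≤ mC β := Nat.le_ceil _
  have h2 : (mC β : ℝ) < β ^ (3 : ℝ) / wC β + 1 := Nat.ceil_lt_add_one (by positivity)
  have h3 : 0 < mC β := by
    have : (0 : ℝ) < mC β := lt_of_lt_of_le (by positivity) h1
    exact_mod_cast this
  have h4 : (wC β : ℝ) ≤ β := (wC_le (by linarith)).trans (sqrt_le_self hβ)
  have h5 : β ≤ β ^ (3 : ℝ) := by
    have := Real.rpow_le_rpow_of_exponent_le (show (1 : ℝ) ≤ β by linarith)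
      (show (1 : ℝ) ≤ 3 by norm_num)
    rwa [Real.rpow_one] at this
  refine ⟨h3, ?_, ?_⟩
  · rw [div_le_iff₀ hw] at h1
    linarith
  · have h6 := mul_le_mul_of_nonneg_left h2.le hw.le
    have h7 : (wC β : ℝ) * (β ^ (3 : ℝ) / wC β + 1) = β ^ (3 : ℝ) + wC β := by
      field_simp
    linarith

/-! ### Cubes -/

/-- From a bound for the average of the block averages to a good point. -/
theorem good_pointS {n s : ℕ} [NeZero n] {w m : ℕ} (hs : 0 < s) (hw : 0 < w) (hm : 0 < m)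
    (hwn : w ≤ n) (x : Tor n) (f : Tor n × Fin s → ℝ) (t : ℝ)
    (h : ∑ y : Fin 3 → Fin m,
      (∑ z ∈ cubeS n s (x + fun i => ((w * (y i : ℕ) : ℕ) : ZMod n)) w, f z) /
      (cubeS n s (x + fun i => ((w * (y i : ℕ) : ℕ) : ZMod n)) w).card ≤ (m : ℝ) ^ 3 * t) :
    ∃ (k : Fin 3 → ℕ) (j : Fin s), (∀ i, k i ≤ w * m) ∧
      f (x + fun i => (k i : ZMod n), j) ≤ t := by
  set bl : (Fin 3 → Fin m) → Finset (Tor n × Fin s) := fun y =>
    cubeS n s (x + fun i => ((w * (y i : ℕ) : ℕ) : ZMod n)) w with hbl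
  obtain ⟨y, z, hz, hρz⟩ : ∃ y, ∃ z ∈ bl y, f z ≤ t := by
    by_contra hcon
    push Not at hcon
    have hcp' : ∀ y, 0 < (bl y).card := by
      intro y
      rw [hbl]
      dsimp only
      rw [card_cubeS hwn]
      positivity
    have hcp : ∀ y, (0 : ℝ) < (bl y).card := fun y => by exact_mod_cast hcp' y
    have h2 : ∀ y, t < (∑ z ∈ bl y, f z) / (bl y).card := by
      intro y
      rw [lt_div_iff₀ (hcp y)]
      have h3 : ∑ z ∈ bl y, t < ∑ z ∈ bl y, f z :=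
        Finset.sum_lt_sum_of_nonempty (Finset.card_pos.1 (hcp' y)) fun z hz => hcon y z hz
      rw [Finset.sum_const, nsmul_eq_mul] at h3
      linarith
    have : Nonempty (Fin m) := ⟨⟨0, hm⟩⟩
    have h3 : ∑ y : Fin 3 → Fin m, t < ∑ y, (∑ z ∈ bl y, f z) / (bl y).card :=
      Finset.sum_lt_sum_of_nonempty Finset.univ_nonempty fun y _ => h2 y
    rw [Finset.sum_const, Finset.card_univ, Fintype.card_fun, Fintype.card_fin, Fintype.card_fin,
      nsmul_eq_mul] at h3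
    push_cast at h3
    linarith
  obtain ⟨z1, j⟩ := z
  have hz' := hz
  rw [hbl] at hz'
  unfold cubeS cube at hz'
  dsimp only at hz'
  rw [Finset.mem_product, Finset.mem_image] at hz'
  obtain ⟨a, -, ha⟩ := hz'.1
  refine ⟨fun i => w * (y i : ℕ) + (a i : ℕ), j, fun i => ?_, ?_⟩
  · have h2 : (y i : ℕ) + 1 ≤ m := (y i).2
    have h3 := Nat.mul_le_mul_left w h2
    have h4 : (a i : ℕ) < w := (a i).2
    rw [mul_add, mul_one] at h3
    exact (Nat.add_le_add_left h4.le _).trans h3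
  · have h5 : (x + fun i => ((w * (y i : ℕ) + (a i : ℕ) : ℕ) : ZMod n)) = z1 := by
      have ha' : (x + fun i => ((w * (y i : ℕ) : ℕ) : ZMod n)) + (fun i => ((a i : ℕ) : ZMod n)) =
          z1 := ha
      rw [← ha', add_assoc]
      congr 1
      funext i
      simp only [Pi.add_apply]
      push_cast
      ring
    rw [h5]
    exact hρz

theorem avg_le {m : ℕ} (hm : 0 < m) (F G : (Fin 3 → Fin m) → ℝ) {A B E : ℝ} (hA : 0 ≤ A)
    (hF : ∀ y, F y ≤ A * G y + B) (hG : (∑ y, G y) / (m : ℝ) ^ 3 ≤ E) :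
    ∑ y, F y ≤ (m : ℝ) ^ 3 * (A * E + B) := by
  have hm' : (0 : ℝ) < (m : ℝ) ^ 3 := by positivity
  refine (Finset.sum_le_sum fun y _ => hF y).trans ?_
  rw [Finset.sum_add_distrib, ← Finset.mul_sum, Finset.sum_const, Finset.card_univ,
    Fintype.card_fun, Fintype.card_fin, Fintype.card_fin, nsmul_eq_mul]
  push_cast
  rw [div_le_iff₀ hm'] at hG
  have h5 := mul_le_mul_of_nonneg_left hG hA
  linarith

/-! ### Harnack -/

theorem num_d {β C7 : ℝ} (hC7 : 0 < C7) (hβ9 : 9 ≤ β) (hb3 : 1134 / C7 ≤ β ^ (3 / 2 : ℝ)) {l : ℕ}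
    (hl : (l : ℝ) ≤ 2 * β ^ (3 : ℝ)) :
    0 ≤ 3 * l * β ^ (-(9 / 2) : ℝ) ∧ 3 * (3 * l * β ^ (-(9 / 2) : ℝ)) < Real.pi / 2 ∧
      9 / 2 * (3 * l * β ^ (-(9 / 2) : ℝ)) ^ 2 ≤ C7 * β ^ (-(3 / 2) : ℝ) / 7 := by
  have hβ : 0 < β := by linarith
  have hp : ∀ a : ℝ, 0 < β ^ a := fun a => Real.rpow_pos_of_pos hβ a
  have hmul : ∀ a b : ℝ, β ^ a * β ^ b = β ^ (a + b) := fun a b => (Real.rpow_add hβ a b).symm
  set d : ℝ := 3 * l * β ^ (-(9 / 2) : ℝ) with hd
  have hd0 : 0 ≤ d := by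
    have := hp (-(9 / 2))
    rw [hd]
    positivity
  have hd6 : d ≤ 6 * (β ^ (3 / 2 : ℝ))⁻¹ := by
    have h1 : 3 * (l : ℝ) * β ^ (-(9 / 2) : ℝ) ≤ 3 * (2 * β ^ (3 : ℝ)) * β ^ (-(9 / 2) : ℝ) :=
      mul_le_mul_of_nonneg_right (by linarith) (hp _).le
    refine h1.trans (le_of_eq ?_)
    have h2 : β ^ (3 : ℝ) * β ^ (-(9 / 2) : ℝ) = (β ^ (3 / 2 : ℝ))⁻¹ := by
      rw [hmul, ← Real.rpow_neg hβ.le]
      norm_num
    rw [← h2]
    ring
  have hβ2 : (27 : ℝ) ≤ β ^ (3 / 2 : ℝ) := by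
    have h1 : (9 : ℝ) ^ (3 / 2 : ℝ) ≤ β ^ (3 / 2 : ℝ) :=
      Real.rpow_le_rpow (by norm_num) hβ9 (by norm_num)
    have h2 : (9 : ℝ) ^ (3 / 2 : ℝ) = 27 := by
      rw [show (9 : ℝ) = (3 : ℝ) ^ (2 : ℝ) by norm_num, ← Real.rpow_mul (by norm_num)]
      norm_num
    rwa [h2] at h1
  refine ⟨hd0, ?_, ?_⟩
  · have h1 : (β ^ (3 / 2 : ℝ))⁻¹ ≤ (27 : ℝ)⁻¹ := inv_anti₀ (by norm_num) hβ2
    have h2 := Real.pi_gt_three
    have h3 : (27 : ℝ)⁻¹ ≤ 1 / 27 := by norm_num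
    linarith
  · have h1 : d ^ 2 ≤ (6 * (β ^ (3 / 2 : ℝ))⁻¹) ^ 2 := pow_le_pow_left₀ hd0 hd6 2
    have h3 : β ^ (-(3 / 2) : ℝ) = (β ^ (3 / 2 : ℝ))⁻¹ := Real.rpow_neg hβ.le _
    have h2 : (6 * (β ^ (3 / 2 : ℝ))⁻¹) ^ 2 = 36 * (β ^ (-(3 / 2) : ℝ) * β ^ (-(3 / 2) : ℝ)) := by
      rw [h3]
      ring
    rw [h2] at h1
    have h4 : 162 * β ^ (-(3 / 2) : ℝ) ≤ C7 / 7 := by
      rw [div_le_iff₀ hC7] at hb3
      rw [h3, ← div_eq_mul_inv, div_le_div_iff₀ (hp _) (by norm_num)]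
      linarith
    have h5 := mul_le_mul_of_nonneg_right h4 (hp (-(3 / 2))).le
    calc 9 / 2 * d ^ 2 ≤ 9 / 2 * (36 * (β ^ (-(3 / 2) : ℝ) * β ^ (-(3 / 2) : ℝ))) := by linarith
      _ = 162 * β ^ (-(3 / 2) : ℝ) * β ^ (-(3 / 2) : ℝ) := by ring
      _ ≤ C7 / 7 * β ^ (-(3 / 2) : ℝ) := h5
      _ = _ := by ring

/-- Transport of the density by Harnack's inequality. -/
theorem transport {n s : ℕ} [NeZero n] (hs : 1 ≤ s) (M : ℕ) {β g0 lam η : ℝ}
    (hβ : 0 < β) (h0p : 0 < g0) (hlam : 0 ≤ lam) (hη0 : 0 < η) (hη1 : η ≤ 1)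
    {g : Tor n → ℝ} (hg : Fam n g0 lam g) {l : ℕ} {k : Fin 3 → ℕ} (hk : ∀ i, k i ≤ l)
    (hd0 : 0 ≤ 3 * l * lam) (hd2 : 3 * (3 * l * lam) < Real.pi / 2)
    (hd9 : 9 / 2 * (3 * l * lam) ^ 2 ≤ η / 7) (x : Tor n) (i j : Fin s)
    (hz : rho (edgesS n s M) β (hS fun y => g y / (s * β)) (x + fun i => (k i : ZMod n), j) ≤
      η / 16) :
    rho (edgesS n s M) β (hS fun y => g y / (s * β)) (x, i) ≤ η / 2 := by
  have hsβ : (0 : ℝ) < s * β := by
    have : (1 : ℝ) ≤ s := by exact_mod_cast hs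
    positivity
  have hpos : ∀ y, 0 < g y := fun y => h0p.trans_le (hg.1 y).1
  have hpos' : ∀ y, 0 < g y / (s * β) := fun y => div_pos (hpos y) hsβ
  set v : Tor n := fun i => (k i : ZMod n) with hv
  set h : Tor n → ℝ := fun y => g y / (s * β) with hh
  have hlog : ∀ u, |Real.log (h (u + v)) - Real.log (h u)| ≤ 3 * l * lam := by
    intro u
    have h1 := fam_log_vec hg h0p l k hk hlam u
    rw [hh]
    dsimp only
    rw [Real.log_div (hpos _).ne' hsβ.ne', Real.log_div (hpos _).ne' hsβ.ne',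
      sub_sub_sub_cancel_right]
    exact h1
  obtain ⟨hM, hH⟩ := reg (Tor n × Fin s) (edgesS n s M) β (hS fun y => h (y + v)) (hS h)
    (3 * l * lam) hβ (fun u => hpos' _) (fun u => hpos' _) hd0 hd2 (fun u => hlog u.1) (x, i)
  have hM' := (reg (Tor n × Fin s) (edgesS n s M) β (hS h) (hS h) 0 hβ
    (fun u => hpos' _) (fun u => hpos' _) le_rfl (by rw [mul_zero]; positivity)
    (fun u => by rw [sub_self, abs_zero]) (x, i)).1
  have hT := transStmtS s n M β h x v i j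
  rw [hT] at hM hH
  have h10 : 1 / (1 - 2 * rho (edgesS n s M) β (hS h) (x + v, j)) ≤ 1 + η / 7 := by
    rw [div_le_iff₀ hM]
    nlinarith
  have h11 : 1 / (1 - 2 * rho (edgesS n s M) β (hS h) (x, i)) ≤ 1 + 3 * (η / 7) := by linarith
  rw [div_le_iff₀ hM'] at h11
  by_contra hcon
  push Not at hcon
  nlinarith

/-! ### The step -/

theorem step3S (s : ℕ) (hs : 1 ≤ s) (hK : KappaStmt3S s) (hD : DirStmt3) (hE : EnergyStmt3S s)
    (CS : ℝ) : ∃ C7 : ℝ, 0 < C7 ∧ CS ≤ C7 ∧ ∀ᶠ β : ℝ in atTop,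
      ∀ᶠ n : ℕ in atTop, Odd n → ∀ [NeZero n], ∃ M0 : ℕ, ∀ M : ℕ, M0 ≤ M →
        ∀ g0 : ℝ, (n : ℝ) ^ (-(1 / 4) : ℝ) ≤ g0 →
        g0 ≤ 1 → BH3S n s M β (C7 * β ^ (-(3 / 2) : ℝ)) g0 →
        BH3S n s M β (C7 * β ^ (-(3 / 2) : ℝ) / 2) g0 := by
  obtain ⟨CD, hCD, hD⟩ := hD
  obtain ⟨c2, c3, hc2, hc3, hK⟩ := hK
  obtain ⟨CE, βE, hE⟩ := hE
  have hsR : (1 : ℝ) ≤ s := by exact_mod_cast hs
  have hCE' : CE ≤ max CE 1 := le_max_left _ _
  have hCE1 : 1 ≤ max CE 1 := le_max_right _ _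
  set CE' := max CE 1 with hCE'def
  set B0 : ℝ := CD * (1 + 1 / c3) * CE' + CD / (c3 * c2) with hB0
  have hB0p : 0 < B0 := by positivity
  set C7 : ℝ := max CS (16 * B0) with hC7def
  have hC7 : 0 < C7 := lt_max_of_lt_right (by positivity)
  have hC7B : 16 * B0 ≤ C7 := le_max_right _ _
  refine ⟨C7, hC7, le_max_left _ _, ?_⟩
  obtain ⟨β1, hK⟩ := hK C7 c2 hC7 hc2
  have hlim : ∀ (a : ℝ), 0 < a → ∀ B : ℝ, ∀ᶠ β : ℝ in atTop, B ≤ β ^ a := fun a ha B =>
    (tendsto_rpow_atTop ha).eventually_ge_atTop B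
  filter_upwards [eventually_ge_atTop β1, eventually_ge_atTop βE, eventually_ge_atTop (81 : ℝ),
    hlim (3 / 2) (by norm_num) C7, hlim (3 / 2) (by norm_num) (1 / c2),
    hlim (3 / 2) (by norm_num) (1134 / C7)] with β hβ1 hβE hβ81 hb1 hb2 hb3
  have hβ9 : 9 ≤ β := by linarith
  have hβ : 0 < β := by linarith
  have hsβ : (0 : ℝ) < s * β := by positivity
  obtain ⟨n1, hK⟩ := hK β hβ1
  obtain ⟨n2, hE⟩ := hE β hβE
  obtain ⟨hm1, hl1, hl2⟩ := mC_spec hβ9
  have hw0 := wC_pos β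
  have hw2 := two_le_wC hβ9
  have hwge := wC_ge β
  have hwle := wC_le (show 1 < β by linarith)
  have hwβ := wC_le34 hβ81
  have hp : ∀ a : ℝ, 0 < β ^ a := fun a => Real.rpow_pos_of_pos hβ a
  have hmul : ∀ a b : ℝ, β ^ a * β ^ b = β ^ (a + b) := fun a b => (Real.rpow_add hβ a b).symm
  have hinv : β ^ (-(3 / 2) : ℝ) = (β ^ (3 / 2 : ℝ))⁻¹ := Real.rpow_neg hβ.le _
  set η : ℝ := C7 * β ^ (-(3 / 2) : ℝ) with hη
  have hη0 : 0 < η := mul_pos hC7 (hp _)
  have hη1 : η ≤ 1 := by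
    rw [hη, hinv, ← div_eq_mul_inv, div_le_one (hp _)]
    exact hb1
  filter_upwards [eventually_ge_atTop n1, eventually_ge_atTop n2, eventually_ge_atTop 3,
    eventually_ge_atTop (wC β * mC β)] with n hn1 hn2 hn3 hnw
  intro hodd _
  obtain ⟨M0, hE⟩ := hE n hn2
  refine ⟨M0, fun M hM g0 hg0 hg01 hB g hg z => ?_⟩
  obtain ⟨x, i⟩ := z
  have hwn : wC β ≤ n := le_trans (Nat.le_mul_of_pos_right _ hm1) hnw
  have hn0 : (0 : ℝ) < n := by
    have : (3 : ℝ) ≤ n := by exact_mod_cast hn3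
    linarith
  have h0p : 0 < g0 := (Real.rpow_pos_of_pos hn0 _).trans_le hg0
  have hpos : ∀ y, 0 < g y := fun y => h0p.trans_le (hg.1 y).1
  have hpos' : ∀ y, 0 < g y / (s * β) := fun y => div_pos (hpos y) hsβ
  -- the parameter `K`
  set K : ℝ := c2 * β ^ (3 / 2 : ℝ) with hKdef
  have hK1 : 1 ≤ K := by
    rw [div_le_iff₀ hc2] at hb2
    rw [hKdef]
    linarith
  have h3a : ((wC β : ℕ) : ℝ) = (3 : ℝ) ^ aC β := by
    unfold wC
    push_cast
    rfl
  have hKw : K ≤ c2 * β * 3 ^ aC β := by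
    have h1 : β ^ (3 / 2 : ℝ) = β * Real.sqrt β := by
      rw [Real.sqrt_eq_rpow]
      conv_rhs =>
        lhs
        rw [← Real.rpow_one β]
      rw [hmul]
      norm_num
    rw [hKdef, h1, ← h3a, mul_assoc]
    exact mul_le_mul_of_nonneg_left (mul_le_mul_of_nonneg_left hwge hβ.le) hc2.le
  have htw : ∀ z : Tor n, (∑ u ∈ cubeS n s z (wC β),
      rho (edgesS n s M) β (hS fun y => g y / (s * β)) u) / (cubeS n s z (wC β)).card ≤
      CD * (1 + 1 / c3) *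
        yb (edgesS n s M) β (hS fun y => g y / (s * β)) (cubeS n s z (wC β)) +
        CD / (c3 * c2) * β ^ (-(3 / 2) : ℝ) := by
    intro z
    have h2 := hD (Tor n × Fin s) (edgesS n s M) β (hS fun y => g y / (s * β)) K (c3 * K)
      (cubeS n s z (wC β)) hβ
      (fun y => (hpos' _).le) hK1 (by positivity)
      (by
        rw [← Finset.card_pos, card_cubeS hwn]
        positivity)
      (hK n hn1 hodd M (aC β) (h3a ▸ hwge) (h3a ▸ hwβ) K hK1 le_rfl hKw g0 hg0 hg01 hB g hg z)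
    have h3 : K / (c3 * K) = 1 / c3 := by
      have : 0 < K := by linarith
      field_simp
    have h4 : CD / (c3 * K) = CD / (c3 * c2) * β ^ (-(3 / 2) : ℝ) := by
      rw [hinv, hKdef]
      have := hp (3 / 2)
      field_simp
    rw [h3, h4] at h2
    exact h2
  -- the average
  have hm' : (0 : ℝ) < (mC β : ℝ) ^ 3 := by
    have : 0 < mC β := hm1
    positivity
  have hsum : ∑ y : Fin 3 → Fin (mC β),
      (∑ z ∈ cubeS n s (x + fun i => ((wC β * (y i : ℕ) : ℕ) : ZMod n)) (wC β),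
        rho (edgesS n s M) β (hS fun y => g y / (s * β)) z) /
      (cubeS n s (x + fun i => ((wC β * (y i : ℕ) : ℕ) : ZMod n)) (wC β)).card ≤
      (mC β : ℝ) ^ 3 * (η / 16) := by
    have h2 := hE M hM g (fun y => ⟨hpos y, (hg.1 y).2⟩) x (wC β) (mC β) (by omega) hwle hl1 hl2
    have h4 : 0 ≤ CD * (1 + 1 / c3) := by positivity
    refine (avg_le hm1 _ _ h4 (fun y => htw _) h2).trans ?_
    refine mul_le_mul_of_nonneg_left ?_ hm'.le
    have h3 : CD * (1 + 1 / c3) * (CE * β ^ (-(3 / 2) : ℝ)) ≤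
        CD * (1 + 1 / c3) * (CE' * β ^ (-(3 / 2) : ℝ)) :=
      mul_le_mul_of_nonneg_left (mul_le_mul_of_nonneg_right hCE' (hp _).le) h4
    have h6 : B0 * β ^ (-(3 / 2) : ℝ) ≤ η / 16 := by
      rw [hη]
      have := mul_le_mul_of_nonneg_right hC7B (hp (-(3 / 2))).le
      linarith
    have h7 : CD * (1 + 1 / c3) * (CE' * β ^ (-(3 / 2) : ℝ)) +
        CD / (c3 * c2) * β ^ (-(3 / 2) : ℝ) = B0 * β ^ (-(3 / 2) : ℝ) := by
      rw [hB0]
      ring
    linarith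
  obtain ⟨k, j, hk, hz⟩ := good_pointS hs hw0 hm1 hwn x _ _ hsum
  obtain ⟨hd0, hd2, hd9⟩ := num_d hC7 hβ9 hb3 (l := wC β * mC β) (by push_cast; exact hl2)
  exact transport hs M hβ h0p (hp _).le hη0 hη1 hg hk hd0 hd2 hd9 x i j hz

/-- The continuity argument for the capped family. -/
theorem bootS3 {n s : ℕ} [NeZero n] (M : ℕ) {β η lam a : ℝ} (hη : 0 < η) (hlam : 0 ≤ lam)
    (ha0 : 0 < a) (ha1 : a ≤ 1)
    (h1 : ∀ z, rho (edgesS n s M) β (hS fun _ => 1 / (s * β)) z ≤ η)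
    (hstep : ∀ h0, a ≤ h0 → h0 ≤ 1 →
      (∀ g : Tor n → ℝ, Fam n h0 lam g →
        ∀ z, rho (edgesS n s M) β (hS fun y => g y / (s * β)) z ≤ η) →
      ∀ g : Tor n → ℝ, Fam n h0 lam g →
        ∀ z, rho (edgesS n s M) β (hS fun y => g y / (s * β)) z ≤ η / 2) :
    ∀ g : Tor n → ℝ, Fam n a lam g →
      ∀ z, rho (edgesS n s M) β (hS fun y => g y / (s * β)) z ≤ η / 2 := by
  rcases Nat.eq_zero_or_pos s with rfl | hs
  · rintro g hg ⟨x, i⟩
    exact i.elim0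
  have hexp : 1 ≤ Real.exp lam := Real.one_le_exp hlam
  have hcont : ∀ i : Fin s, ∀ x : Tor n, Continuous fun h : Tor n → ℝ =>
      rho (edgesS n s M) β (hS fun y => h y / (s * β)) (x, i) := by
    intro i x
    exact (continuous_rho (edgesS n s M) β (x, i)).comp
      (continuous_pi fun z => (continuous_apply (A := fun _ : Tor n => ℝ) z.1).div_const _)
  have key := bootstrap_abs (V := Tor n)
    (fun h x => (univ : Finset (Fin s)).sup' ⟨⟨0, hs⟩, mem_univ _⟩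
      fun i => rho (edgesS n s M) β (hS fun y => h y / (s * β)) (x, i))
    (fun x => Continuous.finset_sup'_apply _ fun i _ => hcont i x)
    (fun h => ∀ (x : Tor n) (i : Fin 3), h x ≤ Real.exp lam * h (x + Pi.single i 1) ∧
      h (x + Pi.single i 1) ≤ Real.exp lam * h x) ?_ ha0 hη
    (fun x => Finset.sup'_le _ _ fun i _ => h1 (x, i)) ?_ ha1
  · intro h hh z
    exact (Finset.le_sup' (fun i => rho (edgesS n s M) β (hS fun y => h y / (s * β)) (z.1, i))
      (mem_univ z.2)).trans (key h hh.1 hh.2 z.1)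
  · intro h c hc hreg x i
    have hm : ∀ u v : ℝ, u ≤ Real.exp lam * v → max u c ≤ Real.exp lam * max v c := by
      intro u v huv
      refine max_le (huv.trans ?_) ?_
      · exact mul_le_mul_of_nonneg_left (le_max_left _ _) (Real.exp_pos _).le
      · calc c ≤ Real.exp lam * c := by nlinarith
          _ ≤ _ := mul_le_mul_of_nonneg_left (le_max_right _ _) (Real.exp_pos _).le
    exact ⟨hm _ _ (hreg x i).1, hm _ _ (hreg x i).2⟩
  · intro h0 h2 h3 h4 h h5 h6 x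
    refine Finset.sup'_le _ _ fun i _ => ?_
    refine hstep h0 h2 h3 (fun h' hh' z => ?_) h ⟨h5, h6⟩ (x, i)
    exact (Finset.le_sup' (fun i => rho (edgesS n s M) β (hS fun y => h' y / (s * β)) (z.1, i))
      (mem_univ z.2)).trans (h4 h' hh'.1 hh'.2 z.1)

end BootS

/-! ### The bootstrap -/

/-- **Block (B) for spin `s / 2`**: the bootstrap at Bloch's order. -/
theorem bootStmt3S_of (s : ℕ) (hs : 1 ≤ s) (hK : KappaStmt3S s) (hD : DirStmt3)
    (hE : EnergyStmt3S s) (hS0 : StartStmt3S s) : BootStmt3S s := by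
  obtain ⟨CS, βS, hS0⟩ := hS0
  obtain ⟨C7, hC7, hCS, hstep⟩ := BootS.step3S s hs hK hD hE CS
  obtain ⟨β0, H⟩ := eventually_atTop.1
    (hstep.and ((eventually_ge_atTop βS).and (eventually_ge_atTop (1 : ℝ))))
  refine ⟨C7, β0, hC7, fun β hβ0 => ?_⟩
  obtain ⟨hst, hβS, hβ1⟩ := H β hβ0
  have hβ : 0 < β := by linarith
  obtain ⟨n1, Hn⟩ := eventually_atTop.1 hst
  obtain ⟨n2, hS0⟩ := hS0 β hβS
  refine ⟨max n1 n2, fun n _ hn hodd => ?_⟩
  have hn1 : n1 ≤ n := (le_max_left _ _).trans hn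
  have hn2 : n2 ≤ n := (le_max_right _ _).trans hn
  obtain ⟨M1, Hn⟩ := Hn n hn1 hodd
  obtain ⟨M2, hS0⟩ := hS0 n hn2 hodd
  refine ⟨max M1 M2, fun M hM g0 hg0 hg01 g hg z => ?_⟩
  have hM1 : M1 ≤ M := (le_max_left _ _).trans hM
  have hM2 : M2 ≤ M := (le_max_right _ _).trans hM
  have hn0 : (0 : ℝ) < n := by exact_mod_cast NeZero.pos n
  have ha0 : (0 : ℝ) < (n : ℝ) ^ (-(1 / 4) : ℝ) := Real.rpow_pos_of_pos hn0 _
  have hpow : 0 < β ^ (-(3 / 2) : ℝ) := Real.rpow_pos_of_pos hβ _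
  set η : ℝ := C7 * β ^ (-(3 / 2) : ℝ) with hη
  have hη0 : 0 < η := mul_pos hC7 hpow
  have key := BootS.bootS3 (n := n) (s := s) M (β := β) hη0
    (Real.rpow_pos_of_pos hβ (-(9 / 2))).le ha0 (hg0.trans hg01)
    (fun z => (hS0 M hM2 z).trans (mul_le_mul_of_nonneg_right hCS hpow.le))
    (fun h0 hh0 hh01 hB => Hn M hM1 h0 hh0 hh01 hB) g
    ⟨fun y => ⟨hg0.trans (hg.1 y).1, (hg.1 y).2⟩, hg.2⟩ z
  linarith

end

end Vale.Agent.P361.LRO.S3S
end

section

/-!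
P361, stage 3, block (M), item (D): the pair operator of the edges in the Gibbs state.
-/

namespace Vale.Agent.P361.LRO.S3P

open Finset Matrix

noncomputable section

variable {V : Type} [Fintype V] [DecidableEq V]

theorem pair_le_nM (L : List (V × V)) {β : ℝ} (hβ : 0 < β) {h : V → ℝ} (hh : ∀ x, 0 ≤ h x)
    {x y : V} (hxy : x ≠ y) {η : ℝ} (hη : η ≤ 1 / 4) (hx : rho L β h x ≤ η)
    (hy : rho L β h y ≤ η) : gib L β h (S3.nM x * S3.nM y) ≤ 8 * η ^ 2 := by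
  rw [S3.nM_eq, S3.nM_eq]
  exact pair_le L hβ hh hxy hη hx hy

theorem gib_WL_le (L M : List (V × V)) (hM : ∀ e ∈ M, e.1 ≠ e.2) {β : ℝ} (hβ : 0 < β)
    {h : V → ℝ} (hh : ∀ x, 0 ≤ h x) {η : ℝ} (hη : η ≤ 1 / 4) (hr : ∀ x, rho L β h x ≤ η) :
    gib L β h (S3.Mean.WL M) ≤ 8 * M.length * η ^ 2 := by
  induction M with
  | nil => simp [S3.Mean.WL, gib]
  | cons e M ih =>
    have ih' := ih fun e' he' => hM e' (List.mem_cons_of_mem _ he')
    have h1 := pair_le_nM L hβ hh (hM e List.mem_cons_self) hη (hr e.1) (hr e.2)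
    have h2 : S3.Mean.WL (e :: M) = S3.nM e.1 * S3.nM e.2 + S3.Mean.WL M := by
      simp [S3.Mean.WL]
    rw [h2, S3.Mean.gib_add, List.length_cons]
    push_cast
    linarith

theorem edges_length (n : ℕ) [NeZero n] : (edges n).length = 3 * n ^ 3 := by
  unfold edges
  rw [List.length_map, Finset.length_toList, Finset.card_univ, Fintype.card_prod,
    Fintype.card_fin, Fintype.card_fun, ZMod.card, Fintype.card_fin]
  ring

theorem edges_ne (n : ℕ) [NeZero n] (hn : 2 ≤ n) : ∀ e ∈ edges n, e.1 ≠ e.2 := by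
  intro e he
  unfold edges at he
  rw [List.mem_map] at he
  obtain ⟨z, -, rfl⟩ := he
  intro h
  have h1 : (Pi.single z.2 (1 : ZMod n) : Tor n) = 0 := by
    have h2 : z.1 = z.1 + Pi.single z.2 1 := h
    exact left_eq_add.1 h2
  have h3 := congrFun h1 z.2
  rw [Pi.single_eq_same, Pi.zero_apply] at h3
  have : Fact (1 < n) := ⟨by omega⟩
  exact one_ne_zero h3

/-- **Item (D)**. -/
theorem gib_WL_torus (n : ℕ) [NeZero n] (hn : 2 ≤ n) {β : ℝ} (hβ : 0 < β)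
    {h : Tor n → ℝ} (hh : ∀ x, 0 ≤ h x) {η : ℝ} (hη : η ≤ 1 / 4)
    (hr : ∀ x, rho (edges n) β h x ≤ η) :
    gib (edges n) β h (S3.Mean.WL (edges n)) ≤ 24 * (n : ℝ) ^ 3 * η ^ 2 := by
  have h1 := gib_WL_le (edges n) (edges n) (edges_ne n hn) hβ hh hη hr
  rw [edges_length] at h1
  push_cast at h1
  linarith

end

end Vale.Agent.P361.LRO.S3P
end

section

/-!
P361, stage 3, all spins, block (M): the inequality for the block mean on a finite torus with `s`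
copies of each site and any multiplicity `M` of the intra-site edges (helper979).
-/

set_option linter.unusedSectionVars false

namespace Vale.Agent.P361.LRO.S3S.MeanAS

open Finset Matrix Vale.Agent.P361.LRO.GenS Vale.Agent.P361.LRO.S3

noncomputable section

variable {n s : ℕ} [NeZero n]

/-- `log Tr exp (-β (H_M + h N))`, `N` = number of reversed copies. -/
def logZS (n s M : ℕ) [NeZero n] (β h : ℝ) : ℝ :=
  Real.log (trace (NormedSpace.exp (-β • ham (edgesS n s M) (hS fun _ => h)))) -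
    β * h / 2 * ((n : ℝ) ^ 3 * s)

theorem interE_ne (hn : 2 ≤ n) : ∀ e ∈ interE n s, e.1 ≠ e.2 := by
  intro e he
  unfold interE at he
  rw [List.mem_flatMap] at he
  obtain ⟨e0, he0, he⟩ := he
  rw [List.mem_flatMap] at he
  obtain ⟨i, -, he⟩ := he
  rw [List.mem_map] at he
  obtain ⟨j, -, rfl⟩ := he
  intro h
  exact S3P.edges_ne n hn e0 he0 (congrArg Prod.fst h)

theorem interE_length : (interE n s).length = 3 * n ^ 3 * s ^ 2 := by
  unfold interE
  have h1 : ∀ l : List (Tor n × Tor n), (l.flatMap fun e => (List.finRange s).flatMap fun i =>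
      (List.finRange s).map fun j => (((e.1, i), (e.2, j)) :
        (Tor n × Fin s) × (Tor n × Fin s))).length = l.length * s ^ 2 := by
    intro l
    induction l with
    | nil => simp
    | cons e l ih =>
      rw [List.flatMap_cons, List.length_append, ih, List.length_cons]
      have h2 : ((List.finRange s).flatMap fun i => (List.finRange s).map fun j =>
          (((e.1, i), (e.2, j)) : (Tor n × Fin s) × (Tor n × Fin s))).length = s ^ 2 := by
        simp [List.length_flatMap, sq]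
      rw [h2]
      ring
  rw [h1, S3P.edges_length]

theorem card_copies : (Fintype.card (Tor n × Fin s) : ℝ) = (n : ℝ) ^ 3 * s := by
  rw [Fintype.card_prod, Fintype.card_fun, ZMod.card, Fintype.card_fin, Fintype.card_fin]
  push_cast
  ring

theorem gib_WL_inter (hn : 2 ≤ n) (M : ℕ) {β : ℝ} (hβ : 0 < β) {h : ℝ} (hh : 0 ≤ h) {η : ℝ}
    (hη : η ≤ 1 / 4) (hr : ∀ z, rho (edgesS n s M) β (hS fun _ => h) z ≤ η) :
    gib (edgesS n s M) β (hS fun _ => h) (Mean.WL (interE n s)) ≤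
      24 * (s : ℝ) ^ 2 * (n : ℝ) ^ 3 * η ^ 2 := by
  have h1 := S3P.gib_WL_le (edgesS n s M) (interE n s) (interE_ne hn) hβ
    (h := hS fun _ => h) (fun _ => hh) hη hr
  rw [interE_length] at h1
  push_cast at h1
  linarith

/-- **The inequality for the block mean on a finite torus**, all spins. -/
theorem mean_fin [NeZero s] (hn : 2 ≤ n) (M : ℕ) {w : ℕ} {β h lam μ η : ℝ} (hβ : 1 ≤ β)
    (hh : 0 < h) (hlam : 0 ≤ lam) (hμ : 12 * lam * (w : ℝ) ^ 2 ≤ μ) (hμ1 : μ ≤ 1 / 2)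
    (hη : η ≤ 1 / 4) (hρ : ∀ z, rho (edgesS n s M) β (hS fun _ => h) z ≤ η) {Y : ℝ}
    (hY : Y ≤ gib (edgesS n s M) β (hS fun _ => h) (hcM (gmatS n s w))) :
    β * lam * Y ≤
      (∑ k : Tor n, -Real.log (1 - Real.exp (-(β * (s * OB.tq k + h)))) +
          (n : ℝ) ^ 3 * (2 * s * Real.exp (-(3 * β)))) +
        β * lam * (∑ k : Tor n, 1 / (Real.exp (β * ((1 - μ) * (s * OB.tq k) + h)) - 1) +
          (n : ℝ) ^ 3 * (2 * s * Real.exp (-β))) -
        logZS n s M β h + β * (24 * (s : ℝ) ^ 2 * (n : ℝ) ^ 3 * η ^ 2) := by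
  have hβ0 : 0 < β := by linarith
  have h1 := MeanS.mean_ineqS (interE n s) ((List.replicate M (intraE n s)).flatten)
    (interE_ne hn) hβ0.le h lam (gmatS n s w) (MeanBS.gmatS_symm w)
    (MeanBS.trace_le' hβ hh hlam hμ hμ1)
  have h2 := mul_le_mul_of_nonneg_left (gib_WL_inter hn M hβ0 hh.le hη hρ) hβ0.le
  have h3 := mul_le_mul_of_nonneg_left hY (mul_nonneg hβ0.le hlam)
  have e1 : (fun _ : Tor n × Fin s => h) = hS fun _ => h := rfl
  have e2 : interE n s ++ (List.replicate M (intraE n s)).flatten = edgesS n s M := rfl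
  rw [e1, e2, card_copies] at h1
  have e3 : Real.log (trace (NormedSpace.exp (-β • ham (edgesS n s M) (hS fun _ => h)))) -
      β * h * ((n : ℝ) ^ 3 * s) / 2 = logZS n s M β h := by
    unfold logZS
    ring
  rw [e3] at h1
  linarith

end

end Vale.Agent.P361.LRO.S3S.MeanAS
end

section

/-!
P361, stage 3, all spins, block (M), item (C): the block rewards of all translates of the cube
together are bounded by the second quantisation of `gmatS` (helper44).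
-/

set_option linter.unusedSectionVars false

namespace Vale.Agent.P361.LRO.S3S

open Finset Matrix Vale.Agent.P361.LRO.GenS Vale.Agent.P361.LRO.S3

noncomputable section

variable {n s : ℕ} [NeZero n]

/-- Translation of the sites, copies fixed. -/
def trS (a : Tor n) : (Tor n × Fin s) ≃ (Tor n × Fin s) :=
  (Equiv.addRight a).prodCongr (Equiv.refl (Fin s))

omit [NeZero n] in
theorem trS_apply (a x : Tor n) (i : Fin s) : trS a (x, i) = (x + a, i) := rfl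

theorem edgesS_translate {A : Type*} [AddCommMonoid A] (M : ℕ)
    (f : (Tor n × Fin s) → (Tor n × Fin s) → A) (a : Tor n) :
    ((edgesS n s M).map fun e => f e.1 e.2).sum =
      ((edgesS n s M).map fun e => f (trS a e.1) (trS a e.2)).sum := by
  rw [TransS.edgesS_map_sum M f, TransS.edgesS_map_sum M (fun u v => f (trS a u) (trS a v))]
  have h1 : ((interE n s).map fun e => f (trS a e.1) (trS a e.2)).sum =
      ((interE n s).map fun e => f e.1 e.2).sum :=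
    TransS.interE_inv a (Equiv.refl (Fin s)) f
  have h2 : ((intraE n s).map fun e => f (trS a e.1) (trS a e.2)).sum =
      ((intraE n s).map fun e => f e.1 e.2).sum := by
    rw [TransS.intraE_map_sum, TransS.intraE_map_sum (fun u v => f (trS a u) (trS a v)),
      Finset.sum_filter, Finset.sum_filter, Fintype.sum_prod_type, Fintype.sum_prod_type]
    refine Fintype.sum_equiv (Equiv.addRight a) _ _ fun x => ?_
    refine Finset.sum_congr rfl fun p _ => ?_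
    rfl
  rw [h1, h2]

theorem gib_hM_translateS (M : ℕ) (β h : ℝ) (x y v : Tor n) (i l : Fin s) :
    gib (edgesS n s M) β (hS fun _ => h) (hM (x + v, i) (y + v, l)) =
      gib (edgesS n s M) β (hS fun _ => h) (hM (x, i) (y, l)) := by
  have h1 := gib_relab (edgesS n s M) (trS v) (fun f => edgesS_translate M f v) β
    (hS fun _ => h) (hM (x + v, i) (y + v, l))
  have h2 : (hM (x + v, i) (y + v, l) :
      Matrix (Tor n × Fin s → Fin 2) (Tor n × Fin s → Fin 2) ℝ).submatrix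
      (Bs.relab (trS v)) (Bs.relab (trS v)) = hM (x, i) (y, l) :=
    Bs.hM_relab (trS v) (x, i) (y, l)
  rw [h2] at h1
  exact h1.symm

omit [NeZero n] in
theorem sum_cubeSM {w : ℕ} (hw : w ≤ n) {A : Type*} [AddCommMonoid A] (z : Tor n)
    (f : Tor n × Fin s → A) :
    ∑ x ∈ cubeS n s z w, f x = ∑ a : Fin 3 → Fin w, ∑ i : Fin s, f (ptc z a, i) := by
  unfold cubeS
  rw [Finset.sum_product, sum_cubeM hw]

omit [NeZero n] in
theorem card_cubeSM {w : ℕ} (hw : w ≤ n) (z : Tor n) : (cubeS n s z w).card = w ^ 3 * s := by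
  unfold cubeS
  rw [Finset.card_product, card_cubeM hw, Finset.card_univ, Fintype.card_fin]

theorem gib_CM_eqS {w : ℕ} (hw : w ≤ n) (M : ℕ) (β h : ℝ) (z : Tor n) :
    gib (edgesS n s M) β (hS fun _ => h) (CM (cubeS n s z w)) =
      ∑ a : Fin 3 → Fin w, ∑ i : Fin s, ∑ b : Fin 3 → Fin w, ∑ l : Fin s,
        gib (edgesS n s M) β (hS fun _ => h) (hM (ptc z a, i) (ptc z b, l)) := by
  unfold CM
  rw [Bs.gib_sum, sum_cubeSM hw]
  refine Finset.sum_congr rfl fun a _ => Finset.sum_congr rfl fun i _ => ?_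
  rw [Bs.gib_sum, sum_cubeSM hw]

theorem gib_CM_translateS {w : ℕ} (hw : w ≤ n) (M : ℕ) (β h : ℝ) (z z' : Tor n) :
    gib (edgesS n s M) β (hS fun _ => h) (CM (cubeS n s z w)) =
      gib (edgesS n s M) β (hS fun _ => h) (CM (cubeS n s z' w)) := by
  rw [gib_CM_eqS hw, gib_CM_eqS hw]
  refine Finset.sum_congr rfl fun a _ => Finset.sum_congr rfl fun i _ =>
    Finset.sum_congr rfl fun b _ => Finset.sum_congr rfl fun l _ => ?_
  have h1 : ∀ c : Fin 3 → Fin w, ptc z c = ptc z' c + (z - z') := by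
    intro c
    unfold ptc
    abel
  rw [h1 a, h1 b, gib_hM_translateS]

theorem yb_eqS [NeZero s] {w : ℕ} (hw : w ≤ n) (hw0 : 0 < w) (M : ℕ) (β h : ℝ) (x : Tor n) :
    ((n : ℝ) ^ 3 * s) * yb (edgesS n s M) β (hS fun _ => h) (cubeS n s x w) =
      (1 / ((w : ℝ) ^ 6 * s)) * ∑ z : Tor n, ∑ a : Fin 3 → Fin w, ∑ i : Fin s,
        ∑ b : Fin 3 → Fin w, ∑ l : Fin s,
        gib (edgesS n s M) β (hS fun _ => h) (hM (ptc z a, i) (ptc z b, l)) := by
  have h1 : ∀ z : Tor n, ∑ a : Fin 3 → Fin w, ∑ i : Fin s, ∑ b : Fin 3 → Fin w, ∑ l : Fin s,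
      gib (edgesS n s M) β (hS fun _ => h) (hM (ptc z a, i) (ptc z b, l)) =
      gib (edgesS n s M) β (hS fun _ => h) (CM (cubeS n s x w)) := by
    intro z
    rw [← gib_CM_eqS hw, gib_CM_translateS hw M β h z x]
  simp only [h1, Finset.sum_const, Finset.card_univ, nsmul_eq_mul]
  unfold yb
  rw [card_cubeSM hw, Fintype.card_fun, ZMod.card, Fintype.card_fin]
  push_cast
  have hw1 : (0 : ℝ) < w := by exact_mod_cast hw0
  have hs : (0 : ℝ) < s := by exact_mod_cast Nat.pos_of_ne_zero (NeZero.ne s)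
  field_simp

theorem hcM_gmatS (w : ℕ) : hcM (gmatS n s w) = (1 / (2 * ((w : ℝ) ^ 6 * s))) •
    ∑ z : Tor n, ∑ a : Fin 3 → Fin w, ∑ b : Fin 3 → Fin w, ∑ i : Fin s, ∑ l : Fin s,
      hcM (OB.dd ((ptc z a, i) : Tor n × Fin s) (ptc z b, l)) := by
  have h0 : gmatS n s w = fun u v => (1 / (2 * ((w : ℝ) ^ 6 * s))) *
      ∑ z : Tor n, ∑ a : Fin 3 → Fin w, ∑ b : Fin 3 → Fin w, ∑ i : Fin s, ∑ l : Fin s,
        OB.dd ((ptc z a, i) : Tor n × Fin s) (ptc z b, l) u v := by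
    funext u v
    unfold gmatS
    rw [div_eq_inv_mul, one_div]
    rfl
  rw [h0, hcM_smul, hcM_sum]
  congr 1
  refine Finset.sum_congr rfl fun z _ => ?_
  rw [hcM_sum]
  refine Finset.sum_congr rfl fun a _ => ?_
  rw [hcM_sum]
  refine Finset.sum_congr rfl fun b _ => ?_
  rw [hcM_sum]
  refine Finset.sum_congr rfl fun i _ => ?_
  rw [hcM_sum]

/-- **Item (C), all spins**: `s n³ y_b ≤ <dΓ(g)>`. -/
theorem yb_le_gmatS [NeZero s] {w : ℕ} (hw0 : 1 ≤ w) (hw : w ≤ n) (M : ℕ) (β h : ℝ) (x : Tor n) :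
    ((n : ℝ) ^ 3 * s) * yb (edgesS n s M) β (hS fun _ => h) (cubeS n s x w) ≤
      gib (edgesS n s M) β (hS fun _ => h) (hcM (gmatS n s w)) := by
  rw [yb_eqS hw hw0, hcM_gmatS, Mean.gib_smul, Mean.gib_sum]
  have h1 : ∀ z : Tor n, 2 * ∑ a : Fin 3 → Fin w, ∑ i : Fin s, ∑ b : Fin 3 → Fin w, ∑ l : Fin s,
      gib (edgesS n s M) β (hS fun _ => h) (hM (ptc z a, i) (ptc z b, l)) ≤
      gib (edgesS n s M) β (hS fun _ => h) (∑ a : Fin 3 → Fin w, ∑ b : Fin 3 → Fin w,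
        ∑ i : Fin s, ∑ l : Fin s, hcM (OB.dd ((ptc z a, i) : Tor n × Fin s) (ptc z b, l))) := by
    intro z
    rw [Mean.gib_sum, Finset.mul_sum]
    refine Finset.sum_le_sum fun a _ => ?_
    rw [Mean.gib_sum, Finset.sum_comm, Finset.mul_sum]
    refine Finset.sum_le_sum fun b _ => ?_
    rw [Mean.gib_sum, Finset.mul_sum]
    refine Finset.sum_le_sum fun i _ => ?_
    rw [Mean.gib_sum, Finset.mul_sum]
    exact Finset.sum_le_sum fun l _ => gib_hcM_dd _ _ _ _ _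
  have h2 := Finset.sum_le_sum fun (z : Tor n) (_ : z ∈ Finset.univ) => h1 z
  rw [← Finset.mul_sum] at h2
  have hs : (0 : ℝ) < s := by exact_mod_cast Nat.pos_of_ne_zero (NeZero.ne s)
  have hw6 : (0 : ℝ) < (w : ℝ) ^ 6 := by
    have : (0 : ℝ) < w := by exact_mod_cast hw0
    positivity
  calc (1 / ((w : ℝ) ^ 6 * s)) * ∑ z : Tor n, ∑ a : Fin 3 → Fin w, ∑ i : Fin s,
        ∑ b : Fin 3 → Fin w, ∑ l : Fin s,
        gib (edgesS n s M) β (hS fun _ => h) (hM (ptc z a, i) (ptc z b, l))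
      = (1 / (2 * ((w : ℝ) ^ 6 * s))) * (2 * ∑ z : Tor n, ∑ a : Fin 3 → Fin w, ∑ i : Fin s,
        ∑ b : Fin 3 → Fin w, ∑ l : Fin s,
        gib (edgesS n s M) β (hS fun _ => h) (hM (ptc z a, i) (ptc z b, l))) := by
        field_simp
    _ ≤ _ := mul_le_mul_of_nonneg_left h2 (by positivity)

end

end Vale.Agent.P361.LRO.S3S
end

section

/-!
P361, stage 3, all spins, block (M): the sharp upper bound for the block mean in a uniform small
field (helper979).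
-/

set_option linter.unusedSectionVars false

namespace Vale.Agent.P361.LRO.S3S.MF

open Finset Filter Topology Matrix Vale.Agent.P361.LRO.GenS Vale.Agent.P361.LRO.S3

noncomputable section

/-- Lower bound of the free energy of the copies on large tori, uniform in the multiplicity of the
intra-site edges. -/
def LogZLowerS (s : ℕ) : Prop :=
  ∃ K : ℝ, 1 ≤ K ∧ ∀ β : ℝ, K ≤ β → ∀ h : ℝ, 0 ≤ h → ∀ ε : ℝ, 0 < ε →
    ∃ n0 : ℕ, ∀ (n : ℕ) [NeZero n], n0 ≤ n → Odd n → ∀ M : ℕ,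
      ((1 - K / β) * B.FS ((s : ℝ) / 2) (β * h) / Real.sqrt β ^ 3 - ε) * (n : ℝ) ^ 3 ≤
        MeanAS.logZS n s M β h

theorem tq_tK {n : ℕ} [NeZero n] (k : Tor n) : OB.tq k = tK n k := OB.tq_eq k

/-- The density from the bootstrap, uniform field `h`. -/
theorem rho_uniform_of_bootS {s : ℕ} (hs : 1 ≤ s) (hB : BootStmt3S s) :
    ∃ C7 β0 : ℝ, 0 < C7 ∧ ∀ β : ℝ, β0 ≤ β → ∀ h : ℝ,
    0 < h → s * β * h ≤ 1 → ∃ n0 : ℕ, ∀ (n : ℕ) [NeZero n], n0 ≤ n → Odd n →
    ∃ M0 : ℕ, ∀ M : ℕ, M0 ≤ M → ∀ z : Tor n × Fin s,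
      rho (edgesS n s M) β (hS fun _ => h) z ≤ C7 * β ^ (-(3 / 2) : ℝ) := by
  obtain ⟨C7, β0, hC7, H⟩ := hB
  have hsR : (1 : ℝ) ≤ s := by exact_mod_cast hs
  refine ⟨C7, max β0 1, hC7, fun β hβ h hh hβh => ?_⟩
  have hβ0 : β0 ≤ β := le_trans (le_max_left _ _) hβ
  have hβ1 : 0 < β := lt_of_lt_of_le one_pos (le_trans (le_max_right _ _) hβ)
  obtain ⟨n0, Hn⟩ := H β hβ0
  have hlim : Filter.Tendsto (fun n : ℕ => (n : ℝ) ^ (-(1 / 4) : ℝ)) Filter.atTop
      (nhds 0) :=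
    (tendsto_rpow_neg_atTop (by norm_num : (0 : ℝ) < 1 / 4)).comp tendsto_natCast_atTop_atTop
  have hpos : 0 < s * β * h := by positivity
  obtain ⟨n1, hn1⟩ := Filter.eventually_atTop.1 ((tendsto_order.1 hlim).2 (s * β * h) hpos)
  refine ⟨max n0 n1, fun n _ hn hodd => ?_⟩
  obtain ⟨M0, hM0⟩ := Hn n (le_trans (le_max_left _ _) hn) hodd
  refine ⟨M0, fun M hM z => ?_⟩
  have h1 := hM0 M hM (s * β * h)
    (hn1 n (le_trans (le_max_right _ _) hn)).le hβh (fun _ => s * β * h) ?_ z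
  · have h2 : (fun _ : Tor n => s * β * h / (s * β)) = fun _ => h := by
      funext _
      field_simp
    simp only [h2] at h1
    exact h1
  · refine ⟨fun _ => ⟨le_rfl, hβh⟩, fun _ _ => ?_⟩
    have e : 0 ≤ β ^ (-(9 / 2) : ℝ) := (Real.rpow_pos_of_pos hβ1 _).le
    have e1 : 1 ≤ Real.exp (β ^ (-(9 / 2) : ℝ)) := Real.one_le_exp e
    constructor <;> nlinarith

/-- **Block (M)**, all spins. -/
theorem meanStmt3S_of {s : ℕ} (hs : 1 ≤ s) (hZ : LogZLowerS s) (hB : BootStmt3S s) :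
    MeanStmt3S s := by
  have : NeZero s := ⟨by omega⟩
  have hsR : (1 : ℝ) ≤ s := by exact_mod_cast hs
  obtain ⟨C7, β7, hC7, Hρ⟩ := rho_uniform_of_bootS hs hB
  obtain ⟨K, hK1, HZ⟩ := hZ
  obtain ⟨c', d, hc', hd, hd1, H⟩ := mean_final_S hs hK1 12 C7
  refine ⟨d, hd, hd1, fun δ hδ => ?_⟩
  obtain ⟨β0, hβ0K, Hβ⟩ := H δ hδ
  have e1 : ∀ᶠ β : ℝ in atTop, C7 * β ^ (-(3 / 2) : ℝ) < 1 / 4 := by
    have h1 : Tendsto (fun β : ℝ => C7 * β ^ (-(3 / 2) : ℝ)) atTop (𝓝 (C7 * 0)) :=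
      (tendsto_rpow_neg_atTop (by norm_num : (0 : ℝ) < 3 / 2)).const_mul C7
    rw [mul_zero] at h1
    exact (tendsto_order.1 h1).2 _ (by norm_num)
  obtain ⟨β1, hβ1⟩ := eventually_atTop.1 e1
  refine ⟨max (max β0 β1) (max β7 s), fun β hβ a _ ha2 h hh hh2 => ?_⟩
  have g0 : β0 ≤ β := le_trans (le_trans (le_max_left _ _) (le_max_left _ _)) hβ
  have g1 : β1 ≤ β := le_trans (le_trans (le_max_right _ _) (le_max_left _ _)) hβ
  have g7 : β7 ≤ β := le_trans (le_trans (le_max_left _ _) (le_max_right _ _)) hβ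
  have gs : (s : ℝ) ≤ β := le_trans (le_trans (le_max_right _ _) (le_max_right _ _)) hβ
  have gK : K ≤ β := hβ0K.trans g0
  have hb1 : 1 ≤ β := hK1.trans gK
  have hb0 : 0 < β := by linarith
  have f1 := hβ1 β g1
  have hβh : s * β * h ≤ 1 := by
    have h1 : s * β * h ≤ β * β * β ^ (-(10 : ℝ)) := by
      refine mul_le_mul ?_ hh2 hh.le (by positivity)
      exact mul_le_mul_of_nonneg_right gs hb0.le
    have h2 : β * β * β ^ (-(10 : ℝ)) = β ^ (-8 : ℝ) := by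
      nth_rewrite 1 [← Real.rpow_one β]
      nth_rewrite 2 [← Real.rpow_one β]
      rw [← Real.rpow_add hb0, ← Real.rpow_add hb0]
      norm_num
    have h3 : β ^ (-8 : ℝ) ≤ 1 := Real.rpow_le_one_of_one_le_of_nonpos hb1 (by norm_num)
    linarith
  obtain ⟨n1, hn1⟩ := Hρ β g7 h hh hβh
  have hw0 : (0 : ℝ) ≤ ((3 ^ a : ℕ) : ℝ) := Nat.cast_nonneg _
  have hw3 : ((3 ^ a : ℕ) : ℝ) ≤ 3 * β ^ (1 / 2 + d) := by
    push_cast
    exact ha2
  obtain ⟨μ, -, hμ1, hμw, Hμ⟩ := Hβ β g0 ((3 ^ a : ℕ) : ℝ) hw0 hw3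
  obtain ⟨ε, hε, Hε⟩ := Hμ h hh hh2
  obtain ⟨n2, hn2⟩ := HZ β gK h hh.le ε hε
  obtain ⟨n3, hn3⟩ := eventually_atTop.1 Hε
  refine ⟨max (max n1 n2) (max n3 (3 ^ a + 2)), fun n _ hn hodd => ?_⟩
  have k1 : n1 ≤ n := le_trans (le_trans (le_max_left _ _) (le_max_left _ _)) hn
  have k2 : n2 ≤ n := le_trans (le_trans (le_max_right _ _) (le_max_left _ _)) hn
  have k3 : n3 ≤ n := le_trans (le_trans (le_max_left _ _) (le_max_right _ _)) hn
  have k4 : 3 ^ a + 2 ≤ n := le_trans (le_trans (le_max_right _ _) (le_max_right _ _)) hn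
  have k6 : 2 ≤ n := le_trans (Nat.le_add_left 2 _) k4
  have k7 : 3 ^ a ≤ n := le_trans (Nat.le_add_right _ 2) k4
  obtain ⟨M0, hM0⟩ := hn1 n k1 hodd
  refine ⟨M0, fun M hM x => ?_⟩
  have hlam : 0 < β ^ (-1 - c') := Real.rpow_pos_of_pos hb0 _
  refine hn3 n k3 (yb (edgesS n s M) β (hS fun _ => h) (cubeS n s x (3 ^ a)))
    (MeanAS.logZS n s M β h) (C7 * β ^ (-(3 / 2) : ℝ)) (hn2 n k2 hodd M) (by positivity) le_rfl ?_
  have h1 := MeanAS.mean_fin (n := n) (s := s) k6 M (w := 3 ^ a) hb1 hh hlam.le hμw hμ1 f1.le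
    (hM0 M hM) (yb_le_gmatS (n := n) (s := s) (w := 3 ^ a) (Nat.one_le_pow _ _ (by norm_num)) k7 M β h x)
  simp only [← tq_tK]
  exact h1

end

end Vale.Agent.P361.LRO.S3S.MF
end

section

/-!
P361, stage 3, all spins, block (M): `BootStmt3S s → MeanStmt3S s` (helper979).
-/

namespace Vale.Agent.P361.LRO.S3S

open Vale.Agent.P361.LRO.S3

theorem logZLowerS {s : ℕ} (hs : 1 ≤ s) : MF.LogZLowerS s := logZS_lower_FS hs

/-- **Block (M)**, all spins. -/
theorem meanStmt3S_of (s : ℕ) (hs : 1 ≤ s) (hB : BootStmt3S s) : MeanStmt3S s :=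
  MF.meanStmt3S_of hs (logZLowerS hs) hB

end Vale.Agent.P361.LRO.S3S
end

section

/-!
P361, stage 3 for all spins, block (F): the sharp bound on the torus of copies from the blocks
(K), (D), (B), (M), (T).
-/

namespace Vale.Agent.P361.LRO.S3S

open Finset Filter Topology Vale.Agent.P361.LRO.GenS Vale.Agent.P361.LRO.S3

namespace FS

theorem BCS_pos {s : ℕ} (hs : 1 ≤ s) : 0 < BCS s := by
  have hs' : (0 : ℝ) < s := by exact_mod_cast hs
  have h0 := S3F.BC_pos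
  have hz : 0 < (riemannZeta (3 / 2)).re := by
    unfold BC at h0
    by_contra hneg
    have h1 : (riemannZeta (3 / 2)).re ≤ 0 := not_lt.1 hneg
    have h2 : (riemannZeta (3 / 2)).re / (8 * Real.pi ^ (3 / 2 : ℝ) * (1 / 2) ^ (3 / 2 : ℝ)) ≤ 0 :=
      div_nonpos_of_nonpos_of_nonneg h1 (by positivity)
    linarith
  unfold BCS
  positivity

/-- The choice of the parameters. -/
theorem params {B d c2 Lam δ S : ℝ} (hd0 : 0 < d) (hd1 : d ≤ 1 / 100) (hc2 : 0 < c2)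
    (hLam : 0 < Lam) (hδ0 : 0 < δ) : ∀ᶠ β : ℝ in atTop, 1 ≤ β ∧ S ≤ β ∧
      4 * (B * β ^ (-(3 / 2) : ℝ)) ≤ δ ∧
      1 ≤ Lam * β ^ (3 / 2 : ℝ) ∧ ∃ a : ℕ, β ^ (1 / 2 + d) ≤ (3 : ℝ) ^ a ∧
      (3 : ℝ) ^ a ≤ 3 * β ^ (1 / 2 + d) ∧ Real.sqrt β ≤ (3 : ℝ) ^ a ∧
      (3 : ℝ) ^ a ≤ β ^ (3 / 4 : ℝ) ∧ Lam * β ^ (3 / 2 : ℝ) ≤ c2 * β * 3 ^ a := by
  have hlim1 : Tendsto (fun β : ℝ => β ^ (-(3 / 2) : ℝ)) atTop (𝓝 0) :=
    tendsto_rpow_neg_atTop (by norm_num)
  have h1 : ∀ᶠ β : ℝ in atTop, 4 * (B * β ^ (-(3 / 2) : ℝ)) ≤ δ := by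
    have h2 : Tendsto (fun β : ℝ => 4 * (B * β ^ (-(3 / 2) : ℝ))) atTop (𝓝 (4 * (B * 0))) :=
      (hlim1.const_mul B).const_mul 4
    rw [mul_zero, mul_zero] at h2
    exact h2.eventually_le_const hδ0
  filter_upwards [S3F.params hd0 hd1 hc2 hLam hδ0, h1, eventually_ge_atTop S] with β hb hb1 hb2
  exact ⟨hb.1, hb2, hb1, hb.2.2⟩

theorem rhoS_const {n s M : ℕ} [NeZero n] {β h : ℝ} (u v : Tor n × Fin s) :
    rho (edgesS n s M) β (hS fun _ => h) u = rho (edgesS n s M) β (hS fun _ => h) v := by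
  have h1 := transStmtS s n M β (fun _ => h) u.1 (v.1 - u.1) u.2 v.2
  rw [add_sub_cancel] at h1
  exact h1

theorem cubeS_nonempty {n s : ℕ} [NeZero n] (hs : 1 ≤ s) (x : Tor n) {w : ℕ} (hw : 0 < w) :
    (cubeS n s x w).Nonempty := by
  have : NeZero s := ⟨by omega⟩
  unfold cubeS
  exact (S3F.cube_nonempty x hw).product Finset.univ_nonempty

/-- The step for one state, for one test polynomial. -/
theorem one_state {V : Type} [Fintype V] [DecidableEq V] {L : List (V × V)} {β : ℝ} {h : V → ℝ}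
    {b : Finset V} (hbne : b.Nonempty) {C c3 K δ δ' q dd : ℝ} (hD : S3F.DirAt C L β h b)
    (hC : 0 < C)
    (hc3 : 0 < c3) (hK1 : 1 ≤ K) (hδ0 : 0 < δ) (hδ1 : δ ≤ 1 / 4) (hdd0 : 0 < dd)
    (hb6 : 4 * dd ≤ δ) (hq1 : (1 - δ) * dd ≤ q) (hq2 : q ≤ dd) (hδ'1 : δ' ≤ δ)
    (hδ'2 : δ' ≤ Real.exp (-(K * dd)))
    (hkap : ∃ᶠ N : ℕ in atTop, c3 * K ≤ kap L β N h K b)
    (hM : yb L β h b ≤ (1 + δ) * dd) (P : Polynomial ℝ)
    (hP : ∀ r : ℕ, 2 * r ≤ b.card →
        P.eval ((r : ℝ) * ((b.card : ℝ) - r + 1)) = if (r : ℝ) < q * b.card then 1 else 0)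
    (hT : gib L β h (Polynomial.aeval (CM b) P) ≤ δ') :
    (∑ y ∈ b, rho L β h y) / b.card ≤
      dd * (1 + 20 * δ + C * (1 / c3) * (21 * δ)) + C * (1 / c3) * (2 * C / K) := by
  have hbc : 0 < b.card := Finset.card_pos.2 hbne
  have hbc' : (0 : ℝ) < b.card := by exact_mod_cast hbc
  have hq0 : 0 ≤ q := le_trans (mul_nonneg (by linarith) hdd0.le) hq1
  obtain ⟨ι, hι, μ, r, hμ0, hr, hμ1, hpoly, hsharp⟩ := hD
  have hR := hsharp K (c3 * K) q hK1 (by positivity) hq0 (by linarith) hkap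
  have hKκ : C * (K / (c3 * K)) = C * (1 / c3) := by
    have : K ≠ 0 := by linarith
    field_simp
  rw [hKκ] at hR
  have hMm : ∑ i, μ i * ((r i : ℝ) * ((b.card : ℝ) - r i + 1)) ≤
      (1 + δ) * dd * (b.card : ℝ) ^ 2 := by
    have h1 := hpoly Polynomial.X
    simp only [Polynomial.eval_X, Polynomial.aeval_X] at h1
    rw [h1]
    unfold yb at hM
    rwa [div_le_iff₀ (by positivity)] at hM
  have hTt : ∑ i, (if (r i : ℝ) < q * b.card then μ i else 0) ≤ δ' := by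
    rw [← hpoly P] at hT
    refine le_trans (le_of_eq ?_) hT
    refine sum_congr rfl fun i _ => ?_
    rw [hP (r i) (hr i)]
    split_ifs <;> simp
  exact S3F.sharp_scalar μ r hbc hμ0 hμ1 hr (K := K) (δ := δ) (d := dd) (q := q) (C := C)
    (c := C * (1 / c3)) (by linarith) hC (by positivity) hδ0 hδ1 hdd0 hb6 hq1 hq2 hMm
    (hTt.trans hδ'1) (hTt.trans hδ'2) hR

/-- The bound on one torus of copies; `B` is the density constant per copy. -/
theorem one_torus {n s M : ℕ} [NeZero n] (hs : 1 ≤ s) {β h : ℝ} (hβ : 0 < β) {a : ℕ} (x : Tor n)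
    {B C c3 Lam δ δ' ε : ℝ} (hB : 0 < B)
    (hD : S3F.DirAt C (edgesS n s M) β (hS fun _ => h) (cubeS n s x (3 ^ a))) (hC : 0 < C)
    (hc3 : 0 < c3)
    (hLam : 0 < Lam) (hK1 : 1 ≤ Lam * β ^ (3 / 2 : ℝ)) (hδ1 : δ ≤ 1 / 4)
    (hb6 : 4 * (B * β ^ (-(3 / 2) : ℝ)) ≤ δ) (hδ'0 : 0 < δ') (hδ'1 : δ' ≤ δ)
    (hδ'2 : δ' ≤ Real.exp (-(Lam * B)))
    (hε1 : 20 * δ + C * (1 / c3) * (21 * δ) ≤ ε / 2)
    (hε2 : C * (1 / c3) * (2 * C / Lam) = ε / 2 * B)
    (hkap : ∃ᶠ N : ℕ in atTop, c3 * (Lam * β ^ (3 / 2 : ℝ)) ≤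
      kap (edgesS n s M) β N (hS fun _ => h) (Lam * β ^ (3 / 2 : ℝ)) (cubeS n s x (3 ^ a)))
    (hM : yb (edgesS n s M) β (hS fun _ => h) (cubeS n s x (3 ^ a)) ≤
      (1 + δ') * B * β ^ (-(3 / 2) : ℝ))
    (P : Polynomial ℝ) (hP : ∀ r : ℕ, 2 * r ≤ (cubeS n s x (3 ^ a)).card →
        P.eval ((r : ℝ) * (((cubeS n s x (3 ^ a)).card : ℝ) - r + 1)) =
          if (r : ℝ) < (1 - δ') * B * β ^ (-(3 / 2) : ℝ) * (cubeS n s x (3 ^ a)).card
            then 1 else 0)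
    (hT : gib (edgesS n s M) β (hS fun _ => h)
      (Polynomial.aeval (CM (cubeS n s x (3 ^ a))) P) ≤ δ') (z : Tor n × Fin s) :
    rho (edgesS n s M) β (hS fun _ => h) z ≤ (1 + ε) * B * β ^ (-(3 / 2) : ℝ) := by
  set K : ℝ := Lam * β ^ (3 / 2 : ℝ) with hKdef
  set dd : ℝ := B * β ^ (-(3 / 2) : ℝ) with hdd
  have hdd0 : 0 < dd := mul_pos hB (Real.rpow_pos_of_pos hβ _)
  have hKd : K * dd = Lam * B := by
    rw [hKdef, hdd]
    have : β ^ (3 / 2 : ℝ) * β ^ (-(3 / 2) : ℝ) = 1 := by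
      rw [← Real.rpow_add hβ]
      norm_num
    calc Lam * β ^ (3 / 2 : ℝ) * (B * β ^ (-(3 / 2) : ℝ)) =
          Lam * B * (β ^ (3 / 2 : ℝ) * β ^ (-(3 / 2) : ℝ)) := by ring
      _ = Lam * B := by rw [this, mul_one]
  set q : ℝ := (1 - δ') * B * β ^ (-(3 / 2) : ℝ) with hq
  have hq' : q = (1 - δ') * dd := by rw [hq, hdd]; ring
  have hq1 : (1 - δ) * dd ≤ q := by
    rw [hq']
    exact mul_le_mul_of_nonneg_right (by linarith) hdd0.le
  have hq2 : q ≤ dd := by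
    rw [hq']
    nlinarith
  have hbne : (cubeS n s x (3 ^ a)).Nonempty := cubeS_nonempty hs x (by positivity)
  have hbc' : (0 : ℝ) < (cubeS n s x (3 ^ a)).card := by exact_mod_cast Finset.card_pos.2 hbne
  have hM' : yb (edgesS n s M) β (hS fun _ => h) (cubeS n s x (3 ^ a)) ≤ (1 + δ) * dd := by
    refine hM.trans ?_
    rw [mul_assoc, ← hdd]
    exact mul_le_mul_of_nonneg_right (by linarith) hdd0.le
  have hfin := one_state hbne hD hC hc3 hK1 (lt_of_lt_of_le hδ'0 hδ'1) hδ1 hdd0 hb6 hq1 hq2 hδ'1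
    (by rw [hKd]; exact hδ'2) hkap hM' P hP hT
  have havg : (∑ y ∈ cubeS n s x (3 ^ a), rho (edgesS n s M) β (hS fun _ => h) y) /
      (cubeS n s x (3 ^ a)).card = rho (edgesS n s M) β (hS fun _ => h) z := by
    rw [Finset.sum_congr rfl fun y _ => rhoS_const (M := M) (h := h) (β := β) y z,
      Finset.sum_const, nsmul_eq_mul]
    field_simp
  rw [havg] at hfin
  refine hfin.trans ?_
  have h5 : C * (1 / c3) * (2 * C / K) = ε / 2 * dd := by
    have h6 : 1 / K = β ^ (-(3 / 2) : ℝ) / Lam := by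
      rw [hKdef, Real.rpow_neg hβ.le]
      field_simp
    calc C * (1 / c3) * (2 * C / K) = C * (1 / c3) * (2 * C) * (1 / K) := by ring
      _ = C * (1 / c3) * (2 * C / Lam) * β ^ (-(3 / 2) : ℝ) := by rw [h6]; ring
      _ = ε / 2 * dd := by rw [hε2, hdd]; ring
  rw [h5]
  have h6 : (1 + ε) * B * β ^ (-(3 / 2) : ℝ) = (1 + ε) * dd := by rw [hdd]; ring
  rw [h6]
  have h7 := mul_le_mul_of_nonneg_left hε1 hdd0.le
  nlinarith

end FS

/-- **Block (F) for all spins.** -/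
theorem finalStmt3S_of (s : ℕ) (hs : 1 ≤ s) (hK : KappaStmt3S s) (hB : BootStmt3S s)
    (hD : DirSharpStmt3) (hM : MeanStmt3S s) (hT : TailStmt3S s) : FinalStmt3S s := by
  obtain ⟨c2, c3, hc2, hc3, hK⟩ := hK
  obtain ⟨C, hC, hD⟩ := hD
  obtain ⟨C7, β1, hC7, hB⟩ := hB
  obtain ⟨d, hd0, hd1, hM⟩ := hM
  have hs' : (0 : ℝ) < s := by exact_mod_cast hs
  have hBC : 0 < BCS s / s := div_pos (FS.BCS_pos hs) hs'
  intro ε hε
  have hc0 : 0 < C * (1 / c3) := by positivity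
  obtain ⟨δ, hδ0, hδ1, hδ2⟩ : ∃ δ : ℝ, 0 < δ ∧ δ ≤ 1 / 4 ∧
      20 * δ + C * (1 / c3) * (21 * δ) ≤ ε / 2 := by
    refine ⟨min (1 / 4) (ε / (2 * (20 + 21 * (C * (1 / c3))))), lt_min (by norm_num)
      (by positivity), min_le_left _ _, ?_⟩
    have h1 : min (1 / 4) (ε / (2 * (20 + 21 * (C * (1 / c3))))) ≤
      ε / (2 * (20 + 21 * (C * (1 / c3)))) := min_le_right _ _
    rw [le_div_iff₀ (by positivity)] at h1
    linarith
  obtain ⟨Lam, hLam0, hLam1⟩ : ∃ Lam : ℝ, 0 < Lam ∧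
      C * (1 / c3) * (2 * C / Lam) = ε / 2 * (BCS s / s) := by
    refine ⟨4 * (C * (1 / c3)) * C / (ε * (BCS s / s)), by positivity, ?_⟩
    set B := BCS s / s
    field_simp
    ring
  obtain ⟨δ', hδ'0, hδ'1, hδ'2⟩ : ∃ δ' : ℝ, 0 < δ' ∧ δ' ≤ δ ∧
      δ' ≤ Real.exp (-(Lam * (BCS s / s))) :=
    ⟨min δ (Real.exp (-(Lam * (BCS s / s)))), lt_min hδ0 (Real.exp_pos _), min_le_left _ _,
      min_le_right _ _⟩
  obtain ⟨β2, hM⟩ := hM δ' hδ'0
  obtain ⟨β3, hT⟩ := hT d hd0 hd1 δ' hδ'0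
  obtain ⟨β4, hK⟩ := hK C7 Lam hC7 hLam0
  obtain ⟨β0, hβ0⟩ := eventually_atTop.1 ((FS.params (B := BCS s / s) (S := s) hd0 hd1 hc2 hLam0
    hδ0).and ((eventually_ge_atTop β1).and ((eventually_ge_atTop β2).and
      ((eventually_ge_atTop β3).and (eventually_ge_atTop β4)))))
  refine ⟨β0, fun β hβ h hh0 hh1 => ?_⟩
  obtain ⟨⟨hb1, hbs, hb6, hK1, a, ha1, ha2, ha3, ha4, hK2⟩, hb2, hb3, hb4, hb5⟩ := hβ0 β hβ
  have hβ' : 0 < β := by linarith
  obtain ⟨n1, hB⟩ := hB β hb2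
  obtain ⟨n2, hM⟩ := hM β hb3 a ha1 ha2 h hh0 hh1
  obtain ⟨n3, hT⟩ := hT β hb4 a ha1 ha2 h hh0 hh1
  obtain ⟨n4, hK⟩ := hK β hb5
  have hg0 : 0 < s * β * h := by positivity
  have hg1 : s * β * h ≤ 1 := by
    have h1 : s * β * h ≤ β * β * β ^ (-(10 : ℝ)) := by
      refine mul_le_mul (mul_le_mul_of_nonneg_right hbs hβ'.le) hh1 hh0.le (by positivity)
    have h2 : β * β * β ^ (-(10 : ℝ)) = β ^ (-(8 : ℝ)) := by
      have h3 : β * β = β ^ (2 : ℝ) := by
        rw [Real.rpow_two]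
        ring
      rw [h3, ← Real.rpow_add hβ']
      norm_num
    rw [h2] at h1
    exact h1.trans (Real.rpow_le_one_of_one_le_of_nonpos hb1 (by norm_num))
  obtain ⟨n5, hn5⟩ : ∃ n5 : ℕ, ∀ n : ℕ, n5 ≤ n → (n : ℝ) ^ (-(1 / 4) : ℝ) ≤ s * β * h := by
    have h1 : Tendsto (fun n : ℕ => (n : ℝ) ^ (-(1 / 4) : ℝ)) atTop (𝓝 0) :=
      (tendsto_rpow_neg_atTop (by norm_num : (0 : ℝ) < 1 / 4)).comp tendsto_natCast_atTop_atTop
    exact eventually_atTop.1 (h1.eventually_le_const hg0)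
  refine ⟨max n1 (max n2 (max n3 (max n4 n5))), fun n _ hn hodd => ?_⟩
  simp only [max_le_iff] at hn
  obtain ⟨hn1, hn2, hn3, hn4, hn5'⟩ := hn
  have hgn := hn5 n hn5'
  set x : Tor n := 0 with hx
  obtain ⟨P, hP⟩ := S3F.exists_poly' (cubeS n s x (3 ^ a)).card fun r =>
    if (r : ℝ) < (1 - δ') * (BCS s / s) * β ^ (-(3 / 2) : ℝ) * (cubeS n s x (3 ^ a)).card
      then 1 else 0
  obtain ⟨M1, hB⟩ := hB n hn1 hodd
  obtain ⟨M2, hM⟩ := hM n hn2 hodd
  obtain ⟨M3, hT⟩ := hT n hn3 hodd x P fun r hr => (hP r hr).le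
  refine ⟨max M1 (max M2 M3), fun M hMM z => ?_⟩
  simp only [max_le_iff] at hMM
  obtain ⟨hM1, hM2, hM3⟩ := hMM
  have hfield : (hS fun y : Tor n => (fun _ : Tor n => s * β * h) y / (s * β) :
      Tor n × Fin s → ℝ) = hS fun _ => h := by
    funext y
    unfold hS
    field_simp
  have hFam : Fam n (s * β * h) (β ^ (-(9 / 2) : ℝ)) (fun _ => s * β * h) :=
    S3F.fam_const hg0.le hg1 (Real.rpow_nonneg hβ'.le _)
  have hkap := hK n hn4 hodd M a ha3 ha4 _ hK1 le_rfl hK2 (s * β * h) hgn hg1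
    (hB M hM1 (s * β * h) hgn hg1) (fun _ => s * β * h) hFam x
  rw [hfield] at hkap
  have hfin := FS.one_torus hs hβ' x hBC
    (hD (Tor n × Fin s) (edgesS n s M) β (hS fun _ => h) _ hβ' (fun _ => hh0.le)
      (FS.cubeS_nonempty hs x (by positivity)))
    hC hc3 hLam0 hK1 hδ1 hb6 hδ'0 hδ'1 hδ'2 hδ2 hLam1 hkap (hM M hM2 x) P hP (hT M hM3) z
  have h1 := mul_le_mul_of_nonneg_left hfin hs'.le
  refine h1.trans (le_of_eq ?_)
  field_simp

end Vale.Agent.P361.LRO.S3S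
end

section

/-!
P361, stage 3: the spontaneous magnetization from the densities at small fields.
-/

namespace Vale.Agent.P361.LRO.S3

open Finset Matrix Filter Topology

/-- As `spontMag_ge`, with a smaller range of the fields. -/
theorem spontMag_ge_range (n : ℕ) {β : ℝ} (hβ : 0 < β) {m₀ h₀ : ℝ} (hh₀ : 0 < h₀) {a : ℕ → ℝ}
    (ha : Tendsto a atTop (𝓝 0))
    (H : ∀ᶠ N : ℕ in atTop, ∀ h : ℝ, a N ≤ h → h ≤ h₀ →
      m₀ ≤ gibbsMagV n (torusAdj (2 * N + 1)) β h / (2 * N + 1) ^ 3) :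
    m₀ ≤ Model.spontMag n β := by
  have key : ∀ h₁ h₂ : ℝ, 0 < h₁ → h₁ ≤ h₂ → h₂ ≤ h₀ →
      Model.pressure n β h₁ + (h₂ - h₁) * m₀ ≤ Model.pressure n β h₂ := by
    intro h₁ h₂ h0 h12 h21
    have t1 := (pressTorus_tendsto n hβ h₁).add_const ((h₂ - h₁) * m₀)
    have t2 := pressTorus_tendsto n hβ h₂
    refine le_of_tendsto_of_tendsto t1 t2 ?_
    filter_upwards [H, eventually_ge_atTop 1, (tendsto_order.1 ha).2 h₁ h0] with N hN hN1 haN
    have h3 := pressTorus_support n N hN1 hβ h₁ h₂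
    have h4 := hN h₁ haN.le (h12.trans h21)
    have h5 := mul_le_mul_of_nonneg_left h4 (by linarith : (0 : ℝ) ≤ h₂ - h₁)
    linarith
  have hconv : ConvexOn ℝ Set.univ (Model.pressure n β) := pressure_convex n hβ
  have hcont : Continuous (Model.pressure n β) := by
    have := hconv.continuousOn isOpen_univ
    rwa [continuousOn_univ] at this
  have key0 : ∀ h₂ : ℝ, 0 < h₂ → h₂ ≤ h₀ →
      Model.pressure n β 0 + h₂ * m₀ ≤ Model.pressure n β h₂ := by
    intro h₂ h20 h21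
    have t1 : Tendsto (fun h₁ => Model.pressure n β h₁ + (h₂ - h₁) * m₀) (𝓝[>] 0)
        (𝓝 (Model.pressure n β 0 + (h₂ - 0) * m₀)) := by
      have : Continuous fun h₁ => Model.pressure n β h₁ + (h₂ - h₁) * m₀ := by fun_prop
      exact this.continuousWithinAt.tendsto
    rw [sub_zero] at t1
    refine le_of_tendsto t1 ?_
    filter_upwards [Ioc_mem_nhdsGT h20] with h₁ hh
    exact key h₁ h₂ hh.1 hh.2 h21
  have hder : HasDerivWithinAt (Model.pressure n β) (Model.spontMag n β) (Set.Ioi 0) 0 :=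
    spontMag_hasDeriv n hβ
  rw [hasDerivWithinAt_iff_tendsto_slope' (by simp)] at hder
  refine ge_of_tendsto hder ?_
  filter_upwards [Ioc_mem_nhdsGT hh₀] with h hh
  rw [slope_def_field, sub_zero, le_div_iff₀ hh.1]
  linarith [key0 h hh.1 hh.2]

/-- Small densities on large tori at fields in `[b_n, h₀]`, `b_n → 0`. -/
theorem spontMag_ge_of_rho_range {β η h₀ : ℝ} (hβ : 0 < β) (hh₀ : 0 < h₀) {b : ℕ → ℝ}
    (hb : Tendsto b atTop (𝓝 0)) {n0 : ℕ}
    (H : ∀ (n : ℕ) [NeZero n], n0 ≤ n → Odd n → ∀ h : ℝ, b n ≤ h → h ≤ h₀ →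
      ∀ x : Tor n, rho (edges n) β (fun _ => h) x ≤ η) :
    1 / 2 - η ≤ Model.spontMag 1 β := by
  refine spontMag_ge_range 1 hβ hh₀ (a := fun N : ℕ => b (2 * N + 1)) ?_ ?_
  · refine hb.comp (tendsto_atTop_mono (fun n => ?_) tendsto_id)
    simp only [id]; omega
  · filter_upwards [eventually_ge_atTop (max n0 1)] with N hN h hh1 hh2
    have hN1 : 1 ≤ N := le_trans (le_max_right _ _) hN
    have hN0 : n0 ≤ 2 * N + 1 := by
      have := le_trans (le_max_left _ _) hN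
      omega
    have hodd : Odd (2 * N + 1) := ⟨N, rfl⟩
    have h2 := H (2 * N + 1) hN0 hodd h hh1 hh2
    rw [gibbsMagV_eq (by omega) β h]
    have hcard : (Fintype.card (Tor (2 * N + 1)) : ℝ) = (2 * (N : ℝ) + 1) ^ 3 := by
      rw [Fintype.card_fun, ZMod.card, Fintype.card_fin]
      push_cast
      ring
    rw [le_div_iff₀ (by positivity), ← hcard, mul_comm, ← nsmul_eq_mul, ← Finset.card_univ]
    refine Finset.card_nsmul_le_sum _ _ _ fun x _ => ?_
    linarith [h2 x]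

theorem tendsto_rpow_neg_nat : Tendsto (fun n : ℕ => (n : ℝ) ^ (-(1 / 4) : ℝ)) atTop (𝓝 0) :=
  (tendsto_rpow_neg_atTop (by norm_num : (0 : ℝ) < 1 / 4)).comp tendsto_natCast_atTop_atTop

/-- **Bloch's order** of the spontaneous magnetization. -/
theorem order3_of (H : BootStmt3) : ∃ C β0 : ℝ, 0 < C ∧ 0 < β0 ∧ ∀ β : ℝ, β0 ≤ β →
    1 / 2 - C * β ^ (-(3 / 2) : ℝ) ≤ Model.spontMag 1 β := by
  obtain ⟨C7, β0, hC7, H⟩ := H
  refine ⟨C7, max β0 1, hC7, lt_max_of_lt_right one_pos, fun β hβ => ?_⟩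
  have hβ0 : β0 ≤ β := (le_max_left _ _).trans hβ
  have hβ1 : 1 ≤ β := (le_max_right _ _).trans hβ
  have hβp : 0 < β := by linarith
  obtain ⟨n0, H⟩ := H β hβ0
  refine spontMag_ge_of_rho_range hβp (h₀ := 1 / β) (by positivity)
    (b := fun n => (n : ℝ) ^ (-(1 / 4) : ℝ)) tendsto_rpow_neg_nat (n0 := max n0 1) ?_
  intro n _ hn hodd h hh1 hh2 x
  have hn0 : n0 ≤ n := (le_max_left _ _).trans hn
  have hnp : (0 : ℝ) < n := by exact_mod_cast NeZero.pos n
  have hap : 0 < (n : ℝ) ^ (-(1 / 4) : ℝ) := Real.rpow_pos_of_pos hnp _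
  have hhp : 0 < h := hap.trans_le hh1
  have hhβ : h * β ≤ 1 := by
    rwa [le_div_iff₀ hβp] at hh2
  have hexp : 1 ≤ Real.exp (β ^ (-(9 / 2) : ℝ)) :=
    Real.one_le_exp (Real.rpow_pos_of_pos hβp _).le
  have h3 := H n hn0 hodd (h * β) (hh1.trans (by nlinarith)) hhβ (fun _ => h * β)
    ⟨fun _ => ⟨le_rfl, hhβ⟩, fun _ _ => by
      constructor <;> nlinarith [mul_pos hhp hβp]⟩ x
  have h4 : (fun _ : Tor n => h * β / β) = fun _ => h := by
    funext _
    field_simp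
  rw [h4] at h3
  exact h3

end Vale.Agent.P361.LRO.S3
end

section

/-!
P361 LRO, all spins: from the bootstrap on `Tor n × Fin s` to the spontaneous magnetization of the
spin `s / 2` model.
-/

namespace Vale.Agent.P361.LRO.GenS

open Finset Matrix Filter Topology

noncomputable section

/-- (M4), the limit `M → ∞` of the total magnetization on the torus. -/
def LimStmtS (s : ℕ) : Prop :=
  ∀ (n : ℕ) [NeZero n], 3 ≤ n → ∀ β h : ℝ, 0 < β → 0 < h →
    Tendsto (fun M : ℕ => ∑ z : Tor n × Fin s, (1 / 2 - rho (edgesS n s M) β (hS fun _ => h) z))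
      atTop (𝓝 (gibbsMagV s (torusAdj n) β h))

theorem spontMag_ge_of_rhoS {s : ℕ} (hL : LimStmtS s) {β η : ℝ} (hβ : 0 < β) {n0 : ℕ}
    (H : ∀ (n : ℕ) [NeZero n], n0 ≤ n → Odd n → ∀ (M : ℕ) (h : ℝ),
      (n : ℝ) ^ (-(1 / 4) : ℝ) ≤ h → h ≤ 1 →
      ∀ z : Tor n × Fin s, rho (edgesS n s M) β (hS fun _ => h) z ≤ η) :
    (s : ℝ) / 2 - s * η ≤ Model.spontMag s β := by
  refine spontMag_ge s hβ (a := fun N : ℕ => ((2 * N + 1 : ℕ) : ℝ) ^ (-(1 / 4) : ℝ)) ?_ ?_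
  · have h1 : Tendsto (fun N : ℕ => ((2 * N + 1 : ℕ) : ℝ)) atTop atTop := by
      refine tendsto_natCast_atTop_atTop.comp (tendsto_atTop_mono (fun n => ?_) tendsto_id)
      simp only [id]; omega
    exact (tendsto_rpow_neg_atTop (by norm_num : (0 : ℝ) < 1 / 4)).comp h1
  · filter_upwards [eventually_ge_atTop (max n0 1)] with N hN h hh1 hh2
    have hN1 : 1 ≤ N := le_trans (le_max_right _ _) hN
    have hN0 : n0 ≤ 2 * N + 1 := by
      have := le_trans (le_max_left _ _) hN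
      omega
    have hodd : Odd (2 * N + 1) := ⟨N, rfl⟩
    have hpos : (0 : ℝ) < ((2 * N + 1 : ℕ) : ℝ) := by positivity
    have hh : 0 < h := (Real.rpow_pos_of_pos hpos _).trans_le hh1
    have hcard : (Fintype.card (Tor (2 * N + 1) × Fin s) : ℝ) = (2 * (N : ℝ) + 1) ^ 3 * s := by
      rw [Fintype.card_prod, Fintype.card_fun, ZMod.card, Fintype.card_fin, Fintype.card_fin]
      push_cast
      ring
    rw [le_div_iff₀ (by positivity)]
    refine ge_of_tendsto (hL (2 * N + 1) (by omega) β h hβ hh) (Eventually.of_forall fun M => ?_)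
    have h2 := H (2 * N + 1) hN0 hodd M h hh1 hh2
    have h3 : ((s : ℝ) / 2 - s * η) * (2 * (N : ℝ) + 1) ^ 3 =
        (Fintype.card (Tor (2 * N + 1) × Fin s) : ℝ) * (1 / 2 - η) := by
      rw [hcard]
      ring
    rw [h3, ← nsmul_eq_mul, ← Finset.card_univ]
    refine Finset.card_nsmul_le_sum _ _ _ fun z _ => ?_
    linarith [h2 z]

/-- **Low-temperature order for spin `s / 2`, from the blocks.** -/
theorem mainS_of {s : ℕ} (hL : LimStmtS s) (hB : BootStmtS s) :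
    ∃ β0 : ℝ, 0 < β0 ∧ ∀ β : ℝ, β0 ≤ β →
      (s : ℝ) / 2 - s * β ^ (-(1 / 100) : ℝ) ≤ Model.spontMag s β := by
  obtain ⟨β0, H⟩ := hB
  refine ⟨max β0 1, lt_max_of_lt_right one_pos, fun β hβ => ?_⟩
  have h1 : β0 ≤ β := le_trans (le_max_left _ _) hβ
  have h2 : 0 < β := lt_of_lt_of_le one_pos (le_trans (le_max_right _ _) hβ)
  obtain ⟨n0, hn0⟩ := H β h1
  exact spontMag_ge_of_rhoS hL h2 fun n _ hn hodd M h hh hh1 z => hn0 n hn hodd M h hh hh1 z

/-- The statement for all spins from the open blocks (M1)-(M4). -/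
theorem mainS_of_blocks {s : ℕ} (hs : 1 ≤ s) (hL : LimStmtS s) (h6 : KappaStmtS s)
    (h1 : TwistStmt) (h7 : EnergyStmtS s) (h8 : RegStmt) :
    ∃ β0 : ℝ, 0 < β0 ∧ ∀ β : ℝ, β0 ≤ β →
      (s : ℝ) / 2 - s * β ^ (-(1 / 100) : ℝ) ≤ Model.spontMag s β :=
  mainS_of hL (bootStmtS_of hs h6 h1 h7 h8 (startStmtS s) (transStmtS s))

end

end Vale.Agent.P361.LRO.GenS
end

section

/-!
P361 LRO, all spins: everything except the stiffness of the blocks (M2).
-/

namespace Vale.Agent.P361.LRO.GenS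

open Finset Matrix Filter Topology

noncomputable section

/-- The block twist for `10 ≤ K ≤ |b|`, with the constant `1`. -/
theorem twistP {V : Type} [Fintype V] [DecidableEq V] (L : List (V × V)) {β : ℝ} (hβ : 0 < β)
    {h : V → ℝ} (hh : ∀ x, 0 ≤ h x) {b : Finset V} {K κ : ℝ} (hK : 10 ≤ K) (hKb : K ≤ b.card)
    (hκ : 0 < κ) (hf : ∃ᶠ N : ℕ in atTop, κ ≤ kap L β N h K b) :
    (∑ x ∈ b, rho L β h x) / b.card ≤ 1 * (1 + K) ^ 4 * Db L β h b + 1 / κ := by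
  have h1 := block_twist L hβ hh hK hKb hκ hf
  have h2 := Dst_nonneg L β h b
  rw [Db_eq_Dst]
  have h3 : K ^ 3 ≤ (1 + K) ^ 4 := by
    have e : (1 + K) ^ 4 - K ^ 3 = 1 + 4 * K + 6 * K ^ 2 + 3 * K ^ 3 + K ^ 4 := by ring
    have : 0 ≤ 1 + 4 * K + 6 * K ^ 2 + 3 * K ^ 3 + K ^ 4 := by positivity
    linarith
  have h4 : K ^ 3 * Dst L β h b ≤ (1 + K) ^ 4 * Dst L β h b := mul_le_mul_of_nonneg_right h3 h2
  linarith

/-- The step of the bootstrap. -/
theorem stepP {s : ℕ} (hs : 1 ≤ s) (h7 : EnergyStmtS s) (h8 : RegStmt)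
    (ht : TransStmtS s) (h6 : KappaStmtS s) :
    ∀ᶠ β : ℝ in atTop, ∀ᶠ n : ℕ in atTop, Odd n → ∀ [NeZero n] (M : ℕ) (h0 : ℝ),
      (n : ℝ) ^ (-(1 / 4) : ℝ) ≤ h0 → h0 ≤ 1 → BHS n s M β (lamS β) (etaB β) h0 →
        BHS n s M β (lamS β) (etaB β / 2) h0 := by
  obtain ⟨c, hc, h6⟩ := h6
  set C1 : ℝ := 1 with hC1e
  have hC1 : 0 < C1 := one_pos
  obtain ⟨C, h7⟩ := h7
  have hsR : (1 : ℝ) ≤ s := by exact_mod_cast hs
  have hC' : 0 < max C 1 := lt_max_of_lt_right one_pos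
  have hA : (0 : ℝ) < 32 * C1 / c := by positivity
  have hCC : 0 < C1 * max C 1 := by positivity
  obtain ⟨β0, h6⟩ := h6 _ hA
  filter_upwards [par_S _ (C1 * max C 1) hA hCC, eventually_ge_atTop β0,
    eventually_gt_atTop (1 : ℝ)] with β hp hβ0 hβ1
  obtain ⟨n0, h6⟩ := h6 β hβ0
  obtain ⟨hw, hm, hlam, hK10, hKw, hpar, hd1, hd2⟩ := hp
  have hβ : 0 < β := by linarith
  have hη := etaB_pos hβ
  have hη1 := etaB_le_one hβ1.le
  filter_upwards [eventually_ge_atTop n0, eventually_ge_atTop 3,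
    eventually_ge_atTop (3 * (wS β * mS β))] with n hn0' hn3 hnw3
  intro hodd _ M h0 hh0 hh01 hB h hh z0
  obtain ⟨x, i0⟩ := z0
  have hnw : wS β * mS β ≤ n := by omega
  have hn0 : (0 : ℝ) < n := by
    have : (3 : ℝ) ≤ n := by exact_mod_cast hn3
    linarith
  have h0p : 0 < h0 := (Real.rpow_pos_of_pos hn0 _).trans_le hh0
  have hpos : ∀ y, 0 < h y := fun y => h0p.trans_le (hh.1 y).1
  set K : ℝ := 32 * C1 / c / etaB β with hK
  set κ : ℝ := c * K with hκ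
  have hκ' : C1 / κ = etaB β / 32 := by
    rw [hκ, hK]
    field_simp
  have hκp : 0 < κ := by
    rw [hκ, hK]
    positivity
  have hKeq : K = 32 * C1 / c * β ^ (1 / 100 : ℝ) := by
    rw [hK]
    unfold etaB
    rw [Real.rpow_neg hβ.le, div_inv_eq_mul]
  -- the blocks of the cube
  set bl : (Fin 3 → Fin (mS β)) → Finset (Tor n × Fin s) := fun y =>
    cubeS n s (x + fun i => ((wS β * (y i : ℕ) : ℕ) : ZMod n)) (wS β) with hbl
  have hwn : wS β ≤ n := le_trans (Nat.le_mul_of_pos_right _ hm) hnw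
  have hcard : ∀ z : Tor n, (cubeS n s z (wS β)).card = wS β ^ 3 * s := fun z =>
    card_cubeS hwn z
  have e1 : (wS β : ℝ) = (3 : ℝ) ^ aS β := by
    unfold wS
    push_cast
    rfl
  have htw : ∀ y, (∑ z ∈ bl y, rho (edgesS n s M) β (hS h) z) / (bl y).card ≤
      etaB β / 32 + C1 * (1 + K) ^ 4 * Db (edgesS n s M) β (hS h) (bl y) := by
    intro y
    have hκN : ∃ᶠ N : ℕ in atTop, κ ≤ kap (edgesS n s M) β N (hS h) K (bl y) := by
      have h2 := h6 n hn0' hodd M (aS β) (e1 ▸ wS_ge β) (e1 ▸ wS_le hβ1) h0 hh0 hh01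
        (fun h' hh' x' => hB h' hh' x') h hh
        (x + fun i => ((wS β * (y i : ℕ) : ℕ) : ZMod n))
      rw [← hKeq] at h2
      exact h2
    have hKc : K ≤ ((bl y).card : ℝ) := by
      rw [hbl]
      dsimp only
      rw [hcard]
      push_cast
      have hw3 : (0 : ℝ) ≤ (wS β : ℝ) ^ 3 := by positivity
      nlinarith
    have h2 := twistP (edgesS n s M) hβ (h := hS h) (fun z => (hpos z.1).le) hK10 hKc hκp hκN
    rw [hκ'] at h2
    linarith
  have hsum : ∑ y, (∑ z ∈ bl y, rho (edgesS n s M) β (hS h) z) / (bl y).card ≤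
      (mS β : ℝ) ^ 3 * (etaB β / 16) := by
    refine (Finset.sum_le_sum fun y _ => htw y).trans ?_
    rw [Finset.sum_add_distrib, ← Finset.mul_sum, Finset.sum_const, Finset.card_univ,
      Fintype.card_fun, Fintype.card_fin, Fintype.card_fin, nsmul_eq_mul]
    push_cast
    have h2 := h7 n M β h x (wS β) (mS β) hβ hpos hw hm hnw3
    have hm3' : (0 : ℝ) < (mS β : ℝ) ^ 3 := by positivity
    rw [div_le_iff₀ hm3'] at h2
    have hCm : C * (wS β : ℝ) ^ 2 * (1 / β + 1 / ((wS β : ℝ) * mS β)) ≤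
        max C 1 * (wS β : ℝ) ^ 2 * (1 / β + 1 / ((wS β : ℝ) * mS β)) := by
      rw [mul_assoc, mul_assoc]
      refine mul_le_mul_of_nonneg_right (le_max_left _ _) ?_
      positivity
    have h2' : ∑ y : Fin 3 → Fin (mS β), Db (edgesS n s M) β (hS h) (bl y) ≤
        (mS β : ℝ) ^ 3 * (max C 1 * (wS β : ℝ) ^ 2 * (1 / β + 1 / ((wS β : ℝ) * mS β))) := by
      have h3 := mul_le_mul_of_nonneg_right hCm hm3'.le
      rw [hbl]
      dsimp only
      linarith
    have hK3 : 0 ≤ C1 * (1 + K) ^ 4 := by positivity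
    have h3 := mul_le_mul_of_nonneg_left h2' hK3
    have hm3 : (0 : ℝ) ≤ (mS β : ℝ) ^ 3 := by positivity
    have h4 := mul_le_mul_of_nonneg_left hpar hm3
    have h5 : C1 * (1 + K) ^ 4 * ((mS β : ℝ) ^ 3 * (max C 1 * (wS β : ℝ) ^ 2 *
        (1 / β + 1 / ((wS β : ℝ) * mS β)))) =
        (mS β : ℝ) ^ 3 * ((1 + K) ^ 4 * (C1 * max C 1 * (wS β : ℝ) ^ 2 *
          (1 / β + 1 / ((wS β : ℝ) * mS β)))) := by ring
    rw [h5] at h3
    linarith
  -- a good point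
  obtain ⟨y, z, hz, hρz⟩ : ∃ y, ∃ z ∈ bl y, rho (edgesS n s M) β (hS h) z ≤ etaB β / 16 :=
    good_point hm _ bl (fun y => hcard _) hw hs hsum
  -- the vector from `x` to `z`
  obtain ⟨k, hk, hzk⟩ : ∃ k : Fin 3 → ℕ, (∀ i, k i ≤ wS β * mS β) ∧
      z.1 = x + fun i => (k i : ZMod n) := by
    rw [hbl] at hz
    unfold cubeS cube at hz
    dsimp only at hz
    rw [Finset.mem_product, Finset.mem_image] at hz
    obtain ⟨a, -, ha⟩ := hz.1
    refine ⟨fun i => wS β * (y i : ℕ) + (a i : ℕ), fun i => ?_, ?_⟩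
    · have h2 : (y i : ℕ) + 1 ≤ mS β := (y i).2
      have h3 := Nat.mul_le_mul_left (wS β) h2
      have h4 : (a i : ℕ) < wS β := (a i).2
      rw [mul_add, mul_one] at h3
      exact (Nat.add_le_add_left h4.le _).trans h3
    · rw [← ha, add_assoc]
      congr 1
      funext i
      simp only [Pi.add_apply]
      push_cast
      ring
  set v : Tor n := fun i => (k i : ZMod n) with hv
  -- Harnack
  have hd0 : (0 : ℝ) ≤ 3 * (wS β * mS β) * lamS β := by positivity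
  have hlog : ∀ u, |Real.log (h (u + v)) - Real.log (h u)| ≤ 3 * (wS β * mS β) * lamS β := by
    intro u
    have := fam_log_vec hh h0p (wS β * mS β) k hk hlam u
    push_cast at this
    exact this
  obtain ⟨hM, hH⟩ := h8 (Tor n × Fin s) (edgesS n s M) β (hS fun u => h (u + v)) (hS h) _ hβ
    (fun u => hpos _) (fun u => hpos _) hd0 hd2 (fun u => hlog u.1) (x, i0)
  have hzz : rho (edgesS n s M) β (hS fun u => h (u + v)) (x, i0) =
      rho (edgesS n s M) β (hS h) z := by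
    rw [ht n M β h x v i0 z.2, ← hzk]
  rw [hzz] at hM hH
  have hM' : 0 < 1 - 2 * rho (edgesS n s M) β (hS h) (x, i0) :=
    (h8 (Tor n × Fin s) (edgesS n s M) β (hS h) (hS h) 0 hβ (fun u => hpos _) (fun u => hpos _)
      le_rfl (by rw [mul_zero]; positivity) (fun u => by rw [sub_self, abs_zero]) (x, i0)).1
  exact end_calc hη hη1 hM' hM hρz (by linarith)

/-- **The bootstrap, assembled, for spin `s / 2`.** -/
theorem bootStmtS_ofP {s : ℕ} (hs : 1 ≤ s) (h6 : KappaStmtS s)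
    (h7 : EnergyStmtS s) (h8 : RegStmt) (hst : StartStmtS s) (ht : TransStmtS s) :
    BootStmtS s := by
  have hstep := stepP hs h7 h8 ht h6
  obtain ⟨C, hst⟩ := hst
  have hlog : ∀ᶠ β : ℝ in atTop, C / β ≤ β ^ (-(1 / 100) : ℝ) := by
    have h2 : Tendsto (fun β : ℝ => β ^ (99 / 100 : ℝ)) atTop atTop :=
      tendsto_rpow_atTop (by norm_num)
    filter_upwards [h2.eventually_ge_atTop C, eventually_gt_atTop (0 : ℝ)] with β hβ1 hβ
    rw [div_le_iff₀ hβ]
    refine hβ1.trans (le_of_eq ?_)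
    conv_rhs =>
      rhs
      rw [← Real.rpow_one β]
    rw [← Real.rpow_add hβ]
    norm_num
  obtain ⟨β0, H⟩ := eventually_atTop.1 (hstep.and (hlog.and (eventually_ge_atTop (1 : ℝ))))
  refine ⟨β0, fun β hβ0 => ?_⟩
  obtain ⟨hst', hlog, hβ1⟩ := H β hβ0
  have hβ : 0 < β := by linarith
  obtain ⟨n0, Hn⟩ := eventually_atTop.1 hst'
  refine ⟨n0, fun n _ hn hodd M h hh hh1 z => ?_⟩
  have hn0 : (0 : ℝ) < n := by exact_mod_cast NeZero.pos n
  have ha0 : (0 : ℝ) < (n : ℝ) ^ (-(1 / 4) : ℝ) := Real.rpow_pos_of_pos hn0 _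
  have hη := etaB_pos hβ
  have hlam : 0 ≤ lamS β := (Real.rpow_pos_of_pos hβ _).le
  have key := bootS (n := n) (s := s) M (β := β) hη hlam ha0 (hh.trans hh1)
    (fun z => (hst n M β z hβ).trans hlog)
    (fun h0 hh0 hh01 hB => Hn n hn hodd M h0 hh0 hh01 hB) (fun _ => h) ?_ z
  · have e1 : etaB β = β ^ (-(1 / 100) : ℝ) := rfl
    rw [← e1]
    linarith
  · refine ⟨fun _ => ⟨hh, hh1⟩, fun _ _ => ?_⟩
    have e2 : 1 ≤ Real.exp (lamS β) := Real.one_le_exp hlam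
    have e3 : 0 < h := ha0.trans_le hh
    constructor <;> nlinarith

theorem limStmtS {s : ℕ} (hs : 1 ≤ s) : LimStmtS s := by
  intro n _ hn β h hβ _
  have : NeZero s := ⟨by omega⟩
  exact tendsto_gibbsMag hn hβ h

/-- **Low-temperature order for every spin `s / 2`, from the stiffness of the blocks.** -/
theorem lroS_of_kappa {s : ℕ} (hs : 1 ≤ s) (h6 : KappaStmtS s) :
    ∃ β0 : ℝ, 0 < β0 ∧ ∀ β : ℝ, β0 ≤ β →
      (s : ℝ) / 2 - s * β ^ (-(1 / 100) : ℝ) ≤ Model.spontMag s β :=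
  mainS_of (limStmtS hs)
    (bootStmtS_ofP hs h6 (EnS.energyStmtS s) LY.regStmt (startStmtS s) (transStmtS s))

end

end Vale.Agent.P361.LRO.GenS
end

section

/-!
P361, stage 3 for all spins: the limits `M → ∞`, `n → ∞`, `h → 0` (LIM), and Bloch's order.
-/

namespace Vale.Agent.P361.LRO.S3S

open Finset Matrix Filter Topology Vale.Agent.P361.LRO.GenS Vale.Agent.P361.LRO.S3

noncomputable section

theorem BCS_pos {s : ℕ} (hs : 1 ≤ s) : 0 < BCS s := by
  have hz : 0 < (riemannZeta (3 / 2)).re := by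
    rw [← H.zeta_hasSum.tsum_eq]
    exact H.zeta_hasSum.summable.tsum_pos (fun _ => by positivity) 0 (by norm_num)
  unfold BCS
  have : (0 : ℝ) < s := by exact_mod_cast hs
  positivity

/-- Pointwise in the field. -/
theorem spontMag_ge_pt (n : ℕ) {β : ℝ} (hβ : 0 < β) {m₀ h₀ : ℝ} (hh₀ : 0 < h₀)
    (H : ∀ h : ℝ, 0 < h → h ≤ h₀ → ∀ᶠ N : ℕ in atTop,
      m₀ ≤ gibbsMagV n (torusAdj (2 * N + 1)) β h / (2 * N + 1) ^ 3) :
    m₀ ≤ Model.spontMag n β := by
  have key : ∀ h₁ h₂ : ℝ, 0 < h₁ → h₁ ≤ h₂ → h₂ ≤ h₀ →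
      Model.pressure n β h₁ + (h₂ - h₁) * m₀ ≤ Model.pressure n β h₂ := by
    intro h₁ h₂ h0 h12 h21
    have t1 := (pressTorus_tendsto n hβ h₁).add_const ((h₂ - h₁) * m₀)
    have t2 := pressTorus_tendsto n hβ h₂
    refine le_of_tendsto_of_tendsto t1 t2 ?_
    filter_upwards [H h₁ h0 (h12.trans h21), eventually_ge_atTop 1] with N hN hN1
    have h3 := pressTorus_support n N hN1 hβ h₁ h₂
    have h5 := mul_le_mul_of_nonneg_left hN (by linarith : (0 : ℝ) ≤ h₂ - h₁)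
    linarith
  have hconv : ConvexOn ℝ Set.univ (Model.pressure n β) := pressure_convex n hβ
  have hcont : Continuous (Model.pressure n β) := by
    have := hconv.continuousOn isOpen_univ
    rwa [continuousOn_univ] at this
  have key0 : ∀ h₂ : ℝ, 0 < h₂ → h₂ ≤ h₀ →
      Model.pressure n β 0 + h₂ * m₀ ≤ Model.pressure n β h₂ := by
    intro h₂ h20 h21
    have t1 : Tendsto (fun h₁ => Model.pressure n β h₁ + (h₂ - h₁) * m₀) (𝓝[>] 0)
        (𝓝 (Model.pressure n β 0 + (h₂ - 0) * m₀)) := by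
      have : Continuous fun h₁ => Model.pressure n β h₁ + (h₂ - h₁) * m₀ := by fun_prop
      exact this.continuousWithinAt.tendsto
    rw [sub_zero] at t1
    refine le_of_tendsto t1 ?_
    filter_upwards [Ioc_mem_nhdsGT h20] with h₁ hh
    exact key h₁ h₂ hh.1 hh.2 h21
  have hder : HasDerivWithinAt (Model.pressure n β) (Model.spontMag n β) (Set.Ioi 0) 0 :=
    spontMag_hasDeriv n hβ
  rw [hasDerivWithinAt_iff_tendsto_slope' (by simp)] at hder
  refine ge_of_tendsto hder ?_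
  filter_upwards [Ioc_mem_nhdsGT hh₀] with h hh
  rw [slope_def_field, sub_zero, le_div_iff₀ hh.1]
  linarith [key0 h hh.1 hh.2]

/-- The density of the torus from the densities of the copies, `M → ∞`. -/
theorem gibbs_ge_of_rho {s : ℕ} (hs : 1 ≤ s) {β h r : ℝ} (hβ : 0 < β) (hh : 0 < h) {n : ℕ}
    [NeZero n] (hn : 3 ≤ n) {M0 : ℕ}
    (H : ∀ M : ℕ, M0 ≤ M → ∀ z : Tor n × Fin s,
      (s : ℝ) * rho (edgesS n s M) β (hS fun _ => h) z ≤ r) :
    (s : ℝ) / 2 - r ≤ gibbsMagV s (torusAdj n) β h / (n : ℝ) ^ 3 := by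
  have hn0 : (0 : ℝ) < n := by exact_mod_cast NeZero.pos n
  have hs0 : (0 : ℝ) < s := by exact_mod_cast hs
  have hcard : (Fintype.card (Tor n × Fin s) : ℝ) = (n : ℝ) ^ 3 * s := by
    rw [Fintype.card_prod, Fintype.card_fun, ZMod.card, Fintype.card_fin, Fintype.card_fin]
    push_cast
    ring
  rw [le_div_iff₀ (by positivity)]
  refine ge_of_tendsto (limStmtS hs n hn β h hβ hh) ?_
  filter_upwards [eventually_ge_atTop M0] with M hM
  have h3 : ((s : ℝ) / 2 - r) * (n : ℝ) ^ 3 =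
      (Fintype.card (Tor n × Fin s) : ℝ) * (1 / 2 - r / s) := by
    rw [hcard]
    field_simp
  rw [h3, ← nsmul_eq_mul, ← Finset.card_univ]
  refine Finset.card_nsmul_le_sum _ _ _ fun z _ => ?_
  have h4 := H M hM z
  have h5 : rho (edgesS n s M) β (hS fun _ => h) z ≤ r / s := by
    rw [le_div_iff₀ hs0, mul_comm]
    exact h4
  linarith

/-- The upper side of Bloch's law from (F). -/
theorem upper_of_final {s : ℕ} (hs : 1 ≤ s) (H : FinalStmt3S s) :
    ∀ ε : ℝ, 0 < ε → ∃ β0 : ℝ, 0 < β0 ∧ ∀ β : ℝ, β0 ≤ β →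
      (s : ℝ) / 2 - (1 + ε) * BCS s * β ^ (-(3 / 2) : ℝ) ≤ Model.spontMag s β := by
  intro ε hε
  obtain ⟨β0, H⟩ := H ε hε
  refine ⟨max β0 1, lt_max_of_lt_right one_pos, fun β hβ => ?_⟩
  have hβ0 : β0 ≤ β := (le_max_left _ _).trans hβ
  have hβ1 : 1 ≤ β := (le_max_right _ _).trans hβ
  have hβp : 0 < β := by linarith
  refine spontMag_ge_pt s hβp (h₀ := β ^ (-(10 : ℝ))) (Real.rpow_pos_of_pos hβp _) ?_
  intro h hh hh2
  obtain ⟨n0, H⟩ := H β hβ0 h hh hh2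
  filter_upwards [eventually_ge_atTop (max n0 1)] with N hN
  have hN1 : 1 ≤ N := le_trans (le_max_right _ _) hN
  have hN0 : n0 ≤ 2 * N + 1 := by
    have := le_trans (le_max_left _ _) hN
    omega
  obtain ⟨M0, H⟩ := H (2 * N + 1) hN0 ⟨N, rfl⟩
  have := gibbs_ge_of_rho hs hβp hh (n := 2 * N + 1) (by omega) H
  push_cast at this
  exact this

/-- **Bloch's law with the constant for spin `s / 2`, from (F).** -/
theorem bloch_of_final {s : ℕ} (hs : 1 ≤ s) (H : FinalStmt3S s) :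
    Tendsto (fun β : ℝ => β ^ (3 / 2 : ℝ) * ((s : ℝ) / 2 - Model.spontMag s β)) atTop
      (𝓝 (BCS s)) := by
  have hB := BCS_pos hs
  refine tendsto_order.2 ⟨fun c hc => Bridge.main_bloch s hs c hc, fun c hc => ?_⟩
  have hε : 0 < (c - BCS s) / (2 * BCS s) := div_pos (by linarith) (by linarith)
  obtain ⟨β0, hβ0, H2⟩ := upper_of_final hs H _ hε
  filter_upwards [eventually_ge_atTop β0] with β hβ
  have hβp : 0 < β := hβ0.trans_le hβ
  have h1 := H2 β hβ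
  have h2 : (0 : ℝ) < β ^ (3 / 2 : ℝ) := Real.rpow_pos_of_pos hβp _
  have h3 : β ^ (3 / 2 : ℝ) * β ^ (-(3 / 2) : ℝ) = 1 := by
    rw [← Real.rpow_add hβp]
    norm_num
  have h4 : β ^ (3 / 2 : ℝ) * ((s : ℝ) / 2 - Model.spontMag s β) ≤
      (1 + (c - BCS s) / (2 * BCS s)) * BCS s := by
    have h5 := mul_le_mul_of_nonneg_left (sub_le_comm.1 h1) h2.le
    refine h5.trans (le_of_eq ?_)
    calc β ^ (3 / 2 : ℝ) * ((1 + (c - BCS s) / (2 * BCS s)) * BCS s * β ^ (-(3 / 2) : ℝ))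
        = (1 + (c - BCS s) / (2 * BCS s)) * BCS s *
          (β ^ (3 / 2 : ℝ) * β ^ (-(3 / 2) : ℝ)) := by ring
      _ = _ := by rw [h3, mul_one]
  have h6 : (1 + (c - BCS s) / (2 * BCS s)) * BCS s = (c + BCS s) / 2 := by
    field_simp
    ring
  rw [h6] at h4
  linarith

/-- **Bloch's order for spin `s / 2`, from (B).** -/
theorem order3S_of {s : ℕ} (hs : 1 ≤ s) (H : BootStmt3S s) :
    ∃ C β0 : ℝ, 0 < C ∧ 0 < β0 ∧ ∀ β : ℝ, β0 ≤ β →
      (s : ℝ) / 2 - C * β ^ (-(3 / 2) : ℝ) ≤ Model.spontMag s β := by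
  obtain ⟨C7, β0, hC7, H⟩ := H
  have hs0 : (0 : ℝ) < s := by exact_mod_cast hs
  refine ⟨s * C7, max β0 1, by positivity, lt_max_of_lt_right one_pos, fun β hβ => ?_⟩
  have hβ0 : β0 ≤ β := (le_max_left _ _).trans hβ
  have hβ1 : 1 ≤ β := (le_max_right _ _).trans hβ
  have hβp : 0 < β := by linarith
  obtain ⟨n0, H⟩ := H β hβ0
  have hexp : 1 ≤ Real.exp (β ^ (-(9 / 2) : ℝ)) :=
    Real.one_le_exp (Real.rpow_pos_of_pos hβp _).le
  refine spontMag_ge_pt s hβp (h₀ := 1 / (s * β)) (by positivity) ?_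
  intro h hh hh2
  have hg : 0 < h * (s * β) := by positivity
  have hg1 : h * (s * β) ≤ 1 := by
    rwa [le_div_iff₀ (by positivity)] at hh2
  have hev : ∀ᶠ N : ℕ in atTop, ((2 * N + 1 : ℕ) : ℝ) ^ (-(1 / 4) : ℝ) ≤ h * (s * β) := by
    have h1 : Tendsto (fun N : ℕ => ((2 * N + 1 : ℕ) : ℝ)) atTop atTop := by
      refine tendsto_natCast_atTop_atTop.comp (tendsto_atTop_mono (fun n => ?_) tendsto_id)
      simp only [id]; omega
    have h2 := (tendsto_rpow_neg_atTop (by norm_num : (0 : ℝ) < 1 / 4)).comp h1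
    exact ((tendsto_order.1 h2).2 _ hg).mono fun N hN => hN.le
  filter_upwards [eventually_ge_atTop (max n0 1), hev] with N hN hN3
  have hN1 : 1 ≤ N := le_trans (le_max_right _ _) hN
  have hN0 : n0 ≤ 2 * N + 1 := by
    have := le_trans (le_max_left _ _) hN
    omega
  obtain ⟨M0, H⟩ := H (2 * N + 1) hN0 ⟨N, rfl⟩
  have := gibbs_ge_of_rho hs hβp hh (n := 2 * N + 1) (by omega) (M0 := M0)
    (r := s * C7 * β ^ (-(3 / 2) : ℝ)) fun M hM z => by
      have h4 : (fun _ : Tor (2 * N + 1) => h * (s * β) / (s * β)) = fun _ => h := by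
        funext _
        field_simp
      have h5 := H M hM (h * (s * β)) hN3 hg1 (fun _ => h * (s * β))
        ⟨fun _ => ⟨le_rfl, hg1⟩, fun _ _ => by constructor <;> nlinarith⟩ z
      rw [h4] at h5
      rw [mul_assoc]
      exact mul_le_mul_of_nonneg_left h5 hs0.le
  push_cast at this
  exact this

end

end Vale.Agent.P361.LRO.S3S
end

section

/-! # Bloch's law for every spin `S = n / 2` -/

namespace Vale.Agent.P361.LRO.S3S

open Filter Topology Vale.Agent.P361.LRO.S3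

theorem kappaStmt3S (s : ℕ) (hs : 1 ≤ s) : KappaStmt3S s :=
  kappaStmt3S_of_CC hs (ccgeS_of hs (longTr s))

/-- Bloch's law for every spin. -/
theorem bloch_all : ∀ n : ℕ, 1 ≤ n →
    (∀ β : ℝ, 0 < β →
      (∀ h : ℝ, Tendsto (fun N : ℕ => Model.finPressure n N β h) atTop (𝓝 (Model.pressure n β h))) ∧
      ConvexOn ℝ Set.univ (Model.pressure n β) ∧
      HasDerivWithinAt (Model.pressure n β) (Model.spontMag n β) (Set.Ioi 0) 0 ∧
      Model.spontMag n β ≤ (n : ℝ) / 2) ∧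
    (∃ β₀ : ℝ, 0 < β₀ ∧ ∀ β : ℝ, β₀ ≤ β → 0 < Model.spontMag n β) ∧
    Tendsto (fun β : ℝ => Model.spontMag n β) atTop (𝓝 ((n : ℝ) / 2)) ∧
    Tendsto (fun β : ℝ => β ^ (3 / 2 : ℝ) * ((n : ℝ) / 2 - Model.spontMag n β)) atTop
      (𝓝 ((riemannZeta (3 / 2)).re /
        (8 * Real.pi ^ (3 / 2 : ℝ) * ((n : ℝ) / 2) ^ (3 / 2 : ℝ)))) :=
  answerS fun s hs =>
    bloch_of_blocksS s (kappaStmt3S s hs) dirStmt3 dirSharpStmt3 (energyStmt3S s hs)
      (startStmt3S s hs) (bootStmt3S_of s hs) (meanStmt3S_of s hs) (tailStmt3S_of s hs)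
      (finalStmt3S_of s hs) (bloch_of_final hs)

end Vale.Agent.P361.LRO.S3S
end
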